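import Mathlib
import Vale.Agent.P353.BdZ.B1

set_option linter.all false

section

open Matrix

namespace Vale.Agent.P353

/-- The Levi-Civita symbol on `Fin 3`. -/
def eps (A B C : Fin 3) : ℤ := ((A : ℤ) - B) * ((B : ℤ) - C) * ((C : ℤ) - A) / 2

/-- gamma matrices over `ℂ` and a Clifford system in a complex algebra. -/
structure CS (R : Type*) [Ring R] [Algebra ℂ R] where
  g : Fin 9 → Matrix (Fin 16) (Fin 16) ℂ
  g_symm : ∀ i, (g i)ᵀ = g i
  g_anti : ∀ i j, g i * g j + g j * g i = if i = j then 2 else 0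
  th : Fin 16 → Fin 3 → R
  th_anti : ∀ α A β B, th α A * th β B + th β B * th α A = if α = β ∧ A = B then 1 else 0

namespace CS

variable {R : Type*} [Ring R] [Algebra ℂ R] (S : CS R)

/-- `γ^{ij}` -/
noncomputable def g2 (i j : Fin 9) : Matrix (Fin 16) (Fin 16) ℂ :=
  (1 / 2 : ℂ) • (S.g i * S.g j - S.g j * S.g i)

/-- `(N θ^A)_β` -/
noncomputable def vec (N : Matrix (Fin 16) (Fin 16) ℂ) (A : Fin 3) (β : Fin 16) : R :=
  ∑ γ, N β γ • S.th γ A

/-- `θ^A N θ^B` -/
noncomputable def bil (N : Matrix (Fin 16) (Fin 16) ℂ) (A B : Fin 3) : R :=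
  ∑ α, S.th α A * S.vec N B α

lemma vec_add (N M : Matrix (Fin 16) (Fin 16) ℂ) (A β) :
    S.vec (N + M) A β = S.vec N A β + S.vec M A β := by
  simp [vec, add_smul, Finset.sum_add_distrib]

lemma vec_sub (N M : Matrix (Fin 16) (Fin 16) ℂ) (A β) :
    S.vec (N - M) A β = S.vec N A β - S.vec M A β := by
  simp [vec, sub_smul, Finset.sum_sub_distrib]

lemma vec_neg (N : Matrix (Fin 16) (Fin 16) ℂ) (A β) :
    S.vec (-N) A β = -S.vec N A β := by
  simp [vec]

lemma vec_smul (c : ℂ) (N : Matrix (Fin 16) (Fin 16) ℂ) (A β) :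
    S.vec (c • N) A β = c • S.vec N A β := by
  simp [vec, Finset.smul_sum, mul_smul]

lemma vec_sum {ι : Type*} (s : Finset ι) (N : ι → Matrix (Fin 16) (Fin 16) ℂ) (A β) :
    S.vec (∑ i ∈ s, N i) A β = ∑ i ∈ s, S.vec (N i) A β := by
  simp only [vec, Matrix.sum_apply, Finset.sum_smul]
  rw [Finset.sum_comm]

lemma vec_zero (A β) : S.vec 0 A β = 0 := by simp [vec]

lemma vec_one (A β) : S.vec 1 A β = S.th β A := by
  simp [vec, Matrix.one_apply]

lemma vec_mul (N M : Matrix (Fin 16) (Fin 16) ℂ) (A β) :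
    S.vec (N * M) A β = ∑ γ, N β γ • S.vec M A γ := by
  simp only [vec, Matrix.mul_apply, Finset.sum_smul, Finset.smul_sum, mul_smul]
  rw [Finset.sum_comm]

lemma bil_add (N M : Matrix (Fin 16) (Fin 16) ℂ) (A B) :
    S.bil (N + M) A B = S.bil N A B + S.bil M A B := by
  simp [bil, vec_add, mul_add, Finset.sum_add_distrib]

lemma bil_sub (N M : Matrix (Fin 16) (Fin 16) ℂ) (A B) :
    S.bil (N - M) A B = S.bil N A B - S.bil M A B := by
  simp [bil, vec_sub, mul_sub, Finset.sum_sub_distrib]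

lemma bil_neg (N : Matrix (Fin 16) (Fin 16) ℂ) (A B) :
    S.bil (-N) A B = -S.bil N A B := by
  simp [bil, vec_neg]

lemma bil_smul (c : ℂ) (N : Matrix (Fin 16) (Fin 16) ℂ) (A B) :
    S.bil (c • N) A B = c • S.bil N A B := by
  simp [bil, vec_smul, Finset.smul_sum]

lemma bil_sum {ι : Type*} (s : Finset ι) (N : ι → Matrix (Fin 16) (Fin 16) ℂ) (A B) :
    S.bil (∑ i ∈ s, N i) A B = ∑ i ∈ s, S.bil (N i) A B := by
  simp only [bil, vec_sum, Finset.mul_sum]
  rw [Finset.sum_comm]

lemma bil_zero (A B) : S.bil 0 A B = 0 := by simp [bil, vec_zero]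

/-- `{(Nθ^A)_β, (Mθ^B)_δ} = δ_{AB} (N Mᵀ)_{βδ}` -/
lemma vec_anti (N M : Matrix (Fin 16) (Fin 16) ℂ) (A B : Fin 3) (β δ : Fin 16) :
    S.vec N A β * S.vec M B δ + S.vec M B δ * S.vec N A β =
      if A = B then ((N * Mᵀ) β δ) • (1 : R) else 0 := by
  have h1 : S.vec N A β * S.vec M B δ =
      ∑ i, ∑ j, (N β i * M δ j) • (S.th i A * S.th j B) := by
    simp only [vec, Finset.sum_mul, Finset.mul_sum, smul_mul_smul_comm]
    rw [Finset.sum_comm]
  have h2 : S.vec M B δ * S.vec N A β =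
      ∑ i, ∑ j, (N β i * M δ j) • (S.th j B * S.th i A) := by
    simp only [vec, Finset.sum_mul, Finset.mul_sum, smul_mul_smul_comm]
    refine Finset.sum_congr rfl fun i _ => Finset.sum_congr rfl fun j _ => ?_
    rw [mul_comm]
  rw [h1, h2, ← Finset.sum_add_distrib]
  simp only [← Finset.sum_add_distrib, ← smul_add, S.th_anti]
  by_cases h : A = B
  · simp [h, Matrix.mul_apply, Finset.sum_smul]
  · simp [h]

/-- `∑_β (Nθ^A)_β (Mθ^B)_β = θ^A Nᵀ M θ^B` -/
lemma sum_vec_mul_vec (N M : Matrix (Fin 16) (Fin 16) ℂ) (A B : Fin 3) :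
    ∑ β, S.vec N A β * S.vec M B β = S.bil (Nᵀ * M) A B := by
  have h1 : ∀ β, S.vec N A β * S.vec M B β =
      ∑ i, ∑ j, (N β i * M β j) • (S.th i A * S.th j B) := by
    intro β
    simp only [vec, Finset.sum_mul, Finset.mul_sum, smul_mul_smul_comm]
    rw [Finset.sum_comm]
  have h2 : S.bil (Nᵀ * M) A B =
      ∑ i, ∑ j, (∑ β, N β i * M β j) • (S.th i A * S.th j B) := by
    simp only [bil, vec, Finset.mul_sum, mul_smul_comm, Matrix.mul_apply, Matrix.transpose_apply]
  rw [h2, Finset.sum_congr rfl fun β _ => h1 β, Finset.sum_comm]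
  refine Finset.sum_congr rfl fun i _ => ?_
  rw [Finset.sum_comm]
  refine Finset.sum_congr rfl fun j _ => ?_
  rw [Finset.sum_smul]

lemma bil_swap (N : Matrix (Fin 16) (Fin 16) ℂ) (A B : Fin 3) :
    S.bil N A B = (if A = B then N.trace • (1 : R) else 0) - S.bil Nᵀ B A := by
  have h : S.bil N A B + S.bil Nᵀ B A = (if A = B then N.trace • (1 : R) else 0) := by
    have h1 : S.bil N A B = ∑ β, S.vec 1 A β * S.vec N B β := by
      rw [S.sum_vec_mul_vec]; simp
    have h2 : S.bil Nᵀ B A = ∑ β, S.vec N B β * S.vec 1 A β := by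
      rw [S.sum_vec_mul_vec]; simp
    rw [h1, h2, ← Finset.sum_add_distrib]
    simp only [vec_anti]
    by_cases hAB : A = B
    · simp [hAB, Matrix.trace, Finset.sum_smul]
    · simp [hAB]
  rw [← h]; abel

/-- the total bilinear `∑_C θ^C N θ^C` -/
noncomputable def tot (N : Matrix (Fin 16) (Fin 16) ℂ) : R := ∑ C, S.bil N C C

lemma tot_add (N M : Matrix (Fin 16) (Fin 16) ℂ) : S.tot (N + M) = S.tot N + S.tot M := by
  simp [tot, bil_add, Finset.sum_add_distrib]

lemma tot_sub (N M : Matrix (Fin 16) (Fin 16) ℂ) : S.tot (N - M) = S.tot N - S.tot M := by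
  simp [tot, bil_sub, Finset.sum_sub_distrib]

lemma tot_neg (N : Matrix (Fin 16) (Fin 16) ℂ) : S.tot (-N) = -S.tot N := by
  simp [tot, bil_neg]

lemma tot_smul (c : ℂ) (N : Matrix (Fin 16) (Fin 16) ℂ) : S.tot (c • N) = c • S.tot N := by
  simp [tot, bil_smul, Finset.smul_sum]

lemma tot_sum {ι : Type*} (s : Finset ι) (N : ι → Matrix (Fin 16) (Fin 16) ℂ) :
    S.tot (∑ i ∈ s, N i) = ∑ i ∈ s, S.tot (N i) := by
  simp only [tot, bil_sum]
  rw [Finset.sum_comm]

lemma tot_one : S.tot 1 = (24 : ℂ) • (1 : R) := by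
  have h : S.tot 1 = (48 : ℂ) • (1 : R) - S.tot 1 := by
    conv_lhs => rw [tot]
    have : ∀ C, S.bil 1 C C = (16 : ℂ) • (1 : R) - S.bil 1 C C := by
      intro C
      conv_lhs => rw [S.bil_swap]
      simp [Matrix.trace_one]
    rw [Finset.sum_congr rfl fun C _ => this C, Finset.sum_sub_distrib, tot]
    congr 1
    rw [Finset.sum_const, Finset.card_univ, Fintype.card_fin, ← Nat.cast_smul_eq_nsmul ℂ, smul_smul]
    norm_num
  have h2 : (2 : ℂ) • S.tot 1 = (48 : ℂ) • (1 : R) := by
    rw [two_smul]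
    nth_rewrite 1 [h]
    abel
  calc S.tot 1 = (1/2 : ℂ) • ((2 : ℂ) • S.tot 1) := by rw [smul_smul]; norm_num
    _ = _ := by rw [h2, smul_smul]; norm_num

/-- `[(Nθ^A)_β, θ M θ] = 2 (N M θ^A)_β` for antisymmetric `M` -/
lemma vec_comm_tot (N M : Matrix (Fin 16) (Fin 16) ℂ) (hM : Mᵀ = -M) (A : Fin 3) (β : Fin 16) :
    S.vec N A β * S.tot M - S.tot M * S.vec N A β = (2 : ℂ) • S.vec (N * M) A β := by
  have key : ∀ C, S.vec N A β * S.bil M C C - S.bil M C C * S.vec N A β =
      if A = C then (2 : ℂ) • S.vec (N * M) A β else 0 := by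
    intro C
    have hb : S.bil M C C = ∑ δ, S.vec 1 C δ * S.vec M C δ := by
      rw [S.sum_vec_mul_vec]; simp
    rw [hb, Finset.mul_sum, Finset.sum_mul, ← Finset.sum_sub_distrib]
    have h1 : ∀ δ, S.vec N A β * (S.vec 1 C δ * S.vec M C δ) -
        S.vec 1 C δ * S.vec M C δ * S.vec N A β =
        (if A = C then (N β δ) • S.vec M C δ - ((N * Mᵀ) β δ) • S.vec 1 C δ else 0) := by
      intro δ
      have e1 := S.vec_anti N 1 A C β δ
      have e2 := S.vec_anti N M A C β δ
      have : S.vec N A β * (S.vec 1 C δ * S.vec M C δ) -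
        S.vec 1 C δ * S.vec M C δ * S.vec N A β =
        (S.vec N A β * S.vec 1 C δ + S.vec 1 C δ * S.vec N A β) * S.vec M C δ -
        S.vec 1 C δ * (S.vec N A β * S.vec M C δ + S.vec M C δ * S.vec N A β) := by
        noncomm_ring
      rw [this, e1, e2]
      by_cases h : A = C
      · simp [h]
      · simp [h]
    rw [Finset.sum_congr rfl fun δ _ => h1 δ]
    by_cases h : A = C
    · subst h
      simp only [if_true, Finset.sum_sub_distrib]
      have a1 : ∑ δ, N β δ • S.vec M A δ = S.vec (N * M) A β := by rw [S.vec_mul]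
      have a2 : ∑ δ, (N * Mᵀ) β δ • S.vec 1 A δ = S.vec (N * Mᵀ) A β := by
        simp only [vec_one]; rfl
      rw [a1, a2, hM, Matrix.mul_neg, S.vec_neg, two_smul]
      abel
    · simp [h]
  rw [tot, Finset.mul_sum, Finset.sum_mul, ← Finset.sum_sub_distrib,
    Finset.sum_congr rfl fun C _ => key C]
  simp

end CS
end Vale.Agent.P353
end

section

open MeasureTheory Filter Topology
open scoped ContDiff

namespace Vale.Agent.P353

/-- configuration space for `SU(2)` -/
abbrev X3 : Type := Cfg 3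

variable (F : Type*) [NormedAddCommGroup F] [InnerProductSpace ℂ F]

/-- Abstract `SU(2)` setup used in the proofs: Clifford system acting on `F` and coupling `κ`. -/
structure Setup extends CS (F →L[ℂ] F) where
  κ : ℝ
  κ_pos : 0 < κ
  g_real : ∀ i α β, (g i α β).im = 0
  th_sa : ∀ α A (v w : F), inner ℂ (th α A v) w = inner ℂ v (th α A w)

variable {F}

namespace Setup

variable (S : Setup F)

/-- `F^A_{ij}(x) = κ ε_{ABC} x_i^B x_j^C` -/
noncomputable def FF (A : Fin 3) (i j : Fin 9) (x : X3) : ℝ :=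
  S.κ * ∑ B, ∑ C, (eps A B C : ℝ) * x (i, B) * x (j, C)

/-- `W_β(x) = (1/2) F^A_{ij} (γ^{ij} θ^A)_β` -/
noncomputable def W (β : Fin 16) (x : X3) : F →L[ℂ] F :=
  (1 / 2 : ℂ) • ∑ A, ∑ i, ∑ j, ((S.FF A i j x : ℝ) : ℂ) • S.vec (S.g2 i j) A β

/-- supercharge `Q_β u = -i (γ^i θ^A)_β ∂_i^A u + W_β u` -/
noncomputable def Q (β : Fin 16) (u : X3 → F) (x : X3) : F :=
  (-Complex.I) • ∑ i, ∑ A, S.vec (S.g i) A β (pd i A u x) + S.W β x (u x)

/-- `S_{kl} = -(i/4) θ γ^{kl} θ` -/
noncomputable def Skl (k l : Fin 9) : F →L[ℂ] F := (-Complex.I / 4) • S.tot (S.g2 k l)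

/-- spin part of the gauge generator `𝒮_C = -(i/2) ε_{CDE} θ^D·θ^E` -/
noncomputable def cS (C : Fin 3) : F →L[ℂ] F :=
  (-Complex.I / 2) • ∑ D, ∑ E, (eps C D E : ℂ) • S.bil 1 D E

/-- rotation generator `J_{kl}` -/
noncomputable def J (k l : Fin 9) (u : X3 → F) (x : X3) : F :=
  (-Complex.I) • ∑ A, ((x (k, A) : ℂ) • pd l A u x - (x (l, A) : ℂ) • pd k A u x) +
    S.Skl k l (u x)

/-- gauge generator `G_C` -/
noncomputable def G (C : Fin 3) (u : X3 → F) (x : X3) : F :=
  (-Complex.I) • ∑ i, ∑ A, ∑ B, ((eps C A B : ℂ) * (x (i, A) : ℂ)) • pd i B u x + S.cS C (u x)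

/-- `B_β(x) = x_i^A (γ^i θ^A)_β` -/
noncomputable def B (β : Fin 16) (x : X3) : F →L[ℂ] F :=
  ∑ i, ∑ A, (x (i, A) : ℂ) • S.vec (S.g i) A β

/-- the Casimir `C₂ = ∑_{k<l} S_{kl}²` -/
noncomputable def C2 : F →L[ℂ] F := (1 / 2 : ℂ) • ∑ k, ∑ l, S.Skl k l * S.Skl k l

/-- the gauge Casimir -/
noncomputable def CG : F →L[ℂ] F := ∑ C, S.cS C * S.cS C

/-- the bounded operator `4 C₂ + C_G - 88` -/
noncomputable def O1 : F →L[ℂ] F := (4 : ℂ) • S.C2 + S.CG - (88 : ℂ) • 1

/-- the multiplier `M_β(x)` (linear in `x`), `27 M = M^{S1} + 5 M^G - (4/3) M^{IC} - 11 i B`. -/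
noncomputable def Mult (β : Fin 16) (x : X3) : F →L[ℂ] F :=
  (1 / 27 : ℂ) • (
    (∑ j, ∑ l, (∑ A, (x (j, A) : ℂ) • S.vec (S.g l) A β) * S.Skl j l)
    + (5 : ℂ) • (∑ C, (∑ j, ∑ A, ∑ A', ((eps A A' C : ℂ) * (x (j, A) : ℂ)) • S.vec (S.g j) A' β)
        * S.cS C)
    + (4 / 3 : ℂ) • (∑ k, ∑ l, (∑ j, ∑ A, (x (j, A) : ℂ) • S.vec (S.g2 k l * S.g j) A β)
        * S.Skl k l)
    - (11 * Complex.I) • S.B β x)

/-- bosonic potential `V = (1/4) ∑ (F^A_{ij})²` -/
noncomputable def V (x : X3) : ℝ := (1 / 4) * ∑ A, ∑ i, ∑ j, (S.FF A i j x) ^ 2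

/-- fermionic potential `F(x) = (i/2) κ ε_{ABC} x_q^C θ^A γ^q θ^B` -/
noncomputable def Fx (x : X3) : F →L[ℂ] F :=
  (Complex.I / 2 * (S.κ : ℂ)) • ∑ q, ∑ A, ∑ B, ∑ C, ((eps A B C : ℂ) * (x (q, C) : ℂ)) •
    S.bil (S.g q) A B

/-- test functions -/
def Tst (u : X3 → F) : Prop := ContDiff ℝ ∞ u ∧ HasCompactSupport u

/-- approximating sequences of zero modes -/
def Apx (Ψ : Lp F 2 (volume : Measure X3)) (u : ℕ → X3 → F) : Prop :=
  (∀ n, Tst (u n)) ∧ (∀ n C x, S.G C (u n) x = 0) ∧
    Tendsto (fun n => ∫ x, ‖u n x - Ψ x‖ ^ 2) atTop (𝓝 0) ∧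
    ∀ β, Tendsto (fun n => ∫ x, ‖S.Q β (u n) x‖ ^ 2) atTop (𝓝 0)

/-- zero modes -/
def IsZM (Ψ : Lp F 2 (volume : Measure X3)) : Prop := ∃ u, S.Apx Ψ u

end Setup
end Vale.Agent.P353
end

section

open MeasureTheory Filter Topology
open scoped ContDiff

namespace Vale.Agent.P353

variable {F : Type*} [NormedAddCommGroup F] [InnerProductSpace ℂ F]

/-- gradient of a real function in direction (i,A) -/
noncomputable def pdr (i : Fin 9) (A : Fin 3) (φ : X3 → ℝ) (x : X3) : ℝ :=
  fderiv ℝ φ x (EuclideanSpace.single (i, A) 1)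

/-! ### basic rules for `pd` -/

section pd

variable {d : ℕ}

lemma pd_add {i : Fin 9} {A : Fin d} {u v : Cfg d → F} {x : Cfg d}
    (hu : DifferentiableAt ℝ u x) (hv : DifferentiableAt ℝ v x) :
    pd i A (fun y => u y + v y) x = pd i A u x + pd i A v x := by
  unfold pd
  rw [fderiv_fun_add hu hv]; rfl

lemma pd_sub {i : Fin 9} {A : Fin d} {u v : Cfg d → F} {x : Cfg d}
    (hu : DifferentiableAt ℝ u x) (hv : DifferentiableAt ℝ v x) :
    pd i A (fun y => u y - v y) x = pd i A u x - pd i A v x := by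
  unfold pd
  rw [fderiv_fun_sub hu hv]; rfl

lemma pd_neg {i : Fin 9} {A : Fin d} {u : Cfg d → F} {x : Cfg d} :
    pd i A (fun y => -u y) x = -pd i A u x := by
  unfold pd
  rw [fderiv_fun_neg]; rfl

lemma pd_sum {ι : Type*} (s : Finset ι) {i : Fin 9} {A : Fin d} {u : ι → Cfg d → F} {x : Cfg d}
    (hu : ∀ k ∈ s, DifferentiableAt ℝ (u k) x) :
    pd i A (fun y => ∑ k ∈ s, u k y) x = ∑ k ∈ s, pd i A (u k) x := by
  unfold pd
  rw [fderiv_fun_sum hu]
  simp

/-- product rule for an operator valued multiplier -/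
lemma pd_clm_apply {i : Fin 9} {A : Fin d} {T : Cfg d → F →L[ℂ] F} {u : Cfg d → F} {x : Cfg d}
    (hT : DifferentiableAt ℝ T x) (hu : DifferentiableAt ℝ u x) :
    pd i A (fun y => T y (u y)) x =
      (fderiv ℝ T x (EuclideanSpace.single (i, A) 1)) (u x) + T x (pd i A u x) := by
  unfold pd
  have hB : IsBoundedBilinearMap ℝ (fun p : (F →L[ℂ] F) × F => p.1 p.2) := by
    have h := (isBoundedBilinearMap_apply (𝕜 := ℂ) (E := F) (F := F))
    refine ⟨fun a b c => by simp, fun c a b => ?_, fun a b c => by simp, fun c a b => ?_, ?_⟩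
    · simp
    · simp
    · obtain ⟨C, hC, hb⟩ := h.bound
      exact ⟨C, hC, hb⟩
  have h1 := hB.hasFDerivAt (T x, u x)
  have h2 := hT.hasFDerivAt.prodMk hu.hasFDerivAt
  have h3 := h1.comp x h2
  have h4 : fderiv ℝ (fun y => T y (u y)) x = _ := h3.fderiv
  rw [h4]
  simp [add_comm]

lemma pd_clm {i : Fin 9} {A : Fin d} (T : F →L[ℂ] F) {u : Cfg d → F} {x : Cfg d}
    (hu : DifferentiableAt ℝ u x) :
    pd i A (fun y => T (u y)) x = T (pd i A u x) := by
  rw [pd_clm_apply (T := fun _ => T) (differentiableAt_const T) hu]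
  simp

lemma pd_csmul {i : Fin 9} {A : Fin d} {c : Cfg d → ℂ} {u : Cfg d → F} {x : Cfg d}
    (hc : DifferentiableAt ℝ c x) (hu : DifferentiableAt ℝ u x) :
    pd i A (fun y => c y • u y) x =
      (fderiv ℝ c x (EuclideanSpace.single (i, A) 1)) • u x + c x • pd i A u x := by
  unfold pd
  rw [fderiv_fun_smul hc hu]
  simp [add_comm]

lemma fderiv_ofReal_comp {φ : Cfg d → ℝ} {x : Cfg d} (hφ : DifferentiableAt ℝ φ x)
    (e : Cfg d) : fderiv ℝ (fun y => ((φ y : ℝ) : ℂ)) x e = ((fderiv ℝ φ x e : ℝ) : ℂ) := by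
  have h := (Complex.ofRealCLM.hasFDerivAt (x := φ x)).comp x hφ.hasFDerivAt
  have h2 : fderiv ℝ (fun y => ((φ y : ℝ) : ℂ)) x = _ := h.fderiv
  rw [h2]
  simp

lemma pd_rsmul {i : Fin 9} {A : Fin d} {φ : Cfg d → ℝ} {u : Cfg d → F} {x : Cfg d}
    (hφ : DifferentiableAt ℝ φ x) (hu : DifferentiableAt ℝ u x) :
    pd i A (fun y => ((φ y : ℝ) : ℂ) • u y) x =
      ((fderiv ℝ φ x (EuclideanSpace.single (i, A) 1) : ℝ) : ℂ) • u x
        + ((φ x : ℝ) : ℂ) • pd i A u x := by
  have hc : DifferentiableAt ℝ (fun y => ((φ y : ℝ) : ℂ)) x :=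
    Complex.ofRealCLM.differentiableAt.comp x hφ
  rw [pd_csmul hc hu, fderiv_ofReal_comp hφ]

lemma contDiff_pd {i : Fin 9} {A : Fin d} {u : Cfg d → F} (hu : ContDiff ℝ ∞ u) :
    ContDiff ℝ ∞ (pd i A u) := by
  unfold pd
  exact (hu.fderiv_right (m := ∞) (by simp)).clm_apply contDiff_const

lemma continuous_pd {i : Fin 9} {A : Fin d} {u : Cfg d → F} (hu : ContDiff ℝ 1 u) :
    Continuous (pd i A u) := by
  unfold pd
  exact (hu.continuous_fderiv (by simp)).clm_apply continuous_const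

lemma hasCompactSupport_pd {i : Fin 9} {A : Fin d} {u : Cfg d → F} (hu : HasCompactSupport u) :
    HasCompactSupport (pd i A u) := by
  have h := hu.fderiv_apply (𝕜 := ℝ) (EuclideanSpace.single (i, A) (1 : ℝ) : Cfg d)
  exact h

end pd

/-! ### integration by parts -/

section parts

variable {d : ℕ} {G : Type*} [NormedAddCommGroup G] [NormedSpace ℝ G]

lemma integral_fderiv_eq_zero (w : Cfg d → G) (hw : ContDiff ℝ 1 w)
    (hc : HasCompactSupport w) (e : Cfg d) :
    ∫ x, fderiv ℝ w x e = 0 := by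
  have h := integral_smul_fderiv_eq_neg_fderiv_smul_of_integrable (μ := volume)
    (f := fun _ : Cfg d => (1 : ℝ)) (g := w) (v := e) (𝕜 := ℝ) ?_ ?_ ?_ ?_ ?_
  · simpa using h
  · simp
  · simp only [one_smul]
    exact ((hw.continuous_fderiv (by simp)).clm_apply continuous_const).integrable_of_hasCompactSupport
      (hc.fderiv_apply (𝕜 := ℝ) e)
  · simp only [one_smul]
    exact hw.continuous.integrable_of_hasCompactSupport hc
  · intro x _; exact differentiableAt_const _
  · intro x _; exact (hw.differentiable (by simp)) x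

lemma integral_inner_pd (u v : Cfg d → F) (hu : ContDiff ℝ 1 u) (hv : ContDiff ℝ 1 v)
    (hc : HasCompactSupport u) (i : Fin 9) (A : Fin d) :
    ∫ x, inner ℂ (pd i A u x) (v x) = - ∫ x, inner ℂ (u x) (pd i A v x) := by
  have hw : ContDiff ℝ 1 (fun x => inner ℂ (u x) (v x)) := hu.inner ℂ hv
  have hcw : HasCompactSupport (fun x => inner ℂ (u x) (v x)) := by
    refine hc.mono ?_
    intro x hx
    simp only [Function.mem_support] at hx ⊢
    intro h0
    exact hx (by rw [h0, inner_zero_left])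
  have h := integral_fderiv_eq_zero _ hw hcw (EuclideanSpace.single (i, A) (1 : ℝ))
  have hd : ∀ x, fderiv ℝ (fun x => inner ℂ (u x) (v x)) x (EuclideanSpace.single (i, A) (1 : ℝ)) =
      inner ℂ (u x) (pd i A v x) + inner ℂ (pd i A u x) (v x) := by
    intro x
    rw [fderiv_inner_apply ℂ ((hu.differentiable (by simp)) x) ((hv.differentiable (by simp)) x)]
    rfl
  have hcu' : HasCompactSupport (pd i A u) := hasCompactSupport_pd hc
  have hi1 : Integrable (fun x => inner ℂ (u x) (pd i A v x)) := by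
    refine (hu.continuous.inner (continuous_pd hv)).integrable_of_hasCompactSupport ?_
    refine hc.mono ?_
    intro x hx
    simp only [Function.mem_support] at hx ⊢
    intro h0
    exact hx (by rw [h0, inner_zero_left])
  have hi2 : Integrable (fun x => inner ℂ (pd i A u x) (v x)) := by
    refine ((continuous_pd hu).inner hv.continuous).integrable_of_hasCompactSupport ?_
    refine hcu'.mono ?_
    intro x hx
    simp only [Function.mem_support] at hx ⊢
    intro h0
    exact hx (by rw [h0, inner_zero_left])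
  simp only [hd] at h
  rw [integral_add hi1 hi2] at h
  linear_combination h

end parts

/-! ### symmetric operators -/

namespace Setup

variable (S : Setup F)

lemma th_symm (α : Fin 16) (A : Fin 3) (v w : F) :
    inner ℂ (S.th α A v) w = inner ℂ v (S.th α A w) := S.th_sa α A v w

lemma vec_symm (N : Matrix (Fin 16) (Fin 16) ℂ) (hN : ∀ α β, (N α β).im = 0) (A : Fin 3)
    (β : Fin 16) (v w : F) :
    inner ℂ (S.vec N A β v) w = inner ℂ v (S.vec N A β w) := by
  simp only [CS.vec, _root_.sum_apply, _root_.smul_apply, sum_inner,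
    inner_sum, inner_smul_left, inner_smul_right, S.th_symm]
  refine Finset.sum_congr rfl fun γ _ => ?_
  rw [Complex.conj_eq_iff_im.mpr (hN β γ)]

lemma g_im (i : Fin 9) (α β : Fin 16) : (S.g i α β).im = 0 := S.g_real i α β

lemma mul_im_zero {N M : Matrix (Fin 16) (Fin 16) ℂ} (hN : ∀ α β, (N α β).im = 0)
    (hM : ∀ α β, (M α β).im = 0) (α β : Fin 16) : ((N * M) α β).im = 0 := by
  rw [Matrix.mul_apply, Complex.im_sum]
  refine Finset.sum_eq_zero fun γ _ => ?_
  rw [Complex.mul_im, hN, hM]; ring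

lemma g2_im (i j : Fin 9) (α β : Fin 16) : (S.g2 i j α β).im = 0 := by
  have h1 := mul_im_zero (S.g_im i) (S.g_im j) α β
  have h2 := mul_im_zero (S.g_im j) (S.g_im i) α β
  simp only [CS.g2, Matrix.smul_apply, Matrix.sub_apply, smul_eq_mul]
  rw [Complex.mul_im, Complex.sub_im, h1, h2]
  norm_num

lemma W_symm (β : Fin 16) (x : X3) (v w : F) :
    inner ℂ (S.W β x v) w = inner ℂ v (S.W β x w) := by
  simp only [W, _root_.sum_apply, _root_.smul_apply, sum_inner,
    inner_sum, inner_smul_left, inner_smul_right, S.vec_symm _ (S.g2_im _ _), Complex.conj_ofReal]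
  congr 1
  norm_num [Complex.ext_iff]

/-! smoothness in `x` of the operator valued coefficients -/

lemma contDiff_coord (p : Fin 9 × Fin 3) : ContDiff ℝ ∞ (fun x : X3 => x p) := by
  exact (EuclideanSpace.proj (𝕜 := ℝ) p).contDiff

lemma contDiff_FF (A : Fin 3) (i j : Fin 9) : ContDiff ℝ ∞ (S.FF A i j) := by
  unfold FF
  refine contDiff_const.mul (ContDiff.sum fun B _ => ContDiff.sum fun C _ => ?_)
  exact (contDiff_const.mul (contDiff_coord _)).mul (contDiff_coord _)

lemma contDiff_ofReal {φ : X3 → ℝ} (h : ContDiff ℝ ∞ φ) :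
    ContDiff ℝ ∞ (fun x => ((φ x : ℝ) : ℂ)) :=
  Complex.ofRealCLM.contDiff.comp h

lemma contDiff_W (β : Fin 16) : ContDiff ℝ ∞ (S.W β) := by
  unfold W
  refine ContDiff.const_smul (1 / 2 : ℂ) (ContDiff.sum fun A _ => ContDiff.sum fun i _ =>
    ContDiff.sum fun j _ => ?_)
  exact (contDiff_ofReal (S.contDiff_FF A i j)).smul contDiff_const

lemma contDiff_B (β : Fin 16) : ContDiff ℝ ∞ (S.B β) := by
  unfold B
  refine ContDiff.sum fun i _ => ContDiff.sum fun A _ => ?_
  exact (contDiff_ofReal (contDiff_coord _)).smul contDiff_const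

lemma contDiff_clm_apply' {T : X3 → F →L[ℂ] F} {u : X3 → F} (hT : ContDiff ℝ ∞ T)
    (hu : ContDiff ℝ ∞ u) : ContDiff ℝ ∞ (fun x => T x (u x)) := by
  have hB : IsBoundedBilinearMap ℝ (fun p : (F →L[ℂ] F) × F => p.1 p.2) := by
    have h := (isBoundedBilinearMap_apply (𝕜 := ℂ) (E := F) (F := F))
    refine ⟨fun a b c => by simp, fun c a b => ?_, fun a b c => by simp, fun c a b => ?_, ?_⟩
    · simp
    · simp
    · obtain ⟨C, hC, hb⟩ := h.bound
      exact ⟨C, hC, hb⟩
  exact hB.contDiff.comp (hT.prodMk hu)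

lemma contDiff_Q (β : Fin 16) {u : X3 → F} (hu : ContDiff ℝ ∞ u) : ContDiff ℝ ∞ (S.Q β u) := by
  unfold Q
  refine ContDiff.add (contDiff_const.smul (ContDiff.sum fun i _ => ContDiff.sum fun A _ => ?_))
    (contDiff_clm_apply' (S.contDiff_W β) hu)
  exact contDiff_clm_apply' contDiff_const (contDiff_pd hu)

lemma hasCompactSupport_Q (β : Fin 16) {u : X3 → F} (hu : HasCompactSupport u) :
    HasCompactSupport (S.Q β u) := by
  refine HasCompactSupport.intro' (K := tsupport u) hu (isClosed_tsupport u) ?_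
  intro x hx
  have h0 : u x = 0 := image_eq_zero_of_notMem_tsupport hx
  have h1 : ∀ i A, pd i A u x = 0 := by
    intro i A
    have : fderiv ℝ u x = 0 := by
      have h := (tsupport_fderiv_subset ℝ (f := u))
      by_contra hne
      exact hx (h (subset_tsupport _ hne))
    simp [pd, this]
  simp [Q, h0, h1]

lemma Tst.contDiff {u : X3 → F} (hu : Tst u) : ContDiff ℝ ∞ u := hu.1

lemma Tst.hcs {u : X3 → F} (hu : Tst u) : HasCompactSupport u := hu.2

lemma Tst.diff {u : X3 → F} (hu : Tst u) (x : X3) : DifferentiableAt ℝ u x :=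
  (hu.1.differentiable (by simp)) x

lemma Tst.Q {u : X3 → F} (hu : Tst u) (β : Fin 16) : Tst (S.Q β u) :=
  ⟨S.contDiff_Q β hu.1, S.hasCompactSupport_Q β hu.2⟩

lemma Tst.clm {T : X3 → F →L[ℂ] F} {u : X3 → F} (hT : ContDiff ℝ ∞ T) (hu : Tst u) :
    Tst (fun x => T x (u x)) := by
  refine ⟨contDiff_clm_apply' hT hu.1, hu.2.mono ?_⟩
  intro x hx
  simp only [Function.mem_support] at hx ⊢
  intro h0
  exact hx (by rw [h0, map_zero])

lemma Tst.rsmul {φ : X3 → ℝ} {u : X3 → F} (hφ : ContDiff ℝ ∞ φ) (hu : Tst u) :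
    Tst (fun x => ((φ x : ℝ) : ℂ) • u x) := by
  refine ⟨(contDiff_ofReal hφ).smul hu.1, hu.2.mono ?_⟩
  intro x hx
  simp only [Function.mem_support] at hx ⊢
  intro h0
  exact hx (by rw [h0, smul_zero])

lemma Tst.pd {u : X3 → F} (hu : Tst u) (i : Fin 9) (A : Fin 3) : Tst (pd i A u) :=
  ⟨contDiff_pd hu.1, hasCompactSupport_pd hu.2⟩

lemma Tst.add {u v : X3 → F} (hu : Tst u) (hv : Tst v) : Tst (fun x => u x + v x) :=
  ⟨hu.1.add hv.1, hu.2.add hv.2⟩

lemma Tst.neg {u : X3 → F} (hu : Tst u) : Tst (fun x => -u x) := by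
  refine ⟨hu.1.neg, hu.2.mono ?_⟩
  intro x hx
  simpa using hx

lemma Tst.sub {u v : X3 → F} (hu : Tst u) (hv : Tst v) : Tst (fun x => u x - v x) := by
  have h := hu.add hv.neg
  simpa [sub_eq_add_neg] using h

lemma Tst.inner_cs {u v : X3 → F} (hu : Tst u) : HasCompactSupport (fun x => inner ℂ (u x) (v x)) := by
  refine hu.2.mono ?_
  intro x hx
  simp only [Function.mem_support] at hx ⊢
  intro h0
  exact hx (by rw [h0, inner_zero_left])

lemma Tst.inner_int {u v : X3 → F} (hu : Tst u) (hv : Continuous v) :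
    Integrable (fun x => inner ℂ (u x) (v x)) :=
  (hu.1.continuous.inner hv).integrable_of_hasCompactSupport hu.inner_cs

lemma Tst.inner_int' {u v : X3 → F} (hu : Tst u) (hv : Continuous v) :
    Integrable (fun x => inner ℂ (v x) (u x)) := by
  refine (hv.inner hu.1.continuous).integrable_of_hasCompactSupport (hu.2.mono ?_)
  intro x hx
  simp only [Function.mem_support] at hx ⊢
  intro h0
  exact hx (by rw [h0, inner_zero_right])

lemma Tst.norm_sq_int {u : X3 → F} (hu : Tst u) : Integrable (fun x => ‖u x‖ ^ 2) := by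
  refine (hu.1.continuous.norm.pow 2).integrable_of_hasCompactSupport (hu.2.mono ?_)
  intro x hx
  simp only [Function.mem_support] at hx ⊢
  intro h0
  exact hx (by simp [h0])

lemma Tst.mul_norm_sq_int {φ : X3 → ℝ} {u : X3 → F} (hφ : Continuous φ) (hu : Tst u) :
    Integrable (fun x => φ x * ‖u x‖ ^ 2) := by
  refine (hφ.mul (hu.1.continuous.norm.pow 2)).integrable_of_hasCompactSupport (hu.2.mono ?_)
  intro x hx
  simp only [Function.mem_support] at hx ⊢
  intro h0
  exact hx (by simp [h0])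

end Setup

/-! ### Q and J -/

theorem Q_smul (S : Setup F) (β : Fin 16) (φ : X3 → ℝ) (u : X3 → F) (x : X3)
    (hφ : DifferentiableAt ℝ φ x) (hu : DifferentiableAt ℝ u x) :
    S.Q β (fun y => ((φ y : ℝ) : ℂ) • u y) x = ((φ x : ℝ) : ℂ) • S.Q β u x -
      Complex.I • ∑ i, ∑ A, ((pdr i A φ x : ℝ) : ℂ) • S.vec (S.g i) A β (u x) := by
  have h : ∀ i A, pd i A (fun y => ((φ y : ℝ) : ℂ) • u y) x =
      ((pdr i A φ x : ℝ) : ℂ) • u x + ((φ x : ℝ) : ℂ) • pd i A u x := fun i A => pd_rsmul hφ hu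
  simp only [Setup.Q, h, map_add, map_smul, Finset.sum_add_distrib, smul_add, Finset.smul_sum,
    neg_smul]
  simp only [smul_smul, mul_comm Complex.I, Finset.sum_neg_distrib, smul_neg]
  abel

theorem Q_symm (S : Setup F) (β : Fin 16) (u v : X3 → F)
    (hu : Setup.Tst u) (hv : ContDiff ℝ ∞ v) :
    ∫ x, inner ℂ (S.Q β u x) (v x) = ∫ x, inner ℂ (u x) (S.Q β v x) := by
  have hv1 : ContDiff ℝ 1 v := hv.of_le (by simp)
  have hu1 : ContDiff ℝ 1 u := hu.1.of_le (by simp)
  have hpt : ∀ x, inner ℂ (S.Q β u x) (v x) - inner ℂ (u x) (S.Q β v x) =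
      ∑ i, ∑ A, Complex.I * (fderiv ℝ (fun y => inner ℂ (u y) (S.vec (S.g i) A β (v y))) x
        (EuclideanSpace.single (i, A) (1 : ℝ))) := by
    intro x
    have hd : ∀ i A, fderiv ℝ (fun y => inner ℂ (u y) (S.vec (S.g i) A β (v y))) x
        (EuclideanSpace.single (i, A) (1 : ℝ)) =
        inner ℂ (u x) (S.vec (S.g i) A β (pd i A v x)) +
          inner ℂ (pd i A u x) (S.vec (S.g i) A β (v x)) := by
      intro i A
      have hdv : DifferentiableAt ℝ v x := (hv1.differentiable (by simp)) x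
      have hdT : DifferentiableAt ℝ (fun y => S.vec (S.g i) A β (v y)) x :=
        ((S.vec (S.g i) A β).restrictScalars ℝ).differentiableAt.comp x hdv
      rw [fderiv_inner_apply ℂ ((hu1.differentiable (by simp)) x) hdT]
      have := pd_clm (i := i) (A := A) (S.vec (S.g i) A β) hdv
      unfold pd at this ⊢
      rw [this]
    simp only [hd, Setup.Q, inner_add_left, inner_add_right, inner_smul_left, inner_smul_right,
      sum_inner, inner_sum, S.W_symm, S.vec_symm _ (S.g_im _)]
    simp only [map_neg, Complex.conj_I, neg_neg]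
    simp only [mul_add, Finset.sum_add_distrib, Finset.mul_sum]
    simp only [neg_mul, Finset.sum_neg_distrib]
    ring
  have hI : ∫ x, (inner ℂ (S.Q β u x) (v x) - inner ℂ (u x) (S.Q β v x)) = 0 := by
    simp only [hpt]
    have hw : ∀ i A, ContDiff ℝ 1 (fun y => inner ℂ (u y) (S.vec (S.g i) A β (v y))) := by
      intro i A
      exact hu1.inner ℂ ((S.vec (S.g i) A β).restrictScalars ℝ |>.contDiff.comp hv1)
    have hcs : ∀ i A, HasCompactSupport (fun y => inner ℂ (u y) (S.vec (S.g i) A β (v y))) :=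
      fun i A => hu.inner_cs
    have hint : ∀ i A, Integrable (fun x => fderiv ℝ (fun y => inner ℂ (u y)
        (S.vec (S.g i) A β (v y))) x (EuclideanSpace.single (i, A) (1 : ℝ))) := by
      intro i A
      exact (((hw i A).continuous_fderiv (by simp)).clm_apply
        continuous_const).integrable_of_hasCompactSupport ((hcs i A).fderiv_apply (𝕜 := ℝ) _)
    rw [integral_finsetSum _ fun i _ => integrable_finsetSum _ fun A _ => (hint i A).const_mul _]
    refine Finset.sum_eq_zero fun i _ => ?_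
    rw [integral_finsetSum _ fun A _ => (hint i A).const_mul _]
    refine Finset.sum_eq_zero fun A _ => ?_
    rw [integral_const_mul, integral_fderiv_eq_zero _ (hw i A) (hcs i A), mul_zero]
  rw [integral_sub ((hu.Q S β).inner_int hv.continuous)
    (hu.inner_int (S.contDiff_Q β hv).continuous)] at hI
  exact sub_eq_zero.mp hI


namespace Setup

variable (S : Setup F)

lemma bil_adj (N : Matrix (Fin 16) (Fin 16) ℂ) (hN : ∀ α β, (N α β).im = 0) (A B : Fin 3)
    (v w : F) : inner ℂ (S.bil N A B v) w = inner ℂ v (S.bil N.transpose B A w) := by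
  have h1 : S.bil N.transpose B A = ∑ α, S.vec N B α * S.th α A := by
    simp only [CS.bil, CS.vec, Finset.mul_sum, Finset.sum_mul, Matrix.transpose_apply,
      mul_smul_comm, smul_mul_assoc]
    rw [Finset.sum_comm]
  rw [h1]
  simp only [CS.bil, _root_.sum_apply, sum_inner, inner_sum]
  refine Finset.sum_congr rfl fun α _ => ?_
  rw [mul_apply_eq_comp, mul_apply_eq_comp, S.th_symm,
    S.vec_symm N hN]

lemma tot_adj (N : Matrix (Fin 16) (Fin 16) ℂ) (hN : ∀ α β, (N α β).im = 0) (v w : F) :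
    inner ℂ (S.tot N v) w = inner ℂ v (S.tot N.transpose w) := by
  simp only [CS.tot, _root_.sum_apply, sum_inner, inner_sum, S.bil_adj N hN]

lemma g2_transpose (k l : Fin 9) : (S.g2 k l).transpose = - S.g2 k l := by
  simp only [CS.g2, Matrix.transpose_smul, Matrix.transpose_sub, Matrix.transpose_mul, S.g_symm]
  rw [← smul_neg, neg_sub]

lemma Skl_symm (k l : Fin 9) (v w : F) :
    inner ℂ (S.Skl k l v) w = inner ℂ v (S.Skl k l w) := by
  simp only [Skl, _root_.smul_apply, inner_smul_left, inner_smul_right,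
    S.tot_adj _ (S.g2_im k l), S.g2_transpose, S.tot_neg, _root_.neg_apply, inner_neg_right]
  have : (starRingEnd ℂ) (-Complex.I / 4) = Complex.I / 4 := by
    have h4 : (starRingEnd ℂ) 4 = 4 := by norm_num [Complex.ext_iff]
    simp [map_div₀, h4]
  rw [this]; ring

lemma cS_symm (C : Fin 3) (v w : F) :
    inner ℂ (S.cS C v) w = inner ℂ v (S.cS C w) := by
  have h1 : ∀ α β, ((1 : Matrix (Fin 16) (Fin 16) ℂ) α β).im = 0 := by
    intro α β
    rw [Matrix.one_apply]
    split_ifs <;> simp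
  have he : ∀ D E : Fin 3, eps C E D = - eps C D E := by
    revert C; decide
  have hc : ∀ D E : Fin 3, (starRingEnd ℂ) ((eps C D E : ℤ) : ℂ) = ((eps C D E : ℤ) : ℂ) := by
    intro D E; simp
  simp only [cS, _root_.smul_apply, _root_.sum_apply, inner_smul_left, inner_smul_right,
    sum_inner, inner_sum, S.bil_adj _ h1, Matrix.transpose_one, hc]
  have : (starRingEnd ℂ) (-Complex.I / 2) = Complex.I / 2 := by
    have h2 : (starRingEnd ℂ) 2 = 2 := by norm_num [Complex.ext_iff]
    simp [map_div₀, h2]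
  rw [this]
  have h2 : ∑ D, ∑ E, ((eps C D E : ℤ) : ℂ) * inner ℂ v (S.bil 1 E D w) =
      - ∑ D, ∑ E, ((eps C D E : ℤ) : ℂ) * inner ℂ v (S.bil 1 D E w) := by
    rw [Finset.sum_comm, ← Finset.sum_neg_distrib]
    refine Finset.sum_congr rfl fun D _ => ?_
    rw [← Finset.sum_neg_distrib]
    refine Finset.sum_congr rfl fun E _ => ?_
    rw [he D E]; push_cast; ring
  rw [h2]; ring

end Setup

lemma integral_rot_eq_zero (k l : Fin 9) (A : Fin 3) (w : X3 → ℂ) (hw : ContDiff ℝ 1 w)
    (hc : HasCompactSupport w) :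
    ∫ x, (((x (k, A) : ℝ) : ℂ) * fderiv ℝ w x (EuclideanSpace.single (l, A) (1 : ℝ)) -
      ((x (l, A) : ℝ) : ℂ) * fderiv ℝ w x (EuclideanSpace.single (k, A) (1 : ℝ))) = 0 := by
  have hcd : ∀ p : Fin 9 × Fin 3, ContDiff ℝ 1 (fun x : X3 => ((x p : ℝ) : ℂ)) := fun p =>
    (Setup.contDiff_ofReal (Setup.contDiff_coord p)).of_le (by simp)
  have hder : ∀ (p q : Fin 9 × Fin 3) (x : X3),
      fderiv ℝ (fun x : X3 => ((x p : ℝ) : ℂ) * w x) x (EuclideanSpace.single q (1 : ℝ)) =
        ((x p : ℝ) : ℂ) * fderiv ℝ w x (EuclideanSpace.single q (1 : ℝ)) +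
          (if p = q then w x else 0) := by
    intro p q x
    rw [fderiv_fun_mul ((hcd p).differentiable (by simp) x) (hw.differentiable (by simp) x)]
    have hdp : fderiv ℝ (fun y : X3 => ((y p : ℝ) : ℂ)) x (EuclideanSpace.single q (1 : ℝ)) =
        if p = q then 1 else 0 := by
      have hL : (fun y : X3 => y p) = (EuclideanSpace.proj (𝕜 := ℝ) p : X3 →L[ℝ] ℝ) := rfl
      have h := fderiv_ofReal_comp (d := 3) (φ := fun y : X3 => y p) (x := x)
        (by rw [hL]; exact (EuclideanSpace.proj (𝕜 := ℝ) p : X3 →L[ℝ] ℝ).differentiableAt)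
        (EuclideanSpace.single q (1 : ℝ))
      rw [h, hL, ContinuousLinearMap.fderiv]
      by_cases hpq : p = q
      · simp [hpq]
      · simp [hpq]
    simp only [_root_.add_apply, _root_.smul_apply, smul_eq_mul, hdp]
    by_cases hpq : p = q
    · simp [hpq]
    · simp [hpq]
  have hcs : ∀ p : Fin 9 × Fin 3, HasCompactSupport (fun x : X3 => ((x p : ℝ) : ℂ) * w x) := by
    intro p
    exact hc.mul_left
  have hsm : ∀ p : Fin 9 × Fin 3, ContDiff ℝ 1 (fun x : X3 => ((x p : ℝ) : ℂ) * w x) :=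
    fun p => (hcd p).mul hw
  have hint : ∀ p q : Fin 9 × Fin 3, Integrable (fun x : X3 =>
      fderiv ℝ (fun x : X3 => ((x p : ℝ) : ℂ) * w x) x (EuclideanSpace.single q (1 : ℝ))) := by
    intro p q
    exact (((hsm p).continuous_fderiv (by simp)).clm_apply
        continuous_const).integrable_of_hasCompactSupport ((hcs p).fderiv_apply (𝕜 := ℝ) _)
  have hz := fun p q : Fin 9 × Fin 3 => integral_fderiv_eq_zero _ (hsm p) (hcs p)
    (EuclideanSpace.single q (1 : ℝ))
  have heq : ∀ x : X3, (((x (k, A) : ℝ) : ℂ) * fderiv ℝ w x (EuclideanSpace.single (l, A) (1 : ℝ)) -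
      ((x (l, A) : ℝ) : ℂ) * fderiv ℝ w x (EuclideanSpace.single (k, A) (1 : ℝ))) =
      fderiv ℝ (fun x : X3 => ((x (k, A) : ℝ) : ℂ) * w x) x (EuclideanSpace.single (l, A) (1 : ℝ)) -
      fderiv ℝ (fun x : X3 => ((x (l, A) : ℝ) : ℂ) * w x) x
        (EuclideanSpace.single (k, A) (1 : ℝ)) := by
    intro x
    rw [hder, hder]
    by_cases hkl : k = l
    · subst hkl; simp
    · have hlk : ¬ l = k := fun h => hkl h.symm
      simp [hkl, hlk]
  simp only [heq]
  rw [integral_sub (hint _ _) (hint _ _), hz, hz, sub_zero]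

lemma integrable_rot (k l : Fin 9) (A : Fin 3) (w : X3 → ℂ) (hw : ContDiff ℝ 1 w)
    (hc : HasCompactSupport w) :
    Integrable (fun x : X3 => (((x (k, A) : ℝ) : ℂ) *
      fderiv ℝ w x (EuclideanSpace.single (l, A) (1 : ℝ)) -
      ((x (l, A) : ℝ) : ℂ) * fderiv ℝ w x (EuclideanSpace.single (k, A) (1 : ℝ)))) := by
  have hcd : ∀ p : Fin 9 × Fin 3, Continuous (fun x : X3 => ((x p : ℝ) : ℂ)) := fun p =>
    (Setup.contDiff_ofReal (Setup.contDiff_coord p)).continuous
  have hf : ∀ q : Fin 9 × Fin 3, Continuous (fun x : X3 =>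
      fderiv ℝ w x (EuclideanSpace.single q (1 : ℝ))) := fun q =>
    (hw.continuous_fderiv (by simp)).clm_apply continuous_const
  have hs : ∀ q : Fin 9 × Fin 3, HasCompactSupport (fun x : X3 =>
      fderiv ℝ w x (EuclideanSpace.single q (1 : ℝ))) := fun q => hc.fderiv_apply (𝕜 := ℝ) _
  refine Integrable.sub ?_ ?_
  · exact ((hcd _).mul (hf _)).integrable_of_hasCompactSupport (hs _).mul_left
  · exact ((hcd _).mul (hf _)).integrable_of_hasCompactSupport (hs _).mul_left

namespace Setup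

variable (S : Setup F)

lemma contDiff_J (k l : Fin 9) {u : X3 → F} (hu : ContDiff ℝ ∞ u) :
    ContDiff ℝ ∞ (S.J k l u) := by
  unfold J
  refine ContDiff.add (ContDiff.const_smul _ (ContDiff.sum fun A _ => ContDiff.sub ?_ ?_))
    (contDiff_clm_apply' contDiff_const hu)
  · exact (contDiff_ofReal (contDiff_coord _)).smul (contDiff_pd hu)
  · exact (contDiff_ofReal (contDiff_coord _)).smul (contDiff_pd hu)

lemma hasCompactSupport_J (k l : Fin 9) {u : X3 → F} (hu : HasCompactSupport u) :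
    HasCompactSupport (S.J k l u) := by
  refine HasCompactSupport.intro' (K := tsupport u) hu (isClosed_tsupport u) ?_
  intro x hx
  have h0 : u x = 0 := image_eq_zero_of_notMem_tsupport hx
  have h1 : ∀ i A, _root_.Vale.Agent.P353.pd i A u x = 0 := by
    intro i A
    have : fderiv ℝ u x = 0 := by
      have h := (tsupport_fderiv_subset ℝ (f := u))
      by_contra hne
      exact hx (h (subset_tsupport _ hne))
    simp [_root_.Vale.Agent.P353.pd, this]
  simp [J, h0, h1]

lemma Tst.J {u : X3 → F} (hu : Tst u) (k l : Fin 9) : Tst (S.J k l u) :=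
  ⟨S.contDiff_J k l hu.1, S.hasCompactSupport_J k l hu.2⟩

end Setup

theorem J_symm (S : Setup F) (k l : Fin 9) (u v : X3 → F)
    (hu : Setup.Tst u) (hv : ContDiff ℝ ∞ v) :
    ∫ x, inner ℂ (S.J k l u x) (v x) = ∫ x, inner ℂ (u x) (S.J k l v x) := by
  have hv1 : ContDiff ℝ 1 v := hv.of_le (by simp)
  have hu1 : ContDiff ℝ 1 u := hu.1.of_le (by simp)
  have hw : ContDiff ℝ 1 (fun y => inner ℂ (u y) (v y)) := hu1.inner ℂ hv1
  have hcs : HasCompactSupport (fun y => inner ℂ (u y) (v y)) := hu.inner_cs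
  have hd : ∀ i A x, fderiv ℝ (fun y => inner ℂ (u y) (v y)) x
      (EuclideanSpace.single (i, A) (1 : ℝ)) =
      inner ℂ (u x) (pd i A v x) + inner ℂ (pd i A u x) (v x) := by
    intro i A x
    rw [fderiv_inner_apply ℂ ((hu1.differentiable (by simp)) x) ((hv1.differentiable (by simp)) x)]
    rfl
  have hpt : ∀ x, inner ℂ (S.J k l u x) (v x) - inner ℂ (u x) (S.J k l v x) =
      ∑ A, Complex.I * (((x (k, A) : ℝ) : ℂ) * fderiv ℝ (fun y => inner ℂ (u y) (v y)) x
        (EuclideanSpace.single (l, A) (1 : ℝ)) - ((x (l, A) : ℝ) : ℂ) *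
        fderiv ℝ (fun y => inner ℂ (u y) (v y)) x (EuclideanSpace.single (k, A) (1 : ℝ))) := by
    intro x
    simp only [hd, Setup.J, inner_add_left, inner_add_right, inner_smul_left, inner_smul_right,
      inner_sub_left, inner_sub_right, sum_inner, inner_sum, S.Skl_symm, Complex.conj_ofReal]
    simp only [map_neg, Complex.conj_I, neg_neg]
    rw [Finset.mul_sum, neg_mul, Finset.mul_sum, add_sub_add_right_eq_sub, sub_neg_eq_add,
      ← Finset.sum_add_distrib]
    refine Finset.sum_congr rfl fun A _ => ?_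
    ring
  have hI : ∫ x, (inner ℂ (S.J k l u x) (v x) - inner ℂ (u x) (S.J k l v x)) = 0 := by
    simp only [hpt]
    rw [integral_finsetSum _ fun A _ => (integrable_rot k l A _ hw hcs).const_mul _]
    refine Finset.sum_eq_zero fun A _ => ?_
    rw [integral_const_mul, integral_rot_eq_zero k l A _ hw hcs, mul_zero]
  rw [integral_sub ((hu.J S k l).inner_int hv.continuous)
    (hu.inner_int (S.contDiff_J k l hv).continuous)] at hI
  exact sub_eq_zero.mp hI

end Vale.Agent.P353
end

section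

open Matrix

namespace Vale.Agent.P353
namespace CS

variable {R : Type*} [Ring R] [Algebra ℂ R] (S : CS R)

lemma g_sq (i : Fin 9) : S.g i * S.g i = 1 := by
  have h := S.g_anti i i
  simp only [if_true] at h
  have h2 : (2 : ℂ) • (S.g i * S.g i) = (2 : ℂ) • (1 : Matrix (Fin 16) (Fin 16) ℂ) := by
    rw [two_smul, h, two_smul]; norm_num
  calc S.g i * S.g i = (1 / 2 : ℂ) • ((2 : ℂ) • (S.g i * S.g i)) := by
        rw [smul_smul]; norm_num
    _ = 1 := by rw [h2, smul_smul]; norm_num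

lemma g_swap (i j : Fin 9) :
    S.g i * S.g j = (if i = j then (2 : ℂ) else 0) • (1 : Matrix (Fin 16) (Fin 16) ℂ)
      - S.g j * S.g i := by
  rw [eq_sub_iff_add_eq, S.g_anti i j]
  split_ifs
  · ext a b; simp [Matrix.ofNat_apply, Matrix.one_apply]
  · simp

lemma g_swap_ne {i j : Fin 9} (h : i ≠ j) : S.g i * S.g j = -(S.g j * S.g i) := by
  rw [S.g_swap i j, if_neg h]; simp

lemma g2_eq (i j : Fin 9) :
    S.g2 i j = S.g i * S.g j - (if i = j then (1 : ℂ) else 0) • 1 := by
  rw [g2, S.g_swap j i]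
  by_cases h : i = j
  · subst h; simp [g_sq, two_smul]
  · rw [if_neg (Ne.symm h), if_neg h]; simp [← two_smul ℂ, smul_smul]

lemma g2_transpose (i j : Fin 9) : (S.g2 i j)ᵀ = -S.g2 i j := by
  simp only [g2, Matrix.transpose_smul, Matrix.transpose_sub, Matrix.transpose_mul, S.g_symm]
  rw [← smul_neg, neg_sub]

lemma g2_antisymm (i j : Fin 9) : S.g2 i j = -S.g2 j i := by
  simp only [g2]; rw [← smul_neg, neg_sub]

/-- the sandwich `∑_k γ_k X γ_k` -/
noncomputable def sand (X : Matrix (Fin 16) (Fin 16) ℂ) : Matrix (Fin 16) (Fin 16) ℂ :=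
  ∑ k, S.g k * X * S.g k

lemma sand_add (X Y : Matrix (Fin 16) (Fin 16) ℂ) : S.sand (X + Y) = S.sand X + S.sand Y := by
  simp [sand, mul_add, add_mul, Finset.sum_add_distrib]

lemma sand_sub (X Y : Matrix (Fin 16) (Fin 16) ℂ) : S.sand (X - Y) = S.sand X - S.sand Y := by
  simp [sand, mul_sub, sub_mul, Finset.sum_sub_distrib]

lemma sand_smul (c : ℂ) (X : Matrix (Fin 16) (Fin 16) ℂ) : S.sand (c • X) = c • S.sand X := by
  simp [sand, Finset.smul_sum]

lemma sand_one : S.sand 1 = (9 : ℂ) • 1 := by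
  simp only [sand, mul_one, g_sq]
  rw [Finset.sum_const, Finset.card_univ, Fintype.card_fin, ← Nat.cast_smul_eq_nsmul ℂ]
  norm_num

lemma sand_g_mul (i : Fin 9) (X : Matrix (Fin 16) (Fin 16) ℂ) :
    S.sand (S.g i * X) = (2 : ℂ) • (X * S.g i) - S.g i * S.sand X := by
  simp only [sand]
  have h : ∀ k, S.g k * (S.g i * X) * S.g k =
      (if k = i then (2 : ℂ) else 0) • (X * S.g k) - S.g i * (S.g k * X * S.g k) := by
    intro k
    rw [← mul_assoc (S.g k), S.g_swap k i, sub_mul, sub_mul, smul_mul_assoc, one_mul,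
      smul_mul_assoc]
    simp only [mul_assoc]
  rw [Finset.sum_congr rfl fun k _ => h k, Finset.sum_sub_distrib, ← Finset.mul_sum]
  congr 1
  simp

lemma sand_g (i : Fin 9) : S.sand (S.g i) = (-7 : ℂ) • S.g i := by
  have h := S.sand_g_mul i 1
  rw [mul_one, sand_one] at h
  rw [h, one_mul, mul_smul_comm, mul_one, ← sub_smul]; norm_num

lemma sand_gg (i j : Fin 9) :
    S.sand (S.g i * S.g j) = (2 : ℂ) • (S.g j * S.g i) + (7 : ℂ) • (S.g i * S.g j) := by
  rw [sand_g_mul, sand_g, mul_smul_comm, sub_eq_add_neg, ← neg_smul]; norm_num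

lemma sand_g2 (i j : Fin 9) : S.sand (S.g2 i j) = (5 : ℂ) • S.g2 i j := by
  simp only [g2]
  rw [sand_smul, sand_sub, sand_gg, sand_gg]
  module

/-- `∑_{kl} γ_{kl} X γ_{kl} = 9 X - sand (sand X)` -/
lemma sum_g2_g2 (X : Matrix (Fin 16) (Fin 16) ℂ) :
    ∑ k, ∑ l, S.g2 k l * X * S.g2 k l = (9 : ℂ) • X - S.sand (S.sand X) := by
  have h1 : ∀ k l, S.g2 k l * X * S.g2 k l = S.g k * S.g l * X * (S.g k * S.g l)
      - (if k = l then (1:ℂ) else 0) • (S.g k * S.g l * X + X * (S.g k * S.g l) - X) := by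
    intro k l
    rw [g2_eq]
    split_ifs
    · simp only [one_smul]; noncomm_ring
    · simp
  have h2 : ∀ k l, S.g k * S.g l * X * (S.g k * S.g l) =
      (if k = l then (2:ℂ) else 0) • (S.g k * S.g l * X) - S.g k * (S.g l * X * S.g l) * S.g k := by
    intro k l
    rw [S.g_swap k l, mul_sub, ← S.g_swap k l, mul_smul_comm, mul_one]
    congr 1
    noncomm_ring
  simp only [h1, h2, Finset.sum_sub_distrib, ite_smul, zero_smul, Finset.sum_ite_eq,
    Finset.mem_univ, if_true, one_smul, g_sq, one_mul, mul_one, add_sub_cancel_right]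
  have h3 : ∑ x, ∑ x_1, S.g x * (S.g x_1 * X * S.g x_1) * S.g x = S.sand (S.sand X) := by
    simp only [sand, Finset.mul_sum, Finset.sum_mul]
  rw [h3]
  simp only [Finset.sum_const, Finset.card_univ, Fintype.card_fin, ← Nat.cast_smul_eq_nsmul ℂ]
  rw [sub_right_comm]
  congr 1
  rw [smul_smul, ← sub_smul]
  norm_num

lemma sum_g2_g_g2 (i : Fin 9) :
    ∑ k, ∑ l, S.g2 k l * S.g i * S.g2 k l = (-40 : ℂ) • S.g i := by
  rw [sum_g2_g2, sand_g, sand_smul, sand_g, smul_smul, ← sub_smul]; norm_num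

lemma sum_g2_g2_g2 (p q : Fin 9) :
    ∑ k, ∑ l, S.g2 k l * S.g2 p q * S.g2 k l = (-16 : ℂ) • S.g2 p q := by
  rw [sum_g2_g2, sand_g2, sand_smul, sand_g2, smul_smul, ← sub_smul]; norm_num

/-! traces -/

lemma trace_eq_zero_of_anti (m : Fin 9) (X : Matrix (Fin 16) (Fin 16) ℂ)
    (h : S.g m * X = -(X * S.g m)) : X.trace = 0 := by
  have h1 : (S.g m * X * S.g m).trace = X.trace := by
    rw [Matrix.trace_mul_comm, ← mul_assoc, g_sq, one_mul]
  have h2 : (S.g m * X * S.g m).trace = -X.trace := by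
    rw [h, neg_mul, mul_assoc, g_sq, mul_one, Matrix.trace_neg]
  rw [h1] at h2
  have h3 : (2 : ℂ) * X.trace = 0 := by linear_combination h2
  simpa using h3

lemma trace_g (i : Fin 9) : (S.g i).trace = 0 := by
  obtain ⟨m, hm⟩ : ∃ m : Fin 9, m ≠ i := exists_ne i
  exact S.trace_eq_zero_of_anti m _ (S.g_swap_ne hm)

lemma trace_gg (i j : Fin 9) : (S.g i * S.g j).trace = if i = j then 16 else 0 := by
  by_cases h : i = j
  · subst h; simp [g_sq, Matrix.trace_one]
  · rw [if_neg h]
    have h1 := S.g_swap_ne h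
    have h2 : (S.g i * S.g j).trace = -(S.g i * S.g j).trace := by
      conv_lhs => rw [h1, Matrix.trace_neg, Matrix.trace_mul_comm]
    have h3 : (2 : ℂ) * (S.g i * S.g j).trace = 0 := by linear_combination h2
    simpa using h3

lemma trace_ggg (i j k : Fin 9) : (S.g i * S.g j * S.g k).trace = 0 := by
  obtain ⟨m, hm⟩ : ∃ m : Fin 9, m ∉ ({i, j, k} : Finset (Fin 9)) := by
    by_contra h
    push Not at h
    have : (Finset.univ : Finset (Fin 9)).card ≤ ({i, j, k} : Finset (Fin 9)).card :=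
      Finset.card_le_card (fun x _ => h x)
    have h3 : ({i, j, k} : Finset (Fin 9)).card ≤ 3 := Finset.card_le_three
    simp at this
    omega
  simp only [Finset.mem_insert, Finset.mem_singleton, not_or] at hm
  obtain ⟨h1, h2, h3⟩ := hm
  refine S.trace_eq_zero_of_anti m _ ?_
  rw [← mul_assoc, ← mul_assoc, S.g_swap_ne h1, neg_mul, neg_mul, mul_assoc (S.g i),
    S.g_swap_ne h2, mul_neg, neg_mul, neg_neg, mul_assoc, mul_assoc, mul_assoc,
    S.g_swap_ne h3]
  noncomm_ring

lemma trace_ggggg (i j k l n : Fin 9) :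
    (S.g i * S.g j * S.g k * S.g l * S.g n).trace = 0 := by
  obtain ⟨m, hm⟩ : ∃ m : Fin 9, m ∉ ({i, j, k, l, n} : Finset (Fin 9)) := by
    by_contra h
    push Not at h
    have : (Finset.univ : Finset (Fin 9)).card ≤ ({i, j, k, l, n} : Finset (Fin 9)).card :=
      Finset.card_le_card (fun x _ => h x)
    have h3 : ({i, j, k, l, n} : Finset (Fin 9)).card ≤ 5 := Finset.card_le_five
    simp at this
    omega
  simp only [Finset.mem_insert, Finset.mem_singleton, not_or] at hm
  obtain ⟨h1, h2, h3, h4, h5⟩ := hm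
  refine S.trace_eq_zero_of_anti m _ ?_
  have e1 := S.g_swap_ne h1
  have e2 := S.g_swap_ne h2
  have e3 := S.g_swap_ne h3
  have e4 := S.g_swap_ne h4
  have e5 := S.g_swap_ne h5
  calc S.g m * (S.g i * S.g j * S.g k * S.g l * S.g n)
      = (S.g m * S.g i) * (S.g j * S.g k * S.g l * S.g n) := by noncomm_ring
    _ = -(S.g i * (S.g m * S.g j) * (S.g k * S.g l * S.g n)) := by rw [e1]; noncomm_ring
    _ = (S.g i * S.g j * (S.g m * S.g k) * (S.g l * S.g n)) := by rw [e2]; noncomm_ring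
    _ = -(S.g i * S.g j * S.g k * (S.g m * S.g l) * (S.g n)) := by rw [e3]; noncomm_ring
    _ = (S.g i * S.g j * S.g k * S.g l * (S.g m * S.g n)) := by rw [e4]; noncomm_ring
    _ = -(S.g i * S.g j * S.g k * S.g l * S.g n * S.g m) := by rw [e5]; noncomm_ring

lemma trace_g2 (i j : Fin 9) : (S.g2 i j).trace = 0 := by
  rw [g2, Matrix.trace_smul, Matrix.trace_sub, Matrix.trace_mul_comm (S.g j)]; simp

lemma trace_g_g2 (i k l : Fin 9) : (S.g i * S.g2 k l).trace = 0 := by
  rw [g2_eq, mul_sub, Matrix.trace_sub, ← mul_assoc, trace_ggg, mul_smul_comm, mul_one,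
    Matrix.trace_smul, trace_g]
  simp

lemma trace_g2_g_g2 (p q j k l : Fin 9) : (S.g2 p q * S.g j * S.g2 k l).trace = 0 := by
  rw [g2_eq, g2_eq]
  have : (S.g p * S.g q - (if p = q then (1:ℂ) else 0) • 1) * S.g j *
      (S.g k * S.g l - (if k = l then (1:ℂ) else 0) • 1) =
      S.g p * S.g q * S.g j * S.g k * S.g l - (if k = l then (1:ℂ) else 0) • (S.g p * S.g q * S.g j)
      - (if p = q then (1:ℂ) else 0) • (S.g j * S.g k * S.g l)
      + ((if p = q then (1:ℂ) else 0) * (if k = l then (1:ℂ) else 0)) • S.g j := by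
    simp only [sub_mul, mul_sub, smul_mul_assoc, mul_smul_comm, one_mul, mul_one, smul_sub,
      smul_smul, ← mul_assoc]
    rw [mul_comm (if k = l then (1:ℂ) else 0)]
    abel
  rw [this, Matrix.trace_add, Matrix.trace_sub, Matrix.trace_sub, Matrix.trace_smul,
    Matrix.trace_smul, Matrix.trace_smul, trace_ggggg, trace_ggg, trace_ggg, trace_g]
  simp

lemma trace_gg_g2 (i j k l : Fin 9) : (S.g i * S.g j * S.g2 k l).trace =
    16 * ((if i = l then 1 else 0) * (if j = k then 1 else 0) -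
      (if i = k then 1 else 0) * (if j = l then 1 else 0)) := by
  have h4 : ∀ a b c d, (S.g a * S.g b * S.g c * S.g d).trace =
      (if a = b then 2 else 0) * (S.g c * S.g d).trace
      - (if a = c then 2 else 0) * (S.g b * S.g d).trace
      + (if a = d then 2 else 0) * (S.g b * S.g c).trace
      - (S.g a * S.g b * S.g c * S.g d).trace := by
    intro a b c d
    have e : S.g a * S.g b * S.g c * S.g d =
        (if a = b then (2:ℂ) else 0) • (S.g c * S.g d)
        - (if a = c then (2:ℂ) else 0) • (S.g b * S.g d)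
        + (if a = d then (2:ℂ) else 0) • (S.g b * S.g c)
        - S.g b * S.g c * S.g d * S.g a := by
      rw [S.g_swap a b, sub_mul, sub_mul, smul_mul_assoc, smul_mul_assoc, one_mul,
        mul_assoc (S.g b) (S.g a), S.g_swap a c, mul_sub, mul_smul_comm, mul_one, sub_mul,
        smul_mul_assoc, ← mul_assoc (S.g b), mul_assoc (S.g b * S.g c) (S.g a), S.g_swap a d,
        mul_sub, mul_smul_comm, mul_one, ← mul_assoc]
      abel
    conv_lhs => rw [e]
    rw [Matrix.trace_sub, Matrix.trace_add, Matrix.trace_sub, Matrix.trace_smul,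
      Matrix.trace_smul, Matrix.trace_smul, smul_eq_mul, smul_eq_mul, smul_eq_mul,
      Matrix.trace_mul_comm (S.g b * S.g c * S.g d) (S.g a), ← mul_assoc, ← mul_assoc]
  rw [g2_eq, mul_sub, Matrix.trace_sub, mul_smul_comm, mul_one, Matrix.trace_smul, smul_eq_mul,
    ← mul_assoc]
  have h5 := h4 i j k l
  have h6 : (S.g i * S.g j * S.g k * S.g l).trace =
      (if i = j then 1 else 0) * (S.g k * S.g l).trace
      - (if i = k then 1 else 0) * (S.g j * S.g l).trace
      + (if i = l then 1 else 0) * (S.g j * S.g k).trace := by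
    have : ∀ (p : Prop) [Decidable p], (if p then (2:ℂ) else 0) = 2 * (if p then 1 else 0) := by
      intro p _; split_ifs <;> simp
    simp only [this] at h5
    linear_combination (1/2) * h5
  have h7 : ∀ (p : Prop) [Decidable p], (if p then (16:ℂ) else 0) = 16 * (if p then 1 else 0) := by
    intro p _; split_ifs <;> simp
  rw [h6]
  simp only [trace_gg, h7]
  ring

end CS
end Vale.Agent.P353
end

section

open Matrix

namespace Vale.Agent.P353

lemma eps_contr (A B D E : Fin 3) : ∑ C, (eps A B C : ℂ) * (eps C D E : ℂ) =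
    (if A = D then 1 else 0) * (if B = E then 1 else 0) -
      (if A = E then 1 else 0) * (if B = D then 1 else 0) := by
  have h : ∀ A B D E : Fin 3, ∑ C, (eps A B C) * (eps C D E) =
    (if A = D then 1 else 0) * (if B = E then 1 else 0) -
      (if A = E then 1 else 0) * (if B = D then 1 else 0) := by decide
  exact_mod_cast h A B D E

lemma eps_cyc (A B C : Fin 3) : eps A B C = eps C A B := by
  revert A B C; decide

lemma eps_swap' (A B C : Fin 3) : eps A B C = -eps A C B := by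
  revert A B C; decide

namespace CS

variable {R : Type*} [Ring R] [Algebra ℂ R] (S : CS R)

/-- `S_{kl}` -/
noncomputable def Sk (k l : Fin 9) : R := (-Complex.I / 4) • S.tot (S.g2 k l)

/-- spin part of gauge generator -/
noncomputable def sG (C : Fin 3) : R :=
  (-Complex.I / 2) • ∑ D, ∑ E, (eps C D E : ℂ) • S.bil 1 D E

lemma Sk_antisymm (k l : Fin 9) : S.Sk k l = -S.Sk l k := by
  rw [Sk, S.g2_antisymm, tot_neg, smul_neg]; rfl

lemma tot_g2 (k l : Fin 9) : S.tot (S.g2 k l) = (4 * Complex.I) • S.Sk k l := by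
  rw [Sk, smul_smul]
  have : 4 * Complex.I * (-Complex.I / 4) = 1 := by
    have := Complex.I_mul_I
    linear_combination -this
  rw [this, one_smul]

lemma tot_gg (k l : Fin 9) :
    S.tot (S.g k * S.g l) = (4 * Complex.I) • S.Sk k l + (if k = l then (24:ℂ) else 0) • 1 := by
  have h : S.g k * S.g l = S.g2 k l + (if k = l then (1 : ℂ) else 0) • 1 := by
    rw [g2_eq]; abel
  rw [h, tot_add, tot_g2, tot_smul, tot_one, smul_smul]
  congr 2
  split_ifs <;> simp

lemma Sk_self (k : Fin 9) : S.Sk k k = 0 := by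
  simp [Sk, g2, tot, bil, vec]

/-- `[(Pθ^A)_β, S_{kl}] = -(i/2) (P γ_{kl} θ^A)_β` -/
lemma vec_comm_Sk (P : Matrix (Fin 16) (Fin 16) ℂ) (A : Fin 3) (β : Fin 16) (k l : Fin 9) :
    S.vec P A β * S.Sk k l - S.Sk k l * S.vec P A β =
      (-Complex.I / 2) • S.vec (P * S.g2 k l) A β := by
  rw [Sk, mul_smul_comm, smul_mul_assoc, ← smul_sub, S.vec_comm_tot _ _ (S.g2_transpose k l),
    smul_smul]
  congr 1; ring

/-- `θ^B·θ^A = 8 δ_{AB} + i ε_{CBA} 𝒮_C` -/
lemma bil_one_eq (B A : Fin 3) :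
    S.bil 1 B A = (if A = B then (8:ℂ) else 0) • 1 +
      Complex.I • ∑ C, (eps C B A : ℂ) • S.sG C := by
  have h1 : ∑ C, (eps C B A : ℂ) • S.sG C =
      (-Complex.I / 2) • (S.bil 1 B A - S.bil 1 A B) := by
    have h2 : ∀ C, (eps C B A : ℂ) • S.sG C = (-Complex.I / 2) •
        ∑ D, ∑ E, ((eps B A C : ℂ) * (eps C D E : ℂ)) • S.bil 1 D E := by
      intro C
      rw [sG, smul_comm, ← eps_cyc B A C]
      simp only [Finset.smul_sum, smul_smul]
    rw [Finset.sum_congr rfl fun C _ => h2 C, ← Finset.smul_sum]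
    congr 1
    rw [Finset.sum_comm]
    have h3 : ∀ D, ∑ C, ∑ E, ((eps B A C : ℂ) * (eps C D E : ℂ)) • S.bil 1 D E =
        ∑ E, ((if B = D then 1 else 0) * (if A = E then 1 else 0) -
      (if B = E then 1 else 0) * (if A = D then 1 else 0) : ℂ) • S.bil 1 D E := by
      intro D
      rw [Finset.sum_comm]
      refine Finset.sum_congr rfl fun E _ => ?_
      rw [← Finset.sum_smul, eps_contr]
    rw [Finset.sum_congr rfl fun D _ => h3 D]
    simp only [sub_smul, Finset.sum_sub_distrib, mul_smul, ite_smul, one_smul, zero_smul,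
      Finset.sum_ite_eq, Finset.mem_univ, if_true]
    congr 1
    simp
  rw [h1, smul_smul]
  have h4 : Complex.I * (-Complex.I / 2) = 1 / 2 := by
    have := Complex.I_mul_I
    linear_combination (-1/2) * this
  rw [h4]
  have h5 := S.bil_swap 1 A B
  rw [Matrix.transpose_one] at h5
  rw [h5, Matrix.trace_one, Fintype.card_fin]
  by_cases h : A = B
  · subst h
    simp only [if_true]
    push_cast
    module
  · simp only [if_neg h]
    module

/-- `[(Pθ^A)_β, 𝒮_C] = -i ε_{CAE} (Pθ^E)_β` -/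
lemma vec_comm_sG (P : Matrix (Fin 16) (Fin 16) ℂ) (A : Fin 3) (β : Fin 16) (C : Fin 3) :
    S.vec P A β * S.sG C - S.sG C * S.vec P A β =
      (-Complex.I) • ∑ E, (eps C A E : ℂ) • S.vec P E β := by
  have key : ∀ D E, S.vec P A β * S.bil 1 D E - S.bil 1 D E * S.vec P A β =
      (if A = D then S.vec P E β else 0) - (if A = E then S.vec P D β else 0) := by
    intro D E
    have hb : S.bil 1 D E = ∑ δ, S.vec 1 D δ * S.vec 1 E δ := by
      rw [S.sum_vec_mul_vec]; simp
    rw [hb, Finset.mul_sum, Finset.sum_mul, ← Finset.sum_sub_distrib]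
    have h1 : ∀ δ, S.vec P A β * (S.vec 1 D δ * S.vec 1 E δ) -
        S.vec 1 D δ * S.vec 1 E δ * S.vec P A β =
        (if A = D then (P β δ) • S.vec 1 E δ else 0) -
        (if A = E then (P β δ) • S.vec 1 D δ else 0) := by
      intro δ
      have e1 := S.vec_anti P 1 A D β δ
      have e2 := S.vec_anti P 1 A E β δ
      have : S.vec P A β * (S.vec 1 D δ * S.vec 1 E δ) -
        S.vec 1 D δ * S.vec 1 E δ * S.vec P A β =
        (S.vec P A β * S.vec 1 D δ + S.vec 1 D δ * S.vec P A β) * S.vec 1 E δ -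
        S.vec 1 D δ * (S.vec P A β * S.vec 1 E δ + S.vec 1 E δ * S.vec P A β) := by
        noncomm_ring
      rw [this, e1, e2, Matrix.transpose_one, mul_one]
      by_cases h : A = D <;> by_cases h' : A = E <;> simp [h, h']
    rw [Finset.sum_congr rfl fun δ _ => h1 δ, Finset.sum_sub_distrib]
    congr 1
    · by_cases h : A = D
      · simp only [h, if_true, vec_one]; rfl
      · simp [h]
    · by_cases h : A = E
      · simp only [h, if_true, vec_one]; rfl
      · simp [h]
  have h2 : S.vec P A β * S.sG C - S.sG C * S.vec P A β = (-Complex.I / 2) •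
      ∑ D, ∑ E, (eps C D E : ℂ) • ((if A = D then S.vec P E β else 0) -
        (if A = E then S.vec P D β else 0)) := by
    rw [sG, mul_smul_comm, smul_mul_assoc, ← smul_sub]
    congr 1
    simp only [Finset.mul_sum, Finset.sum_mul, ← Finset.sum_sub_distrib, mul_smul_comm,
      smul_mul_assoc, ← smul_sub, key]
  rw [h2]
  simp only [smul_sub, smul_ite, smul_zero, Finset.sum_sub_distrib]
  have h3 : ∑ D, ∑ E, (if A = D then (eps C D E : ℂ) • S.vec P E β else 0) =
      ∑ E, (eps C A E : ℂ) • S.vec P E β := by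
    rw [Finset.sum_comm]; simp
  have h4 : ∑ D, ∑ E, (if A = E then (eps C D E : ℂ) • S.vec P D β else 0) =
      -∑ E, (eps C A E : ℂ) • S.vec P E β := by
    simp only [Finset.sum_ite_eq, Finset.mem_univ, if_true]
    rw [← Finset.sum_neg_distrib]
    refine Finset.sum_congr rfl fun E _ => ?_
    rw [eps_swap' C E A]; push_cast; rw [neg_smul]
  rw [h3, h4]
  module

/-- anticommutator sum, with `S_{jl}` on the right -/
lemma F1S (P N : Matrix (Fin 16) (Fin 16) ℂ) (A B : Fin 3) (j l : Fin 9) :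
    ∑ β, S.vec P A β * (S.vec N B β * S.Sk j l) =
      (if A = B then (P * Nᵀ).trace else 0) • S.Sk j l
      - ∑ β, (S.vec N B β * S.Sk j l) * S.vec P A β
      + (Complex.I / 2) • S.bil (Nᵀ * (P * S.g2 j l)) B A := by
  have h : ∀ β, S.vec P A β * (S.vec N B β * S.Sk j l) =
      (if A = B then (P * Nᵀ) β β else 0) • S.Sk j l
      - (S.vec N B β * S.Sk j l) * S.vec P A β
      + (Complex.I / 2) • (S.vec N B β * S.vec (P * S.g2 j l) A β) := by
    intro β
    have e1 := S.vec_anti P N A B β β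
    have e2 := S.vec_comm_Sk P A β j l
    have e3 : S.vec P A β * (S.vec N B β * S.Sk j l) =
        (S.vec P A β * S.vec N B β + S.vec N B β * S.vec P A β) * S.Sk j l
        - (S.vec N B β * S.Sk j l) * S.vec P A β
        - S.vec N B β * (S.vec P A β * S.Sk j l - S.Sk j l * S.vec P A β) := by
      noncomm_ring
    rw [e3, e1, e2, mul_smul_comm, sub_eq_add_neg, ← neg_smul]
    congr 2
    · by_cases h : A = B <;> simp [h]
    · ring_nf
  rw [Finset.sum_congr rfl fun β _ => h β, Finset.sum_add_distrib, Finset.sum_sub_distrib,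
    ← Finset.sum_smul, ← Finset.smul_sum, S.sum_vec_mul_vec]
  congr 3
  by_cases h : A = B <;> simp [h, Matrix.trace]

lemma F1G (P N : Matrix (Fin 16) (Fin 16) ℂ) (A B : Fin 3) (C : Fin 3) :
    ∑ β, S.vec P A β * (S.vec N B β * S.sG C) =
      (if A = B then (P * Nᵀ).trace else 0) • S.sG C
      - ∑ β, (S.vec N B β * S.sG C) * S.vec P A β
      + Complex.I • ∑ E, (eps C A E : ℂ) • S.bil (Nᵀ * P) B E := by
  have h : ∀ β, S.vec P A β * (S.vec N B β * S.sG C) =
      (if A = B then (P * Nᵀ) β β else 0) • S.sG C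
      - (S.vec N B β * S.sG C) * S.vec P A β
      + Complex.I • ∑ E, (eps C A E : ℂ) • (S.vec N B β * S.vec P E β) := by
    intro β
    have e1 := S.vec_anti P N A B β β
    have e2 := S.vec_comm_sG P A β C
    have e3 : S.vec P A β * (S.vec N B β * S.sG C) =
        (S.vec P A β * S.vec N B β + S.vec N B β * S.vec P A β) * S.sG C
        - (S.vec N B β * S.sG C) * S.vec P A β
        - S.vec N B β * (S.vec P A β * S.sG C - S.sG C * S.vec P A β) := by
      noncomm_ring
    rw [e3, e1, e2, mul_smul_comm, sub_eq_add_neg, ← neg_smul, neg_neg, Finset.mul_sum]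
    congr 2
    · by_cases h : A = B <;> simp [h]
    · simp only [mul_smul_comm]
  rw [Finset.sum_congr rfl fun β _ => h β, Finset.sum_add_distrib, Finset.sum_sub_distrib,
    ← Finset.sum_smul, ← Finset.smul_sum]
  congr 1
  · congr 2
    by_cases h : A = B <;> simp [h, Matrix.trace]
  · congr 1
    rw [Finset.sum_comm]
    refine Finset.sum_congr rfl fun E _ => ?_
    rw [← Finset.smul_sum, S.sum_vec_mul_vec]

/-- `B_β(X)` -/
noncomputable def Bv (X : Fin 9 → Fin 3 → ℂ) (β : Fin 16) : R :=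
  ∑ i, ∑ A, X i A • S.vec (S.g i) A β

/-- `M^{S1}` -/
noncomputable def MS (X : Fin 9 → Fin 3 → ℂ) (β : Fin 16) : R :=
  ∑ j, ∑ l, (∑ A, X j A • S.vec (S.g l) A β) * S.Sk j l

/-- `M^{G}` -/
noncomputable def MG (X : Fin 9 → Fin 3 → ℂ) (β : Fin 16) : R :=
  ∑ C, (∑ j, ∑ A, ∑ A', ((eps A A' C : ℂ) * X j A) • S.vec (S.g j) A' β) * S.sG C

/-- `-M^{IC}` -/
noncomputable def MI (X : Fin 9 → Fin 3 → ℂ) (β : Fin 16) : R :=
  ∑ k, ∑ l, (∑ j, ∑ A, X j A • S.vec (S.g2 k l * S.g j) A β) * S.Sk k l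

/-- the multiplier -/
noncomputable def Mv (X : Fin 9 → Fin 3 → ℂ) (β : Fin 16) : R :=
  (1 / 27 : ℂ) • (S.MS X β + (5 : ℂ) • S.MG X β + (4 / 3 : ℂ) • S.MI X β
    - (11 * Complex.I) • S.Bv X β)

lemma Bv_mul_vec (X : Fin 9 → Fin 3 → ℂ) (i : Fin 9) (A : Fin 3) :
    ∑ β, S.Bv X β * S.vec (S.g i) A β = ∑ j, ∑ B, X j B • S.bil (S.g j * S.g i) B A := by
  simp only [Bv, Finset.sum_mul, smul_mul_assoc]
  rw [Finset.sum_comm]
  refine Finset.sum_congr rfl fun j _ => ?_
  rw [Finset.sum_comm]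
  refine Finset.sum_congr rfl fun B _ => ?_
  rw [← Finset.smul_sum, S.sum_vec_mul_vec, S.g_symm]

/-- (P1) for `B` -/
lemma P1B (X : Fin 9 → Fin 3 → ℂ) (i : Fin 9) (A : Fin 3) :
    ∑ β, S.vec (S.g i) A β * S.Bv X β =
      -∑ β, S.Bv X β * S.vec (S.g i) A β + (16 * X i A) • (1 : R) := by
  rw [eq_neg_add_iff_add_eq, ← Finset.sum_add_distrib]
  have h : ∀ β, S.Bv X β * S.vec (S.g i) A β + S.vec (S.g i) A β * S.Bv X β =
      ∑ j, ∑ B, (if B = A then X j B * (S.g j * S.g i) β β else 0) • (1 : R) := by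
    intro β
    simp only [Bv, Finset.sum_mul, Finset.mul_sum, smul_mul_assoc, mul_smul_comm]
    rw [← Finset.sum_add_distrib]
    refine Finset.sum_congr rfl fun j _ => ?_
    rw [← Finset.sum_add_distrib]
    refine Finset.sum_congr rfl fun B _ => ?_
    rw [← smul_add, S.vec_anti, S.g_symm]
    by_cases hB : B = A <;> simp [hB, smul_smul]
  rw [Finset.sum_congr rfl fun β _ => h β, Finset.sum_comm]
  have h2 : ∀ j, ∑ β, ∑ B, (if B = A then X j B * (S.g j * S.g i) β β else 0) • (1 : R) =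
      (if j = i then 16 * X i A else 0) • (1 : R) := by
    intro j
    rw [Finset.sum_comm]
    simp only [← Finset.sum_smul]
    congr 1
    simp only [Finset.sum_ite_irrel, Finset.sum_const_zero, ← Finset.mul_sum, Finset.sum_ite_eq',
      Finset.mem_univ, if_true]
    have : ∑ i_1, (S.g j * S.g i) i_1 i_1 = (S.g j * S.g i).trace := rfl
    rw [this, trace_gg]
    by_cases hj : j = i
    · subst hj; simp [mul_comm]
    · simp [hj]
  rw [Finset.sum_congr rfl fun j _ => h2 j, ← Finset.sum_smul]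
  simp

/-- (P1) for `M^{S1}` -/
lemma P1S (X : Fin 9 → Fin 3 → ℂ) (i : Fin 9) (A : Fin 3) :
    ∑ β, S.vec (S.g i) A β * S.MS X β =
      -∑ β, S.MS X β * S.vec (S.g i) A β
      - (3 * Complex.I) • ∑ β, S.Bv X β * S.vec (S.g i) A β
      + (16 : ℂ) • ∑ j, X j A • S.Sk j i
      + (56 * Complex.I * X i A) • (1 : R)
      - (7 : ℂ) • ∑ B, ∑ C, ((eps C B A : ℂ) * X i B) • S.sG C := by
  have h1 : ∑ β, S.vec (S.g i) A β * S.MS X β = ∑ j, ∑ l, ∑ B, X j B •
      ∑ β, S.vec (S.g i) A β * (S.vec (S.g l) B β * S.Sk j l) := by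
    simp only [MS, Finset.mul_sum, Finset.sum_mul, Finset.smul_sum, smul_mul_assoc,
      mul_smul_comm]
    rw [Finset.sum_comm]
    refine Finset.sum_congr rfl fun j _ => ?_
    rw [Finset.sum_comm]
    refine Finset.sum_congr rfl fun l _ => ?_
    rw [Finset.sum_comm]
  have h2 : ∑ β, S.MS X β * S.vec (S.g i) A β = ∑ j, ∑ l, ∑ B, X j B •
      ∑ β, (S.vec (S.g l) B β * S.Sk j l) * S.vec (S.g i) A β := by
    simp only [MS, Finset.sum_mul, Finset.smul_sum, smul_mul_assoc]
    rw [Finset.sum_comm]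
    refine Finset.sum_congr rfl fun j _ => ?_
    rw [Finset.sum_comm]
    refine Finset.sum_congr rfl fun l _ => ?_
    rw [Finset.sum_comm]
  rw [h1, h2, S.Bv_mul_vec]
  simp only [S.F1S, smul_add, smul_sub, Finset.sum_add_distrib, Finset.sum_sub_distrib,
    S.g_symm]
  have h3 : ∑ j, ∑ l, ∑ B, X j B • (if A = B then (S.g i * S.g l).trace else 0) • S.Sk j l =
      (16 : ℂ) • ∑ j, X j A • S.Sk j i := by
    rw [Finset.smul_sum]
    refine Finset.sum_congr rfl fun j _ => ?_
    simp only [trace_gg, ite_smul, zero_smul, smul_ite, smul_zero, Finset.sum_ite_eq,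
      Finset.mem_univ, if_true]
    rw [smul_comm]
  have h4 : ∑ j, ∑ l, ∑ B, X j B • (Complex.I / 2) •
      S.bil (S.g l * (S.g i * S.g2 j l)) B A =
      -((3 * Complex.I) • ∑ j, ∑ B, X j B • S.bil (S.g j * S.g i) B A) +
      (7 * Complex.I) • ∑ B, X i B • S.bil 1 B A := by
    have e1 : ∀ j, ∑ l, S.g l * (S.g i * S.g2 j l) =
        (-6 : ℂ) • (S.g j * S.g i) + (if j = i then (14:ℂ) else 0) • 1 := by
      intro j
      have e2 : ∀ l, S.g l * (S.g i * S.g2 j l) = S.g l * (S.g i * S.g j) * S.g l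
          - (if j = l then (1:ℂ) else 0) • (S.g l * S.g i) := by
        intro l
        rw [g2_eq, mul_sub, mul_sub, mul_smul_comm, mul_smul_comm, mul_one]
        simp only [mul_assoc]
      rw [Finset.sum_congr rfl fun l _ => e2 l, Finset.sum_sub_distrib]
      have e3 : ∑ l, S.g l * (S.g i * S.g j) * S.g l = S.sand (S.g i * S.g j) := rfl
      rw [e3, sand_gg, S.g_swap i j]
      simp only [ite_smul, one_smul, zero_smul, Finset.sum_ite_eq, Finset.mem_univ, if_true]
      by_cases h : i = j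
      · subst h; simp only [if_true]; module
      · simp only [if_neg h, if_neg (Ne.symm h)]; module
    have e4 : ∑ j, ∑ l, ∑ B, X j B • (Complex.I / 2) •
        S.bil (S.g l * (S.g i * S.g2 j l)) B A =
        ∑ j, ∑ B, X j B • (Complex.I / 2) • S.bil (∑ l, S.g l * (S.g i * S.g2 j l)) B A := by
      refine Finset.sum_congr rfl fun j _ => ?_
      rw [Finset.sum_comm]
      refine Finset.sum_congr rfl fun B _ => ?_
      rw [S.bil_sum, Finset.smul_sum, Finset.smul_sum]
    rw [e4]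
    simp only [e1, bil_add, bil_smul, smul_add, Finset.sum_add_distrib]
    congr 1
    · rw [← neg_smul, Finset.smul_sum]
      refine Finset.sum_congr rfl fun j _ => ?_
      rw [Finset.smul_sum]
      refine Finset.sum_congr rfl fun B _ => ?_
      module
    · rw [Finset.sum_comm, Finset.smul_sum]
      refine Finset.sum_congr rfl fun B _ => ?_
      simp only [ite_smul, zero_smul, smul_ite, smul_zero, Finset.sum_ite_eq', Finset.mem_univ,
        if_true]
      module
  rw [h3, h4]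
  have h5 : (7 * Complex.I) • ∑ B, X i B • S.bil 1 B A =
      (56 * Complex.I * X i A) • (1 : R)
      - (7 : ℂ) • ∑ B, ∑ C, ((eps C B A : ℂ) * X i B) • S.sG C := by
    simp only [S.bil_one_eq, smul_add, Finset.sum_add_distrib]
    rw [sub_eq_add_neg]
    congr 1
    · simp only [ite_smul, zero_smul, smul_ite, smul_zero, Finset.sum_ite_eq, Finset.mem_univ,
        if_true]
      module
    · rw [← neg_smul, Finset.smul_sum, Finset.smul_sum]
      refine Finset.sum_congr rfl fun B _ => ?_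
      rw [Finset.smul_sum, Finset.smul_sum, Finset.smul_sum, Finset.smul_sum]
      refine Finset.sum_congr rfl fun C _ => ?_
      simp only [smul_smul]
      congr 1
      have := Complex.I_mul_I
      linear_combination (7 * X i B * (eps C B A : ℂ)) * this
  rw [h5]
  abel

/-- (P1) for `M^{IC}` (with the sign `MI = -M^{IC}`) -/
lemma P1I (X : Fin 9 → Fin 3 → ℂ) (i : Fin 9) (A : Fin 3) :
    ∑ β, S.vec (S.g i) A β * S.MI X β =
      -∑ β, S.MI X β * S.vec (S.g i) A β
      + (20 * Complex.I) • ∑ β, S.Bv X β * S.vec (S.g i) A β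
      - (32 : ℂ) • ∑ j, X j A • S.Sk j i := by
  have h1 : ∑ β, S.vec (S.g i) A β * S.MI X β = ∑ k, ∑ l, ∑ j, ∑ B, X j B •
      ∑ β, S.vec (S.g i) A β * (S.vec (S.g2 k l * S.g j) B β * S.Sk k l) := by
    simp only [MI, Finset.mul_sum, Finset.sum_mul, Finset.smul_sum, smul_mul_assoc,
      mul_smul_comm]
    rw [Finset.sum_comm]
    refine Finset.sum_congr rfl fun k _ => ?_
    rw [Finset.sum_comm]
    refine Finset.sum_congr rfl fun l _ => ?_
    rw [Finset.sum_comm]
    refine Finset.sum_congr rfl fun j _ => ?_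
    rw [Finset.sum_comm]
  have h2 : ∑ β, S.MI X β * S.vec (S.g i) A β = ∑ k, ∑ l, ∑ j, ∑ B, X j B •
      ∑ β, (S.vec (S.g2 k l * S.g j) B β * S.Sk k l) * S.vec (S.g i) A β := by
    simp only [MI, Finset.sum_mul, Finset.smul_sum, smul_mul_assoc]
    rw [Finset.sum_comm]
    refine Finset.sum_congr rfl fun k _ => ?_
    rw [Finset.sum_comm]
    refine Finset.sum_congr rfl fun l _ => ?_
    rw [Finset.sum_comm]
    refine Finset.sum_congr rfl fun j _ => ?_
    rw [Finset.sum_comm]
  rw [h1, h2, S.Bv_mul_vec]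
  have ht : ∀ k l j, (S.g2 k l * S.g j)ᵀ = -(S.g j * S.g2 k l) := by
    intro k l j
    rw [Matrix.transpose_mul, g2_transpose, S.g_symm, mul_neg]
  simp only [S.F1S, smul_add, smul_sub, Finset.sum_add_distrib, Finset.sum_sub_distrib, ht]
  have h3 : ∑ k, ∑ l, ∑ j, ∑ B, X j B •
      (if A = B then (S.g i * -(S.g j * S.g2 k l)).trace else 0) • S.Sk k l =
      -((32 : ℂ) • ∑ j, X j A • S.Sk j i) := by
    have e : ∀ j k l, (S.g i * -(S.g j * S.g2 k l)).trace =
        -(16 * ((if i = l then 1 else 0) * (if j = k then 1 else 0) -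
      (if i = k then 1 else 0) * (if j = l then 1 else 0))) := by
      intro j k l
      rw [mul_neg, Matrix.trace_neg, ← mul_assoc, S.trace_gg_g2]
    simp only [e]
    have e2 : ∀ k l, ∑ j, ∑ B, X j B •
      (if A = B then (-(16 * ((if i = l then 1 else 0) * (if j = k then 1 else 0) -
      (if i = k then 1 else 0) * (if j = l then 1 else 0))) : ℂ) else 0) • S.Sk k l =
      (if i = l then (-16 * X k A) • S.Sk k l else 0) +
      (if i = k then (16 * X l A) • S.Sk k l else 0) := by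
      intro k l
      have : ∀ j B, X j B •
        (if A = B then (-(16 * ((if i = l then 1 else 0) * (if j = k then 1 else 0) -
        (if i = k then 1 else 0) * (if j = l then 1 else 0))) : ℂ) else 0) • S.Sk k l =
        (if A = B then ((if i = l then (if j = k then (-16 * X j B) • S.Sk k l else 0) else 0) +
          (if i = k then (if j = l then (16 * X j B) • S.Sk k l else 0) else 0)) else 0) := by
        intro j B
        split_ifs <;> simp [smul_smul] <;> ring_nf
      simp only [this, Finset.sum_ite_eq, Finset.mem_univ, if_true, Finset.sum_add_distrib]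
      congr 1
      · by_cases h : i = l <;> simp [h]
      · by_cases h : i = k <;> simp [h]
    simp only [e2, Finset.sum_add_distrib, Finset.sum_ite_eq, Finset.mem_univ, if_true]
    rw [Finset.sum_comm (f := fun x x_1 => if i = x then (16 * X x_1 A) • S.Sk x x_1 else 0)]
    simp only [Finset.sum_ite_eq, Finset.mem_univ, if_true]
    rw [← Finset.sum_add_distrib, Finset.smul_sum, ← Finset.sum_neg_distrib]
    refine Finset.sum_congr rfl fun j _ => ?_
    rw [S.Sk_antisymm i j]
    module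
  have h4 : ∑ k, ∑ l, ∑ j, ∑ B, X j B • (Complex.I / 2) •
      S.bil (-(S.g j * S.g2 k l) * (S.g i * S.g2 k l)) B A =
      (20 * Complex.I) • ∑ j, ∑ B, X j B • S.bil (S.g j * S.g i) B A := by
    have e1 : ∀ j, ∑ k, ∑ l, -(S.g j * S.g2 k l) * (S.g i * S.g2 k l) =
        (40 : ℂ) • (S.g j * S.g i) := by
      intro j
      have e2 : ∀ k l, -(S.g j * S.g2 k l) * (S.g i * S.g2 k l) =
          -(S.g j * (S.g2 k l * S.g i * S.g2 k l)) := by
        intro k l; noncomm_ring
      simp only [e2, Finset.sum_neg_distrib, ← Finset.mul_sum]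
      rw [sum_g2_g_g2]
      simp
    have e4 : ∑ k, ∑ l, ∑ j, ∑ B, X j B • (Complex.I / 2) •
        S.bil (-(S.g j * S.g2 k l) * (S.g i * S.g2 k l)) B A =
        ∑ j, ∑ B, X j B • (Complex.I / 2) •
          S.bil (∑ k, ∑ l, -(S.g j * S.g2 k l) * (S.g i * S.g2 k l)) B A := by
      have : ∀ k, ∑ l, ∑ j, ∑ B, X j B • (Complex.I / 2) •
        S.bil (-(S.g j * S.g2 k l) * (S.g i * S.g2 k l)) B A = ∑ j, ∑ B, ∑ l, X j B •
        (Complex.I / 2) • S.bil (-(S.g j * S.g2 k l) * (S.g i * S.g2 k l)) B A := by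
        intro k
        rw [Finset.sum_comm]
        refine Finset.sum_congr rfl fun j _ => ?_
        rw [Finset.sum_comm]
      simp only [this]
      rw [Finset.sum_comm]
      refine Finset.sum_congr rfl fun j _ => ?_
      rw [Finset.sum_comm]
      refine Finset.sum_congr rfl fun B _ => ?_
      simp only [S.bil_sum, Finset.smul_sum]
    rw [e4]
    simp only [e1, bil_smul, Finset.smul_sum]
    refine Finset.sum_congr rfl fun j _ => Finset.sum_congr rfl fun B _ => ?_
    module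
  rw [h3, h4]
  abel

/-- (P1) for `M^{G}` -/
lemma P1G (X : Fin 9 → Fin 3 → ℂ) (i : Fin 9) (A : Fin 3) :
    ∑ β, S.vec (S.g i) A β * S.MG X β =
      -∑ β, S.MG X β * S.vec (S.g i) A β
      - Complex.I • ∑ β, S.Bv X β * S.vec (S.g i) A β
      - (4 : ℂ) • ∑ j, X j A • S.Sk j i
      + (24 * Complex.I * X i A) • (1 : R)
      + (14 : ℂ) • ∑ B, ∑ C, ((eps C B A : ℂ) * X i B) • S.sG C := by
  have h1 : ∑ β, S.vec (S.g i) A β * S.MG X β = ∑ C, ∑ j, ∑ B, ∑ A', ((eps B A' C : ℂ) * X j B) •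
      ∑ β, S.vec (S.g i) A β * (S.vec (S.g j) A' β * S.sG C) := by
    simp only [MG, Finset.mul_sum, Finset.sum_mul, Finset.smul_sum, smul_mul_assoc,
      mul_smul_comm]
    rw [Finset.sum_comm]
    refine Finset.sum_congr rfl fun C _ => ?_
    rw [Finset.sum_comm]
    refine Finset.sum_congr rfl fun j _ => ?_
    rw [Finset.sum_comm]
    refine Finset.sum_congr rfl fun B _ => ?_
    rw [Finset.sum_comm]
  have h2 : ∑ β, S.MG X β * S.vec (S.g i) A β = ∑ C, ∑ j, ∑ B, ∑ A', ((eps B A' C : ℂ) * X j B) •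
      ∑ β, (S.vec (S.g j) A' β * S.sG C) * S.vec (S.g i) A β := by
    simp only [MG, Finset.sum_mul, Finset.smul_sum, smul_mul_assoc]
    rw [Finset.sum_comm]
    refine Finset.sum_congr rfl fun C _ => ?_
    rw [Finset.sum_comm]
    refine Finset.sum_congr rfl fun j _ => ?_
    rw [Finset.sum_comm]
    refine Finset.sum_congr rfl fun B _ => ?_
    rw [Finset.sum_comm]
  rw [h1, h2, S.Bv_mul_vec]
  simp only [S.F1G, smul_add, smul_sub, Finset.sum_add_distrib, Finset.sum_sub_distrib,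
    S.g_symm]
  have h3 : ∑ C, ∑ j, ∑ B, ∑ A', ((eps B A' C : ℂ) * X j B) •
      (if A = A' then (S.g i * S.g j).trace else 0) • S.sG C =
      (16 : ℂ) • ∑ B, ∑ C, ((eps C B A : ℂ) * X i B) • S.sG C := by
    simp only [trace_gg, ite_smul, zero_smul, smul_ite, smul_zero, Finset.sum_ite_eq,
      Finset.mem_univ, if_true]
    have : ∀ C, ∑ j, ∑ B, (if i = j then ((eps B A C : ℂ) * X j B) • (16:ℂ) • S.sG C else 0) =
        ∑ B, ((eps B A C : ℂ) * X i B) • (16:ℂ) • S.sG C := by
      intro C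
      rw [Finset.sum_comm]; simp
    simp only [this]
    rw [Finset.sum_comm, Finset.smul_sum]
    refine Finset.sum_congr rfl fun B _ => ?_
    rw [Finset.smul_sum]
    refine Finset.sum_congr rfl fun C _ => ?_
    rw [eps_cyc B A C, smul_comm]
  have h4 : ∑ C, ∑ j, ∑ B, ∑ A', ((eps B A' C : ℂ) * X j B) •
      Complex.I • ∑ E, (eps C A E : ℂ) • S.bil (S.g j * S.g i) A' E =
      Complex.I • ∑ j, X j A • S.tot (S.g j * S.g i) -
      Complex.I • ∑ j, ∑ B, X j B • S.bil (S.g j * S.g i) A B := by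
    have e1 : ∑ C, ∑ j, ∑ B, ∑ A', ((eps B A' C : ℂ) * X j B) •
      Complex.I • ∑ E, (eps C A E : ℂ) • S.bil (S.g j * S.g i) A' E =
      Complex.I • ∑ j, ∑ B, ∑ A', ∑ E, (X j B * ∑ C, (eps B A' C : ℂ) * (eps C A E : ℂ)) •
        S.bil (S.g j * S.g i) A' E := by
      rw [Finset.sum_comm, Finset.smul_sum]
      refine Finset.sum_congr rfl fun j _ => ?_
      rw [Finset.sum_comm, Finset.smul_sum]
      refine Finset.sum_congr rfl fun B _ => ?_
      rw [Finset.sum_comm, Finset.smul_sum]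
      refine Finset.sum_congr rfl fun A' _ => ?_
      simp only [Finset.smul_sum, Finset.mul_sum, Finset.sum_smul, smul_smul]
      rw [Finset.sum_comm]
      refine Finset.sum_congr rfl fun E _ => Finset.sum_congr rfl fun C _ => ?_
      congr 1; ring
    rw [e1]
    simp only [eps_contr, mul_sub, sub_smul, Finset.sum_sub_distrib, smul_sub]
    refine congrArg₂ HSub.hSub ?_ ?_
    · refine congrArg (HSMul.hSMul Complex.I) ?_
      refine Finset.sum_congr rfl fun j _ => ?_
      have : ∀ B A' E, (X j B * ((if B = A then 1 else 0) * (if A' = E then 1 else 0))) •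
          S.bil (S.g j * S.g i) A' E = if B = A then (if A' = E then X j B •
          S.bil (S.g j * S.g i) A' E else 0) else 0 := by
        intro B A' E; split_ifs <;> simp
      simp only [this, Finset.sum_ite_irrel, Finset.sum_const_zero, Finset.sum_ite_eq,
        Finset.sum_ite_eq', Finset.mem_univ, if_true, tot, Finset.smul_sum]
    · refine congrArg (HSMul.hSMul Complex.I) ?_
      refine Finset.sum_congr rfl fun j _ => Finset.sum_congr rfl fun B _ => ?_
      have : ∀ A' E, (X j B * ((if B = E then 1 else 0) * (if A' = A then 1 else 0))) •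
          S.bil (S.g j * S.g i) A' E = if A' = A then (if B = E then X j B •
          S.bil (S.g j * S.g i) A' E else 0) else 0 := by
        intro A' E; split_ifs <;> simp
      simp only [this, Finset.sum_ite_irrel, Finset.sum_const_zero, Finset.sum_ite_eq,
        Finset.sum_ite_eq', Finset.mem_univ, if_true]
  have h5 : Complex.I • ∑ j, X j A • S.tot (S.g j * S.g i) =
      -((4 : ℂ) • ∑ j, X j A • S.Sk j i) + (24 * Complex.I * X i A) • (1 : R) := by
    simp only [tot_gg, smul_add, Finset.sum_add_distrib]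
    congr 1
    · rw [← neg_smul, Finset.smul_sum, Finset.smul_sum]
      refine Finset.sum_congr rfl fun j _ => ?_
      simp only [smul_smul]
      congr 1
      linear_combination (4 * X j A) * Complex.I_mul_I
    · simp only [ite_smul, zero_smul, smul_ite, smul_zero, Finset.sum_ite_eq', Finset.mem_univ,
        if_true, smul_smul]
      congr 1; ring
  have h6 : Complex.I • ∑ j, ∑ B, X j B • S.bil (S.g j * S.g i) A B =
      Complex.I • ∑ j, ∑ B, X j B • S.bil (S.g j * S.g i) B A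
      + (2 : ℂ) • ∑ B, ∑ C, ((eps C B A : ℂ) * X i B) • S.sG C := by
    have e1 : ∀ j B, S.bil (S.g j * S.g i) A B =
        (if A = B then (if j = i then (16:ℂ) else 0) else 0) • (1 : R)
        - (if j = i then (2:ℂ) else 0) • S.bil 1 B A + S.bil (S.g j * S.g i) B A := by
      intro j B
      rw [S.bil_swap, Matrix.transpose_mul, S.g_symm, S.g_symm, S.g_swap i j, bil_sub, bil_smul,
        trace_gg]
      have hc : (if i = j then (2:ℂ) else 0) = (if j = i then (2:ℂ) else 0) := by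
        simp only [eq_comm]
      rw [hc]
      have hd : (if A = B then (if j = i then (16:ℂ) else 0) • (1 : R) else 0) =
          (if A = B then (if j = i then (16:ℂ) else 0) else 0) • (1 : R) := by
        split_ifs <;> simp
      rw [hd]
      abel
    simp only [e1, smul_add, smul_sub, Finset.sum_add_distrib, Finset.sum_sub_distrib]
    have e2 : ∑ j, ∑ B, X j B • (if A = B then (if j = i then (16:ℂ) else 0) else 0) • (1 : R) =
        (16 * X i A) • (1 : R) := by
      simp only [ite_smul, zero_smul, smul_ite, smul_zero, Finset.sum_ite_eq, Finset.mem_univ,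
        if_true, Finset.sum_ite_eq', smul_smul]
      congr 1; ring
    have e3 : ∑ j, ∑ B, X j B • (if j = i then (2:ℂ) else 0) • S.bil 1 B A =
        (16 * X i A) • (1 : R) + (2 * Complex.I) • ∑ B, ∑ C, ((eps C B A : ℂ) * X i B) • S.sG C := by
      rw [Finset.sum_comm]
      have e31 : ∀ B, ∑ j, X j B • (if j = i then (2:ℂ) else 0) • S.bil 1 B A =
          (2 * X i B) • S.bil 1 B A := by
        intro B
        simp only [ite_smul, zero_smul, smul_ite, smul_zero, Finset.sum_ite_eq', Finset.mem_univ,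
          if_true, smul_smul]
        congr 1; ring
      rw [Finset.sum_congr rfl fun B _ => e31 B]
      simp only [S.bil_one_eq, smul_add, Finset.sum_add_distrib]
      congr 1
      · simp only [ite_smul, zero_smul, smul_ite, smul_zero, Finset.sum_ite_eq, Finset.mem_univ,
          if_true, smul_smul]
        congr 1; ring
      · simp only [Finset.smul_sum, smul_smul]
        refine Finset.sum_congr rfl fun B _ => Finset.sum_congr rfl fun C _ => ?_
        congr 1; ring
    rw [e2, e3]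
    have := Complex.I_mul_I
    rw [smul_add, smul_smul Complex.I (2 * Complex.I)]
    have e4 : Complex.I * (2 * Complex.I) = -2 := by linear_combination 2 * this
    rw [e4]
    module
  rw [h3, h4, h5, h6]
  module

end CS
end Vale.Agent.P353
end

section

open Matrix

namespace Vale.Agent.P353
namespace CS

variable {R : Type*} [Ring R] [Algebra ℂ R] (S : CS R)

lemma g_sqE (i : Fin 9) : S.g i * S.g i = 1 := by
  have h := S.g_anti i i
  simp only [if_true] at h
  have h2 : (2 : ℂ) • (S.g i * S.g i) = (2 : ℂ) • (1 : Matrix (Fin 16) (Fin 16) ℂ) := by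
    rw [two_smul, two_smul, h]; norm_num
  have h3 := congrArg (fun m => (1 / 2 : ℂ) • m) h2
  simpa [smul_smul] using h3

lemma g_swapE {i j : Fin 9} (h : i ≠ j) : S.g i * S.g j = -(S.g j * S.g i) := by
  have h1 := S.g_anti i j
  rw [if_neg h] at h1
  exact eq_neg_of_add_eq_zero_left h1

lemma g_swapE' (i j : Fin 9) : S.g i * S.g j =
    (if i = j then (2 : ℂ) • (1 : Matrix (Fin 16) (Fin 16) ℂ) else 0) - S.g j * S.g i := by
  have h1 := S.g_anti i j
  by_cases h : i = j
  · rw [if_pos h] at h1 ⊢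
    rw [eq_sub_iff_add_eq, h1]
    rw [two_smul]; norm_num
  · rw [if_neg h] at h1 ⊢
    rw [eq_sub_iff_add_eq, h1]

lemma trace_one16 : (1 : Matrix (Fin 16) (Fin 16) ℂ).trace = 16 := by
  simp [Matrix.trace_one]

lemma trace_g_g (i j : Fin 9) : (S.g i * S.g j).trace = if i = j then 16 else 0 := by
  by_cases h : i = j
  · subst h; rw [S.g_sqE, if_pos rfl, trace_one16]
  · rw [if_neg h]
    have h1 := congrArg Matrix.trace (S.g_swapE h)
    rw [Matrix.trace_neg, Matrix.trace_mul_comm (S.g j)] at h1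
    have : (2 : ℂ) * (S.g i * S.g j).trace = 0 := by linear_combination h1
    simpa using this

/-- `tr(γ^i γ^j γ^k γ^l)` -/
lemma trace_g4 (i j k l : Fin 9) : (S.g i * S.g j * (S.g k * S.g l)).trace =
    (if i = j then 1 else 0) * (if k = l then 16 else 0)
      - (if i = k then 1 else 0) * (if j = l then 16 else 0)
      + (if i = l then 1 else 0) * (if j = k then 16 else 0) := by
  have e1 : S.g i * S.g j * (S.g k * S.g l) =
      (if i = j then (2 : ℂ) • (1 : Matrix (Fin 16) (Fin 16) ℂ) else 0) * (S.g k * S.g l)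
      - S.g j * (S.g i * S.g k) * S.g l := by
    rw [S.g_swapE' i j]; noncomm_ring
  have e2 : S.g j * (S.g i * S.g k) * S.g l =
      S.g j * (if i = k then (2 : ℂ) • (1 : Matrix (Fin 16) (Fin 16) ℂ) else 0) * S.g l
      - S.g j * S.g k * (S.g i * S.g l) := by
    rw [S.g_swapE' i k]; noncomm_ring
  have e3 : S.g j * S.g k * (S.g i * S.g l) =
      S.g j * S.g k * (if i = l then (2 : ℂ) • (1 : Matrix (Fin 16) (Fin 16) ℂ) else 0)
      - S.g j * S.g k * (S.g l * S.g i) := by
    rw [S.g_swapE' i l]; noncomm_ring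
  have e4 : (S.g j * S.g k * (S.g l * S.g i)).trace = (S.g i * S.g j * (S.g k * S.g l)).trace := by
    rw [← Matrix.mul_assoc, Matrix.trace_mul_comm _ (S.g i)]
    congr 1; noncomm_ring
  have t1 := congrArg Matrix.trace e1
  have t2 := congrArg Matrix.trace e2
  have t3 := congrArg Matrix.trace e3
  rw [Matrix.trace_sub] at t1 t2 t3
  rw [e4] at t3
  have s1 : ((if i = j then (2 : ℂ) • (1 : Matrix (Fin 16) (Fin 16) ℂ) else 0) *
      (S.g k * S.g l)).trace = 2 * ((if i = j then 1 else 0) * (if k = l then 16 else 0)) := by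
    split_ifs with h1 h2 <;> simp [S.trace_g_g, *]
  have s2 : (S.g j * (if i = k then (2 : ℂ) • (1 : Matrix (Fin 16) (Fin 16) ℂ) else 0) *
      S.g l).trace = 2 * ((if i = k then 1 else 0) * (if j = l then 16 else 0)) := by
    split_ifs with h1 h2 <;> simp [S.trace_g_g, *]
  have s3 : (S.g j * S.g k * (if i = l then (2 : ℂ) • (1 : Matrix (Fin 16) (Fin 16) ℂ) else
      0)).trace = 2 * ((if i = l then 1 else 0) * (if j = k then 16 else 0)) := by
    split_ifs with h1 h2 <;> simp [S.trace_g_g, *]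
  rw [s1] at t1
  rw [s2] at t2
  rw [s3] at t3
  linear_combination (1 / 2) * t1 - (1 / 2) * t2 + (1 / 2) * t3

lemma trace_g2_g2 (i j k l : Fin 9) : (S.g2 i j * S.g2 k l).trace =
    16 * ((if i = l then 1 else 0) * (if j = k then 1 else 0)
      - (if i = k then 1 else 0) * (if j = l then 1 else 0)) := by
  have e : S.g2 i j * S.g2 k l = (1 / 4 : ℂ) • (S.g i * S.g j * (S.g k * S.g l)
      - S.g i * S.g j * (S.g l * S.g k) - S.g j * S.g i * (S.g k * S.g l)
      + S.g j * S.g i * (S.g l * S.g k)) := by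
    simp only [g2, smul_mul_smul_comm]
    congr 1
    · norm_num
    · noncomm_ring
  rw [e]
  simp only [Matrix.trace_smul, Matrix.trace_add, Matrix.trace_sub, S.trace_g4, smul_eq_mul,
    eq_comm (a := l) (b := k), eq_comm (a := j) (b := i)]
  have h16 : ∀ p : Prop, [Decidable p] → (if p then (16 : ℂ) else 0) = 16 * (if p then 1 else 0) := by
    intro p _; split_ifs <;> simp
  simp only [h16]
  ring

lemma trace_g_g2E (j k l : Fin 9) : (S.g j * S.g2 k l).trace = 0 := by
  have h : (S.g j * (S.g k * S.g l)).trace = (S.g j * (S.g l * S.g k)).trace := by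
    rw [← Matrix.trace_transpose]
    simp only [Matrix.transpose_mul, S.g_symm]
    rw [Matrix.trace_mul_comm]
  simp only [g2, Matrix.mul_smul, Matrix.mul_sub, Matrix.trace_smul, Matrix.trace_sub, h,
    sub_self, smul_zero]

lemma g2_transpose' (k l : Fin 9) : (S.g2 k l).transpose = - S.g2 k l := by
  simp only [CS.g2, Matrix.transpose_smul, Matrix.transpose_sub, Matrix.transpose_mul, S.g_symm]
  rw [← smul_neg, neg_sub]

lemma g2_swap (k l : Fin 9) : S.g2 k l = - S.g2 l k := by
  simp only [CS.g2]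
  rw [← smul_neg, neg_sub]

lemma g_g2 (j l : Fin 9) : S.g j * S.g2 j l = if j = l then 0 else S.g l := by
  by_cases h : j = l
  · subst h; simp [g2]
  · rw [if_neg h]
    have e : S.g j * S.g2 j l = (1 / 2 : ℂ) • (S.g j * S.g j * S.g l - (S.g j * S.g l) * S.g j) := by
      simp only [g2, Matrix.mul_smul]; congr 1; noncomm_ring
    rw [e, S.g_sqE, S.g_swapE h]
    have e2 : -(S.g l * S.g j) * S.g j = -(S.g l * (S.g j * S.g j)) := by noncomm_ring
    rw [e2, S.g_sqE]
    simp only [Matrix.one_mul, Matrix.mul_one, sub_neg_eq_add]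
    rw [← two_smul ℂ, smul_smul]
    norm_num

lemma sum_g_g2 (l : Fin 9) : ∑ j, S.g j * S.g2 j l = (8 : ℂ) • S.g l := by
  simp only [S.g_g2]
  rw [← Finset.sum_erase_add _ _ (Finset.mem_univ l)]
  simp only [if_true, add_zero]
  rw [Finset.sum_congr rfl (g := fun _ => S.g l)]
  · rw [Finset.sum_const]
    simp only [Finset.card_erase_of_mem, Finset.mem_univ, Finset.card_univ, Fintype.card_fin]
    rw [← Nat.cast_smul_eq_nsmul ℂ]
    norm_num
  · intro j hj
    rw [if_neg (Finset.ne_of_mem_erase hj)]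

end CS
end Vale.Agent.P353
end
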