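import Mathlib
import Vale.Agent.P353.BdU.B1

set_option linter.all false

section

open MeasureTheory Filter Topology
open scoped ContDiff

namespace Vale.Agent.P353

variable {F : Type*} [NormedAddCommGroup F] [InnerProductSpace ℂ F]

/-! ### general tools: Cauchy-Schwarz, supports, cutoff functions -/

lemma Setup.Tst.memLp {u : X3 → F} (hu : Setup.Tst u) : MemLp u 2 (volume : Measure X3) :=
  hu.1.continuous.memLp_of_hasCompactSupport hu.2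

omit [InnerProductSpace ℂ F] in
lemma memLp_norm_sq_int {f : X3 → F} (hf : MemLp f 2 (volume : Measure X3)) :
    Integrable (fun x => ‖f x‖ ^ 2) := (memLp_two_iff_integrable_sq_norm hf.1).mp hf

lemma cs_inner {f g : X3 → F} (hf : MemLp f 2 (volume : Measure X3))
    (hg : MemLp g 2 (volume : Measure X3)) :
    ‖∫ x, inner ℂ (f x) (g x)‖ ≤ Real.sqrt (∫ x, ‖f x‖ ^ 2) * Real.sqrt (∫ x, ‖g x‖ ^ 2) := by
  have hn : ∀ {f : X3 → F} (hf : MemLp f 2 (volume : Measure X3)),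
      ‖hf.toLp f‖ = Real.sqrt (∫ x, ‖f x‖ ^ 2) := by
    intro f hf
    have h1 : ‖hf.toLp f‖ ^ 2 = ∫ x, ‖f x‖ ^ 2 := by
      have h2 := inner_self_eq_norm_sq_to_K (𝕜 := ℂ) (hf.toLp f)
      rw [MeasureTheory.L2.inner_def] at h2
      have h3 : ∫ x, inner ℂ ((hf.toLp f) x) ((hf.toLp f) x) = ((∫ x, ‖f x‖ ^ 2 : ℝ) : ℂ) := by
        rw [← integral_complex_ofReal]
        refine integral_congr_ae ?_
        filter_upwards [hf.coeFn_toLp] with x hx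
        rw [hx, inner_self_eq_norm_sq_to_K]
        norm_cast
      rw [h3] at h2
      have h4 : ((‖hf.toLp f‖ ^ 2 : ℝ) : ℂ) = ((∫ x, ‖f x‖ ^ 2 : ℝ) : ℂ) := by
        rw [h2, Complex.ofReal_pow]
        rfl
      exact Complex.ofReal_injective h4
    rw [← h1, Real.sqrt_sq (norm_nonneg _)]
  have h1 : ∫ x, inner ℂ (f x) (g x) = inner ℂ (hf.toLp f) (hg.toLp g) := by
    rw [MeasureTheory.L2.inner_def]
    refine integral_congr_ae ?_
    filter_upwards [hf.coeFn_toLp, hg.coeFn_toLp] with x hx hy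
    rw [hx, hy]
  rw [h1, ← hn hf, ← hn hg]
  exact norm_inner_le_norm _ _

lemma integrable_inner_memLp {f g : X3 → F} (hf : MemLp f 2 (volume : Measure X3))
    (hg : MemLp g 2 (volume : Measure X3)) : Integrable (fun x => inner ℂ (f x) (g x)) := by
  refine (MeasureTheory.L2.integrable_inner (𝕜 := ℂ) (hf.toLp f) (hg.toLp g)).congr ?_
  filter_upwards [hf.coeFn_toLp, hg.coeFn_toLp] with x hx hy
  rw [hx, hy]

lemma Setup.Tst.exists_bound {u : X3 → F} (hu : Setup.Tst u) :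
    ∃ C r : ℝ, 0 ≤ C ∧ 0 < r ∧ (∀ x, ‖u x‖ ≤ C) ∧ ∀ x, r < ‖x‖ → u x = 0 := by
  obtain ⟨C, hC⟩ := hu.2.exists_bound_of_continuous hu.1.continuous
  obtain ⟨r, hr⟩ := hu.2.isCompact.isBounded.subset_closedBall (0 : X3)
  refine ⟨max C 0, max r 1, le_max_right _ _, lt_of_lt_of_le one_pos (le_max_right _ _),
    fun x => (hC x).trans (le_max_left _ _), fun x hx => ?_⟩
  by_contra hne
  have h1 : x ∈ tsupport u := subset_tsupport _ hne
  have h2 := hr h1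
  rw [Metric.mem_closedBall, dist_zero_right] at h2
  exact absurd hx (not_lt.mpr (h2.trans (le_max_left _ _)))

/-- cutoff functions at scale `R` with gradient bound -/
def IsCut (K R : ℝ) (χ : X3 → ℝ) : Prop :=
  ContDiff ℝ ∞ χ ∧ HasCompactSupport χ ∧ (∀ x, 0 ≤ χ x) ∧ (∀ x, χ x ≤ 1) ∧
    (∀ x, ‖x‖ ≤ R → χ x = 1) ∧ (∀ x, 2 * R ≤ ‖x‖ → χ x = 0) ∧
    (∀ j B x, |pdr j B χ x| * ‖x‖ ≤ K) ∧ (∀ j B x, ‖x‖ < R → pdr j B χ x = 0)

lemma exists_cut : ∃ K : ℝ, 0 ≤ K ∧ ∀ R : ℝ, 0 < R → ∃ χ : X3 → ℝ, IsCut K R χ := by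
  let f : ContDiffBump (0 : X3) := ⟨1, 2, one_pos, one_lt_two⟩
  have hfc : ContDiff ℝ ∞ (f : X3 → ℝ) := f.contDiff
  have hfs : HasCompactSupport (f : X3 → ℝ) := f.hasCompactSupport
  have hg : Continuous (fun y : X3 => ‖fderiv ℝ (f : X3 → ℝ) y‖ * ‖y‖) :=
    (hfc.continuous_fderiv (by simp)).norm.mul continuous_norm
  have hgs : HasCompactSupport (fun y : X3 => ‖fderiv ℝ (f : X3 → ℝ) y‖ * ‖y‖) :=
    ((hfs.fderiv (𝕜 := ℝ)).norm).mul_right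
  obtain ⟨K, hK⟩ := hgs.exists_bound_of_continuous hg
  refine ⟨max K 0, le_max_right _ _, fun R hR => ⟨fun x => f (R⁻¹ • x), ?_⟩⟩
  have hR' : 0 < R⁻¹ := inv_pos.mpr hR
  have hder : ∀ j B x, pdr j B (fun x : X3 => f (R⁻¹ • x)) x =
      R⁻¹ * fderiv ℝ (f : X3 → ℝ) (R⁻¹ • x) (EuclideanSpace.single (j, B) (1 : ℝ)) := by
    intro j B x
    have h1 : HasFDerivAt (fun x : X3 => R⁻¹ • x) (R⁻¹ • ContinuousLinearMap.id ℝ X3) x :=
      (hasFDerivAt_id x).const_smul R⁻¹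
    have h2 := ((hfc.differentiable (by simp)) (R⁻¹ • x)).hasFDerivAt.comp x h1
    have h3 : fderiv ℝ (fun x : X3 => f (R⁻¹ • x)) x = _ := h2.fderiv
    rw [pdr, h3]
    simp
  refine ⟨?_, ?_, ?_, ?_, ?_, ?_, ?_, ?_⟩
  · exact hfc.comp (contDiff_const_smul R⁻¹)
  · exact hfs.comp_smul hR'.ne'
  · intro x; exact f.nonneg
  · intro x; exact f.le_one
  · intro x hx
    refine f.one_of_mem_closedBall ?_
    rw [Metric.mem_closedBall, dist_zero_right, norm_smul, Real.norm_of_nonneg hR'.le]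
    change R⁻¹ * ‖x‖ ≤ 1
    rw [inv_mul_le_iff₀ hR]
    simpa using hx
  · intro x hx
    refine f.zero_of_le_dist ?_
    rw [dist_zero_right, norm_smul, Real.norm_of_nonneg hR'.le]
    change 2 ≤ R⁻¹ * ‖x‖
    rw [le_inv_mul_iff₀ hR]
    linarith
  · intro j B x
    rw [hder, abs_mul, abs_of_pos hR']
    have h1 : |fderiv ℝ (f : X3 → ℝ) (R⁻¹ • x) (EuclideanSpace.single (j, B) (1 : ℝ))| ≤
        ‖fderiv ℝ (f : X3 → ℝ) (R⁻¹ • x)‖ := by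
      have := (fderiv ℝ (f : X3 → ℝ) (R⁻¹ • x)).le_opNorm
        (EuclideanSpace.single (j, B) (1 : ℝ))
      simpa using this
    have h2 := hK (R⁻¹ • x)
    rw [Real.norm_of_nonneg (by positivity), norm_smul, Real.norm_of_nonneg hR'.le] at h2
    calc R⁻¹ * |fderiv ℝ (f : X3 → ℝ) (R⁻¹ • x) (EuclideanSpace.single (j, B) (1 : ℝ))| * ‖x‖
        ≤ R⁻¹ * ‖fderiv ℝ (f : X3 → ℝ) (R⁻¹ • x)‖ * ‖x‖ := by gcongr
      _ = ‖fderiv ℝ (f : X3 → ℝ) (R⁻¹ • x)‖ * (R⁻¹ * ‖x‖) := by ring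
      _ ≤ K := h2
      _ ≤ max K 0 := le_max_left _ _
  · intro j B x hx
    have h1 : (fun x : X3 => f (R⁻¹ • x)) =ᶠ[𝓝 x] fun _ => 1 := by
      have : Metric.ball (0 : X3) R ∈ 𝓝 x := Metric.isOpen_ball.mem_nhds (by simpa using hx)
      filter_upwards [this] with y hy
      refine f.one_of_mem_closedBall ?_
      rw [Metric.mem_closedBall, dist_zero_right, norm_smul, Real.norm_of_nonneg hR'.le]
      change R⁻¹ * ‖y‖ ≤ 1
      rw [inv_mul_le_iff₀ hR]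
      have : ‖y‖ < R := by simpa using hy
      linarith
    rw [pdr, h1.fderiv_eq]
    simp

end Vale.Agent.P353
end

section

open MeasureTheory Filter Topology
open scoped ContDiff

namespace Vale.Agent.P353

variable {F : Type*} [NormedAddCommGroup F] [InnerProductSpace ℂ F]

/-- square of the `L²` norm -/
noncomputable def nsq (f : X3 → F) : ℝ := ∫ x, ‖f x‖ ^ 2

omit [InnerProductSpace ℂ F] in
lemma nsq_nonneg (f : X3 → F) : 0 ≤ nsq f := integral_nonneg fun _ => by positivity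

lemma norm_toLp {f : X3 → F} (hf : MemLp f 2 (volume : Measure X3)) :
    ‖hf.toLp f‖ = Real.sqrt (nsq f) := by
  have h1 : ‖hf.toLp f‖ ^ 2 = nsq f := by
    have h2 := inner_self_eq_norm_sq_to_K (𝕜 := ℂ) (hf.toLp f)
    rw [MeasureTheory.L2.inner_def] at h2
    have h3 : ∫ x, inner ℂ ((hf.toLp f) x) ((hf.toLp f) x) = ((∫ x, ‖f x‖ ^ 2 : ℝ) : ℂ) := by
      rw [← integral_complex_ofReal]
      refine integral_congr_ae ?_
      filter_upwards [hf.coeFn_toLp] with x hx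
      rw [hx, inner_self_eq_norm_sq_to_K]
      norm_cast
    rw [h3] at h2
    have h4 : ((‖hf.toLp f‖ ^ 2 : ℝ) : ℂ) = ((∫ x, ‖f x‖ ^ 2 : ℝ) : ℂ) := by
      rw [h2, Complex.ofReal_pow]
      rfl
    exact Complex.ofReal_injective h4
  rw [← h1, Real.sqrt_sq (norm_nonneg _)]

/-- `L²` convergence -/
structure L2t (f : ℕ → X3 → F) (g : X3 → F) : Prop where
  mem : ∀ n, MemLp (f n) 2 (volume : Measure X3)
  mem' : MemLp g 2 (volume : Measure X3)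
  lim : Tendsto (fun n => nsq (fun x => f n x - g x)) atTop (𝓝 0)

namespace L2t

variable {f f' : ℕ → X3 → F} {g g' : X3 → F}

lemma lim_toLp (h : L2t f g) : Tendsto (fun n => (h.mem n).toLp (f n)) atTop (𝓝 (h.mem'.toLp g)) := by
  rw [tendsto_iff_norm_sub_tendsto_zero]
  have h1 : ∀ n, ‖(h.mem n).toLp (f n) - h.mem'.toLp g‖ =
      Real.sqrt (nsq (fun x => f n x - g x)) := by
    intro n
    rw [← MemLp.toLp_sub, norm_toLp]
    rfl
  simp only [h1]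
  have := (Real.continuous_sqrt.tendsto 0).comp h.lim
  rw [Real.sqrt_zero] at this
  exact this

lemma lim_inner (h : L2t f g) (h' : L2t f' g') :
    Tendsto (fun n => ∫ x, inner ℂ (f n x) (f' n x)) atTop (𝓝 (∫ x, inner ℂ (g x) (g' x))) := by
  have h1 : ∀ {a b : X3 → F} (ha : MemLp a 2 (volume : Measure X3))
      (hb : MemLp b 2 (volume : Measure X3)),
      ∫ x, inner ℂ (a x) (b x) = inner ℂ (ha.toLp a) (hb.toLp b) := by
    intro a b ha hb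
    rw [MeasureTheory.L2.inner_def]
    refine integral_congr_ae ?_
    filter_upwards [ha.coeFn_toLp, hb.coeFn_toLp] with x hx hy
    rw [hx, hy]
  have h2 := h.lim_toLp.inner h'.lim_toLp (𝕜 := ℂ)
  rw [h1 h.mem' h'.mem']
  refine h2.congr fun n => ?_
  rw [← h1]

lemma lim_nsq (h : L2t f g) : Tendsto (fun n => nsq (f n)) atTop (𝓝 (nsq g)) := by
  have h1 := (Complex.continuous_re.tendsto _).comp (h.lim_inner h)
  have h2 : ∀ {a : X3 → F}, (∫ x, inner ℂ (a x) (a x)).re = nsq a := by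
    intro a
    have : ∫ x, inner ℂ (a x) (a x) = ((∫ x, ‖a x‖ ^ 2 : ℝ) : ℂ) := by
      rw [← integral_complex_ofReal]
      refine integral_congr_ae (Filter.Eventually.of_forall fun x => ?_)
      simp only [inner_self_eq_norm_sq_to_K]
      norm_cast
    rw [this, Complex.ofReal_re]; rfl
  rw [h2] at h1
  refine h1.congr fun n => ?_
  simp only [Function.comp, h2]

end L2t

/-! bounded multipliers -/

lemma continuous_apply_clm {A : X3 → F →L[ℂ] F} (hA : Continuous A) {f : X3 → F}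
    (hf : AEStronglyMeasurable f (volume : Measure X3)) :
    AEStronglyMeasurable (fun x => A x (f x)) (volume : Measure X3) := by
  have hc : Continuous (fun p : (F →L[ℂ] F) × F => p.1 p.2) :=
    (isBoundedBilinearMap_apply (𝕜 := ℂ) (E := F) (F := F)).continuous
  exact hc.comp_aestronglyMeasurable (hA.aestronglyMeasurable.prodMk hf)

lemma memLp_op {A : X3 → F →L[ℂ] F} (hA : Continuous A) {C : ℝ} (hC : ∀ x, ‖A x‖ ≤ C)
    {f : X3 → F} (hf : MemLp f 2 (volume : Measure X3)) :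
    MemLp (fun x => A x (f x)) 2 (volume : Measure X3) := by
  refine MemLp.of_le_mul (c := C) hf (continuous_apply_clm hA hf.1) ?_
  refine Filter.Eventually.of_forall fun x => ?_
  exact ((A x).le_opNorm _).trans (mul_le_mul_of_nonneg_right (hC x) (norm_nonneg _))

lemma nsq_op_le {A : X3 → F →L[ℂ] F} {C : ℝ} (hC : ∀ x, ‖A x‖ ≤ C)
    {f : X3 → F} (hf : MemLp f 2 (volume : Measure X3)) :
    nsq (fun x => A x (f x)) ≤ C ^ 2 * nsq f := by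
  rw [nsq, nsq, ← integral_const_mul]
  refine integral_mono_of_nonneg (Filter.Eventually.of_forall fun x => by positivity)
    ((memLp_norm_sq_int hf).const_mul _) (Filter.Eventually.of_forall fun x => ?_)
  have h1 := ((A x).le_opNorm (f x)).trans (mul_le_mul_of_nonneg_right (hC x) (norm_nonneg _))
  have := pow_le_pow_left₀ (norm_nonneg _) h1 2
  simpa [mul_pow] using this

lemma L2t.op {f : ℕ → X3 → F} {g : X3 → F} (h : L2t f g) {A : X3 → F →L[ℂ] F}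
    (hA : Continuous A) {C : ℝ} (hC : ∀ x, ‖A x‖ ≤ C) :
    L2t (fun n x => A x (f n x)) (fun x => A x (g x)) := by
  refine ⟨fun n => memLp_op hA hC (h.mem n), memLp_op hA hC h.mem', ?_⟩
  have h1 : ∀ n, nsq (fun x => A x (f n x) - A x (g x)) ≤
      C ^ 2 * nsq (fun x => f n x - g x) := by
    intro n
    have := nsq_op_le hC ((h.mem n).sub h.mem')
    simp only [map_sub, Pi.sub_apply] at this
    exact this
  refine squeeze_zero (fun n => nsq_nonneg _) h1 ?_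
  simpa using h.lim.const_mul (C ^ 2)

omit [InnerProductSpace ℂ F] in
lemma nsq_add_le {f g : X3 → F} (hf : MemLp f 2 (volume : Measure X3))
    (hg : MemLp g 2 (volume : Measure X3)) :
    nsq (fun x => f x + g x) ≤ 2 * nsq f + 2 * nsq g := by
  rw [nsq, nsq, nsq, ← integral_const_mul, ← integral_const_mul, ← integral_add
    ((memLp_norm_sq_int hf).const_mul _) ((memLp_norm_sq_int hg).const_mul _)]
  refine integral_mono_of_nonneg (Filter.Eventually.of_forall fun x => by positivity)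
    (((memLp_norm_sq_int hf).const_mul _).add ((memLp_norm_sq_int hg).const_mul _))
    (Filter.Eventually.of_forall fun x => ?_)
  have h1 := norm_add_le (f x) (g x)
  have h2 := norm_nonneg (f x + g x)
  simp only
  nlinarith [sq_nonneg (‖f x‖ - ‖g x‖)]

lemma L2t.add {f f' : ℕ → X3 → F} {g g' : X3 → F} (h : L2t f g) (h' : L2t f' g') :
    L2t (fun n x => f n x + f' n x) (fun x => g x + g' x) := by
  refine ⟨fun n => (h.mem n).add (h'.mem n), h.mem'.add h'.mem', ?_⟩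
  have h1 : ∀ n, nsq (fun x => f n x + f' n x - (g x + g' x)) ≤
      2 * nsq (fun x => f n x - g x) + 2 * nsq (fun x => f' n x - g' x) := by
    intro n
    have := nsq_add_le ((h.mem n).sub h.mem') ((h'.mem n).sub h'.mem')
    refine le_trans (le_of_eq ?_) this
    congr 1; funext x
    simp only [Pi.sub_apply]; abel
  refine squeeze_zero (fun n => nsq_nonneg _) h1 ?_
  simpa using (h.lim.const_mul 2).add (h'.lim.const_mul 2)

lemma Lp_L2t {Ψ : Lp F 2 (volume : Measure X3)} {u : ℕ → X3 → F} (hu : ∀ n, Setup.Tst (u n))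
    (h : Tendsto (fun n => ∫ x, ‖u n x - Ψ x‖ ^ 2) atTop (𝓝 0)) : L2t u Ψ :=
  ⟨fun n => (hu n).memLp, Lp.memLp Ψ, h⟩

lemma zero_L2t {f : ℕ → X3 → F} (hf : ∀ n, Setup.Tst (f n))
    (h : Tendsto (fun n => ∫ x, ‖f n x‖ ^ 2) atTop (𝓝 0)) : L2t f (fun _ => 0) :=
  ⟨fun n => (hf n).memLp, MemLp.zero, by simpa [nsq] using h⟩

end Vale.Agent.P353
end

section

/-! # P353, uniqueness for `N = 2`: definitions (BMN deformation)

Notation in the comments: `I3 = {0,1,2}`, `I6 = {3,…,8}`, `Γ = γ^0 γ^1 γ^2`. -/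

open MeasureTheory Filter Topology
open scoped ContDiff

namespace Vale.Agent.P353

variable {F : Type*} [NormedAddCommGroup F] [InnerProductSpace ℂ F]

/-- block weights: `2` on `I3`, `1` on `I6` -/
noncomputable def aw (i : Fin 9) : ℝ := if i.val < 3 then 2 else 1

/-- `k ≠ l` lie in the same block -/
def Same (k l : Fin 9) : Prop := k ≠ l ∧ (k.val < 3 ↔ l.val < 3)

/-- coefficients of the rotation generators in the anticommutator of the supercharges -/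
noncomputable def rc (i j : Fin 9) : ℝ :=
  if i.val < 3 ∧ j.val < 3 then 2 else if 3 ≤ i.val ∧ 3 ≤ j.val then -1 else 0

/-- `det (x_0, x_1, x_2)` -/
noncomputable def det3 (x : X3) : ℝ :=
  ∑ A, ∑ B, ∑ C, (eps A B C : ℝ) * x (0, A) * x (1, B) * x (2, C)

/-- the inclusion of `Fin 3` (colour) into `Fin 9` (block `I3`) -/
def ci (A : Fin 3) : Fin 9 := ⟨A.val, by omega⟩

/-- rotation of the colour index by a `3 × 3` matrix -/
noncomputable def ro (O : Matrix (Fin 3) (Fin 3) ℝ) (x : X3) : X3 :=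
  WithLp.toLp 2 fun p => ∑ B, O p.2 B * x (p.1, B)

/-- the linear map `A_0 = diag(aw)` -/
noncomputable def A0 (x : X3) (i : Fin 9) (A : Fin 3) : ℝ := aw i * x (i, A)

/-- the linear map `A_1`: `2(x + xᵀ) - (2/3) tr x` on the `3 × 3` block, `3` on `I6` -/
noncomputable def A1 (x : X3) (i : Fin 9) (A : Fin 3) : ℝ :=
  if h : i.val < 3 then
    2 * (x (i, A) + x (ci A, ⟨i.val, h⟩)) - (if i = ci A then 2 / 3 * ∑ k, x (ci k, k) else 0)
  else 3 * x (i, A)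

namespace Setup

variable (S : Setup F)

/-- irreducibility of the Clifford module -/
def Irr : Prop := ∀ W : Submodule ℂ F, (∀ α A, ∀ v ∈ W, S.th α A v ∈ W) → W = ⊥ ∨ W = ⊤

/-- `Γ = γ^0 γ^1 γ^2` -/
noncomputable def Gam : Matrix (Fin 16) (Fin 16) ℂ := S.g 0 * S.g 1 * S.g 2

/-- `FG = i θ Γ θ` -/
noncomputable def FG : F →L[ℂ] F := Complex.I • S.tot S.Gam

/-- `M_β(x) = ∑ a_i x_i^A (γ^i Γ θ^A)_β` -/
noncomputable def MM (β : Fin 16) (x : X3) : F →L[ℂ] F :=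
  ∑ i, ∑ A, ((aw i * x (i, A) : ℝ) : ℂ) • S.vec (S.g i * S.Gam) A β

/-- free supercharge `-i (γ^i θ^A)_β ∂_i^A` -/
noncomputable def Q0 (β : Fin 16) (u : X3 → F) (x : X3) : F :=
  (-Complex.I) • ∑ i, ∑ A, S.vec (S.g i) A β (pd i A u x)

/-- BMN supercharge `Q_β + m M_β` -/
noncomputable def Qm (m : ℝ) (β : Fin 16) (u : X3 → F) (x : X3) : F :=
  S.Q β u x + (m : ℂ) • S.MM β x (u x)

/-- BMN potential -/
noncomputable def Vm (m : ℝ) (x : X3) : ℝ :=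
  S.V x + 6 * m * S.κ * det3 x + m ^ 2 / 2 * ∑ i, ∑ A, (aw i * x (i, A)) ^ 2

/-- BMN Hamiltonian `H_m = (1/16) ∑ Q_β²` in explicit form -/
noncomputable def Hm (m : ℝ) (u : X3 → F) (x : X3) : F :=
  (-(1 / 2) : ℂ) • (∑ i, ∑ A, pd i A (pd i A u) x) + ((S.Vm m x : ℝ) : ℂ) • u x + S.Fx x (u x)
    - ((3 / 4 * m : ℝ) : ℂ) • S.FG (u x)

/-- gauge and `Spin(3) × Spin(6)` invariant test functions -/
def Inv (u : X3 → F) : Prop :=
  Tst u ∧ (∀ C x, S.G C u x = 0) ∧ ∀ k l, Same k l → ∀ x, S.J k l u x = 0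

/-- weak gauge invariance -/
def wG (Ψ : X3 → F) : Prop := ∀ C, ∀ ζ, Tst ζ → ∫ x, inner ℂ (S.G C ζ x) (Ψ x) = 0

/-- weak `Spin(3) × Spin(6)` invariance -/
def wJ (Ψ : X3 → F) : Prop :=
  ∀ k l, Same k l → ∀ ζ, Tst ζ → ∫ x, inner ℂ (S.J k l ζ x) (Ψ x) = 0

/-- `Q_β Ψ = Φ` weakly -/
def wQ (m : ℝ) (β : Fin 16) (Ψ Φ : X3 → F) : Prop :=
  ∀ ζ, Tst ζ → ∫ x, inner ℂ (S.Qm m β ζ x) (Ψ x) = ∫ x, inner ℂ (ζ x) (Φ x)

/-- invariant zero modes of the BMN model -/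
def Em (m : ℝ) (Ψ : X3 → F) : Prop :=
  MemLp Ψ 2 (volume : Measure X3) ∧ S.wG Ψ ∧ S.wJ Ψ ∧ ∀ β, S.wQ m β Ψ (fun _ => 0)

/-- strong limits in the graph norm: `u_n → Ψ`, `Q_β u_n → Φ_β` -/
def Str (m : ℝ) (Ψ : X3 → F) (Φ : Fin 16 → X3 → F) : Prop :=
  ∃ u : ℕ → X3 → F, (∀ n, Tst (u n)) ∧ L2t u Ψ ∧ ∀ β, L2t (fun n => S.Qm m β (u n)) (Φ β)

/-- weak eigenfunctions of `∑ Q_β²` with eigenvalue `e` -/
def wE (m e : ℝ) (Ψ : X3 → F) : Prop :=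
  ∀ ζ, Tst ζ → ∫ x, inner ℂ (∑ β, S.Qm m β (S.Qm m β ζ) x) (Ψ x) =
    (e : ℂ) * ∫ x, inner ℂ (ζ x) (Ψ x)

/-- there is a three dimensional space of invariant test functions with
`∑ ‖Q_β u‖² < c ‖u‖²` -/
def Low (m c : ℝ) : Prop :=
  ∃ u : Fin 3 → X3 → F, (∀ j, S.Inv (u j)) ∧ ∀ a : Fin 3 → ℂ, a ≠ 0 →
    ∑ β, nsq (S.Qm m β (fun x => ∑ j, a j • u j x)) < c * nsq (fun x => ∑ j, a j • u j x)

/-- there are three linearly independent invariant zero modes -/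
def Dim3 (m : ℝ) : Prop :=
  ∃ Ψ : Fin 3 → X3 → F, (∀ j, S.Em m (Ψ j)) ∧ ∀ a : Fin 3 → ℂ, a ≠ 0 →
    0 < nsq (fun x => ∑ j, a j • Ψ j x)

/-- the resolvent `(1 + ∑ Q_β²)⁻¹` on `L²` -/
def IsRes (m : ℝ) (R : Lp F 2 (volume : Measure X3) →L[ℂ] Lp F 2 (volume : Measure X3)) : Prop :=
  (∀ f g, inner ℂ (R f) g = inner ℂ f (R g)) ∧
  ∀ f : Lp F 2 (volume : Measure X3), ∃ Φ : Fin 16 → X3 → F, S.Str m (R f) Φ ∧
    (∀ ζ, Tst ζ → (∫ x, inner ℂ (ζ x) ((R f) x)) + ∑ β, ∫ x, inner ℂ (S.Qm m β ζ x) (Φ β x) =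
      ∫ x, inner ℂ (ζ x) (f x)) ∧
    nsq (R f) + ∑ β, nsq (Φ β) = (inner ℂ (R f) f).re

/-- the critical point `ξ₀(k, A) = -(2/κ) δ_{kA}` of the potential `V_1` -/
noncomputable def xi0 : X3 :=
  WithLp.toLp 2 fun p => if p.1 = ci p.2 then -(2 / S.κ) else 0

/-- the gauge orbit of `m ξ₀` -/
def Orb (m : ℝ) : Set X3 :=
  {x | ∃ O : Matrix (Fin 3) (Fin 3) ℝ, O.transpose * O = 1 ∧ O.det = 1 ∧ x = ro O (m • S.xi0)}

/-- distance to the wells -/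
noncomputable def dm (m : ℝ) (x : X3) : ℝ := min ‖x‖ (Metric.infDist x (S.Orb m))

/-- derivative of `W_β` at `ξ` in direction `x` -/
noncomputable def DW (ξ : X3) (β : Fin 16) (x : X3) : F →L[ℂ] F :=
  (S.κ : ℂ) • ∑ A, ∑ B, ∑ C, ∑ i, ∑ j,
    ((eps A B C : ℂ) * (ξ (i, B) : ℂ) * (x (j, C) : ℂ)) • S.vec (S.g2 i j) A β

/-- linearised supercharge at `ξ` (for `m = 1`) -/
noncomputable def Qlin (ξ : X3) (β : Fin 16) (u : X3 → F) (x : X3) : F :=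
  S.Q0 β u x + S.MM β x (u x) + S.DW ξ β x (u x)

/-- `χ_α = ∑_A (γ^A θ^A)_α`, `A` running over `I3` and over the colours simultaneously -/
noncomputable def chi (α : Fin 16) : F →L[ℂ] F := ∑ A, S.vec (S.g (ci A)) A α

/-- fermionic mass term at `0` -/
noncomputable def N0 : F →L[ℂ] F := (18 : ℂ) • 1 - (3 / 4 : ℂ) • S.FG

/-- fermionic mass term at `ξ₀` -/
noncomputable def N1 : F →L[ℂ] F :=
  (38 : ℂ) • 1 - (7 / 4 : ℂ) • S.FG + Complex.I • ∑ α, ∑ β, S.Gam α β • (S.chi α * S.chi β)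

/-- `a_α^A = ½((1 - iΓ)θ^A)_α` -/
noncomputable def am (A : Fin 3) (α : Fin 16) : F →L[ℂ] F :=
  (1 / 2 : ℂ) • (S.th α A - Complex.I • S.vec S.Gam A α)

/-- `b_α^A = ½((1 + iΓ)θ^A)_α` -/
noncomputable def bm (A : Fin 3) (α : Fin 16) : F →L[ℂ] F :=
  (1 / 2 : ℂ) • (S.th α A + Complex.I • S.vec S.Gam A α)

end Setup
end Vale.Agent.P353
end

section

open MeasureTheory Filter Topology
open scoped ContDiff Matrix

namespace Vale.Agent.P353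

variable {F : Type*} [NormedAddCommGroup F] [InnerProductSpace ℂ F]

namespace Setup

variable (S : Setup F)

lemma g_sq' (i : Fin 9) : S.g i * S.g i = 1 := S.g_sqE i

lemma g_ac {i j : Fin 9} (h : i ≠ j) : S.g i * S.g j = -(S.g j * S.g i) := by
  have h1 := S.g_anti i j
  rw [if_neg h] at h1
  exact eq_neg_of_add_eq_zero_left h1

lemma Gam_transpose : S.Gamᵀ = -S.Gam := by
  unfold Gam
  rw [Matrix.transpose_mul, Matrix.transpose_mul, S.g_symm, S.g_symm, S.g_symm]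
  have h01 : S.g 0 * S.g 1 = -(S.g 1 * S.g 0) := S.g_ac (by decide)
  have h02 : S.g 0 * S.g 2 = -(S.g 2 * S.g 0) := S.g_ac (by decide)
  have h12 : S.g 1 * S.g 2 = -(S.g 2 * S.g 1) := S.g_ac (by decide)
  calc S.g 2 * (S.g 1 * S.g 0) = S.g 2 * S.g 1 * S.g 0 := by rw [mul_assoc]
    _ = -(S.g 1 * S.g 2) * S.g 0 := by rw [h12, neg_neg]
    _ = -(S.g 1 * (S.g 2 * S.g 0)) := by rw [neg_mul, mul_assoc]
    _ = S.g 1 * (S.g 0 * S.g 2) := by rw [h02, mul_neg]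
    _ = S.g 1 * S.g 0 * S.g 2 := by rw [mul_assoc]
    _ = -(S.g 0 * S.g 1 * S.g 2) := by rw [h01, neg_mul, neg_neg]

lemma Gam_sq : S.Gam * S.Gam = -1 := by
  have h : S.Gam * S.Gam = -(S.Gam * S.Gamᵀ) := by rw [Gam_transpose, mul_neg, neg_neg]
  rw [h]
  congr 1
  unfold Gam
  rw [Matrix.transpose_mul, Matrix.transpose_mul, S.g_symm, S.g_symm, S.g_symm]
  calc S.g 0 * S.g 1 * S.g 2 * (S.g 2 * (S.g 1 * S.g 0))
      = S.g 0 * S.g 1 * (S.g 2 * S.g 2) * (S.g 1 * S.g 0) := by simp only [mul_assoc]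
    _ = S.g 0 * (S.g 1 * S.g 1) * S.g 0 := by rw [S.g_sq' 2]; simp only [mul_one, mul_assoc]
    _ = 1 := by rw [S.g_sq' 1, mul_one, S.g_sq' 0]

/-- `γ^i` commutes with `Γ` for `i ∈ I3` -/
lemma g_Gam_comm {i : Fin 9} (hi : i.val < 3) : S.g i * S.Gam = S.Gam * S.g i := by
  have h01 : S.g 0 * S.g 1 = -(S.g 1 * S.g 0) := S.g_ac (by decide)
  have h02 : S.g 0 * S.g 2 = -(S.g 2 * S.g 0) := S.g_ac (by decide)
  have h12 : S.g 1 * S.g 2 = -(S.g 2 * S.g 1) := S.g_ac (by decide)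
  have hi' : i = 0 ∨ i = 1 ∨ i = 2 := by
    rcases i with ⟨i, h⟩
    simp only at hi
    interval_cases i
    · left; rfl
    · right; left; rfl
    · right; right; rfl
  unfold Gam
  rcases hi' with rfl | rfl | rfl
  · calc S.g 0 * (S.g 0 * S.g 1 * S.g 2) = S.g 0 * (S.g 0 * S.g 1 * S.g 2) := rfl
      _ = S.g 0 * (S.g 1 * (S.g 2 * S.g 0)) := by
          congr 1
          calc S.g 0 * S.g 1 * S.g 2 = -(S.g 1 * S.g 0) * S.g 2 := by rw [h01]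
            _ = -(S.g 1 * (S.g 0 * S.g 2)) := by rw [neg_mul, mul_assoc]
            _ = S.g 1 * (S.g 2 * S.g 0) := by rw [h02, mul_neg, neg_neg]
      _ = S.g 0 * S.g 1 * S.g 2 * S.g 0 := by simp only [mul_assoc]
  · calc S.g 1 * (S.g 0 * S.g 1 * S.g 2) = S.g 1 * S.g 0 * (S.g 1 * S.g 2) := by
          simp only [mul_assoc]
      _ = -(S.g 0 * S.g 1) * (S.g 1 * S.g 2) := by rw [h01, neg_neg]
      _ = S.g 0 * S.g 1 * S.g 2 * S.g 1 := by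
          rw [h12]; simp only [mul_assoc, mul_neg, neg_mul, neg_neg]
  · calc S.g 2 * (S.g 0 * S.g 1 * S.g 2) = S.g 2 * S.g 0 * S.g 1 * S.g 2 := by
          simp only [mul_assoc]
      _ = S.g 0 * S.g 1 * S.g 2 * S.g 2 := by
          congr 1
          calc S.g 2 * S.g 0 * S.g 1 = -(S.g 0 * S.g 2) * S.g 1 := by rw [h02, neg_neg]
            _ = -(S.g 0 * (S.g 2 * S.g 1)) := by rw [neg_mul, mul_assoc]
            _ = S.g 0 * S.g 1 * S.g 2 := by rw [mul_assoc (S.g 0), h12, mul_neg]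

/-- `γ^i` anticommutes with `Γ` for `i ∈ I6` -/
lemma g_Gam_anti {i : Fin 9} (hi : 3 ≤ i.val) : S.g i * S.Gam = -(S.Gam * S.g i) := by
  have h0 : S.g i * S.g 0 = -(S.g 0 * S.g i) := S.g_ac (by rintro rfl; simp at hi)
  have h1 : S.g i * S.g 1 = -(S.g 1 * S.g i) := S.g_ac (by rintro rfl; simp at hi)
  have h2 : S.g i * S.g 2 = -(S.g 2 * S.g i) := S.g_ac (by
    rintro rfl
    have : ((2 : Fin 9) : ℕ) = 2 := rfl
    omega)
  unfold Gam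
  calc S.g i * (S.g 0 * S.g 1 * S.g 2) = S.g i * S.g 0 * (S.g 1 * S.g 2) := by
        simp only [mul_assoc]
    _ = -(S.g 0 * (S.g i * S.g 1) * S.g 2) := by rw [h0]; simp only [mul_assoc, neg_mul]
    _ = S.g 0 * S.g 1 * (S.g i * S.g 2) := by
        rw [h1]; simp only [mul_assoc, mul_neg, neg_mul, neg_neg]
    _ = -(S.g 0 * S.g 1 * S.g 2 * S.g i) := by rw [h2]; simp only [mul_assoc, mul_neg]

lemma Gam_comm_g2 {k l : Fin 9} (h : Same k l) : S.g2 k l * S.Gam = S.Gam * S.g2 k l := by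
  unfold CS.g2
  rw [Matrix.smul_mul, Matrix.mul_smul]
  congr 1
  rw [sub_mul, mul_sub]
  rcases lt_or_ge k.val 3 with hk | hk
  · have hl : l.val < 3 := h.2.mp hk
    rw [mul_assoc, S.g_Gam_comm hl, ← mul_assoc, S.g_Gam_comm hk, mul_assoc (S.g l),
      S.g_Gam_comm hk, ← mul_assoc (S.g l), S.g_Gam_comm hl]
    simp only [mul_assoc]
  · have hl : 3 ≤ l.val := by
      by_contra hh
      exact absurd (h.2.mpr (by omega)) (by omega)
    rw [mul_assoc, S.g_Gam_anti hl, mul_neg, ← mul_assoc, S.g_Gam_anti hk, mul_assoc (S.g l),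
      S.g_Gam_anti hk, mul_neg, ← mul_assoc (S.g l), S.g_Gam_anti hl]
    simp only [mul_assoc, neg_mul, neg_neg]

/-- entries of `Γ` are real -/
lemma Gam_real (α β : Fin 16) : (S.Gam α β).im = 0 := by
  unfold Gam
  have h : ∀ (P Q : Matrix (Fin 16) (Fin 16) ℂ), (∀ a b, (P a b).im = 0) →
      (∀ a b, (Q a b).im = 0) → ∀ a b, ((P * Q) a b).im = 0 := by
    intro P Q hP hQ a b
    rw [Matrix.mul_apply, Complex.im_sum]
    refine Finset.sum_eq_zero fun c _ => ?_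
    rw [Complex.mul_im, hP, hQ]
    simp
  exact h _ _ (h _ _ (S.g_real 0) (S.g_real 1)) (S.g_real 2) α β

end Setup
end Vale.Agent.P353
end

section

/-! # P353, uniqueness for `N = 2`: statements of part A (algebra)

Every `…Stmt` is a proposition; a prover delivers `theorem … : …Stmt …` in a file of its own. -/

open MeasureTheory Filter Topology
open scoped ContDiff

namespace Vale.Agent.P353.U

variable {F : Type*} [NormedAddCommGroup F] [InnerProductSpace ℂ F]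

/-- **A-F10** (ten dimensional Fierz identity)
`∑_i (γ^i_{αβ} γ^i_{γδ} + γ^i_{βγ} γ^i_{αδ} + γ^i_{γα} γ^i_{βδ}) = δ_{αβ}δ_{γδ} + δ_{βγ}δ_{αδ} + δ_{γα}δ_{βδ}`.
PROOF (norm trick). All entries are real, let `T_{αβγδ}` = LHS - RHS; show `∑ T² = 0`.
With `E_{αβγδ} = ∑_i γ^i_{αβ}γ^i_{γδ} - δ_{αβ}δ_{γδ}`, `T = E_{αβγδ}+E_{βγαδ}+E_{γααβ…}` (cyclic in
`αβγ`), so `∑T² = 3 ∑ E_{αβγδ}² + 6 ∑ E_{αβγδ}E_{βγαδ}`.  `∑E² = ∑_{ij} (tr γ^iγ^j)² - 0 + 256`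
`= 9·256 + 256 - 2·∑_i (tr γ^i)² = 2560`, using `tr γ^i = 0`, and
`∑E_{αβγδ}E_{βγαδ} = ∑_{ij} tr(γ^iγ^jγ^iγ^j)-type contractions = tr ∑_{ij} γ^iγ^jγ^iγ^j - 2 ∑_i tr(γ^iγ^i) + 16`
`= 16(9 - 72) - 2·144 + 16 = -1280`. Sum: `3·2560 - 6·1280 = 0`. -/
def F10Stmt (S : Setup F) : Prop := ∀ α β γ δ : Fin 16,
  ∑ i, (S.g i α β * S.g i γ δ + S.g i β γ * S.g i α δ + S.g i γ α * S.g i β δ) =
    (if α = β ∧ γ = δ then 1 else 0) + (if β = γ ∧ α = δ then 1 else 0) +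
      (if γ = α ∧ β = δ then 1 else 0)

/-- **A-FBMN** (the Fierz identity behind the BMN deformation), verified numerically:
`-i ∑_{i,A} a_i [(γ^iθ^A)_α (γ^iΓθ^A)_β + (γ^iθ^A)_β (γ^iΓθ^A)_α]`
`   = ∑_{ij} rc_{ij} (Γγ^{ij})_{αβ} S_{ij} - (3/2) δ_{αβ} iθΓθ`.
PROOF. Both sides are `∑_A θ^A K θ^A`-type (`K` = 16×16 matrix depending on `α,β`) plus a scalar:
LHS `= -i∑ a_i ∑_{γδ} (γ^i_{αγ}(γ^iΓ)_{βδ} + (α↔β)) θ_γθ_δ`, RHS = `∑_{ij} rc_{ij}(Γγ^{ij})_{αβ}(-i/4)(γ^{ij})_{γδ}θ_γθ_δ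
 - (3/2)δ_{αβ} i Γ_{γδ}θ_γθ_δ`.
The scalar part vanishes since `∑_i a_i (γ^i (γ^iΓ)ᵀ)_{αβ} + sym = -∑a_i(γ^iΓγ^i) + sym` is symmetric part of
an antisymmetric matrix (`γ^iΓγ^i = ±Γ`), i.e. `0`. The antisymmetric (in `γδ`) part of the coefficient
gives the identity of c-numbers
`(1/2)∑_i a_i[γ^i_{αγ}(γ^iΓ)_{βδ} - γ^i_{αδ}(γ^iΓ)_{βγ} + (α↔β)] = (1/4)∑ rc_{ij}(Γγ^{ij})_{αβ}(γ^{ij})_{γδ}·… + (3/2)δ_{αβ}Γ_{γδ}`
(multiply out the factor `-i`). It can be derived from **A-F10** by multiplication with `Γ` on some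
indices, or by the norm trick: the sum over all indices of the square of the difference is a
combination of traces of products of gamma matrices and equals `0`; or use completeness: contract
both sides in `γδ` with `Γ`, `γ^{kl}`, `Γγ^k`, … (the antisymmetric 16×16 matrices are spanned by
`γ^{kl}` (36) and `γ^{klm}` (84)). Any rigorous method is fine, e.g. an explicit proof on a concrete
representation is NOT enough unless unitary equivalence of representations is also proved. -/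
def FBmnStmt (S : Setup F) : Prop := ∀ α β : Fin 16,
  (-Complex.I) • ∑ i, ∑ A, (aw i : ℂ) •
      (S.vec (S.g i) A α * S.vec (S.g i * S.Gam) A β +
        S.vec (S.g i) A β * S.vec (S.g i * S.Gam) A α) =
    (∑ i, ∑ j, ((rc i j : ℂ) * (S.Gam * S.g2 i j) α β) • S.Skl i j) -
      (if α = β then (3 / 2 : ℂ) • S.FG else 0)

/-- **A1a** the anticommutator of the undeformed supercharges, for all `α, β`:
`Q_αQ_β u + Q_βQ_α u = 2 δ_{αβ} H_0 u + 2κ ∑_{j,C} γ^j_{αβ} x_j^C G_C u`, where `H_0 = Hm 0`.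
PROOF. second order: `-{(γ^iθ^A)_α,(γ^jθ^B)_β}∂∂ = -δ_{αβ}Δ` (symmetrise in `(i,A),(j,B)`).
First order: `-i({(γ^iθ^A)_α, W_β} + {(γ^iθ^A)_β, W_α})∂_i^A` with
`{(γ^iθ^A)_α,(γ^{jk}θ^B)_β} = δ_{AB}(γ^i(γ^{jk})ᵀ)_{αβ} = -δ_{AB}(γ^iγ^{jk})_{αβ}`; symmetrised in `α,β`:
`-(γ^iγ^{jk} - γ^{jk}γ^i) = -2(δ_{ij}γ^k - δ_{ik}γ^j)`; this is the orbital part of `2κγ^jx_jG`.
Zero order from `∂W`: `-i(γ^iθ^A)_α(∂_i^AW_β) + (α↔β)`, `∂_j^B W_β = κ ε_{ABD} x_l^D (γ^{jl}θ^A)_β`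
(`fderiv_W`); by **A-F10** it equals `2δ_{αβ}F(x) + 2κγ^j_{αβ}x_j^C 𝒮_C`.
`{W_α,W_β} = ½·F^A_{ij}F^A_{kl}(γ^{ij}(γ^{kl})ᵀ)-symmetrised = 2δ_{αβ}V` (the 4-form part
vanishes by the Jacobi identity `ε_{ABC}ε_{ADE}`-type and the antisymmetry, as in the landed
`Energy.lean` for the sum over `α=β`). -/
def A1aStmt (S : Setup F) : Prop := ∀ (α β : Fin 16) (u : X3 → F), ContDiff ℝ ∞ u → ∀ x,
  S.Q α (S.Q β u) x + S.Q β (S.Q α u) x = (if α = β then (2 : ℂ) • S.Hm 0 u x else 0) +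
    (2 * S.κ : ℂ) • ∑ j, ∑ C, (S.g j α β * (x (j, C) : ℂ)) • S.G C u x

/-- **A1b** the part linear in `m`:
`Q_α(M_βu) + M_αQ_βu + Q_β(M_αu) + M_βQ_αu = ∑_{ij} rc_{ij}(Γγ^{ij})_{αβ}J_{ij}u`
`  + 2δ_{αβ}(6κ det3 - (3/4) iθΓθ) u`.
PROOF. First order: `-i∑ ({(γ^iθ^A)_α,(γ^jΓθ^A)_β} a_j x_j^A ∂_i^A + (α↔β))`,
`{(γ^iθ^A)_α,(γ^jΓθ^A)_β} = (γ^iΓᵀγ^j)_{αβ} = -(γ^iΓγ^j)_{αβ}`, symmetrised: `-(γ^iΓγ^j)+…`: for
`i,j` in the same block `-(γ^iΓγ^j) - (γ^iΓγ^j)ᵀ = -γ^iΓγ^j + γ^jΓγ^i = ∓2Γγ^{ij}`, for different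
blocks it is `0` (then `γ^iΓγ^j` is antisymmetric up to sign: check).  Orbital part of the
`J_{ij}`. `-i(γ^iθ^A)_α(∂_i^AM_β) + sym`: **A-FBMN** (Note `∂_i^A M_β = a_i(γ^iΓθ^A)_β`.)
Zero order `{W_α,M_β}+{W_β,M_α}`: `½F^A_{ij}a_kx_k^A[(γ^{ij}(γ^kΓ)ᵀ) + sym]`; for `i,j,k ∈ I3` all
different it gives `2δ_{αβ}·6κ det3`-part, all other parts vanish: the terms with `k=i` by
antisymmetry/`x_i·(x_i×x_j)=0`, the totally antisymmetric mixed parts because `ε_{ABC}x_i^Ax_j^Bx_k^C` is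
totally antisymmetric and `a_k` is summed over the three positions with signs: for one index in
`I3`, two in `I6`: coefficient `a_{I3} - 2a_{I6} = 0`; two in `I3`, one in `I6`: symmetrised matrix vanishes
or cancels similarly (`(γ^{ij}Γγ^k)` symmetric part), three in `I6`: the symmetrised matrix vanishes. -/
def A1bStmt (S : Setup F) : Prop := ∀ (α β : Fin 16) (u : X3 → F), ContDiff ℝ ∞ u → ∀ x,
  S.Q α (fun y => S.MM β y (u y)) x + S.MM α x (S.Q β u x) +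
    S.Q β (fun y => S.MM α y (u y)) x + S.MM β x (S.Q α u x) =
  (∑ i, ∑ j, ((rc i j : ℂ) * (S.Gam * S.g2 i j) α β) • S.J i j u x) +
    (if α = β then (2 : ℂ) • (((6 * S.κ * det3 x : ℝ) : ℂ) • u x - (3 / 4 : ℂ) • S.FG (u x)) else 0)

/-- **A1** the full anticommutator
`Q_αQ_β + Q_βQ_α = 2δ_{αβ}H_m + m∑ rc_{ij}(Γγ^{ij})_{αβ}J_{ij} + 2κ∑γ^j_{αβ}x_j^CG_C` for `Q = Qm m`.
PROOF: A1a + m A1b + m²{M_α,M_β}, `{M_α,M_β} = δ_{αβ}∑(a_ix_i^A)²` (from `CS.vec_anti`, `Γ² = -1`,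
`Γᵀ = -Γ`). -/
def A1Stmt (S : Setup F) : Prop := ∀ (m : ℝ) (α β : Fin 16) (u : X3 → F), ContDiff ℝ ∞ u → ∀ x,
  S.Qm m α (S.Qm m β u) x + S.Qm m β (S.Qm m α u) x =
    (if α = β then (2 : ℂ) • S.Hm m u x else 0) +
    (m : ℂ) • (∑ i, ∑ j, ((rc i j : ℂ) * (S.Gam * S.g2 i j) α β) • S.J i j u x) +
    (2 * S.κ : ℂ) • ∑ j, ∑ C, (S.g j α β * (x (j, C) : ℂ)) • S.G C u x

/-- **A2** `[J_kl, Q_α] = (i/2)(γ^{kl}Q)_α` for `k,l` in the same block. -/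
def A2Stmt (S : Setup F) : Prop := ∀ (m : ℝ) (k l : Fin 9), Same k l → ∀ (α : Fin 16) (u : X3 → F),
  ContDiff ℝ ∞ u → ∀ x, S.J k l (S.Qm m α u) x - S.Qm m α (S.J k l u) x =
    (Complex.I / 2) • ∑ β, S.g2 k l α β • S.Qm m β u x

/-- **A3** `[G_C, Q_α] = 0` -/
def A3Stmt (S : Setup F) : Prop := ∀ (m : ℝ) (C : Fin 3) (α : Fin 16) (u : X3 → F),
  ContDiff ℝ ∞ u → ∀ x, S.G C (S.Qm m α u) x = S.Qm m α (S.G C u) x

/-- **A4** `[H_m, Q_α] = -(im/2)(ΓQ)_α - iκ∑_C θ_α^C G_C`.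
PROOF from A1–A3: `16H = ∑_β Q_β²` (A1 with `α=β` summed: `tr(Γγ^{ij}) = 0`, `tr γ^j = 0`), so
`16[H,Q_γ] = ∑_β [Q_β, {Q_β,Q_γ}] = 2[Q_γ,H] + ∑_β [Q_β, m∑rc(Γγ^{ij})_{βγ}J_{ij} + 2κ∑γ^j_{βγ}x_j^CG_C]`,
hence `18[H,Q_γ] = …`; `∑_β(Γγ^{ij})_{βγ}[Q_β,J_{ij}] = -(i/2)((Γγ^{ij})ᵀγ^{ij}Q)_γ = -(i/2)(γ^{ij}Γγ^{ij}Q)_γ`
`= (i/2)(ΓQ)_γ` for `i≠j` in one block; total `(i/2)m(6·2 - 30)(ΓQ)_γ = -9im(ΓQ)_γ`;
`[Q_β, x_j^C] = -i(γ^jθ^C)_β`, `∑_βγ^j_{βγ}(γ^jθ^C)_β` summed over `j` `= 9θ_γ^C`, giving `-18iκθ^C_γG_C`. -/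
def A4Stmt (S : Setup F) : Prop := ∀ (m : ℝ) (α : Fin 16) (u : X3 → F), ContDiff ℝ ∞ u → ∀ x,
  S.Hm m (S.Qm m α u) x - S.Qm m α (S.Hm m u) x =
    (-(Complex.I * m / 2)) • (∑ β, S.Gam α β • S.Qm m β u x)
      - (Complex.I * S.κ) • ∑ C, S.th α C (S.G C u x)

/-- **A5** spinors for the gap argument: there are `ζ, η ∈ ℂ^16`, `ζ ≠ 0`, `η ≠ 0`, with `iΓζ = ζ`, `iΓη = η`,
`⟨η,ζ⟩ = 0`, `∑_{kl} rc_{kl} (ζ†Γγ^{kl}ζ) (-i/2) γ^{kl}η = -5 |ζ|² η`.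
PROOF. The matrices `iΓ`, `iγ^{12}` (indices `1,2 ∈ I3`), `iγ^{34}, iγ^{56}, iγ^{78}` commute, are Hermitian with
square `1`. (0-based indices: `I3 = {0,1,2}`.) Take a joint eigenvector `ζ` with `iΓζ = ζ` (exists:
`iΓ ≠ -1` since it is traceless, then diagonalise the others), eigenvalues `s_0,…,s_3 = ±1`. Then
`ζ†Γγ^{kl}ζ = -iζ†γ^{kl}ζ` vanishes unless `{k,l}` is one of the four planes (the other `γ^{kl}`
anticommute with one of the four matrices). Put `η = γ^{01}ζ` or `γ^{02}ζ` (which anticommutes with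
`iγ^{12}` and commutes with the rest); then `iΓη = η`, `⟨η,ζ⟩=0`, and the sum is
`∑_{planes} 2 rc (−i)(−i s_p)(−i/2)… η` with `iγ^{12}η = -s_0η`, `iγ^{p}η = s_pη`:
contributions: plane `12`: `-2`, planes in `I6`: `-1` each — total `-5` (verified numerically). -/
def A5Stmt (S : Setup F) : Prop := ∃ ζ η : Fin 16 → ℂ, ζ ≠ 0 ∧ η ≠ 0 ∧
  (∀ α, Complex.I * ∑ β, S.Gam α β * ζ β = ζ α) ∧ (∀ α, Complex.I * ∑ β, S.Gam α β * η β = η α) ∧
  ∑ α, (starRingEnd ℂ) (η α) * ζ α = 0 ∧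
  ∀ α, ∑ k, ∑ l, (rc k l : ℂ) * (∑ β, ∑ γ, (starRingEnd ℂ) (ζ β) * (S.Gam * S.g2 k l) β γ * ζ γ) *
    (-Complex.I / 2) * (∑ β, S.g2 k l α β * η β) =
      -5 * (∑ β, (starRingEnd ℂ) (ζ β) * ζ β) * η α

/-- **A6** energy formula. For test functions
`∑_β‖Q_βu‖² = 8∑‖∂_i^Au‖² + 16∫V_m|u|² + 16 Re∫⟨u,F(x)u⟩ - 12m Re∫⟨u,iθΓθ u⟩`.
PROOF: integrate by parts (`Ana.lean`), `∑_β‖Q_βu‖² = ∑_β⟨u,Q_βQ_βu⟩`, use A1 with `α=β`, or directly:
`∑_β Q_β² = 16 H_m` only needs the diagonal computations (landed for `m=0` in `Energy.lean`). -/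
def A6Stmt (S : Setup F) : Prop := ∀ (m : ℝ) (u : X3 → F), Setup.Tst u →
  ∑ β, nsq (S.Qm m β u) = 8 * ∑ i, ∑ A, nsq (pd i A u) + 16 * (∫ x, S.Vm m x * ‖u x‖ ^ 2) +
    16 * (∫ x, inner ℂ (u x) (S.Fx x (u x))).re - 12 * m * (∫ x, inner ℂ (u x) (S.FG (u x))).re

/-- **A7** `∑_β Q_βQ_β = 16 H_m` pointwise on smooth functions. -/
def A7Stmt (S : Setup F) : Prop := ∀ (m : ℝ) (u : X3 → F), ContDiff ℝ ∞ u → ∀ x,
  ∑ β, S.Qm m β (S.Qm m β u) x = (16 : ℂ) • S.Hm m u x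

/-- **A8** free energy: `∑_β‖Q0_βu‖² = 8∑‖∂_i^Au‖²` -/
def A8Stmt (S : Setup F) : Prop := ∀ (u : X3 → F), Setup.Tst u →
  ∑ β, nsq (S.Q0 β u) = 8 * ∑ i, ∑ A, nsq (pd i A u)

end Vale.Agent.P353.U
end

section

/-! # P353, uniqueness for `N = 2`: statements of part B (spectral theory for fixed `m > 0`)

`Setup F` with `F` finite dimensional. A function `Ψ : X3 → F` with `MemLp Ψ 2` represents an `L²` state. -/

open MeasureTheory Filter Topology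
open scoped ContDiff

namespace Vale.Agent.P353.U

variable {F : Type*} [NormedAddCommGroup F] [InnerProductSpace ℂ F]

/-- **B-V** lower bound of the BMN potential: `V_m ≥ c m² dist(x, wells)²`.
PROOF. Scaling: `V_m(x) = m⁴V_1(x/m)`, `dm m x = m·dm 1 (x/m)`; so `m = 1`.  With `F_{ij} = κ x_i×x_j`:
`V_1 = ½∑_{cyc (ijk) of I3}|F_{ij} + 2x_k|² + ½∑_{a∈I6}|x_a|² + ½(other |F_{ij}|² with i<j not both in I3)`.
(`V = ½∑_{i<j}|F_{ij}|²`, cross term `2x_k·F_{ij}` summed over the 3 cyclic = `6κ det3`.)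
So `V_1 ≥ ½∑_{a∈I6}|x_a|² + ½ g(X)`, `X` = the 3×3 matrix `X_{Ai} = (κ/2)·x_i^A` (columns `x_i`, `i∈I3`) up to the factor
`(4/κ)²`: with `y_i = -(κ/2)x_i`, `F_{ij} + 2x_k = (4/κ)(y_i×y_j - y_k)`.  Need
`∑_{cyc}|y_i×y_j - y_k|² ≥ c·min(|y|², dist(y, SO(3))²)` for `3×3` matrices `Y = (y_1,y_2,y_3)`: i.e.
`‖cof Y - Y‖² ≥ c min(‖Y‖², dist(Y,SO(3))²)`.  `cof(OYO') = O cof(Y) O'` for `O,O'∈SO(3)`; singular value
decomposition with `O,O'∈SO(3)`: `Y = O diag(τ) O'`, (τ may have a sign) and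
`‖cof Y - Y‖² = ∑_{cyc}(τ_iτ_j - τ_k)²`, `dist(Y,SO(3))² ≤ ∑(τ_i-1)²`. But also the sign changes
`(τ_1,τ_2,τ_3) → (-τ_1,-τ_2,τ_3)` are in `SO(3)` (so `(−1,−1,1)` is also in the orbit). Show
`∑_{cyc}(τ_iτ_j-τ_k)² ≥ c·min(∑τ_i², min over even sign changes ∑(τ_i-s_i)²)`: the zero set of the left side
is `{0} ∪ {(s_1,s_2,s_3): s_i=±1, s_1s_2s_3=1}`, at these points the Hessian is nondegenerate, and for
`|τ|→∞` the left side is `≥ c|τ|²` (if the smallest of the `|τ_i|`, say `|τ_3| ≤ |τ_1|,|τ_2|`, …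
`(τ_1τ_2-τ_3)²+(τ_2τ_3-τ_1)²+(τ_3τ_1-τ_2)²`: for all `τ`: `≥ (1/C)(|τ_1|-1)²…`).  An alternative without
SVD: compactness + expansion at the orbit using `Y = O S`, polar decomposition, `S` symmetric. Any proof is
fine; the constant `c > 0` may depend on `κ`. -/
def VBoundStmt (S : Setup F) : Prop := ∃ c : ℝ, 0 < c ∧ ∀ m : ℝ, 0 < m → ∀ x : X3,
  c * m ^ 2 * S.dm m x ^ 2 ≤ S.Vm m x

/-- **B0** coercivity, locally uniform in `m`: from A6 and B-V: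
`|⟨u,Fx u⟩| ≤ C|x||u|²`, `‖FG‖ ≤ C`, and `dm m x ≥ |x| - 6m/κ`-ish, hence
`V_m - C|x| ≥ c'|x|² - C'`. -/
def CoerStmt (S : Setup F) : Prop := ∀ a b : ℝ, 0 < a → ∃ c C : ℝ, 0 < c ∧ 0 ≤ C ∧
  ∀ m : ℝ, a ≤ m → m ≤ b → ∀ u : X3 → F, Setup.Tst u →
    c * ((∫ x, ‖x‖ ^ 2 * ‖u x‖ ^ 2) + ∑ i, ∑ A, nsq (pd i A u)) ≤
      C * nsq u + ∑ β, nsq (S.Qm m β u)

/-- **B-LR** local Rellich theorem (`F` finite dimensional). PROOF: multiply by cutoffs `χ_s`; for the functions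
`v_n = χ_s u_n` (support in a ball, bounded in `L²` with bounded gradient) use the translation estimate
and averages over small cells (`FiniteDim.lean`: `translation`, `cell`, `avg_bound`, …): the averages over
the finitely many cells of size `δ` meeting the ball form a bounded sequence in a finite dimensional space,
so a subsequence converges; `‖v_n - avg_δ v_n‖ ≤ Cδ‖∇v_n‖`. Diagonal argument in `δ = 1/k`, `s = k`; local
limits patch together. -/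
def LRStmt (F : Type*) [NormedAddCommGroup F] [InnerProductSpace ℂ F] : Prop :=
  ∀ u : ℕ → X3 → F, (∀ n, ContDiff ℝ ∞ (u n)) →
    (∀ s : ℝ, 0 < s → ∃ K : ℝ, ∀ n, (∫ x in Metric.ball (0 : X3) s, ‖u n x‖ ^ 2) +
      ∑ i, ∑ A, (∫ x in Metric.ball (0 : X3) s, ‖pd i A (u n) x‖ ^ 2) ≤ K) →
    ∃ φ : ℕ → ℕ, StrictMono φ ∧ ∃ Ψ : X3 → F, StronglyMeasurable Ψ ∧
      (∀ s : ℝ, 0 < s → IntegrableOn (fun x => ‖Ψ x‖ ^ 2) (Metric.ball (0 : X3) s)) ∧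
      ∀ s : ℝ, 0 < s → Tendsto (fun n => ∫ x in Metric.ball (0 : X3) s, ‖u (φ n) x - Ψ x‖ ^ 2)
        atTop (𝓝 0)

/-- **B-GR** global compactness: bounded energy and bounded second moment give an `L²`-convergent
subsequence. PROOF: B-LR plus tightness `∫_{|x|>s}|u|² ≤ K/s²`. -/
def GRStmt (F : Type*) [NormedAddCommGroup F] [InnerProductSpace ℂ F] : Prop :=
  ∀ (u : ℕ → X3 → F) (K : ℝ), (∀ n, Setup.Tst (u n)) →
    (∀ n, nsq (u n) + (∫ x, ‖x‖ ^ 2 * ‖u n x‖ ^ 2) + ∑ i, ∑ A, nsq (pd i A (u n)) ≤ K) →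
    ∃ φ : ℕ → ℕ, StrictMono φ ∧ ∃ Ψ : X3 → F, L2t (fun n => u (φ n)) Ψ

/-- **B1** existence of the resolvent `R = (1 + ∑Q_β²)⁻¹` (Riesz/Lax–Milgram on the closure of the graph).
PROOF. `𝓗 = L² × (L²)^{16}` (e.g. `WithLp 2` / `PiLp 2 (fun _ : Option (Fin 16) => Lp F 2)`), `𝓖` = closure of the
subspace `{(u, Q_βu) : u ∈ Tst}`. For `f ∈ L²` the functional `(w,Φ) ↦ ⟨f,w⟩` on the Hilbert space `𝓖` is
represented by `(w,Φ) = P_𝓖(f,0)` (orthogonal projection!). Put `Rf = w` = first component of `P_𝓖(f,0)`: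
linear, bounded; `⟨Rf,g⟩ = ⟨P(f,0),(g,0)⟩ = ⟨(f,0),P(g,0)⟩`; `(w,Φ)` is a limit of `(u_n,Q_βu_n)` and
`⟨(ζ,Qζ),(w,Φ)⟩ = ⟨(ζ,Qζ),(f,0)⟩ = ⟨ζ,f⟩`; `‖(w,Φ)‖² = Re⟨P(f,0),(f,0)⟩ = Re⟨Rf,f⟩`. -/
def ResStmt (S : Setup F) : Prop := ∀ m : ℝ, ∃ R, S.IsRes m R

/-- **B2** essential self-adjointness: only `0` is orthogonal to the range of `1 + ∑Q_β²` on test functions.
PROOF. Let `Ψ ⟂ range`; let `w = RΨ` (B1): `w, Q_βw ∈ L²` (strong limits), `∂w, |x|w ∈ L²` (B0) and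
`(1+∑Q²)w = Ψ` weakly. `w_{R,δ} = χ_R·(ρ_δ * w)` is a test function, and (A7: `∑Q² = 16H_m = -8Δ +` polynomial
potential) `(1+∑Q²)w_{R,δ} = χ_R ρ_δ*Ψ + χ_R[V_{tot},ρ_δ*]w - 16∇χ_R·∇(ρ_δ*w) - 8(Δχ_R)ρ_δ*w`; the commutator
is bounded on `|x| ≤ 2R` by `Cδ(1+R)³‖w‖`, the cutoff terms by `C/R(‖∂w‖+‖w‖)`. Choose `δ = R⁻⁴`, `R → ∞`:
`(1+∑Q²)w_{R,δ} → Ψ` in `L²`, so `0 = ⟨(1+∑Q²)w_{R,δ},Ψ⟩ → ‖Ψ‖²`. -/
def ESAStmt (S : Setup F) : Prop := ∀ m : ℝ, 0 < m → ∀ Ψ : X3 → F,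
  MemLp Ψ 2 (volume : Measure X3) →
  (∀ ζ, Setup.Tst ζ → ∫ x, inner ℂ (ζ x + ∑ β, S.Qm m β (S.Qm m β ζ) x) (Ψ x) = 0) → nsq Ψ = 0

/-- **B3** `R` is compact for `m > 0`. PROOF: `f_n` bounded; `Rf_n` is approximated within `1/n` in the graph
norm by `u_n ∈ Tst`; B0 gives the hypotheses of B-GR for `u_n`. -/
def RCompStmt (S : Setup F) [CompleteSpace F] : Prop := ∀ m : ℝ, 0 < m → ∀ R, S.IsRes m R →
  IsCompactOperator (R : Lp F 2 (volume : Measure X3) → Lp F 2 (volume : Measure X3))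

/-- **B4** `R` preserves invariance. PROOF: let `X ∈ {G_C, J_{kl}}` and `U_t` the corresponding one parameter
unitary group `U_tζ(x) = e^{its}ζ(R_{-t}x)` (`s` = spin part; landed for `J` as `Ut` in `RotA`–`RotF`, do the same
for `G_C`); `U_t` maps `Tst` to `Tst`, `d/dt U_tζ = iXU_tζ` (sign!), `∑Q_β²` commutes with `U_t` on test functions
(A2, A3: `[X,∑Q²]=0`; or differentiate). `f` is weakly invariant iff `U_tf = f` for all `t`. `U_tR = RU_t` by uniqueness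
of the weak solution (`w ∈ L²` with `⟨(1+∑Q²)ζ,w⟩ = ⟨ζ,f⟩ ∀ζ` is unique by B2). Hence `U_tRf = RU_tf = Rf`. -/
def RInvStmt (S : Setup F) : Prop := ∀ m : ℝ, 0 < m → ∀ R, S.IsRes m R →
  ∀ f : Lp F 2 (volume : Measure X3), S.wG f → S.wJ f → S.wG (R f) ∧ S.wJ (R f)

/-- **B5** abstract: a compact self-adjoint operator has an eigenvalue at least the Rayleigh quotient, in any
closed invariant subspace. (Mathlib: `IsSelfAdjoint`, `ContinuousLinearMap.rayleighQuotient`,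
`IsCompactOperator`, spectral theorem; apply to the restriction of `T` to `K`, and to
`T|_K` shift arguments: `sup ⟨Tv,v⟩ > c ≥ 0` is attained.) -/
def EigStmt.{v} : Prop := ∀ (H : Type v) [NormedAddCommGroup H] [InnerProductSpace ℂ H] [CompleteSpace H]
  (T : H →L[ℂ] H), (∀ f g, inner ℂ (T f) g = inner ℂ f (T g)) → IsCompactOperator T →
  ∀ K : Submodule ℂ H, IsClosed (K : Set H) → (∀ v ∈ K, T v ∈ K) → ∀ c : ℝ, 0 ≤ c →
  ∀ v ∈ K, c * ‖v‖ ^ 2 < (inner ℂ (T v) v).re →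
  ∃ μ : ℝ, c < μ ∧ ∃ w ∈ K, w ≠ 0 ∧ T w = (μ : ℂ) • w

/-- **B6** weak `L²` eigenfunctions are in the form domain.  PROOF: let `R` be as in B1, `w = R((1+e)Ψ)`; then
`⟨(1+∑Q²)ζ, Ψ - w⟩ = 0` for all `ζ` (move `Q_β` using the strong approximants of `w`), so `w = Ψ` by B2; the strong
approximants `(Φ_β)` of `w` satisfy `‖w‖²+∑‖Φ_β‖² = Re⟨w,(1+e)Ψ⟩ = (1+e)‖Ψ‖²`; they are the weak `Q_βΨ`
(`∫⟨Q_βζ,u_n⟩ = ∫⟨ζ,Q_βu_n⟩`, landed symmetry of `Q`, `M_β(x)` self-adjoint). -/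
def WEStmt (S : Setup F) : Prop := ∀ m e : ℝ, 0 < m → ∀ Ψ : X3 → F,
  MemLp Ψ 2 (volume : Measure X3) → S.wE m e Ψ →
  ∃ Φ : Fin 16 → X3 → F, S.Str m Ψ Φ ∧ (∀ β, S.wQ m β Ψ (Φ β)) ∧ ∑ β, nsq (Φ β) = e * nsq Ψ

/-- **B7** the gap: an invariant weak eigenfunction with `0 < e < 8m` vanishes (`e = 16λ`, `λ < m/2`).
PROOF. By B6 `Φ_β = Q_βΨ ∈ L²`. For `ξ ∈ ℂ^16` put `Q^ξ = ∑ξ_αQ_α`, `(Q^ξ)† = Q^{ξ̄}`; A4: `[H,Q^ξ] = ±(m/2)Q^ξ` on
gauge invariant vectors if `iΓξ = ±ξ` (weakly: test with `ζ'`, the term `θ_α^CG_C` disappears since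
`∑_Cθ^C_αG_C = ∑_CG_Cθ^C_α` and `wG`).
(1) if `iΓξ = -ξ`, `Q^ξΨ` is a weak eigenfunction with eigenvalue `16(λ - m/2) < 0`, so `Q^ξΨ = 0` by B6.
(2) `ζ, η` from A5, `Φ = Q^ηΨ`: weak eigenfunction with `16(λ+m/2)`, so B6 applies. `A = Q^ζ`, `A† = Q^{ζ̄}` and
`iΓζ̄ = -ζ̄`. `A†Φ = Q^{ζ̄}Q^ηΨ = {Q^{ζ̄},Q^η}Ψ = 0` by A1 (`⟨ζ,η⟩ = 0`, `JΨ=0`, `GΨ = 0`), weakly; the `G` term is
`⟨x_j^CG_Cζ',Ψ⟩ = ⟨G_C(x_j^Cζ'),Ψ⟩ = 0` (sum over `C`).
(3) For gauge invariant test functions `v` (`G_Cv=0`): `‖Av‖² + ‖A†v‖² = ⟨v,{A†,A}v⟩ = 2|ζ|²⟨v,Hv⟩ + m∑rc(ζ†Γγ^{kl}ζ)⟨v,J_{kl}v⟩`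
(A1; the `G`-term vanishes). Take `v = u_n` = gauge invariant approximants of `Φ` from B8 (second moment of `Φ` from B6, B0
and Fatou; `wG Φ` from `wG Ψ` and A3), `R_n → ∞`, `δ_n → 0`: `u_n → Φ`, `Q_βu_n → Q_βΦ`. Limits:
`2⟨u_n,Hu_n⟩ = (1/8)∑‖Q_βu_n‖² → (1/8)·16(λ+m/2)‖Φ‖²`; `⟨u_n,J_{kl}u_n⟩ → ⟨Φ,J_{kl}Φ⟩` where
`J_{kl}Φ = J_{kl}Q^ηΨ = (i/2)∑_αη_α(γ^{kl}Q)_αΨ = -(i/2)Q^{γ^{kl}η}Ψ ∈ L²` weakly (A2, wJ; the form `⟨u,Jv⟩` is
continuous in the graph norm by B0: `|⟨u,Jv⟩| ≤ C(‖|x|u‖+‖u‖)(‖∂v‖+‖v‖)`), `‖A†u_n‖ → ‖A†Φ‖ = 0`.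
Result with A5: `‖AΦ‖² = (2λ + m - 5m)|ζ|²‖Φ‖² ≤ 0` and `2λ < m < 4m`, so `Φ = 0`.
(4) `0 = Q^{η̄}Φ = {Q^{η̄},Q^η}Ψ = 2|η|²λΨ` (weakly), `Ψ = 0`. -/
def GapStmt (S : Setup F) : Prop := ∀ m e : ℝ, 0 < m → 0 < e → e < 8 * m → ∀ Ψ : X3 → F,
  MemLp Ψ 2 (volume : Measure X3) → S.wG Ψ → S.wJ Ψ → S.wE m e Ψ → nsq Ψ = 0

/-- **B8** (INV lemma) approximation by (invariant) test functions with support in a ball.
PROOF. `ρ_ε` radial mollifier (`ε` small), `χ_R` radial cutoff (`= 1` for `|x| ≤ R/2`, `0` for `|x| ≥ R`, gradient `≤ C/R`;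
`Tools.lean`), `u = χ_R·(ρ_ε*Ψ)`. `Q_β(ρ_ε*Ψ) = ρ_ε*Θ_β + [W_β+mM_β,ρ_ε*]Ψ` and
`|W(x)-W(x-y)| ≤ Cε(1+|x|)` for `|y| ≤ ε ≤ 1`, so the commutator is `≤ Cε‖(1+|x|)Ψ‖`; cutoff term
`-i(γθ∇χ_R)_β(ρ_ε*Ψ)` is `≤ (C/R)‖1_{|x|≥R/2}ρ_ε*Ψ‖`; `‖ρ_ε*Ψ-Ψ‖ → 0`, `‖ρ_ε*Θ-Θ‖ → 0`.
Invariance: for `v ∈ F`, `⟨v,G_C(ρ_ε*Ψ)(x)⟩ = ∫⟨G_C^{(y)}(ρ_ε(x-y)v),Ψ(y)⟩dy = 0` because the radial kernel
`ρ_ε(x-y)` is killed by the sum of the rotation generators in `x` and in `y`. Similarly `J_{kl}`. -/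
def InvLemStmt (S : Setup F) : Prop := ∀ m : ℝ, ∀ (Ψ : X3 → F) (Θ : Fin 16 → X3 → F),
  MemLp Ψ 2 (volume : Measure X3) → (∀ β, MemLp (Θ β) 2 (volume : Measure X3)) →
  (∀ β, S.wQ m β Ψ (Θ β)) → Integrable (fun x => ‖x‖ ^ 2 * ‖Ψ x‖ ^ 2) →
  ∃ C : ℝ, ∀ R : ℝ, 1 ≤ R → ∀ δ : ℝ, 0 < δ → ∃ u : X3 → F, Setup.Tst u ∧
    (∀ x, R ≤ ‖x‖ → u x = 0) ∧ (S.wG Ψ → ∀ C x, S.G C u x = 0) ∧
    (S.wJ Ψ → ∀ k l, Same k l → ∀ x, S.J k l u x = 0) ∧
    nsq (fun x => u x - Ψ x) ≤ δ + C * ∫ x, (if R / 4 ≤ ‖x‖ then ‖Ψ x‖ ^ 2 else 0) ∧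
    ∀ β, nsq (fun x => S.Qm m β u x - Θ β x) ≤ δ +
      C / R ^ 2 * (∫ x, (if R / 4 ≤ ‖x‖ then ‖Ψ x‖ ^ 2 else 0)) +
      C * ∫ x, (if R / 4 ≤ ‖x‖ then ‖Θ β x‖ ^ 2 else 0)

/-- **B9** `Low m (8m)` gives three zero modes.  PROOF. `R` from B1, compact (B3), `K` = closed subspace of weakly
invariant `L²` functions ∩ `E^⊥`, where `E = {Ψ : Rf = f, invariant}` = invariant zero modes = `Em m`
(`Rf = f` ⟺ `∑‖Φ_β‖² = 0`; conversely `Em`⊂`E` by B6 with `e = 0`). If `dim E ≤ 2` there is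
`u = ∑a_ju_j ≠ 0` orthogonal to `E`; `⟨u,u⟩² ≤ ⟨Ru,u⟩(nsq u + ∑nsq Q_βu)` (Cauchy–Schwarz in the graph space) gives
`⟨Ru,u⟩ > ‖u‖²/(1+8m)`; B5 with `T = R` on `K` (invariant under `R`: B4, self-adjointness) gives an eigenvector `w`,
`Rw = μw`, `μ > 1/(1+8m)`, i.e. `wE m e w`, `e = 1/μ - 1 < 8m`; `e ≥ 0` as `∑‖Φ‖² = e‖w‖²`. If `e > 0`: B7 gives `w = 0`. If
`e = 0`: `w ∈ E ∩ E^⊥`. -/
def LowDimStmt (S : Setup F) : Prop := ∀ m : ℝ, 0 < m → S.Low m (8 * m) → S.Dim3 m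

/-- **B10** `Dim3 m` gives `Low m c` for every `c > 0`. PROOF. Second moment of zero modes: B6 (`e = 0`) gives strong
approximants with `Q_βu_n → 0`, B0 + Fatou give `∫|x|²|Ψ|² < ∞`; then B8 with `R → ∞, δ → 0`; the three
approximants are uniformly close, compactness of the unit sphere of `ℂ³` (or explicit constants: on the
3-dimensional space all norms are equivalent). -/
def DimLowStmt (S : Setup F) : Prop := ∀ m : ℝ, 0 < m → S.Dim3 m → ∀ c : ℝ, 0 < c → S.Low m c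

/-- **Theorem B** PROOF: by B9, B10 and B0: for `m, m' ∈ [a,b]`, `|m-m'| ≤ δ`: `Low m c` with small `c` gives `Low m' (8m')`
because `∑‖Q^{m'}u‖² ≤ 2∑‖Q^mu‖² + 2(m-m')²∑‖M_βu‖²`, `∑‖M_βu‖² ≤ C∫|x|²|u|² ≤ C'(‖u‖² + ∑‖Q^mu‖²)`.
Finitely many steps connect any two positive values. -/
def ThmBStmt (S : Setup F) : Prop := ∀ m : ℝ, 0 < m → S.Low m (8 * m) →
  ∀ m' : ℝ, 0 < m' → ∀ c : ℝ, 0 < c → S.Low m' c

end Vale.Agent.P353.U
end

section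

/-! # P353, uniqueness for `N = 2`: statements of part C (semiclassical limit `m → ∞`) -/

open MeasureTheory Filter Topology
open scoped ContDiff

namespace Vale.Agent.P353.U

variable {F : Type*} [NormedAddCommGroup F] [InnerProductSpace ℂ F]

/-- rescaling around `m ξ` with the length `m^{-1/2}` -/
noncomputable def scl (m : ℝ) (ξ : X3) (u : X3 → F) (w : X3) : F := u (m • ξ + (Real.sqrt m)⁻¹ • w)

/-- **C-Vac** vacuum lemma: for a maximal isotropic subspace `𝒜` of `ℂ^48` there is exactly one vector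
(up to scalars) killed by all `θ(a) = ∑a_pθ_p`, `a ∈ 𝒜`.
PROOF. `{θ(a),θ(b)} = ∑a_pb_p`, `θ(a)† = θ(ā)`. Existence: take a basis `a_1,…` of `𝒜`; start with `v ≠ 0` and
successively replace `v` by `θ(a_j)v` if this is nonzero (it stays killed by the previous ones by anticommutation and
`θ(a_j)² = 0`). Uniqueness: let `Ω` be killed by `𝒜`, `Ω'` killed by `𝒜`, `Ω' ⟂ Ω`. Let `W` = span of
all `θ(b_1)…θ(b_k)Ω`, `b_i ∈ 𝒜̄`. `W` is stable under `θ(b)`, `b∈𝒜̄` and under `θ(a)`, `a∈𝒜` (move `θ(a)` to the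
right), hence under all `θ_p` (as `𝒜+𝒜̄ = ⊤`), so `W = ⊤` by irreducibility; but `⟨Ω',θ(b_1)…Ω⟩ = ⟨θ(b̄_1)Ω',…⟩ = 0` for
`k ≥ 1` and `⟨Ω',Ω⟩ = 0`: `Ω' ⟂ W`, so `Ω' = 0`. -/
def VacStmt (S : Setup F) : Prop := S.Irr → (∃ v : F, v ≠ 0) →
  ∀ 𝒜 : Submodule ℂ (Fin 16 × Fin 3 → ℂ),
    (∀ a ∈ 𝒜, ∀ b ∈ 𝒜, ∑ p, a p * b p = 0) →
    (∀ z : Fin 16 × Fin 3 → ℂ, ∃ a ∈ 𝒜, ∃ b ∈ 𝒜, z = a + fun p => (starRingEnd ℂ) (b p)) →
    ∃ Ω : F, ‖Ω‖ = 1 ∧ (∀ a ∈ 𝒜, ∑ p : Fin 16 × Fin 3, a p • S.th p.1 p.2 Ω = 0) ∧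
      ∀ v : F, (∀ a ∈ 𝒜, ∑ p : Fin 16 × Fin 3, a p • S.th p.1 p.2 v = 0) → ∃ c : ℂ, v = c • Ω

/-- **C-N0** the mass term at `0`: `N0 = (3/2)∑ b_α^A a_α^A ≥ 0`, kernel `= ℂΩ₀`.
PROOF: `∑_{α,A}b_αa_α = ¼∑θ(1+iΓ)ᵀ(1-iΓ)θ = ¼θ(1-iΓ)²θ = ½θ(1-iΓ)θ = 12 - ½iθΓθ` (`S.tot 1 = 24`), `b_α† = a_α`-type relations
(`(a_α^A)† = b_α^A`), so `⟨v,N0v⟩ = (3/2)∑‖a_α^Av‖²`; C-Vac with `𝒜 = {a : iΓa = …}` spanned by the coefficient
vectors of the `a_α^A`. -/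
def N0Stmt (S : Setup F) : Prop := S.Irr → (∃ v : F, v ≠ 0) →
  (∀ v : F, 0 ≤ (inner ℂ v (S.N0 v)).re) ∧ ∃ Ω : F, ‖Ω‖ = 1 ∧ (∀ A α, S.am A α Ω = 0) ∧
    S.N0 Ω = 0 ∧ (∀ v : F, (inner ℂ v (S.N0 v)).re = 0 → ∃ c : ℂ, v = c • Ω) ∧
    ∀ v : F, (∀ A α, S.am A α v = 0) → ∃ c : ℂ, v = c • Ω

/-- **C-N1** the mass term at `ξ₀`: `N1 ≥ 0`, kernel one dimensional.
PROOF. `{χ_α,χ_β} = 3δ_{αβ}`; `θ'^A = θ^A - ⅓γ^Aχ` (`A ∈ I3`) satisfies `∑_Aγ^Aθ'^A = 0` and anticommutes with `χ`;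
`∑θ^AΓθ^A = θ'Γθ' + ⅓χΓχ`, so `N1 = 38 - (7/4)iθ'Γθ' + (5/12)iχΓχ`. `θ'` spans a 32-dimensional real space, `χ` a
16-dimensional one: `28 - (7/4)iθ'Γθ' = (7/2)∑b'a'` with `a' = ½(1-iΓ)θ'` (`{θ'^A_α,θ'^B_β} = (δ_{AB} - ⅓γ^Aγ^B)_{αβ}`,
trace `32`), `10 + (5/12)iχΓχ = (5/6)∑ … = (5/6)·∑_α (½(1+iΓ)χ)_α†(…)_α`. Sum of squares ≥ 0, kernel = joint kernel of
`(θ' - iΓθ')`, `(χ + iΓχ)`; C-Vac with `𝒜` the span of their coefficient vectors (dimension 16+8 = 24, isotropic). -/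
def N1Stmt (S : Setup F) : Prop := S.Irr → (∃ v : F, v ≠ 0) →
  (∀ v : F, 0 ≤ (inner ℂ v (S.N1 v)).re) ∧ ∃ Ω : F, ‖Ω‖ = 1 ∧
    S.N1 Ω = 0 ∧ ∀ v : F, (inner ℂ v (S.N1 v)).re = 0 → ∃ c : ℂ, v = c • Ω

/-- **C-En0** energy identity at `0`: `∑‖Qlin_β v‖² = 8∑‖(∂_i^A + a_ix_i^A)v‖² + 16⟨v,N0v⟩`.
PROOF: `Qlin 0 = Q0_β + M_β` (`DW 0 = 0`); `∑_β{Q0_β,M_β}`: from A1b or directly (`κ`-free):
`(1/16)∑Qlin² = -½Δ + ½∑a_i²|x_i|² - ¾iθΓθ`, and `½∑(-∂+ax)(∂+ax) = ½(-Δ+∑a²x²) - ½·3∑a_i = … - 18`. -/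
def En0Stmt (S : Setup F) : Prop := ∀ v : X3 → F, Setup.Tst v →
  ∑ β, nsq (S.Qlin 0 β v) = 8 * (∑ i, ∑ A, nsq (fun x => pd i A v x + (A0 x i A : ℂ) • v x)) +
    16 * (∫ x, inner ℂ (v x) (S.N0 (v x))).re

/-- **C-En1** energy identity at `ξ₀`: `∑‖Qlin_β v‖² = 8∑‖(∂_i^A + (A1x)_i^A)v‖² + 16⟨v,N1v⟩`.
PROOF: `(1/16)∑Qlin² = -½Δ + ½|A_1x|² + Fx(ξ₀) - ¾iθΓθ`: the potential is the quadratic part of `V_1` at `ξ₀`:
`½∑_{cyc}|κ(ξ_i×x_j + x_i×ξ_j) + 2x_k|² + ½∑_{I6}|x_a|² + ½∑_{i∈I3,a}|κξ_i×x_a|²` `= ½|A_1x|²`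
(on the 3×3 block: `L x = 2(x+xᵀ) - 2 tr x·1`, `LᵀL = A_1²`; on `I6`: `1+8 = 9 = 3²`), `tr A_1 = 54+20+2 = 76`,
`½tr A_1 = 38`, and `Fx(ξ₀) = iχΓχ - iθΓθ` since `Fx(ξ₀) = -iε_{ABC}θ^Aγ^Cθ^B = iθ^AΓγ^{AB}θ^B` and
`θ^AΓγ^Aγ^Bθ^B = χΓχ`. (The part of the anticommutators proportional to the gauge generator has `tr γ^j = 0`.) -/
def En1Stmt (S : Setup F) : Prop := ∀ v : X3 → F, Setup.Tst v →
  ∑ β, nsq (S.Qlin S.xi0 β v) =
    8 * (∑ i, ∑ A, nsq (fun x => pd i A v x + (A1 x i A : ℂ) • v x)) +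
    16 * (∫ x, inner ℂ (v x) (S.N1 (v x))).re

/-- **C-L0** Liouville theorem at `0`: `L²` solutions of `Qlin 0 β u = 0` are multiples of the Gaussian.
PROOF. `u_δ = ρ_δ*u` smooth, in `L²`; `Qlin u_δ = [M_β,ρ_δ*]u` has norm `≤ Cδ‖u‖`. En0 for `v = χ_Ru_δ`, `R→∞`, `δ→0`:
`‖(∂+A0)v‖ → 0`, `⟨v,N0v⟩ → 0`. So weakly `(∂_i^A + a_ix_i^A)u = 0` and `⟨u,N0u⟩ = 0`. Hence `e^{½∑a x²}u` is
(weakly, so a.e.) constant, and the constant lies in `ker N0`. -/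
def L0Stmt (S : Setup F) : Prop := S.Irr → (∃ v : F, v ≠ 0) → ∃ Ω : F, ‖Ω‖ = 1 ∧
  ∀ u : X3 → F, MemLp u 2 (volume : Measure X3) →
    (∀ β ζ, Setup.Tst ζ → ∫ x, inner ℂ (S.Qlin 0 β ζ x) (u x) = 0) →
    ∃ c : ℂ, ∀ᵐ x ∂(volume : Measure X3),
      u x = (c * (Real.exp (-(∑ i, ∑ A, aw i * x (i, A) ^ 2) / 2) : ℂ)) • Ω

/-- **C-L1** Liouville theorem at `ξ₀` for polynomially bounded solutions that are invariant along the gauge directions
`T` = antisymmetric `3×3` block = kernel of `A_1`.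
PROOF. `w = (w_T, w_⊥)`; `A_1w = A_1w_⊥`, `|A_1w_⊥| ≥ 2|w_⊥|`. `u_δ = ρ_δ*u` is smooth, `∂_tu_δ = 0` for `t ∈ T`,
`Qlin u_δ = r_δ := [linear,ρ_δ*]u`, `|r_δ| ≤ Cδ ρ_δ*|u|`. Fix a bump `φ(w_T) ≥ 0` and let `f = χ_s(w_⊥)u_δ` with
`χ_s = 1` for `|w_⊥| ≤ s`, `0` for `≥ 2s`. En1 for `v = φf`; expand both sides: the `|∇φ|²` terms are equal
(`8∫|∇φ|²|f|²`); the cross terms: right side `16 Re∫φ⟨(∂_t)f,(∂_tφ)f⟩ = 0` as `∂_tf=0`, and `A_1w` has no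
`T`-component; left side `2Re∫φ∑_β⟨Qlin_βf,-i(γθ∇φ)_βf⟩`, `Qlin_βf = -i(γθ∇χ_s)_βu_δ + χ_sr_δ`, and
`Re⟨u,∑_β(γθ∇χ)_β(γθ∇φ)_βu⟩ = 8∇χ·∇φ|u|² = 0`. So (up to `r_δ`, let `δ → 0`)
`(*) 8∫φ²|(∂+A_1)f|² + 16∫φ²⟨f,N1f⟩ = 8∫φ²|∇χ_s|²|u|²`, `f = χ_su`.
Also (integrating by parts, or En1 without completing the square) the left side is
`≥ 8∫φ²(|A_1w|² - C)|f|²`. With `μ(s) = ∫φ²1_{|w_⊥|≤s}|u|²` this gives for `s ≥ s_0`:
`μ(s) ≤ Cμ(s_0) + (C/s²)μ(2s)`. Since `μ(s) ≤ K(1+s)^p`, induction on `p` shows that `μ` is bounded. Then (*) with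
`s → ∞`: `(∂+A_1)u = 0` and `⟨u,N1u⟩ = 0` on `supp φ × ⊥`, everywhere by `T`-invariance; conclude as in C-L0. -/
def L1Stmt (S : Setup F) : Prop := S.Irr → (∃ v : F, v ≠ 0) → ∃ Ω : F, ‖Ω‖ = 1 ∧
  ∀ u : X3 → F, StronglyMeasurable u →
    (∀ s : ℝ, 0 < s → IntegrableOn (fun x => ‖u x‖ ^ 2) (Metric.ball (0 : X3) s)) →
    (∃ (K : ℝ) (p : ℕ), ∀ s : ℝ, 1 ≤ s → ∫ x in Metric.ball (0 : X3) s, ‖u x‖ ^ 2 ≤ K * s ^ p) →
    (∀ β ζ, Setup.Tst ζ → ∫ x, inner ℂ (S.Qlin S.xi0 β ζ x) (u x) = 0) →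
    (∀ (C : Fin 3) ζ, Setup.Tst ζ → ∫ x, inner ℂ
      (∑ i, ∑ A, ∑ B, ((eps C A B : ℂ) * (S.xi0 (i, A) : ℂ)) • pd i B ζ x) (u x) = 0) →
    ∃ c : ℂ, ∀ᵐ x ∂(volume : Measure X3),
      u x = (c * (Real.exp (-(∑ i, ∑ A, x (i, A) * A1 x i A) / 2) : ℂ)) • Ω

/-- **C-AP** a priori bound: from A6 and B-V: `V_m ≥ cm²d²`, `|Fx(x)| + m‖FG‖ ≤ C(|x|+m) ≤ C'(d+m)` with `d = dm m x`
(`|x| ≤ d + C m`), `C'd ≤ (c/2)m²d² + C''/m²`. -/
def APStmt (S : Setup F) : Prop := ∃ C : ℝ, 0 < C ∧ ∀ m : ℝ, 1 ≤ m → ∀ u : X3 → F, Setup.Tst u →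
  m ^ 2 * (∫ x, S.dm m x ^ 2 * ‖u x‖ ^ 2) ≤ C * (m * nsq u + ∑ β, nsq (S.Qm m β u))

/-- **C-Grp** the norm of a gauge invariant function is invariant under colour rotations.
PROOF: for the one parameter groups `R_C(t)`, `d/dt‖u(R_C(t)x)‖² = 2Re⟨u,(rotation derivative)u⟩ = 2Re⟨u,±i cS_C u⟩ = 0`
(`cS_C` self-adjoint). Every `O ∈ SO(3)` is a product of three rotations about coordinate axes (Euler angles /
Givens rotations); or: `{O : ‖u(ro O x)‖ = ‖u x‖ ∀x}` is a group containing the rotations in coordinate planes. -/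
def GrpStmt (S : Setup F) : Prop := ∀ u : X3 → F, Setup.Tst u → (∀ C x, S.G C u x = 0) →
  ∀ O : Matrix (Fin 3) (Fin 3) ℝ, O.transpose * O = 1 → O.det = 1 → ∀ x, ‖u (ro O x)‖ = ‖u x‖

/-- **C-Pack** comparison of tubes around the orbit with balls around `mξ₀`.
PROOF. `Orb m` is compact (image of the compact group `SO(3)`); let `p_1,…,p_n` be a maximal `R`-separated subset.
`{dist(x,Orb) ≤ R} ⊂ ⋃ ball(p_i,2R)` up to a null set/with `≤`: choose `p ∈ Orb` with `|x-p| ≤ R` and `p_i` with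
`|p-p_i| < R`. (a) follows since `∫_{ball(p_i,s)}‖u‖² = ∫_{ball(mξ₀,s)}‖u‖²` (`p_i = ro O_i (mξ₀)`, `ro O_i` is a measure
preserving isometry). (b) `∑_i∫_{ball(p_i,s)}‖u‖² ≤ N·nsq u` where `N = max_x #{i : |p_i-x| < s} ≤ (1+2s/R)^27 ≤ (3s/R)^27`
(disjoint balls of radius `R/2` in a ball of radius `s+R/2`, dimension 27). -/
def PackStmt (S : Setup F) : Prop := ∀ m R : ℝ, 0 < m → 0 < R → ∃ n : ℝ, 0 < n ∧ ∀ u : X3 → F,
  Setup.Tst u → (∀ O : Matrix (Fin 3) (Fin 3) ℝ, O.transpose * O = 1 → O.det = 1 →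
    ∀ x, ‖u (ro O x)‖ = ‖u x‖) →
  (∫ x, (if Metric.infDist x (S.Orb m) ≤ R then ‖u x‖ ^ 2 else 0) ≤
    n * ∫ x in Metric.ball (m • S.xi0) (2 * R), ‖u x‖ ^ 2) ∧
  ∀ s : ℝ, R ≤ s → n * (∫ x in Metric.ball (m • S.xi0) s, ‖u x‖ ^ 2) ≤ (3 * s / R) ^ 27 * nsq u

/-- **C-Lim** local limits. `ξ` a critical point (`W_β(ξ)+M_β(ξ) = 0`; `ξ = 0` or `ξ₀`).
PROOF. `u_k = scl m_k ξ φ_k` is smooth and
`m^{-1/2}(Q^{m}_βφ)(mξ+m^{-1/2}w) = Qlin ξ β u(w) + m^{-3/2}W_β(w)u(w)` because `W_β(mξ+m^{-1/2}w) = m²W_β(ξ) +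
m^{1/2}DW(ξ)[w] + m^{-1}W_β(w)`, `mM_β(mξ+m^{-1/2}w) = m²M_β(ξ) + m^{1/2}M_β(w)`. Local gradient bounds: A8 for `χ_su_k`:
`8∑‖∂(χ_su_k)‖² = ∑‖Q0_β(χ_su_k)‖² ≤ 2∑‖Qlin-part‖² + C(s)‖u_k‖²_{B_{2s}}`. B-LR gives the subsequence and `u`;
pass to the limit in `∫⟨Qlin ξ β ζ,u_k⟩ = ∫⟨ζ,Qlin ξ β u_k⟩ → 0` (symmetry of `Qlin`, `ζ` has compact support).
Gauge directions: `0 = m^{-3/2}(G_Cφ)(mξ+m^{-1/2}w) = -i∑ξ_i^Aε_{CAB}∂_{iB}u_k + O(m^{-3/2})(w∂u_k,u_k)`. -/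
def LimStmt (S : Setup F) : Prop := ∀ ξ : X3, (∀ β, S.W β ξ + S.MM β ξ = 0) →
  ∀ m : ℕ → ℝ, (∀ k, 1 ≤ m k) → Tendsto m atTop atTop →
  ∀ φ : ℕ → X3 → F, (∀ k, Setup.Tst (φ k)) → ∀ P : ℝ → ℝ,
  (∀ k, ∀ s : ℝ, 0 < s → ∫ w in Metric.ball (0 : X3) s, ‖scl (m k) ξ (φ k) w‖ ^ 2 ≤ P s) →
  (∀ s : ℝ, 0 < s → Tendsto (fun k => ∑ β, ∫ w in Metric.ball (0 : X3) s,
    (m k)⁻¹ * ‖scl (m k) ξ (S.Qm (m k) β (φ k)) w‖ ^ 2) atTop (𝓝 0)) →
  ∃ ψ : ℕ → ℕ, StrictMono ψ ∧ ∃ u : X3 → F, StronglyMeasurable u ∧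
    (∀ s : ℝ, 0 < s → IntegrableOn (fun x => ‖u x‖ ^ 2) (Metric.ball (0 : X3) s)) ∧
    (∀ s : ℝ, 0 < s → Tendsto (fun k => ∫ w in Metric.ball (0 : X3) s,
      ‖scl (m (ψ k)) ξ (φ (ψ k)) w - u w‖ ^ 2) atTop (𝓝 0)) ∧
    (∀ β ζ, Setup.Tst ζ → ∫ x, inner ℂ (S.Qlin ξ β ζ x) (u x) = 0) ∧
    ((∀ k C x, S.G C (φ k) x = 0) → ∀ (C : Fin 3) ζ, Setup.Tst ζ → ∫ x, inner ℂ
      (∑ i, ∑ A, ∑ B, ((eps C A B : ℂ) * (ξ (i, A) : ℂ)) • pd i B ζ x) (u x) = 0)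

/-- **C-Crit** `ξ₀` is a critical point. -/
def CritStmt (S : Setup F) : Prop := ∀ β, S.W β S.xi0 + S.MM β S.xi0 = 0

/-- **Theorem C** for large `m` there are at most two invariant zero modes.
PROOF. Otherwise there are `m_k → ∞` with `Low m_k ε` for all `ε > 0`. By C-AP a normalised `u` with tiny energy satisfies
`∫_{d ≥ Km^{-1/2}}|u|² ≤ C/K² ≤ 1/4`, fix such a `K`. Let `n_k` be from C-Pack for `m_k`, `R_k = Km_k^{-1/2}`. Choose
`ε_k = (k·(1+n_k))⁻¹` and in the three dimensional space of `Low m_k ε_k` a unit vector `φ_k` with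
`∫⟨b(m_k^{1/2}x)Ω_0,φ_k⟩ = 0 = ∫⟨b(m_k^{1/2}(x-m_kξ₀))Ω_1,φ_k⟩`, `b ≥ 0` a fixed bump, `Ω_0,Ω_1` from C-L0, C-L1 (two linear
conditions on a three dimensional space). C-Lim at `ξ=0` for `m_k^{-27/4}φ_k` (normalised: `nsq = 1`) and C-L0: the limit
`u = c·Gaussian·Ω_0` has `∫⟨bΩ_0,u⟩ = 0`, so `u = 0` (along a subsequence): `∫_{|x|≤Km^{-1/2}}|φ_k|² → 0`. So the mass in the
tube `dist(x,Orb) ≤ R_k` is `≥ 1/2`, C-Pack (a): `μ_k := ∫_{ball(m_kξ₀,2R_k)}|φ_k|² ≥ 1/(2n_k)`, (b): the functions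
`μ_k^{-1/2}m_k^{-27/4}φ_k` have scaled local masses `≤ 2(3s/K)^27` for `s ≥ K` and local energies `≤ ε_k/(μ_k m_k) → 0`. C-Lim
at `ξ₀`, C-Crit, C-L1: limit `u = c·e^{…}Ω_1` with `∫⟨bΩ_1,u⟩ = 0`, so `c = 0`, but `∫_{ball(0,2K)}|u|² = 1`. -/
def ThmCStmt (S : Setup F) : Prop := S.Irr → (∃ v : F, v ≠ 0) →
  ∃ M : ℝ, 0 < M ∧ ∀ m : ℝ, M ≤ m → ∃ ε : ℝ, 0 < ε ∧ ¬ S.Low m ε

end Vale.Agent.P353.U
end

section

namespace Vale.Agent.P353

variable {F : Type*} [NormedAddCommGroup F] [InnerProductSpace ℂ F]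

/-- the quadratic boundary operator `i ∑_β B_β(x) M_β(x)` -/
noncomputable def Bd (S : Setup F) (x : X3) : F →L[ℂ] F :=
  Complex.I • ∑ β, S.B β x * S.Mult β x

/-- the two facts about the fermionic vacuum on flat directions -/
def VacuumStmt (S : Setup F) : Prop :=
  ∀ x : X3, ‖x‖ = 1 → S.V x = 0 → ∀ v : F,
    0 ≤ (inner ℂ v (S.Fx x v)).re + 8 * S.κ * ‖v‖ ^ 2 ∧
    ((inner ℂ v (S.Fx x v)).re + 8 * S.κ * ‖v‖ ^ 2 = 0 →
      56 * ‖v‖ ^ 2 ≤ (inner ℂ v (S.O1 v)).re ∧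
      (inner ℂ v (Bd S x v)).re ≤ 56 / 9 * ‖v‖ ^ 2)

end Vale.Agent.P353
end

section

/-! # P353, uniqueness for `N = 2`: smoothness, supports and symmetry of `G_C`, `M_β`, `Q_β` (BMN) -/

open MeasureTheory Filter Topology
open scoped ContDiff

namespace Vale.Agent.P353

variable {F : Type*} [NormedAddCommGroup F] [InnerProductSpace ℂ F]

/-! ### gauge generator -/

lemma integral_gauge_eq_zero {p q : Fin 9 × Fin 3} (hpq : p ≠ q) (w : X3 → ℂ) (hw : ContDiff ℝ 1 w)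
    (hc : HasCompactSupport w) :
    Integrable (fun x : X3 => ((x p : ℝ) : ℂ) * fderiv ℝ w x (EuclideanSpace.single q (1 : ℝ))) ∧
    ∫ x : X3, ((x p : ℝ) : ℂ) * fderiv ℝ w x (EuclideanSpace.single q (1 : ℝ)) = 0 := by
  have hcd : ContDiff ℝ 1 (fun x : X3 => ((x p : ℝ) : ℂ)) :=
    (Setup.contDiff_ofReal (Setup.contDiff_coord p)).of_le (by simp)
  have hder : ∀ (x : X3),
      fderiv ℝ (fun x : X3 => ((x p : ℝ) : ℂ) * w x) x (EuclideanSpace.single q (1 : ℝ)) =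
        ((x p : ℝ) : ℂ) * fderiv ℝ w x (EuclideanSpace.single q (1 : ℝ)) := by
    intro x
    rw [fderiv_fun_mul (hcd.differentiable (by simp) x) (hw.differentiable (by simp) x)]
    have hdp : fderiv ℝ (fun y : X3 => ((y p : ℝ) : ℂ)) x (EuclideanSpace.single q (1 : ℝ)) = 0 := by
      have hL : (fun y : X3 => y p) = (EuclideanSpace.proj (𝕜 := ℝ) p : X3 →L[ℝ] ℝ) := rfl
      have h := fderiv_ofReal_comp (d := 3) (φ := fun y : X3 => y p) (x := x)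
        (by rw [hL]; exact (EuclideanSpace.proj (𝕜 := ℝ) p : X3 →L[ℝ] ℝ).differentiableAt)
        (EuclideanSpace.single q (1 : ℝ))
      rw [h, hL, ContinuousLinearMap.fderiv]
      simp [hpq]
    simp only [_root_.add_apply, _root_.smul_apply, smul_eq_mul, hdp]
    ring
  have hcs : HasCompactSupport (fun x : X3 => ((x p : ℝ) : ℂ) * w x) := hc.mul_left
  have hsm : ContDiff ℝ 1 (fun x : X3 => ((x p : ℝ) : ℂ) * w x) := hcd.mul hw
  have hint : Integrable (fun x : X3 =>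
      fderiv ℝ (fun x : X3 => ((x p : ℝ) : ℂ) * w x) x (EuclideanSpace.single q (1 : ℝ))) :=
    ((hsm.continuous_fderiv (by simp)).clm_apply
        continuous_const).integrable_of_hasCompactSupport (hcs.fderiv_apply (𝕜 := ℝ) _)
  have hz := integral_fderiv_eq_zero _ hsm hcs (EuclideanSpace.single q (1 : ℝ))
  simp only [hder] at hint hz
  exact ⟨hint, hz⟩

namespace Setup

variable (S : Setup F)

lemma contDiff_G (C : Fin 3) {u : X3 → F} (hu : ContDiff ℝ ∞ u) : ContDiff ℝ ∞ (S.G C u) := by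
  unfold G
  refine ContDiff.add (ContDiff.const_smul _ (ContDiff.sum fun i _ => ContDiff.sum fun A _ =>
    ContDiff.sum fun B _ => ?_)) (contDiff_clm_apply' contDiff_const hu)
  exact (contDiff_const.mul (contDiff_ofReal (contDiff_coord _))).smul (contDiff_pd hu)

lemma hasCompactSupport_G (C : Fin 3) {u : X3 → F} (hu : HasCompactSupport u) :
    HasCompactSupport (S.G C u) := by
  refine HasCompactSupport.intro' (K := tsupport u) hu (isClosed_tsupport u) ?_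
  intro x hx
  have h0 : u x = 0 := image_eq_zero_of_notMem_tsupport hx
  have h1 : ∀ i A, _root_.Vale.Agent.P353.pd i A u x = 0 := by
    intro i A
    have : fderiv ℝ u x = 0 := by
      have h := (tsupport_fderiv_subset ℝ (f := u))
      by_contra hne
      exact hx (h (subset_tsupport _ hne))
    simp [_root_.Vale.Agent.P353.pd, this]
  simp [G, h0, h1]

lemma Tst.G {u : X3 → F} (hu : Tst u) (C : Fin 3) : Tst (S.G C u) :=
  ⟨S.contDiff_G C hu.1, S.hasCompactSupport_G C hu.2⟩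

lemma contDiff_MM (β : Fin 16) : ContDiff ℝ ∞ (S.MM β) := by
  unfold MM
  refine ContDiff.sum fun i _ => ContDiff.sum fun A _ => ?_
  exact (contDiff_ofReal (contDiff_const.mul (contDiff_coord _))).smul contDiff_const

/-- `M_β(x)` is symmetric -/
lemma MM_symm (β : Fin 16) (x : X3) (v w : F) :
    inner ℂ (S.MM β x v) w = inner ℂ v (S.MM β x w) := by
  have h : ∀ i, ∀ a b, ((S.g i * S.Gam) a b).im = 0 := fun i =>
    mul_im_zero (S.g_im i) S.Gam_real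
  simp only [MM, _root_.sum_apply, _root_.smul_apply, sum_inner, inner_sum, inner_smul_left,
    inner_smul_right, S.vec_symm _ (h _), Complex.conj_ofReal]

lemma Tst.MM {u : X3 → F} (hu : Tst u) (β : Fin 16) : Tst (fun x => S.MM β x (u x)) :=
  Tst.clm (S.contDiff_MM β) hu

lemma contDiff_Qm (m : ℝ) (β : Fin 16) {u : X3 → F} (hu : ContDiff ℝ ∞ u) :
    ContDiff ℝ ∞ (S.Qm m β u) := by
  unfold Qm
  exact (S.contDiff_Q β hu).add (contDiff_const.smul (contDiff_clm_apply' (S.contDiff_MM β) hu))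

lemma Tst.cst {u : X3 → F} (hu : Tst u) (c : ℂ) : Tst (fun x => c • u x) := by
  refine ⟨contDiff_const.smul hu.1, hu.2.mono ?_⟩
  intro x hx
  simp only [Function.mem_support] at hx ⊢
  intro h0
  exact hx (by rw [h0, smul_zero])

lemma Tst.zero : Tst (fun _ : X3 => (0 : F)) := ⟨contDiff_const, HasCompactSupport.zero⟩

lemma Tst.sum {ι : Type*} (s : Finset ι) {u : ι → X3 → F} (hu : ∀ j, Tst (u j)) :
    Tst (fun x => ∑ j ∈ s, u j x) := by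
  classical
  induction s using Finset.induction_on with
  | empty => simpa using Tst.zero
  | insert a s ha ih =>
    simp only [Finset.sum_insert ha]
    exact (hu a).add ih

lemma Tst.Qm {u : X3 → F} (hu : Tst u) (m : ℝ) (β : Fin 16) : Tst (S.Qm m β u) :=
  (hu.Q S β).add ((Tst.MM S hu β).cst _)

lemma Qm_add {m : ℝ} {β : Fin 16} {u v : X3 → F} {x : X3} (hu : DifferentiableAt ℝ u x)
    (hv : DifferentiableAt ℝ v x) :
    S.Qm m β (fun y => u y + v y) x = S.Qm m β u x + S.Qm m β v x := by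
  simp only [Qm, Q, pd_add hu hv, map_add, Finset.sum_add_distrib, smul_add]
  abel

lemma Qm_cst {m : ℝ} {β : Fin 16} (c : ℂ) {u : X3 → F} {x : X3} (hu : DifferentiableAt ℝ u x) :
    S.Qm m β (fun y => c • u y) x = c • S.Qm m β u x := by
  have h : ∀ i A, _root_.Vale.Agent.P353.pd i A (fun y => c • u y) x =
      c • _root_.Vale.Agent.P353.pd i A u x := by
    intro i A
    unfold _root_.Vale.Agent.P353.pd
    rw [fderiv_fun_const_smul hu]; rfl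
  simp only [Qm, Q, h, map_smul, smul_add, Finset.smul_sum]
  simp only [smul_comm c]

lemma Qm_sum {ι : Type*} (s : Finset ι) {m : ℝ} {β : Fin 16} {u : ι → X3 → F}
    (hu : ∀ j, Tst (u j)) (x : X3) :
    S.Qm m β (fun y => ∑ j ∈ s, u j y) x = ∑ j ∈ s, S.Qm m β (u j) x := by
  classical
  induction s using Finset.induction_on with
  | empty =>
    have h : ∀ i A, _root_.Vale.Agent.P353.pd i A (fun _ : X3 => (0 : F)) x = 0 := by
      intro i A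
      simp [_root_.Vale.Agent.P353.pd]
    simp [Qm, Q, h]
  | insert a s ha ih =>
    simp only [Finset.sum_insert ha]
    rw [S.Qm_add ((hu a).diff x) ((Tst.sum s hu).diff x), ih]

end Setup

/-- symmetry of the gauge generators -/
theorem G_symm (S : Setup F) (C : Fin 3) (u v : X3 → F) (hu : Setup.Tst u)
    (hv : ContDiff ℝ ∞ v) :
    ∫ x, inner ℂ (S.G C u x) (v x) = ∫ x, inner ℂ (u x) (S.G C v x) := by
  have hv1 : ContDiff ℝ 1 v := hv.of_le (by simp)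
  have hu1 : ContDiff ℝ 1 u := hu.1.of_le (by simp)
  have hw : ContDiff ℝ 1 (fun y => inner ℂ (u y) (v y)) := hu1.inner ℂ hv1
  have hcs : HasCompactSupport (fun y => inner ℂ (u y) (v y)) := hu.inner_cs
  have hd : ∀ i A x, fderiv ℝ (fun y => inner ℂ (u y) (v y)) x
      (EuclideanSpace.single (i, A) (1 : ℝ)) =
      inner ℂ (u x) (pd i A v x) + inner ℂ (pd i A u x) (v x) := by
    intro i A x
    rw [fderiv_inner_apply ℂ ((hu1.differentiable (by simp)) x) ((hv1.differentiable (by simp)) x)]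
    rfl
  have hpt : ∀ x, inner ℂ (S.G C u x) (v x) - inner ℂ (u x) (S.G C v x) =
      ∑ i, ∑ A, ∑ B, (Complex.I * (eps C A B : ℂ)) * (((x (i, A) : ℝ) : ℂ) *
        fderiv ℝ (fun y => inner ℂ (u y) (v y)) x (EuclideanSpace.single (i, B) (1 : ℝ))) := by
    intro x
    have he : ∀ A B, (starRingEnd ℂ) (eps C A B : ℂ) = (eps C A B : ℂ) := by
      intro A B
      simp
    simp only [hd, Setup.G, inner_add_left, inner_add_right, inner_smul_left, inner_smul_right,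
      sum_inner, inner_sum, S.cS_symm, Complex.conj_ofReal, map_mul, he]
    simp only [map_neg, Complex.conj_I, neg_neg]
    rw [Finset.mul_sum, neg_mul, Finset.mul_sum, add_sub_add_right_eq_sub, sub_neg_eq_add,
      ← Finset.sum_add_distrib]
    refine Finset.sum_congr rfl fun i _ => ?_
    rw [Finset.mul_sum, Finset.mul_sum, ← Finset.sum_add_distrib]
    refine Finset.sum_congr rfl fun A _ => ?_
    rw [Finset.mul_sum, Finset.mul_sum, ← Finset.sum_add_distrib]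
    refine Finset.sum_congr rfl fun B _ => ?_
    ring
  have hI : ∫ x, (inner ℂ (S.G C u x) (v x) - inner ℂ (u x) (S.G C v x)) = 0 := by
    simp only [hpt]
    have hterm : ∀ (i : Fin 9) (A B : Fin 3), Integrable (fun x : X3 =>
        (Complex.I * (eps C A B : ℂ)) * (((x (i, A) : ℝ) : ℂ) *
        fderiv ℝ (fun y => inner ℂ (u y) (v y)) x (EuclideanSpace.single (i, B) (1 : ℝ)))) ∧
        ∫ x : X3, (Complex.I * (eps C A B : ℂ)) * (((x (i, A) : ℝ) : ℂ) *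
        fderiv ℝ (fun y => inner ℂ (u y) (v y)) x (EuclideanSpace.single (i, B) (1 : ℝ))) = 0 := by
      intro i A B
      by_cases hAB : A = B
      · subst hAB
        have : (eps C A A : ℂ) = 0 := by
          fin_cases C <;> fin_cases A <;> simp [eps]
        simp [this]
      · have h1 := integral_gauge_eq_zero (p := (i, A)) (q := (i, B))
          (by simpa using hAB) _ hw hcs
        refine ⟨h1.1.const_mul _, ?_⟩
        rw [integral_const_mul, h1.2, mul_zero]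
    rw [integral_finsetSum _ fun i _ => integrable_finsetSum _ fun A _ =>
      integrable_finsetSum _ fun B _ => (hterm i A B).1]
    refine Finset.sum_eq_zero fun i _ => ?_
    rw [integral_finsetSum _ fun A _ => integrable_finsetSum _ fun B _ => (hterm i A B).1]
    refine Finset.sum_eq_zero fun A _ => ?_
    rw [integral_finsetSum _ fun B _ => (hterm i A B).1]
    exact Finset.sum_eq_zero fun B _ => (hterm i A B).2
  rw [integral_sub ((hu.G S C).inner_int hv.continuous)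
    (hu.inner_int (S.contDiff_G C hv).continuous)] at hI
  exact sub_eq_zero.mp hI

/-- symmetry of the BMN supercharges -/
theorem Qm_symm (S : Setup F) (m : ℝ) (β : Fin 16) (u v : X3 → F) (hu : Setup.Tst u)
    (hv : ContDiff ℝ ∞ v) :
    ∫ x, inner ℂ (S.Qm m β u x) (v x) = ∫ x, inner ℂ (u x) (S.Qm m β v x) := by
  have h1 : ∀ x, inner ℂ (S.Qm m β u x) (v x) = inner ℂ (S.Q β u x) (v x) +
      (m : ℂ) * inner ℂ (u x) (S.MM β x (v x)) := by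
    intro x
    simp only [Setup.Qm, inner_add_left, inner_smul_left, Complex.conj_ofReal, S.MM_symm]
  have h2 : ∀ x, inner ℂ (u x) (S.Qm m β v x) = inner ℂ (u x) (S.Q β v x) +
      (m : ℂ) * inner ℂ (u x) (S.MM β x (v x)) := by
    intro x
    simp only [Setup.Qm, inner_add_right, inner_smul_right]
  have h3 : Integrable (fun x => (m : ℂ) * inner ℂ (u x) (S.MM β x (v x))) :=
    (hu.inner_int (Setup.contDiff_clm_apply' (S.contDiff_MM β) hv).continuous).const_mul _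
  simp only [h1, h2]
  rw [integral_add ((hu.Q S β).inner_int hv.continuous) h3,
    integral_add (hu.inner_int (S.contDiff_Q β hv).continuous) h3, Q_symm S β u v hu hv]

namespace Setup

variable {S : Setup F}

/-- the strong `Q_βΨ` are the weak ones -/
lemma Str.wQ {m : ℝ} {Ψ : X3 → F} {Φ : Fin 16 → X3 → F} (h : S.Str m Ψ Φ) (β : Fin 16) :
    S.wQ m β Ψ (Φ β) := by
  obtain ⟨u, hu, h1, h2⟩ := h
  intro ζ hζ
  have hQ : Tst (S.Qm m β ζ) := hζ.Qm S m β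
  have hc : ∀ {f : X3 → F}, Tst f → L2t (fun _ : ℕ => f) f := fun {f} hf =>
    ⟨fun _ => hf.memLp, hf.memLp, by simp [nsq]⟩
  have l1 := (hc hQ).lim_inner h1
  have l2 := (hc hζ).lim_inner (h2 β)
  refine tendsto_nhds_unique l1 (l2.congr fun n => ?_)
  exact (Qm_symm S m β ζ (u n) hζ (hu n).1).symm

end Setup
end Vale.Agent.P353
end

section

/-! # P353, uniqueness for `N = 2`: weak `L²` eigenfunctions are in the form domain (B6) -/

open MeasureTheory Filter Topology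
open scoped ContDiff

namespace Vale.Agent.P353.U

variable {F : Type*} [NormedAddCommGroup F] [InnerProductSpace ℂ F]

omit [InnerProductSpace ℂ F] in
/-- an `L²` function with zero norm vanishes almost everywhere -/
lemma ae_eq_of_nsq_sub {f g : X3 → F} (hf : MemLp f 2 (volume : Measure X3))
    (hg : MemLp g 2 (volume : Measure X3)) (h : nsq (fun x => f x - g x) = 0) :
    f =ᵐ[(volume : Measure X3)] g := by
  have hi : Integrable (fun x => ‖f x - g x‖ ^ 2) := memLp_norm_sq_int (hf.sub hg)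
  have h0 := (integral_eq_zero_iff_of_nonneg (fun x => by positivity) hi).1 h
  filter_upwards [h0] with x hx
  have hx' : ‖f x - g x‖ ^ 2 = 0 := hx
  exact sub_eq_zero.1 (norm_eq_zero.1 (pow_eq_zero_iff two_ne_zero |>.1 hx'))

omit [InnerProductSpace ℂ F] in
lemma nsq_congr_ae {f g : X3 → F} (h : f =ᵐ[(volume : Measure X3)] g) : nsq f = nsq g := by
  unfold nsq
  refine integral_congr_ae ?_
  filter_upwards [h] with x hx
  rw [hx]

omit [InnerProductSpace ℂ F] in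
/-- `L²` convergence only depends on the class of the limit -/
lemma L2t_congr_ae {u : ℕ → X3 → F} {f g : X3 → F} (h : L2t u f) (hg : MemLp g 2 (volume : Measure X3))
    (hfg : f =ᵐ[(volume : Measure X3)] g) : L2t u g := by
  refine ⟨h.mem, hg, ?_⟩
  refine h.lim.congr fun n => ?_
  refine nsq_congr_ae ?_
  filter_upwards [hfg] with x hx
  rw [hx]

lemma Str_congr_ae {S : Setup F} {m : ℝ} {f g : X3 → F} {Φ : Fin 16 → X3 → F} (h : S.Str m f Φ)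
    (hg : MemLp g 2 (volume : Measure X3)) (hfg : f =ᵐ[(volume : Measure X3)] g) :
    S.Str m g Φ := by
  obtain ⟨u, hu, h1, h2⟩ := h
  exact ⟨u, hu, L2t_congr_ae h1 hg hfg, h2⟩

/-- the weak equation of `R f`, in very weak form -/
lemma res_weak {S : Setup F} {m : ℝ} {w f : X3 → F} {Φ : Fin 16 → X3 → F} (hStr : S.Str m w Φ)
    (hw : MemLp w 2 (volume : Measure X3))
    (h : ∀ ζ, Setup.Tst ζ → (∫ x, inner ℂ (ζ x) (w x)) +
      ∑ β, ∫ x, inner ℂ (S.Qm m β ζ x) (Φ β x) = ∫ x, inner ℂ (ζ x) (f x))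
    {ζ : X3 → F} (hζ : Setup.Tst ζ) :
    (∫ x, inner ℂ (ζ x) (w x)) + ∫ x, inner ℂ (∑ β, S.Qm m β (S.Qm m β ζ) x) (w x) =
      ∫ x, inner ℂ (ζ x) (f x) := by
  have hQQ : ∀ β, Setup.Tst (S.Qm m β (S.Qm m β ζ)) := fun β => (hζ.Qm S m β).Qm S m β
  rw [← h ζ hζ]
  congr 1
  simp only [sum_inner]
  rw [integral_finsetSum _ fun β _ => integrable_inner_memLp (hQQ β).memLp hw]
  refine Finset.sum_congr rfl fun β _ => ?_
  exact hStr.wQ β (S.Qm m β ζ) (hζ.Qm S m β)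

/-- **B6** -/
theorem we (S : Setup F) (h1 : ResStmt S) (h2 : ESAStmt S) : WEStmt S := by
  intro m e hm Ψ hΨ hE
  obtain ⟨R, hR⟩ := h1 m
  obtain ⟨Φ, hStr, hweak, hen⟩ := hR.2 (((1 + e : ℝ) : ℂ) • hΨ.toLp Ψ)
  have hf : ∀ᵐ x : X3, ((((1 + e : ℝ) : ℂ) • hΨ.toLp Ψ : Lp F 2 (volume : Measure X3)) : X3 → F) x =
      ((1 + e : ℝ) : ℂ) • Ψ x := by
    filter_upwards [Lp.coeFn_smul ((1 + e : ℝ) : ℂ) (hΨ.toLp Ψ), hΨ.coeFn_toLp] with x hx hy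
    rw [hx, Pi.smul_apply, hy]
  generalize hw : R (((1 + e : ℝ) : ℂ) • hΨ.toLp Ψ) = w at hStr hweak hen
  have hwm : MemLp (w : X3 → F) 2 (volume : Measure X3) := Lp.memLp w
  have hz : nsq (fun x => Ψ x - w x) = 0 := by
    refine h2 m hm (fun x => Ψ x - w x) (hΨ.sub hwm) fun ζ hζ => ?_
    have hQQ : ∀ β, Setup.Tst (S.Qm m β (S.Qm m β ζ)) := fun β => (hζ.Qm S m β).Qm S m β
    have hS : Setup.Tst (fun x => ∑ β, S.Qm m β (S.Qm m β ζ) x) := Setup.Tst.sum _ hQQ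
    have e1 := res_weak hStr hwm hweak hζ
    have e2 := hE ζ hζ
    have e3 : ∫ x, inner ℂ (ζ x) (((((1 + e : ℝ) : ℂ) • hΨ.toLp Ψ :
        Lp F 2 (volume : Measure X3)) : X3 → F) x) = ((1 + e : ℝ) : ℂ) * ∫ x, inner ℂ (ζ x) (Ψ x) := by
      rw [← integral_const_mul]
      refine integral_congr_ae ?_
      filter_upwards [hf] with x hx
      rw [hx, inner_smul_right]
    rw [e3] at e1
    have i1 := integrable_inner_memLp hζ.memLp hΨ
    have i2 := integrable_inner_memLp hζ.memLp hwm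
    have i3 := integrable_inner_memLp hS.memLp hΨ
    have i4 := integrable_inner_memLp hS.memLp hwm
    have e4 : ∀ x, inner ℂ (ζ x + ∑ β, S.Qm m β (S.Qm m β ζ) x) (Ψ x - w x) =
        (inner ℂ (ζ x) (Ψ x) - inner ℂ (ζ x) (w x)) +
        (inner ℂ (∑ β, S.Qm m β (S.Qm m β ζ) x) (Ψ x) -
          inner ℂ (∑ β, S.Qm m β (S.Qm m β ζ) x) (w x)) := by
      intro x
      rw [inner_add_left, inner_sub_right, inner_sub_right]
    have i5 : Integrable (fun x => inner ℂ (ζ x) (Ψ x) - inner ℂ (ζ x) (w x)) := i1.sub i2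
    have i6 : Integrable (fun x => inner ℂ (∑ β, S.Qm m β (S.Qm m β ζ) x) (Ψ x) -
        inner ℂ (∑ β, S.Qm m β (S.Qm m β ζ) x) (w x)) := i3.sub i4
    simp only [e4]
    rw [integral_add i5 i6, integral_sub i1 i2, integral_sub i3 i4, e2]
    push_cast at e1
    linear_combination -e1
  have hae : (w : X3 → F) =ᵐ[(volume : Measure X3)] Ψ := (ae_eq_of_nsq_sub hΨ hwm hz).symm
  have hStr' : S.Str m Ψ Φ := Str_congr_ae hStr hΨ hae
  refine ⟨Φ, hStr', fun β => hStr'.wQ β, ?_⟩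
  have hwψ : w = hΨ.toLp Ψ := by
    refine Lp.ext ?_
    filter_upwards [hae, hΨ.coeFn_toLp] with x hx hy
    rw [hx, hy]
  rw [nsq_congr_ae hae, hwψ, inner_smul_right, inner_self_eq_norm_sq_to_K, norm_toLp hΨ] at hen
  have h5 : (((1 + e : ℝ) : ℂ) * ((Real.sqrt (nsq Ψ) : ℂ) ^ 2)).re = (1 + e) * nsq Ψ := by
    have h6 : ((Real.sqrt (nsq Ψ) : ℂ) ^ 2) = ((nsq Ψ : ℝ) : ℂ) := by
      rw [← Complex.ofReal_pow, Real.sq_sqrt (nsq_nonneg Ψ)]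
    rw [h6, ← Complex.ofReal_mul, Complex.ofReal_re]
  have h7 : nsq Ψ + ∑ β, nsq (Φ β) = (1 + e) * nsq Ψ := by
    rw [← h5]; exact hen
  linarith

end Vale.Agent.P353.U
end

section

/-! # P353, uniqueness for `N = 2`: the vacuum lemma (C-Vac) -/

namespace Vale.Agent.P353.U

variable {F : Type*} [NormedAddCommGroup F] [InnerProductSpace ℂ F]

/-- `θ(a) v` -/
noncomputable def VacT (S : Setup F) (a : Fin 16 × Fin 3 → ℂ) (v : F) : F :=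
  ∑ p : Fin 16 × Fin 3, a p • S.th p.1 p.2 v

variable (S : Setup F)

theorem VacT_add_left (a b : Fin 16 × Fin 3 → ℂ) (v : F) :
    VacT S (a + b) v = VacT S a v + VacT S b v := by
  unfold VacT
  rw [← Finset.sum_add_distrib]
  exact Finset.sum_congr rfl fun p _ => add_smul _ _ _

theorem VacT_smul_left (c : ℂ) (a : Fin 16 × Fin 3 → ℂ) (v : F) :
    VacT S (c • a) v = c • VacT S a v := by
  unfold VacT
  rw [Finset.smul_sum]
  exact Finset.sum_congr rfl fun p _ => by rw [Pi.smul_apply, smul_eq_mul, mul_smul]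

theorem VacT_zero_left (v : F) : VacT S 0 v = 0 := by
  simp [VacT]

theorem VacT_add (a : Fin 16 × Fin 3 → ℂ) (v w : F) :
    VacT S a (v + w) = VacT S a v + VacT S a w := by
  unfold VacT
  rw [← Finset.sum_add_distrib]
  exact Finset.sum_congr rfl fun p _ => by rw [map_add, smul_add]

theorem VacT_smul (a : Fin 16 × Fin 3 → ℂ) (c : ℂ) (v : F) :
    VacT S a (c • v) = c • VacT S a v := by
  unfold VacT
  rw [Finset.smul_sum]
  exact Finset.sum_congr rfl fun p _ => by rw [map_smul, smul_comm]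

theorem VacT_zero (a : Fin 16 × Fin 3 → ℂ) : VacT S a 0 = 0 := by
  simp [VacT]

theorem VacT_single (p : Fin 16 × Fin 3) (v : F) :
    VacT S (Pi.single p 1) v = S.th p.1 p.2 v := by
  unfold VacT
  rw [Finset.sum_eq_single p (fun q _ hq => by rw [Pi.single_eq_of_ne hq, zero_smul])
    (fun h => absurd (Finset.mem_univ p) h), Pi.single_eq_same, one_smul]

theorem VacT_th_anti (p q : Fin 16 × Fin 3) (v : F) :
    S.th p.1 p.2 (S.th q.1 q.2 v) + S.th q.1 q.2 (S.th p.1 p.2 v) = if p = q then v else 0 := by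
  have h := congrArg (fun A : F →L[ℂ] F => A v) (S.th_anti p.1 p.2 q.1 q.2)
  simp only [ContinuousLinearMap.add_apply, ContinuousLinearMap.mul_apply] at h
  rw [h]
  by_cases hpq : p = q
  · subst hpq
    simp
  · rw [if_neg hpq, if_neg (fun h => hpq (Prod.ext h.1 h.2))]
    rfl

/-- `{θ(a), θ(b)} = ∑ a_p b_p` -/
theorem VacT_anti (a b : Fin 16 × Fin 3 → ℂ) (v : F) :
    VacT S a (VacT S b v) + VacT S b (VacT S a v) = (∑ p, a p * b p) • v := by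
  have h1 : VacT S a (VacT S b v) = ∑ p, ∑ q, (a p * b q) • S.th p.1 p.2 (S.th q.1 q.2 v) := by
    unfold VacT
    refine Finset.sum_congr rfl fun p _ => ?_
    rw [map_sum, Finset.smul_sum]
    refine Finset.sum_congr rfl fun q _ => ?_
    rw [map_smul, mul_smul]
  have h2 : VacT S b (VacT S a v) = ∑ p, ∑ q, (a p * b q) • S.th q.1 q.2 (S.th p.1 p.2 v) := by
    unfold VacT
    rw [Finset.sum_comm]
    refine Finset.sum_congr rfl fun q _ => ?_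
    rw [map_sum, Finset.smul_sum]
    refine Finset.sum_congr rfl fun p _ => ?_
    rw [map_smul, mul_comm (a p), mul_smul]
  rw [h1, h2, ← Finset.sum_add_distrib, Finset.sum_smul]
  refine Finset.sum_congr rfl fun p _ => ?_
  rw [← Finset.sum_add_distrib]
  simp only [← smul_add, VacT_th_anti]
  rw [Finset.sum_eq_single p (fun q _ hq => by rw [if_neg (Ne.symm hq), smul_zero])
    (fun h => absurd (Finset.mem_univ p) h), if_pos rfl]

/-- `θ(a)† = θ(ā)` -/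
theorem VacT_adj (a : Fin 16 × Fin 3 → ℂ) (v w : F) :
    inner ℂ (VacT S a v) w = inner ℂ v (VacT S (fun p => (starRingEnd ℂ) (a p)) w) := by
  unfold VacT
  rw [sum_inner, inner_sum]
  refine Finset.sum_congr rfl fun p _ => ?_
  rw [inner_smul_left, inner_smul_right, S.th_sa]

/-- existence of a vector killed by finitely many elements -/
theorem Vac_exists_aux {𝒜 : Submodule ℂ (Fin 16 × Fin 3 → ℂ)}
    (hi : ∀ a ∈ 𝒜, ∀ b ∈ 𝒜, ∑ p, a p * b p = 0) (hF : ∃ v : F, v ≠ 0)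
    (s : Finset (Fin 16 × Fin 3 → ℂ)) (hs : (s : Set (Fin 16 × Fin 3 → ℂ)) ⊆ 𝒜) :
    ∃ v : F, v ≠ 0 ∧ ∀ a ∈ s, VacT S a v = 0 := by
  classical
  induction s using Finset.induction_on with
  | empty =>
    obtain ⟨v, hv⟩ := hF
    exact ⟨v, hv, fun a ha => absurd ha (Finset.notMem_empty a)⟩
  | insert a s _ ih =>
    have hsub : (s : Set (Fin 16 × Fin 3 → ℂ)) ⊆ 𝒜 := fun b hb =>
      hs (Finset.mem_coe.2 (Finset.mem_insert_of_mem (Finset.mem_coe.1 hb)))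
    have ha : a ∈ 𝒜 := hs (Finset.mem_coe.2 (Finset.mem_insert_self a s))
    obtain ⟨v, hv, hvs⟩ := ih hsub
    by_cases h0 : VacT S a v = 0
    · refine ⟨v, hv, fun b hb => ?_⟩
      rcases Finset.mem_insert.1 hb with rfl | hb
      · exact h0
      · exact hvs b hb
    · refine ⟨VacT S a v, h0, fun b hb => ?_⟩
      rcases Finset.mem_insert.1 hb with rfl | hb
      · have h1 := VacT_anti S b b v
        rw [hi b ha b ha, zero_smul, ← two_smul ℂ] at h1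
        exact (smul_eq_zero.1 h1).resolve_left two_ne_zero
      · have h1 := VacT_anti S b a v
        rw [hvs b hb, VacT_zero, add_zero, hi b (hsub (Finset.mem_coe.2 hb)) a ha, zero_smul] at h1
        exact h1

theorem Vac_exists {𝒜 : Submodule ℂ (Fin 16 × Fin 3 → ℂ)}
    (hi : ∀ a ∈ 𝒜, ∀ b ∈ 𝒜, ∑ p, a p * b p = 0) (hF : ∃ v : F, v ≠ 0) :
    ∃ v : F, v ≠ 0 ∧ ∀ a ∈ 𝒜, VacT S a v = 0 := by
  obtain ⟨s, hs⟩ : 𝒜.FG := IsNoetherian.noetherian 𝒜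
  obtain ⟨v, hv, hvs⟩ := Vac_exists_aux S hi hF s (by rw [← hs]; exact Submodule.subset_span)
  refine ⟨v, hv, fun a ha => ?_⟩
  rw [← hs] at ha
  refine Submodule.span_induction (p := fun a _ => VacT S a v = 0) (fun a ha => hvs a ha)
    (VacT_zero_left S v) (fun a b _ _ ha hb => ?_) (fun c a _ ha => ?_) ha
  · rw [VacT_add_left, ha, hb, add_zero]
  · rw [VacT_smul_left, ha, smul_zero]

/-- uniqueness of the vacuum -/
theorem Vac_unique (hirr : S.Irr) {𝒜 : Submodule ℂ (Fin 16 × Fin 3 → ℂ)}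
    (hmax : ∀ z : Fin 16 × Fin 3 → ℂ, ∃ a ∈ 𝒜, ∃ b ∈ 𝒜, z = a + fun p => (starRingEnd ℂ) (b p))
    {Ω v : F} (hΩ : Ω ≠ 0) (hΩA : ∀ a ∈ 𝒜, VacT S a Ω = 0) (hv : ∀ a ∈ 𝒜, VacT S a v = 0)
    (hort : inner ℂ v Ω = 0) : v = 0 := by
  -- submodules stable under the creation operators
  obtain ⟨P, hP⟩ : ∃ P : Submodule ℂ F → Prop, P = fun W => Ω ∈ W ∧
    ∀ b ∈ 𝒜, ∀ y ∈ W, VacT S (fun p => (starRingEnd ℂ) (b p)) y ∈ W := ⟨_, rfl⟩
  obtain ⟨W, hW⟩ : ∃ W : Submodule ℂ F, W = sInf {W | P W} := ⟨_, rfl⟩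
  have hWle : ∀ W', P W' → W ≤ W' := fun W' h => by rw [hW]; exact sInf_le h
  have hWΩ : Ω ∈ W := by
    rw [hW, Submodule.mem_sInf]
    intro W' h
    have h' : P W' := h
    rw [hP] at h'
    exact h'.1
  have hWb : ∀ b ∈ 𝒜, ∀ y ∈ W, VacT S (fun p => (starRingEnd ℂ) (b p)) y ∈ W := by
    intro b hb y hy
    rw [hW, Submodule.mem_sInf]
    intro W' h
    have h' : P W' := h
    have hyW' := hWle W' h' hy
    rw [hP] at h'
    exact h'.2 b hb y hyW'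
  have hWa : ∀ a ∈ 𝒜, ∀ y ∈ W, VacT S a y ∈ W := by
    let W' : Submodule ℂ F :=
      { carrier := {y | y ∈ W ∧ ∀ a ∈ 𝒜, VacT S a y ∈ W}
        zero_mem' := ⟨W.zero_mem, fun a _ => by rw [VacT_zero]; exact W.zero_mem⟩
        add_mem' := fun {y z} hy hz => ⟨W.add_mem hy.1 hz.1, fun a ha => by
          rw [VacT_add]
          exact W.add_mem (hy.2 a ha) (hz.2 a ha)⟩
        smul_mem' := fun c y hy => ⟨W.smul_mem c hy.1, fun a ha => by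
          rw [VacT_smul]
          exact W.smul_mem c (hy.2 a ha)⟩ }
    have h1 : W ≤ W' := by
      apply hWle
      rw [hP]
      refine ⟨⟨hWΩ, fun a ha => by rw [hΩA a ha]; exact W.zero_mem⟩, fun b hb y hy => ?_⟩
      refine ⟨hWb b hb y hy.1, fun a ha => ?_⟩
      have h2 := VacT_anti S a (fun p => (starRingEnd ℂ) (b p)) y
      rw [eq_sub_of_add_eq h2]
      exact W.sub_mem (W.smul_mem _ hy.1) (hWb b hb _ (hy.2 a ha))
    intro a ha y hy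
    exact (h1 hy).2 a ha
  have hWth : ∀ α A, ∀ y ∈ W, S.th α A y ∈ W := by
    intro α A y hy
    obtain ⟨a, ha, b, hb, hab⟩ := hmax (Pi.single (α, A) 1)
    have h1 := VacT_single S (α, A) y
    rw [hab, VacT_add_left] at h1
    have h2 : S.th α A y = VacT S a y + VacT S (fun p => (starRingEnd ℂ) (b p)) y := h1.symm
    rw [h2]
    exact W.add_mem (hWa a ha y hy) (hWb b hb y hy)
  have htop : W = ⊤ := by
    rcases hirr W hWth with h | h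
    · rw [h, Submodule.mem_bot] at hWΩ
      exact absurd hWΩ hΩ
    · exact h
  let V : Submodule ℂ F :=
    { carrier := {y | inner ℂ v y = 0}
      zero_mem' := inner_zero_right v
      add_mem' := fun {y z} (hy : inner ℂ v y = 0) (hz : inner ℂ v z = 0) => by
        change inner ℂ v (y + z) = 0
        rw [inner_add_right, hy, hz, add_zero]
      smul_mem' := fun c y (hy : inner ℂ v y = 0) => by
        change inner ℂ v (c • y) = 0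
        rw [inner_smul_right, hy, mul_zero] }
  have h1 : W ≤ V := by
    apply hWle
    rw [hP]
    refine ⟨hort, fun b hb y _ => ?_⟩
    change inner ℂ v (VacT S (fun p => (starRingEnd ℂ) (b p)) y) = 0
    rw [← VacT_adj, hv b hb, inner_zero_left]
  have h2 : v ∈ V := h1 (by rw [htop]; exact Submodule.mem_top)
  have h3 : inner ℂ v v = (0 : ℂ) := h2
  exact inner_self_eq_zero.1 h3

/-- **C-Vac** -/
theorem vac (S : Setup F) : VacStmt S := by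
  intro hirr hF 𝒜 hi hmax
  obtain ⟨v, hv, hvA⟩ := Vac_exists S hi hF
  have hn : ‖v‖ ≠ 0 := norm_ne_zero_iff.2 hv
  have hΩA : ∀ a ∈ 𝒜, VacT S a ((‖v‖ : ℂ)⁻¹ • v) = 0 := by
    intro a ha
    rw [VacT_smul, hvA a ha, smul_zero]
  have hΩn : ‖(‖v‖ : ℂ)⁻¹ • v‖ = 1 := by
    rw [norm_smul, norm_inv, Complex.norm_real, norm_norm, inv_mul_cancel₀ hn]
  refine ⟨(‖v‖ : ℂ)⁻¹ • v, hΩn, hΩA, fun w hw => ?_⟩
  obtain ⟨Ω, hΩ⟩ : ∃ Ω : F, Ω = (‖v‖ : ℂ)⁻¹ • v := ⟨_, rfl⟩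
  rw [← hΩ] at hΩA hΩn ⊢
  have hΩ0 : Ω ≠ 0 := fun h => by rw [h, norm_zero] at hΩn; exact zero_ne_one hΩn
  have hw' : ∀ a ∈ 𝒜, VacT S a w = 0 := hw
  have h1 : w - (inner ℂ Ω w) • Ω = 0 := by
    refine Vac_unique S hirr hmax hΩ0 hΩA (fun a ha => ?_) ?_
    · have e : w - (inner ℂ Ω w) • Ω = w + (-(inner ℂ Ω w)) • Ω := by
        rw [neg_smul, sub_eq_add_neg]
      rw [e, VacT_add, VacT_smul, hw' a ha, hΩA a ha, smul_zero, add_zero]
    · rw [inner_sub_left, inner_smul_left, inner_self_eq_norm_sq_to_K, hΩn, inner_conj_symm]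
      simp
  exact ⟨inner ℂ Ω w, sub_eq_zero.1 h1⟩

end Vale.Agent.P353.U
end

section

/-! # P353, uniqueness for `N = 2`: the mass term at `0` (task C-N0) -/

open MeasureTheory Filter Topology
open scoped ContDiff Matrix

namespace Vale.Agent.P353

variable {F : Type*} [NormedAddCommGroup F] [InnerProductSpace ℂ F]

namespace Setup

variable (S : Setup F)

/-- the projection `½(1 - iΓ)` -/
noncomputable def n0Pa : Matrix (Fin 16) (Fin 16) ℂ := (1 / 2 : ℂ) • (1 - Complex.I • S.Gam)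

/-- the projection `½(1 + iΓ)` -/
noncomputable def n0Pb : Matrix (Fin 16) (Fin 16) ℂ := (1 / 2 : ℂ) • (1 + Complex.I • S.Gam)

lemma n0_am (A : Fin 3) (α : Fin 16) : S.am A α = S.vec S.n0Pa A α := by
  unfold am n0Pa
  rw [S.vec_smul, S.vec_sub, S.vec_one, S.vec_smul]

lemma n0_bm (A : Fin 3) (α : Fin 16) : S.bm A α = S.vec S.n0Pb A α := by
  unfold bm n0Pb
  rw [S.vec_smul, S.vec_add, S.vec_one, S.vec_smul]

lemma n0_Pa_transpose : S.n0Paᵀ = S.n0Pb := by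
  unfold n0Pa n0Pb
  rw [Matrix.transpose_smul, Matrix.transpose_sub, Matrix.transpose_smul, Matrix.transpose_one,
    S.Gam_transpose, smul_neg, sub_neg_eq_add]

lemma n0_Pb_transpose : S.n0Pbᵀ = S.n0Pa := by
  rw [← S.n0_Pa_transpose, Matrix.transpose_transpose]

lemma n0_Pa_add_Pb : S.n0Pa + S.n0Pb = 1 := by
  unfold n0Pa n0Pb
  module

lemma n0_IGam_sq : (Complex.I • S.Gam) * (Complex.I • S.Gam) = 1 := by
  rw [smul_mul_smul_comm, Complex.I_mul_I, S.Gam_sq, neg_smul, one_smul, neg_neg]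

lemma n0_Pa_sq : S.n0Pa * S.n0Pa = S.n0Pa := by
  unfold n0Pa
  rw [smul_mul_smul_comm]
  have : (1 - Complex.I • S.Gam) * (1 - Complex.I • S.Gam) =
      (2 : ℂ) • (1 - Complex.I • S.Gam) := by
    rw [sub_mul, one_mul, mul_sub, mul_one, S.n0_IGam_sq]
    module
  rw [this, smul_smul]
  norm_num

lemma n0_Pa_Pb : S.n0Pa * S.n0Pb = 0 := by
  unfold n0Pa n0Pb
  rw [smul_mul_smul_comm]
  have : (1 - Complex.I • S.Gam) * (1 + Complex.I • S.Gam) = 0 := by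
    rw [sub_mul, one_mul, mul_add, mul_one, S.n0_IGam_sq]
    abel
  rw [this, smul_zero]

lemma n0_Pb_Pa : S.n0Pb * S.n0Pa = 0 := by
  unfold n0Pa n0Pb
  rw [smul_mul_smul_comm]
  have : (1 + Complex.I • S.Gam) * (1 - Complex.I • S.Gam) = 0 := by
    rw [add_mul, one_mul, mul_sub, mul_one, S.n0_IGam_sq]
    abel
  rw [this, smul_zero]

/-- `∑_α b_α^A a_α^A = 12 - (i/2) θΓθ` summed over `A`. -/
lemma n0_sum_ba : ∑ A, ∑ α, S.bm A α * S.am A α = (12 : ℂ) • (1 : F →L[ℂ] F) -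
    (1 / 2 : ℂ) • S.FG := by
  have h1 : ∀ A, ∑ α, S.bm A α * S.am A α = S.bil S.n0Pa A A := by
    intro A
    simp only [n0_am, n0_bm]
    rw [S.sum_vec_mul_vec, S.n0_Pb_transpose, S.n0_Pa_sq]
  rw [Finset.sum_congr rfl fun A _ => h1 A]
  change S.tot S.n0Pa = _
  unfold n0Pa FG
  rw [S.tot_smul, S.tot_sub, S.tot_one, S.tot_smul, smul_sub, smul_smul]
  norm_num

lemma n0_N0_eq : S.N0 = (3 / 2 : ℂ) • ∑ A, ∑ α, S.bm A α * S.am A α := by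
  rw [n0_sum_ba]
  unfold N0
  rw [smul_sub, smul_smul, smul_smul]
  norm_num

lemma n0_inner_vecGam (A : Fin 3) (α : Fin 16) (v w : F) :
    inner ℂ (S.vec S.Gam A α v) w = inner ℂ v (S.vec S.Gam A α w) := by
  unfold CS.vec
  rw [_root_.sum_apply, _root_.sum_apply, sum_inner, inner_sum]
  refine Finset.sum_congr rfl fun γ _ => ?_
  rw [_root_.smul_apply, _root_.smul_apply, inner_smul_left,
    inner_smul_right, S.th_sa, Complex.conj_eq_iff_im.2 (S.Gam_real α γ)]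

/-- `b` is the adjoint of `a`. -/
lemma n0_inner_bm (A : Fin 3) (α : Fin 16) (v w : F) :
    inner ℂ v (S.bm A α w) = inner ℂ (S.am A α v) w := by
  unfold bm am
  rw [_root_.smul_apply, _root_.smul_apply,
    _root_.add_apply, _root_.sub_apply, _root_.smul_apply,
    _root_.smul_apply, inner_smul_left, inner_smul_right, inner_add_right,
    inner_sub_left, inner_smul_left, inner_smul_right, S.th_sa, S.n0_inner_vecGam, Complex.conj_I]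
  simp only [map_div₀, map_one, Complex.conj_ofNat]
  ring

lemma n0_inner_N0 (v : F) : (inner ℂ v (S.N0 v)).re = 3 / 2 * ∑ A, ∑ α, ‖S.am A α v‖ ^ 2 := by
  rw [S.n0_N0_eq, _root_.smul_apply, _root_.sum_apply,
    inner_smul_right, inner_sum]
  have h : ∀ A, inner ℂ v ((∑ α, S.bm A α * S.am A α) v) =
      ((∑ α, ‖S.am A α v‖ ^ 2 : ℝ) : ℂ) := by
    intro A
    rw [_root_.sum_apply, inner_sum, Complex.ofReal_sum]
    refine Finset.sum_congr rfl fun α _ => ?_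
    rw [_root_.mul_apply_eq_comp, S.n0_inner_bm, inner_self_eq_norm_sq_to_K]
    norm_cast
  rw [Finset.sum_congr rfl fun A _ => h A, ← Complex.ofReal_sum]
  have e : (3 / 2 : ℂ) = ((3 / 2 : ℝ) : ℂ) := by norm_num
  rw [e, ← Complex.ofReal_mul, Complex.ofReal_re]

/-- bilinears acting on a vector killed by all `a_α^A` -/
lemma n0_bil_vac {N : Matrix (Fin 16) (Fin 16) ℂ} (hN : N * S.Gam = S.Gam * N) {Ω : F}
    (hΩ : ∀ A α, S.am A α Ω = 0) (D E : Fin 3) :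
    S.bil N D E Ω = if D = E then (N * S.n0Pb).trace • Ω else 0 := by
  have hv : ∀ (M : Matrix (Fin 16) (Fin 16) ℂ) (C D' : Fin 3),
      S.bil (M * S.n0Pa) C D' Ω = 0 := by
    intro M C D'
    unfold CS.bil
    rw [_root_.sum_apply]
    refine Finset.sum_eq_zero fun α _ => ?_
    rw [_root_.mul_apply_eq_comp, S.vec_mul, _root_.sum_apply]
    have : ∑ γ, (M α γ • S.vec S.n0Pa D' γ) Ω = 0 := by
      refine Finset.sum_eq_zero fun γ _ => ?_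
      rw [_root_.smul_apply, ← S.n0_am, hΩ, smul_zero]
    rw [this, map_zero]
  have hd : N = N * S.n0Pa + N * S.n0Pb := by
    rw [← mul_add, S.n0_Pa_add_Pb, mul_one]
  have hc : S.n0Pa * Nᵀ = Nᵀ * S.n0Pa := by
    have h1 : N * S.n0Pb = S.n0Pb * N := by
      unfold n0Pb
      rw [Matrix.mul_smul, Matrix.smul_mul, mul_add, add_mul, Matrix.mul_smul, Matrix.smul_mul,
        hN, mul_one, one_mul]
    have h2 := congrArg Matrix.transpose h1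
    rw [Matrix.transpose_mul, Matrix.transpose_mul, S.n0_Pb_transpose] at h2
    exact h2
  have e1 : S.bil N D E Ω = S.bil (N * S.n0Pb) D E Ω := by
    conv_lhs => rw [hd, S.bil_add, _root_.add_apply, hv, zero_add]
  rw [e1, S.bil_swap, _root_.sub_apply, Matrix.transpose_mul, S.n0_Pb_transpose,
    hc, hv, sub_zero]
  split_ifs
  · rfl
  · rfl

/-- the spin part of the gauge generators kills the vacuum -/
theorem cS_vac {Ω : F} (hΩ : ∀ A α, S.am A α Ω = 0) (C : Fin 3) : S.cS C Ω = 0 := by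
  unfold cS
  rw [_root_.smul_apply, _root_.sum_apply]
  have : ∀ D ∈ Finset.univ, (∑ E, (eps C D E : ℂ) • S.bil 1 D E) Ω = 0 := by
    intro D _
    rw [_root_.sum_apply]
    refine Finset.sum_eq_zero fun E _ => ?_
    rw [_root_.smul_apply, S.n0_bil_vac (by rw [one_mul, mul_one]) hΩ]
    split_ifs with h
    · subst h
      have : eps C D D = 0 := by simp [eps]
      rw [this, Int.cast_zero, zero_smul]
    · rw [smul_zero]
  rw [Finset.sum_eq_zero this, smul_zero]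

/-- the spin generators inside the blocks kill the vacuum -/
theorem Skl_vac {Ω : F} (hΩ : ∀ A α, S.am A α Ω = 0) {k l : Fin 9} (h : Same k l) :
    S.Skl k l Ω = 0 := by
  unfold Skl CS.tot
  rw [_root_.smul_apply, _root_.sum_apply]
  have htr : (S.g2 k l * S.n0Pb).trace = 0 := by
    unfold n0Pb
    rw [Matrix.mul_smul, mul_add, mul_one, Matrix.mul_smul, Matrix.trace_smul, Matrix.trace_add,
      Matrix.trace_smul, S.trace_g2]
    have : (S.g2 k l * S.Gam).trace = 0 := by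
      unfold CS.g2 Gam
      rw [Matrix.smul_mul, Matrix.trace_smul, sub_mul, Matrix.trace_sub, ← mul_assoc, ← mul_assoc,
        ← mul_assoc, ← mul_assoc, S.trace_ggggg, S.trace_ggggg, sub_zero, smul_zero]
    rw [this, smul_zero, add_zero, smul_zero]
  have : ∀ C ∈ Finset.univ, S.bil (S.g2 k l) C C Ω = 0 := by
    intro C _
    rw [S.n0_bil_vac (S.Gam_comm_g2 h) hΩ, if_pos rfl, htr, zero_smul]
  rw [Finset.sum_eq_zero this, smul_zero]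

/-- the projection onto the coefficient vectors of the operators `a_α^A` -/
noncomputable def n0Proj (w : Fin 16 × Fin 3 → ℂ) (p : Fin 16 × Fin 3) : ℂ :=
  ∑ β, S.n0Pa β p.1 * w (β, p.2)

/-- the isotropic subspace belonging to the operators `a_α^A` -/
noncomputable def n0Sub : Submodule ℂ (Fin 16 × Fin 3 → ℂ) where
  carrier := {z | S.n0Proj z = z}
  add_mem' := by
    intro a b ha hb
    have h : S.n0Proj (a + b) = S.n0Proj a + S.n0Proj b := by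
      funext p
      simp only [n0Proj, Pi.add_apply, mul_add, Finset.sum_add_distrib]
    change S.n0Proj (a + b) = a + b
    rw [h, ha, hb]
  zero_mem' := by
    funext p
    simp only [n0Proj, Pi.zero_apply, mul_zero, Finset.sum_const_zero]
  smul_mem' := by
    intro c a ha
    have h : S.n0Proj (c • a) = c • S.n0Proj a := by
      funext p
      simp only [n0Proj, Pi.smul_apply, smul_eq_mul, Finset.mul_sum]
      exact Finset.sum_congr rfl fun β _ => by ring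
    change S.n0Proj (c • a) = c • a
    rw [h, ha]

lemma n0_mem (w : Fin 16 × Fin 3 → ℂ) : S.n0Proj w ∈ S.n0Sub := by
  change S.n0Proj (S.n0Proj w) = S.n0Proj w
  funext p
  have e : ∀ γ, ∑ β, S.n0Pa γ β * S.n0Pa β p.1 = S.n0Pa γ p.1 := by
    intro γ
    rw [← Matrix.mul_apply, S.n0_Pa_sq]
  calc ∑ β, S.n0Pa β p.1 * ∑ γ, S.n0Pa γ β * w (γ, p.2)
      = ∑ β, ∑ γ, (S.n0Pa γ β * S.n0Pa β p.1) * w (γ, p.2) := by
        simp only [Finset.mul_sum]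
        exact Finset.sum_congr rfl fun β _ => Finset.sum_congr rfl fun γ _ => by ring
    _ = ∑ γ, (∑ β, S.n0Pa γ β * S.n0Pa β p.1) * w (γ, p.2) := by
        rw [Finset.sum_comm]
        simp only [Finset.sum_mul]
    _ = ∑ γ, S.n0Pa γ p.1 * w (γ, p.2) := by simp only [e]

lemma n0_sum_proj (w : Fin 16 × Fin 3 → ℂ) (v : F) :
    ∑ p : Fin 16 × Fin 3, S.n0Proj w p • S.th p.1 p.2 v =
      ∑ p : Fin 16 × Fin 3, w p • S.am p.2 p.1 v := by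
  rw [Fintype.sum_prod_type_right, Fintype.sum_prod_type_right]
  refine Finset.sum_congr rfl fun A _ => ?_
  simp only [n0Proj, Finset.sum_smul]
  rw [Finset.sum_comm]
  refine Finset.sum_congr rfl fun γ _ => ?_
  rw [S.n0_am]
  unfold CS.vec
  rw [_root_.sum_apply, Finset.smul_sum]
  refine Finset.sum_congr rfl fun β _ => ?_
  rw [_root_.smul_apply, smul_smul, mul_comm]

lemma n0_kill {v : F} (hv : ∀ A α, S.am A α v = 0) {a : Fin 16 × Fin 3 → ℂ} (ha : a ∈ S.n0Sub) :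
    ∑ p : Fin 16 × Fin 3, a p • S.th p.1 p.2 v = 0 := by
  have ha' : S.n0Proj a = a := ha
  have h := S.n0_sum_proj a v
  rw [ha'] at h
  rw [h]
  exact Finset.sum_eq_zero fun p _ => by rw [hv, smul_zero]

lemma n0_kill' {v : F}
    (hv : ∀ a ∈ S.n0Sub, ∑ p : Fin 16 × Fin 3, a p • S.th p.1 p.2 v = 0) (A : Fin 3)
    (α : Fin 16) : S.am A α v = 0 := by
  have h := hv _ (S.n0_mem (Pi.single (α, A) 1))
  rw [S.n0_sum_proj, Finset.sum_eq_single (α, A)] at h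
  · simpa using h
  · intro p _ hp
    rw [Pi.single_eq_of_ne hp, zero_smul]
  · intro hp
    exact absurd (Finset.mem_univ _) hp

lemma n0_iso {a b : Fin 16 × Fin 3 → ℂ} (ha : a ∈ S.n0Sub) (hb : b ∈ S.n0Sub) :
    ∑ p, a p * b p = 0 := by
  have ha' : S.n0Proj a = a := ha
  have hb' : S.n0Proj b = b := hb
  rw [← ha', ← hb', Fintype.sum_prod_type_right]
  refine Finset.sum_eq_zero fun A _ => ?_
  unfold n0Proj
  have e : ∀ β γ, ∑ α, S.n0Pa β α * S.n0Pa γ α = 0 := by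
    intro β γ
    have h := congrFun (congrFun S.n0_Pa_Pb β) γ
    rw [← S.n0_Pa_transpose, Matrix.mul_apply] at h
    simpa only [Matrix.transpose_apply, Matrix.zero_apply] using h
  simp only [Finset.sum_mul_sum]
  rw [Finset.sum_comm]
  refine Finset.sum_eq_zero fun β _ => ?_
  rw [Finset.sum_comm]
  refine Finset.sum_eq_zero fun γ _ => ?_
  calc ∑ α, S.n0Pa β α * a (β, A) * (S.n0Pa γ α * b (γ, A)) =
      ∑ α, (a (β, A) * b (γ, A)) * (S.n0Pa β α * S.n0Pa γ α) :=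
        Finset.sum_congr rfl fun α _ => by ring
    _ = 0 := by rw [← Finset.mul_sum, e, mul_zero]

lemma n0_conj_Pa (β α : Fin 16) : (starRingEnd ℂ) (S.n0Pa β α) = S.n0Pb β α := by
  have h1 : (starRingEnd ℂ) ((1 : Matrix (Fin 16) (Fin 16) ℂ) β α) =
      (1 : Matrix (Fin 16) (Fin 16) ℂ) β α := by
    rw [Matrix.one_apply]
    split_ifs <;> simp
  simp only [n0Pa, n0Pb, Matrix.smul_apply, Matrix.sub_apply, Matrix.add_apply, smul_eq_mul,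
    map_mul, map_sub, Complex.conj_I, Complex.conj_eq_iff_im.2 (S.Gam_real β α), h1, map_div₀,
    map_one, Complex.conj_ofNat]
  ring

lemma n0_decomp (z : Fin 16 × Fin 3 → ℂ) :
    ∃ a ∈ S.n0Sub, ∃ b ∈ S.n0Sub, z = a + fun p => (starRingEnd ℂ) (b p) := by
  refine ⟨S.n0Proj z, S.n0_mem z, S.n0Proj (fun p => (starRingEnd ℂ) (z p)), S.n0_mem _, ?_⟩
  funext p
  simp only [Pi.add_apply, n0Proj, map_sum, map_mul, n0_conj_Pa, Complex.conj_conj]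
  rw [← Finset.sum_add_distrib]
  have e : ∀ β, S.n0Pa β p.1 * z (β, p.2) + S.n0Pb β p.1 * z (β, p.2) =
      if β = p.1 then z (β, p.2) else 0 := by
    intro β
    rw [← add_mul, ← Matrix.add_apply, S.n0_Pa_add_Pb, Matrix.one_apply]
    split_ifs <;> simp
  rw [Finset.sum_congr rfl fun β _ => e β, Finset.sum_ite_eq' Finset.univ p.1, if_pos
    (Finset.mem_univ _)]

end Setup

namespace U

open Setup

variable {S : Setup F}

/-- **C-N0** -/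
theorem n0 (h : VacStmt S) : N0Stmt S := by
  intro hI hne
  obtain ⟨Ω, h1, h2, h3⟩ := h hI hne S.n0Sub (fun a ha b hb => S.n0_iso ha hb) S.n0_decomp
  have h4 : ∀ v : F, (∀ A α, S.am A α v = 0) → ∃ c : ℂ, v = c • Ω := fun v hv =>
    h3 v fun a ha => S.n0_kill hv ha
  have h5 : ∀ A α, S.am A α Ω = 0 := S.n0_kill' h2
  refine ⟨?_, Ω, h1, h5, ?_, ?_, h4⟩
  · intro v
    rw [S.n0_inner_N0]
    positivity
  · rw [S.n0_N0_eq, _root_.smul_apply, _root_.sum_apply]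
    have : ∀ A ∈ Finset.univ, (∑ α, S.bm A α * S.am A α) Ω = 0 := by
      intro A _
      rw [_root_.sum_apply]
      refine Finset.sum_eq_zero fun α _ => ?_
      rw [_root_.mul_apply_eq_comp, h5, map_zero]
    rw [Finset.sum_eq_zero this, smul_zero]
  · intro v hv
    refine h4 v fun A α => ?_
    rw [S.n0_inner_N0] at hv
    have h6 : ∑ A, ∑ α, ‖S.am A α v‖ ^ 2 = 0 := by linarith
    have h7 := (Finset.sum_eq_zero_iff_of_nonneg (fun A _ =>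
      Finset.sum_nonneg fun α _ => sq_nonneg ‖S.am A α v‖)).1 h6 A (Finset.mem_univ _)
    have h8 := (Finset.sum_eq_zero_iff_of_nonneg (fun α _ =>
      sq_nonneg ‖S.am A α v‖)).1 h7 α (Finset.mem_univ _)
    exact norm_eq_zero.1 (pow_eq_zero_iff (two_ne_zero)|>.1 h8)

end U
end Vale.Agent.P353
end

section

/-! # P353, uniqueness for `N = 2`: tubes around the orbit and balls -/

set_option linter.all false

open MeasureTheory Filter Topology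
open scoped ContDiff

namespace Vale.Agent.P353.U

variable {F : Type*} [NormedAddCommGroup F] [InnerProductSpace ℂ F] (S : Setup F)

lemma ro_norm {O : Matrix (Fin 3) (Fin 3) ℝ} (h : O.transpose * O = 1) (x : X3) : ‖ro O x‖ = ‖x‖ := by
  have h1 : ‖ro O x‖ ^ 2 = ‖x‖ ^ 2 := by
    rw [EuclideanSpace.norm_sq_eq, EuclideanSpace.norm_sq_eq, Fintype.sum_prod_type,
      Fintype.sum_prod_type]
    refine Finset.sum_congr rfl fun i _ => ?_
    have e : ∀ B D, ∑ A, O A B * O A D = if B = D then 1 else 0 := by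
      intro B D
      have := congrFun (congrFun h B) D
      rw [Matrix.mul_apply, Matrix.one_apply] at this
      simpa [Matrix.transpose_apply] using this
    simp only [Real.norm_eq_abs, sq_abs]
    have h2 : ∀ A, (ro O x) (i, A) = ∑ B, O A B * x (i, B) := fun A => rfl
    simp only [h2]
    have h3 : ∀ A, (∑ B, O A B * x (i, B)) ^ 2 = ∑ B, ∑ D, (O A B * O A D) * (x (i, B) * x (i, D)) := by
      intro A
      rw [sq, Finset.sum_mul_sum]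
      refine Finset.sum_congr rfl fun B _ => Finset.sum_congr rfl fun D _ => ?_
      ring
    simp only [h3]
    rw [Finset.sum_comm]
    refine Finset.sum_congr rfl fun B _ => ?_
    rw [Finset.sum_comm]
    have h4 : ∀ D, ∑ A, O A B * O A D * (x (i, B) * x (i, D)) =
        (if B = D then 1 else 0) * (x (i, B) * x (i, D)) := by
      intro D
      rw [← Finset.sum_mul, e]
    simp only [h4, ite_mul, one_mul, zero_mul, Finset.sum_ite_eq, Finset.mem_univ, if_true]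
    ring
  exact (sq_eq_sq₀ (norm_nonneg _) (norm_nonneg _)).1 h1

/-- `ro O` as a linear isometry -/
noncomputable def roL (O : Matrix (Fin 3) (Fin 3) ℝ) (h : O.transpose * O = 1) : X3 →ₗᵢ[ℝ] X3 where
  toFun := ro O
  map_add' x y := by
    ext p
    simp [ro, mul_add, Finset.sum_add_distrib]
  map_smul' c x := by
    ext p
    simp only [ro, WithLp.ofLp_smul, Pi.smul_apply, smul_eq_mul, RingHom.id_apply, Finset.mul_sum]
    refine Finset.sum_congr rfl fun B _ => ?_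
    ring
  norm_map' x := ro_norm h x

noncomputable def roE (O : Matrix (Fin 3) (Fin 3) ℝ) (h : O.transpose * O = 1) : X3 ≃ₗᵢ[ℝ] X3 :=
  (roL O h).toLinearIsometryEquiv rfl

lemma roE_apply {O : Matrix (Fin 3) (Fin 3) ℝ} (h : O.transpose * O = 1) (x : X3) :
    roE O h x = ro O x := rfl

lemma ro_one (x : X3) : ro 1 x = x := by
  ext ⟨i, A⟩
  simp [ro, Matrix.one_apply]

lemma ball_integral {u : X3 → F} {O : Matrix (Fin 3) (Fin 3) ℝ} (h : O.transpose * O = 1)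
    (hi : ∀ x, ‖u (ro O x)‖ = ‖u x‖) (q : X3) (s : ℝ) :
    ∫ x in Metric.ball (ro O q) s, ‖u x‖ ^ 2 = ∫ x in Metric.ball q s, ‖u x‖ ^ 2 := by
  have h1 := (roE O h).measurePreserving.setIntegral_preimage_emb
    (roE O h).toHomeomorph.measurableEmbedding (fun x => ‖u x‖ ^ 2) (Metric.ball (ro O q) s)
  rw [← h1]
  have h2 : (roE O h) ⁻¹' (Metric.ball (ro O q) s) = Metric.ball q s := by
    ext x
    rw [Set.mem_preimage, Metric.mem_ball, Metric.mem_ball, ← roE_apply h q,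
      (roE O h).dist_map]
  rw [h2]
  refine integral_congr_ae (Filter.Eventually.of_forall fun x => ?_)
  show ‖u (roE O h x)‖ ^ 2 = _
  rw [roE_apply, hi]

lemma orth_entry (O : Matrix (Fin 3) (Fin 3) ℝ) (h : O.transpose * O = 1) (j : Fin 3) :
    ∑ k, O k j * O k j = 1 := by
  have := congrFun (congrFun h j) j
  rw [Matrix.mul_apply, Matrix.one_apply] at this
  simpa [Matrix.transpose_apply] using this

lemma orb_compact (m : ℝ) : IsCompact (S.Orb m) := by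
  have hK : IsCompact {O : Matrix (Fin 3) (Fin 3) ℝ | O.transpose * O = 1 ∧ O.det = 1} := by
    have h1 : IsCompact (Set.pi Set.univ fun _ : Fin 3 => Set.pi Set.univ fun _ : Fin 3 =>
        Set.Icc (-1 : ℝ) 1) :=
      isCompact_univ_pi fun _ => isCompact_univ_pi fun _ => isCompact_Icc
    refine h1.of_isClosed_subset ?_ ?_
    · have c1 : Continuous fun O : Matrix (Fin 3) (Fin 3) ℝ => O.transpose * O := by fun_prop
      have c2 : Continuous fun O : Matrix (Fin 3) (Fin 3) ℝ => O.det := by fun_prop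
      exact (isClosed_eq c1 continuous_const).inter (isClosed_eq c2 continuous_const)
    · intro O' hO'
      intro i _ j _
      have this : ∑ k, O' k j * O' k j = 1 := orth_entry O' hO'.1 j
      have h2 : O' i j * O' i j ≤ 1 := by
        rw [← this]
        exact Finset.single_le_sum (f := fun k => O' k j * O' k j)
          (fun k _ => mul_self_nonneg _) (Finset.mem_univ i)
      constructor
      · nlinarith
      · nlinarith
  have hc : Continuous fun O : Matrix (Fin 3) (Fin 3) ℝ => ro O (m • S.xi0) := by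
    unfold ro
    fun_prop
  have he : S.Orb m = (fun O : Matrix (Fin 3) (Fin 3) ℝ => ro O (m • S.xi0)) ''
      {O : Matrix (Fin 3) (Fin 3) ℝ | O.transpose * O = 1 ∧ O.det = 1} := by
    ext x
    constructor
    · rintro ⟨O, h1, h2, h3⟩
      exact ⟨O, ⟨h1, h2⟩, h3.symm⟩
    · rintro ⟨O, ⟨h1, h2⟩, h3⟩
      exact ⟨O, h1, h2, h3.symm⟩
  rw [he]
  exact hK.image hc

/-- maximal separated subsets of compact sets -/
lemma exists_net {K : Set X3} (hK : IsCompact K) {R : ℝ} (hR : 0 < R) :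
    ∃ T : Finset X3, (∀ p ∈ T, p ∈ K) ∧ (∀ p ∈ T, ∀ q ∈ T, p ≠ q → R ≤ dist p q) ∧
      ∀ p ∈ K, ∃ q ∈ T, dist p q < R := by
  classical
  obtain ⟨t, ht1, ht2, ht3⟩ := hK.finite_cover_balls (e := R / 2) (by positivity)
  set P : Finset X3 → Prop := fun T => (∀ p ∈ T, p ∈ K) ∧
    (∀ p ∈ T, ∀ q ∈ T, p ≠ q → R ≤ dist p q) with hP
  have hb : ∀ T, P T → T.card ≤ ht2.toFinset.card := by
    intro T hT
    have hc : ∀ p ∈ T, ∃ c ∈ ht2.toFinset, p ∈ Metric.ball c (R / 2) := by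
      intro p hp
      have := ht3 (hT.1 p hp)
      simp only [Set.mem_iUnion] at this
      obtain ⟨c, hc, h⟩ := this
      exact ⟨c, by simpa using hc, h⟩
    choose! f hf1 hf2 using hc
    refine Finset.card_le_card_of_injOn f hf1 ?_
    intro p hp q hq hpq
    by_contra hne
    have h1 := hT.2 p hp q hq hne
    have h2 := hf2 p hp
    have h3 := hf2 q hq
    rw [hpq] at h2
    rw [Metric.mem_ball] at h2 h3
    have := dist_triangle_right p q (f q)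
    linarith
  have hex : ∃ T, P T ∧ ∀ T', P T' → T'.card ≤ T.card := by
    by_contra hcon
    push Not at hcon
    have : ∀ k : ℕ, ∃ T, P T ∧ k ≤ T.card := by
      intro k
      induction k with
      | zero => exact ⟨∅, ⟨by simp, by simp⟩, by simp⟩
      | succ k ih =>
        obtain ⟨T, hT, hk⟩ := ih
        obtain ⟨T', hT', hk'⟩ := hcon T hT
        exact ⟨T', hT', by omega⟩
    obtain ⟨T, hT, hk⟩ := this (ht2.toFinset.card + 1)
    have := hb T hT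
    omega
  obtain ⟨T, hT, hmax⟩ := hex
  refine ⟨T, hT.1, hT.2, fun p hp => ?_⟩
  by_contra hcon
  push Not at hcon
  have hpT : p ∉ T := fun h => by
    have := hcon p h
    rw [dist_self] at this
    linarith
  have h1 : P (insert p T) := by
    refine ⟨fun q hq => ?_, fun q hq r hr hqr => ?_⟩
    · rcases Finset.mem_insert.1 hq with h | h
      · rw [h]; exact hp
      · exact hT.1 q h
    · rcases Finset.mem_insert.1 hq with h | h <;> rcases Finset.mem_insert.1 hr with h' | h'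
      · exact absurd (h.trans h'.symm) hqr
      · rw [h]; exact hcon r h'
      · rw [h', dist_comm]; exact hcon q h
      · exact hT.2 q h r h' hqr
  have h2 := hmax _ h1
  rw [Finset.card_insert_of_notMem hpT] at h2
  omega

/-- packing bound -/
lemma packing {T : Finset X3} {R s : ℝ} (hR : 0 < R) (hs : R ≤ s)
    (hsep : ∀ p ∈ T, ∀ q ∈ T, p ≠ q → R ≤ dist p q) (x : X3) :
    ∑ p ∈ T, (Metric.ball p s).indicator (fun _ => (1 : ℝ)) x ≤ (3 * s / R) ^ 27 := by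
  classical
  have hs0 : 0 < s := lt_of_lt_of_le hR hs
  set T' := T.filter fun p => dist x p < s with hT'
  have e : ∑ p ∈ T, (Metric.ball p s).indicator (fun _ => (1 : ℝ)) x = (T'.card : ℝ) := by
    rw [hT', Finset.card_filter]
    push_cast
    refine Finset.sum_congr rfl fun p _ => ?_
    rw [Set.indicator_apply]
    simp only [Metric.mem_ball]
  rw [e]
  have hdisj : (↑T' : Set X3).PairwiseDisjoint fun p => Metric.ball p (R / 2) := by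
    intro p hp q hq hpq
    have hp' := (Finset.mem_filter.1 (Finset.mem_coe.1 hp)).1
    have hq' := (Finset.mem_filter.1 (Finset.mem_coe.1 hq)).1
    refine Metric.ball_disjoint_ball ?_
    have := hsep p hp' q hq' hpq
    linarith
  have hsub : (⋃ p ∈ T', Metric.ball p (R / 2)) ⊆ Metric.ball x (s + R / 2) := by
    intro y hy
    simp only [Set.mem_iUnion] at hy
    obtain ⟨p, hp, hy⟩ := hy
    have hp' := (Finset.mem_filter.1 hp).2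
    rw [Metric.mem_ball] at hy ⊢
    have := dist_triangle y p x
    rw [dist_comm x p] at hp'
    linarith
  have hvol := measure_mono (μ := (volume : Measure X3)) hsub
  rw [measure_biUnion_finset hdisj (fun p _ => measurableSet_ball)] at hvol
  have hfr : Module.finrank ℝ X3 = 27 := by simp
  simp only [Measure.addHaar_ball volume _ (show 0 ≤ R / 2 by positivity),
    Measure.addHaar_ball volume _ (show 0 ≤ s + R / 2 by positivity), hfr, Finset.sum_const,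
    nsmul_eq_mul] at hvol
  rw [← mul_assoc] at hvol
  have hb0 : (volume (Metric.ball (0 : X3) 1)) ≠ 0 := (Metric.measure_ball_pos _ _ one_pos).ne'
  have hbt : (volume (Metric.ball (0 : X3) 1)) ≠ ⊤ := measure_ball_lt_top.ne
  rw [ENNReal.mul_le_mul_iff_left hb0 hbt, ← ENNReal.ofReal_natCast,
    ← ENNReal.ofReal_mul (Nat.cast_nonneg _), ENNReal.ofReal_le_ofReal_iff (by positivity)] at hvol
  have h3 : (T'.card : ℝ) ≤ ((s + R / 2) / (R / 2)) ^ 27 := by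
    rw [div_pow, le_div_iff₀ (by positivity)]
    exact hvol
  refine h3.trans ?_
  refine pow_le_pow_left₀ (by positivity) ?_ 27
  rw [div_le_div_iff₀ (by positivity) hR]
  nlinarith

theorem pack : PackStmt S := by
  classical
  intro m R hm hR
  obtain ⟨T, hT1, hT2, hT3⟩ := exists_net (orb_compact S m) hR
  have hmem : m • S.xi0 ∈ S.Orb m := ⟨1, by simp, by simp, (ro_one _).symm⟩
  have hTne : T.Nonempty := by
    obtain ⟨q, hq, -⟩ := hT3 _ hmem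
    exact ⟨q, hq⟩
  refine ⟨T.card, by exact_mod_cast hTne.card_pos, fun u hu hi => ?_⟩
  have hint : Integrable (fun x => ‖u x‖ ^ 2) (volume : Measure X3) := hu.norm_sq_int
  have hball : ∀ p ∈ T, ∀ s, ∫ x in Metric.ball p s, ‖u x‖ ^ 2 =
      ∫ x in Metric.ball (m • S.xi0) s, ‖u x‖ ^ 2 := by
    intro p hp s
    obtain ⟨O, h1, h2, h3⟩ := hT1 p hp
    rw [h3]
    exact ball_integral h1 (hi O h1 h2) _ _
  have hsum : ∀ s, (T.card : ℝ) * ∫ x in Metric.ball (m • S.xi0) s, ‖u x‖ ^ 2 =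
      ∫ x, ∑ p ∈ T, (Metric.ball p s).indicator (fun x => ‖u x‖ ^ 2) x := by
    intro s
    rw [integral_finset_sum _ fun p _ => hint.indicator measurableSet_ball]
    simp only [integral_indicator measurableSet_ball]
    rw [Finset.sum_congr rfl fun p hp => hball p hp s, Finset.sum_const, nsmul_eq_mul]
  constructor
  · rw [hsum]
    refine integral_mono_of_nonneg (Filter.Eventually.of_forall fun x => ?_)
      (integrable_finset_sum _ fun p _ => hint.indicator measurableSet_ball)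
      (Filter.Eventually.of_forall fun x => ?_)
    · show 0 ≤ ite _ _ _
      split_ifs <;> positivity
    · show ite _ _ _ ≤ _
      have hnn : ∀ p ∈ T, 0 ≤ (Metric.ball p (2 * R)).indicator (fun x => ‖u x‖ ^ 2) x :=
        fun p _ => Set.indicator_nonneg (fun _ _ => by positivity) _
      split_ifs with h
      · obtain ⟨p, hp, hpx⟩ := (orb_compact S m).exists_infDist_eq_dist ⟨_, hmem⟩ x
        obtain ⟨q, hq, hpq⟩ := hT3 p hp
        have hx : x ∈ Metric.ball q (2 * R) := by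
          rw [Metric.mem_ball]
          have := dist_triangle x p q
          rw [hpx] at h
          linarith
        have h2 := Finset.single_le_sum hnn hq
        rw [Set.indicator_of_mem hx] at h2
        exact h2
      · exact Finset.sum_nonneg hnn
  · intro s hs
    rw [hsum]
    have h1 : (3 * s / R) ^ 27 * nsq u = ∫ x, (3 * s / R) ^ 27 * ‖u x‖ ^ 2 := by
      unfold nsq
      rw [integral_const_mul]
    rw [h1]
    refine integral_mono (integrable_finset_sum _ fun p _ => hint.indicator measurableSet_ball)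
      (hint.const_mul _) fun x => ?_
    have h2 : ∑ p ∈ T, (Metric.ball p s).indicator (fun x => ‖u x‖ ^ 2) x =
        (∑ p ∈ T, (Metric.ball p s).indicator (fun _ => (1 : ℝ)) x) * ‖u x‖ ^ 2 := by
      rw [Finset.sum_mul]
      refine Finset.sum_congr rfl fun p _ => ?_
      simp only [Set.indicator_apply]
      split_ifs <;> simp
    show ∑ p ∈ T, (Metric.ball p s).indicator (fun x => ‖u x‖ ^ 2) x ≤ _
    rw [h2]
    exact mul_le_mul_of_nonneg_right (packing hR hs hT2 x) (by positivity)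

end Vale.Agent.P353.U
end

section

/-! # P353, uniqueness for `N = 2`: definitions and statements of part D (the outer state, `m → 0`)

`ρ = ‖x‖`, `ρ6² = ∑_{a∈I6}|x_a|²`; the cone of commuting configurations is `{n⊗y}` = `{cone n y}`, `x_i^A = y_i n_A`. -/

open MeasureTheory Filter Topology
open scoped ContDiff

namespace Vale.Agent.P353

variable {F : Type*} [NormedAddCommGroup F] [InnerProductSpace ℂ F]

/-- `ρ6²` -/
noncomputable def rho6sq (x : X3) : ℝ := ∑ i : Fin 9, ∑ A, (if 3 ≤ i.val then x (i, A) ^ 2 else 0)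

/-- Gram matrix `G_{AB} = ∑_i x_i^A x_i^B` -/
noncomputable def Gr (x : X3) (A B : Fin 3) : ℝ := ∑ i, x (i, A) * x (i, B)

/-- `x̂ = G x / ρ²` (equal to `x` on the cone) -/
noncomputable def xh (x : X3) : X3 :=
  WithLp.toLp 2 fun p => (∑ B, Gr x p.2 B * x (p.1, B)) / ‖x‖ ^ 2

/-- the configuration `x_i^A = y_i n_A` -/
noncomputable def cone (n : Fin 3 → ℝ) (y : Fin 9 → ℝ) : X3 := WithLp.toLp 2 fun p => y p.1 * n p.2

/-- `|y|` -/
noncomputable def ry (y : Fin 9 → ℝ) : ℝ := Real.sqrt (∑ i, y i ^ 2)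

namespace Setup

variable (S : Setup F)

/-- `b^A N b^B` -/
noncomputable def bilb (N : Matrix (Fin 16) (Fin 16) ℂ) (A B : Fin 3) : F →L[ℂ] F :=
  ∑ α, ∑ β, N α β • (S.bm A α * S.bm B β)

/-- `Z(x) = (ρ²/2ρ6²)[(i/ρ) ε_{ACB} x_a^C b^Aγ^ab^B - ρ⁻²((x_a·x_i)δ_AB - x_a^Ax_i^B) b^Aγ^aγ^ib^B]`,
`a ∈ I6`, `i ∈ I3` -/
noncomputable def ZZ (x : X3) : F →L[ℂ] F :=
  ((‖x‖ ^ 2 / (2 * rho6sq x) : ℝ) : ℂ) • (
    (Complex.I * ((1 / ‖x‖ : ℝ) : ℂ)) • (∑ a : Fin 9, ∑ A, ∑ B, ∑ C,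
      (if 3 ≤ a.val then (eps A C B : ℂ) * (x (a, C) : ℂ) else 0) • S.bilb (S.g a) A B) -
    ((1 / ‖x‖ ^ 2 : ℝ) : ℂ) • (∑ a : Fin 9, ∑ i : Fin 9, ∑ A, ∑ B,
      (if 3 ≤ a.val ∧ i.val < 3 then
        (if A = B then ∑ D, (x (a, D) : ℂ) * (x (i, D) : ℂ) else 0) -
          (x (a, A) : ℂ) * (x (i, B) : ℂ) else 0) • S.bilb (S.g a * S.g i) A B))

/-- `ω(x) = ((ρ6/ρ)⁴/16) e^{Z(x)} Ω` -/
noncomputable def om (Ω : F) (x : X3) : F :=
  (((rho6sq x / ‖x‖ ^ 2) ^ 2 / 16 : ℝ) : ℂ) • (NormedSpace.exp (S.ZZ x)) Ω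

/-- `v(x) = (1 - F(x - x̂)/(2κρ)) ω(x̂)` -/
noncomputable def vv (Ω : F) (x : X3) : F :=
  S.om Ω (xh x) - ((1 / (2 * S.κ * ‖x‖) : ℝ) : ℂ) • S.Fx (x - xh x) (S.om Ω (xh x))

/-- `φ_m = ρ³ exp(-V/(κρ) - (m/2)∑a_i|x_i|²)` -/
noncomputable def ph (m : ℝ) (x : X3) : ℝ :=
  ‖x‖ ^ 3 * Real.exp (-(S.V x / (S.κ * ‖x‖)) - m / 2 * ∑ i, ∑ A, aw i * x (i, A) ^ 2)

/-- `θ^n_α = ∑ n_A θ^A_α` -/
noncomputable def thn (n : Fin 3 → ℝ) (α : Fin 16) : F →L[ℂ] F := ∑ A, ((n A : ℝ) : ℂ) • S.th α A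

/-- transverse vacuum at `n⊗y`: `|y| θ_⊥ v = i y̸ (n×θ) v` -/
def VT (n : Fin 3 → ℝ) (y : Fin 9 → ℝ) (v : F) : Prop := ∀ A α,
  ((ry y : ℝ) : ℂ) • (S.th α A v - ((n A : ℝ) : ℂ) • S.thn n α v) =
    Complex.I • ∑ B, ∑ C, ∑ i, ((eps A B C : ℂ) * (n B : ℂ) * (y i : ℂ)) • S.vec (S.g i) C α v

/-- vacuum of the free part: `θ^n v = iΓθ^n v` -/
def VN (n : Fin 3 → ℝ) (v : F) : Prop := ∀ α,
  S.thn n α v = Complex.I • ∑ A, ((n A : ℝ) : ℂ) • S.vec S.Gam A α v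

/-- `T1_β(z) = iκ|y| (γzθ)_β + DW(n⊗y)[z]_β` -/
noncomputable def T1 (n : Fin 3 → ℝ) (y : Fin 9 → ℝ) (β : Fin 16) (z : X3) : F →L[ℂ] F :=
  (Complex.I * ((S.κ * ry y : ℝ) : ℂ)) • S.B β z + S.DW (cone n y) β z

/-- derivative of `v` in direction `(i,A)` at the cone point `n⊗y`, as an operator applied to `ω` -/
noncomputable def XX (n : Fin 3 → ℝ) (y : Fin 9 → ℝ) (i : Fin 9) (A : Fin 3) : F →L[ℂ] F :=
  ((n A / (4 * ry y ^ 2) : ℝ) : ℂ) • (∑ B, ∑ D, ∑ k, ∑ j,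
      ((((if B = D then 1 else 0) - n B * n D) *
        ((if k = i then 1 else 0) - y k * y i / ry y ^ 2) * y j : ℝ) : ℂ) •
        S.bil (S.g k * S.g j) B D) +
  ((y i / ry y ^ 2 : ℝ) : ℂ) • (∑ B, ∑ D,
      ((((if B = A then 1 else 0) - n B * n A) * n D : ℝ) : ℂ) • S.bil 1 B D) -
  ((1 / (2 * S.κ * ry y) : ℝ) : ℂ) • S.Fx (cone
      (fun B => (if B = A then 1 else 0) - n B * n A)
      (fun k => (if k = i then 1 else 0) - y k * y i / ry y ^ 2))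

end Setup

namespace U

/-- **D-dec** decomposition near the cone. PROOF: `n` = top unit eigenvector of the symmetric matrix `G = Gr x`,
`y_i = ∑n_Ax_i^A`, `z = x - n⊗y`; `∑_iy_iz_i^A = (Gn)_A - (n·Gn)n_A = 0`. Eigenvalues `λ_1 = |y|² ≥ λ_2 ≥ λ_3 ≥ 0`,
`λ_2+λ_3 = |z|²`, `V = ½κ²·e_2(λ) ≥ ½κ²λ_1|z|²`, `λ_1 ≥ ρ²/3`. -/
def DecStmt (S : Setup F) : Prop := ∀ x : X3, x ≠ 0 → ∃ (n : Fin 3 → ℝ) (y : Fin 9 → ℝ) (z : X3),
  ∑ A, n A ^ 2 = 1 ∧ x = cone n y + z ∧ (∀ i, ∑ A, z (i, A) * n A = 0) ∧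
    (∀ A, ∑ i, y i * z (i, A) = 0) ∧ ‖x‖ ^ 2 ≤ 3 * ry y ^ 2 ∧
    ‖z‖ ^ 2 * (S.κ ^ 2 * ‖x‖ ^ 2) ≤ 6 * S.V x

/-- **D-1** `ω` is the vacuum on the cone. PROOF: `a = am`, `b = bm`, `θ = a + b`, `P_- = ½(1-iΓ)`, `P_+ = ½(1+iΓ)`,
`{a_α^A,b_β^B} = (P_-)_{αβ}δ_AB`, `{a,a} = {b,b} = 0`; `Z = ½ bKb` with `(Kb)^A = |ŷ6|⁻²(iŷ̸6(n×b)^A - ŷ̸6ŷ̸3b_⊥^A)`
(on the cone; `ŷ = y/|y|`, `ŷ̸3,ŷ̸6` = parts in `I3`, `I6`), `e^{-Z}ae^{Z} = a + Kb =: a + X`, `e^{-Z}be^Z = b`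
(`Kb` is in the range of `P_-`: `ŷ̸6` exchanges chirality). `e^{-Z}(θ_⊥ - iŷ̸n×θ)e^ZΩ = (b_⊥ + X - iŷ̸n×(b+X))Ω`;
`P_+` part: `b_⊥ - iŷ̸3n×b - iŷ̸6n×X = 0`, `P_-` part: `X - iŷ̸3n×X - iŷ̸6n×b = 0`; both hold as
`X = |ŷ6|⁻²iŷ̸6n×(b - iŷ̸3n×b)`, `(n×)² = -1` on `⊥`, `ŷ̸6² = |ŷ6|²`, `ŷ̸3² = |ŷ3|² = 1-|ŷ6|²`. Along `n`: `X^n = 0`, so
`(θ^n - iΓθ^n)ω = 2a^nω = 0`. -/
def Om1Stmt (S : Setup F) : Prop := ∀ Ω : F, (∀ A α, S.am A α Ω = 0) → ∀ (n : Fin 3 → ℝ) (y : Fin 9 → ℝ),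
  ∑ A, n A ^ 2 = 1 → 0 < rho6sq (cone n y) → S.VT n y (S.om Ω (cone n y)) ∧
    S.VN n (S.om Ω (cone n y)) ∧
    (inner ℂ Ω (S.om Ω (cone n y))) = (((rho6sq (cone n y) / ry y ^ 2) ^ 2 / 16 : ℝ) : ℂ) * ((‖Ω‖ ^ 2 : ℝ) : ℂ)

/-- **D-uniq** uniqueness of the vacuum at a cone point (C-Vac: the annihilators in `VT`, `VN` span a maximal
isotropic subspace; existence of one nonzero solution from D-1). -/
def VUniqStmt (S : Setup F) : Prop := ∀ Ω : F, Ω ≠ 0 → (∀ A α, S.am A α Ω = 0) →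
  ∀ (n : Fin 3 → ℝ) (y : Fin 9 → ℝ), ∑ A, n A ^ 2 = 1 → 0 < rho6sq (cone n y) →
  ∀ v : F, S.VT n y v → S.VN n v → ∃ c : ℂ, v = c • S.om Ω (cone n y)

/-- **D-sm** smoothness of `om Ω`, `vv Ω` on `{ρ6 > 0}` (`ρ6(x̂) > 0` there: `x_a·Gx_a = ∑_i(x_i·x_a)² ≥ |x_a|⁴`), homogeneity of
degree `0`, `x̂ = x` on the cone, and covariance: `G_C`, `J_{kl}` (`Same k l`) annihilate `om Ω` and `vv Ω` on `{ρ6 > 0}`.
PROOF of covariance: the rotation derivative of the coefficient functions of `Z` is minus the commutator with the spin part,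
`cS_CΩ = 0`, `S_{kl}Ω = 0` (bilinears `b·a`, since `aᵀa`-type sums vanish: `Γ² = -1`); `x ↦ x̂`, `ρ`, `ρ6` are
equivariant; `F(x)` is covariant (landed for `G`, `J`: `[G_C,F(x)]=0` …). -/
def SmStmt (S : Setup F) : Prop := ∀ Ω : F, (∀ A α, S.am A α Ω = 0) →
  ContDiffOn ℝ ∞ (S.om Ω) {x | 0 < rho6sq x} ∧ ContDiffOn ℝ ∞ (S.vv Ω) {x | 0 < rho6sq x} ∧
  (∀ x, 0 < rho6sq x → 0 < rho6sq (xh x)) ∧
  (∀ x, ∀ t : ℝ, 0 < t → S.om Ω (t • x) = S.om Ω x ∧ S.vv Ω (t • x) = S.vv Ω x) ∧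
  (∀ n y, ∑ A, n A ^ 2 = 1 → cone n y ≠ 0 → xh (cone n y) = cone n y) ∧
  ∀ x, 0 < rho6sq x → (∀ C, S.G C (S.om Ω) x = 0 ∧ S.G C (S.vv Ω) x = 0) ∧
    ∀ k l, Same k l → S.J k l (S.om Ω) x = 0 ∧ S.J k l (S.vv Ω) x = 0

/-- **D-2** derivatives of `ω` along the cone:
`D_{n⊗w}ω = (1/4r²)(θ_⊥w̸y̸θ_⊥)ω` for `w ⟂ y`, `D_{e⊗y}ω = (θ^e·θ^n)ω` for `e ⟂ n`.
PROOF. Second: gauge covariance (D-sm): with `c = n×e`, `-iD_{e⊗y}ω + c·cS ω = 0`,
`c·cS = -(i/2)∑ε_{CDE}c_Cθ^Dθ^E = i θ^e·θ^n`-ish. First: differentiate `VT`, `VN` (D-1) along `n⊗w`; the vector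
`D_{n⊗w}ω - (1/4r²)(θ_⊥w̸y̸θ_⊥)ω` satisfies `VT` and `VN`, so it is `λω` (D-uniq); pair with `Ω`:
`⟨Ω,D_{n⊗w}ω⟩ = D_{n⊗w}((ρ6/ρ)⁴/16) = 4(w·y6)/|y6|²·⟨Ω,ω⟩`, and `⟨Ω,(1/4r²)(θ_⊥w̸y̸θ_⊥)ω⟩` is computed with `⟨Ω|b = 0`:
`θ_⊥w̸y̸θ_⊥ → a w̸y̸ a`-part and `a…b`: `aω = e^Z X Ω`, it gives the same number; so `λ = 0`.  (Or differentiate `e^Z`
directly: `De^Z = (DZ)e^Z`, all `b`-bilinears commute.) -/
def Om2Stmt (S : Setup F) : Prop := ∀ Ω : F, (∀ A α, S.am A α Ω = 0) → ∀ (n : Fin 3 → ℝ) (y : Fin 9 → ℝ),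
  ∑ A, n A ^ 2 = 1 → 0 < rho6sq (cone n y) →
  (∀ w : Fin 9 → ℝ, ∑ i, w i * y i = 0 → fderiv ℝ (S.om Ω) (cone n y) (cone n w) =
    ((1 / (4 * ry y ^ 2) : ℝ) : ℂ) • ∑ A, ∑ B, ∑ i, ∑ j,
      ((((if A = B then 1 else 0) - n A * n B) * w i * y j : ℝ) : ℂ) •
        S.bil (S.g i * S.g j) A B (S.om Ω (cone n y))) ∧
  ∀ e : Fin 3 → ℝ, ∑ A, e A * n A = 0 → fderiv ℝ (S.om Ω) (cone n y) (cone e y) =
    ∑ A, ∑ B, ((e A * n B : ℝ) : ℂ) • S.bil 1 A B (S.om Ω (cone n y))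

/-- **D-norm** `‖ω‖` is constant on the cone. PROOF: by D-2 the derivatives of `‖ω‖²` along the cone vanish (both operators are
anti-Hermitian: `(θ^AMθ^B)† = θ^BMᵀθ^A`), radial derivative `0`; `{y : y6 ≠ 0} ⊂ ℝ⁹` is open and connected (complement of a
subspace of codimension 6) and great circles connect the `n`. Positivity: `⟨Ω,ω⟩ ≠ 0`. -/
def OmNormStmt (S : Setup F) : Prop := ∀ Ω : F, Ω ≠ 0 → (∀ A α, S.am A α Ω = 0) →
  ∃ c : ℝ, 0 < c ∧ ∀ (n : Fin 3 → ℝ) (y : Fin 9 → ℝ), ∑ A, n A ^ 2 = 1 →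
    0 < rho6sq (cone n y) → ‖S.om Ω (cone n y)‖ = c

/-- **D-3** all derivatives of `v` at a cone point. PROOF: `x̂(x_c+z) = (r²x_c + (zᵀz)z)/(r²+|z|²)` for normal `z`, so `Dx̂ = 0` on normal
directions `e⊗w` and `Dx̂ = id` on tangent directions; then D-2 and `D_{n⊗y}ω = 0`; split
`single (i,A) = e_i⊗e_A` with the projections `n nᵀ`, `1-n nᵀ`, `yyᵀ/r²`, `1-yyᵀ/r²`. -/
def V3Stmt (S : Setup F) : Prop := ∀ Ω : F, (∀ A α, S.am A α Ω = 0) → ∀ (n : Fin 3 → ℝ) (y : Fin 9 → ℝ),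
  ∑ A, n A ^ 2 = 1 → 0 < rho6sq (cone n y) → S.vv Ω (cone n y) = S.om Ω (cone n y) ∧
  ∀ i A, pd i A (S.vv Ω) (cone n y) = S.XX n y i A (S.om Ω (cone n y))

/-- **D-M12** algebra: first and second order cancellation. `z` normal: `∑_Az_i^An_A = 0`, `∑_iy_iz_i^A = 0`.
PROOF. `z̸^A = ∑z_i^Aγ^i`, `r = |y|`. `DW(x_c)[z] = κr ŷ̸∑(n×z̸)^Aθ^A = κr∑_Cz̸^Cŷ̸(n×θ)^C`, so
`T1(z)v = iκr∑z̸^C[θ^C - iŷ̸(n×θ)^C]v = 0`. `[θ_α^D,Fx(z)] = iκε_{DBC}(z̸^Cθ^B)_α`, hence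
`[T1(z),Fx(z)] = κ²r[(z̸¹z̸²-z̸²z̸¹) + i|z|²ŷ̸]θ^n` (`z̸^{1,2}` components along an oriented basis of `n^⊥`), while
`(iκ|z|²/2r)B(x_c) + W(z) = (κ/2)[i|z|²ŷ̸ + (z̸¹z̸²-z̸²z̸¹)]θ^n`. -/
def M12Stmt (S : Setup F) : Prop := ∀ (n : Fin 3 → ℝ) (y : Fin 9 → ℝ), ∑ A, n A ^ 2 = 1 → 0 < ry y →
  ∀ v : F, S.VT n y v → ∀ z : X3, (∀ i, ∑ A, z (i, A) * n A = 0) → (∀ A, ∑ i, y i * z (i, A) = 0) →
  ∀ β, S.T1 n y β z v = 0 ∧
    (Complex.I * ((S.κ * ‖z‖ ^ 2 / (2 * ry y) : ℝ) : ℂ)) • S.B β (cone n y) v + S.W β z v -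
      ((1 / (2 * S.κ * ry y) : ℝ) : ℂ) • S.T1 n y β z (S.Fx z v) = 0

/-- **D-M3** algebra: cancellation of the `1/ρ` terms: `∑(γ^iθ^A)_β X_{iA} v + (3/r²)(γx_cθ)_β v = 0`.
PROOF. `e_1,e_2,n` oriented, `θ^1 v = -iŷ̸θ^2v`. `d = ½(θ^1+iŷ̸θ^2)`, `dv = 0`, `θ^1 = d+d†`, `θ^2 = -iŷ̸(d-d†)`, `{d_α,d_β†} = ½δ`.
Terms (×r): `X1 = ¼∑_w(w̸θ^n)_β(θ^ew̸ŷ̸θ^e)v`, `X2 = (ŷ̸θ^e)_β(θ^eθ^n)v`, `X3 = -(1/2κ)∑(w̸θ^e)_βF(e⊗w)v`,
`F(e_1⊗w) = iκθ^2w̸θ^n`, `F(e_2⊗w) = -iκθ^1w̸θ^n`, `X4 = 3(ŷ̸θ^n)_βv`  (`w` orthonormal basis of `y^⊥`, 8 vectors).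
Zero-particle parts (multiples of `(ŷ̸θ^n)_βv`): `0, 1, -4, 3`, sum `0`. Two-particle parts:
`∑_w{½(w̸θ^n)_β(d†w̸ŷ̸d†) + ½(w̸d†)_β(d†ŷ̸w̸θ^n) - ½(w̸ŷ̸d†)_β(d†w̸θ^n)} + (ŷ̸d†)_β(d†θ^n) - d†_β(d†ŷ̸θ^n) = 0`, a
consequence of the Fierz identity F10 (`∑_w = ∑_i - ŷŷ` term) contracted with `ŷ̸`, verified numerically. -/
def M3Stmt (S : Setup F) : Prop := ∀ (n : Fin 3 → ℝ) (y : Fin 9 → ℝ), ∑ A, n A ^ 2 = 1 → 0 < ry y →
  ∀ v : F, S.VT n y v → ∀ β,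
    (∑ i, ∑ A, S.vec (S.g i) A β (S.XX n y i A v)) +
      ((3 / ry y ^ 2 : ℝ) : ℂ) • S.B β (cone n y) v = 0

/-- **D-Est** the main pointwise estimate, `z = √(2V)/(κρ)`.
PROOF. `Q^m_β(φv) = φ(E²+E^{-1}+E^m)`, `E² = (i/κ)∑∂_{iA}(V/ρ)(γ^iθ^A)_βv + W_βv`, `E^{-1} = -i(γθ∂)_βv - (3i/ρ²)B_β(x)v`,
`E^m = m(M_β(x) + i∑a_ix_i^A(γ^iθ^A)_β)v`, homogeneous of degree `2,-1,1`; so let `ρ = 1`. D-dec: `x = x_c+z`, `|z| ≤ C√V`, small. The
segment `x_c+sz` stays in a fixed compact subset of `{ρ6 > 0}` if `ε(δ)` is small. `E^{-1}(x_c) = 0` (D-3, D-M3), `E^m(x_c) = 0` (VN); smoothness gives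
`|E^{-1}|,|E^m|/m ≤ C|z|`. `f(s) = E²(x_c+sz)`: `f(0)=f'(0)=f''(0)=0` by D-M12: `∂(V2/ρ) = 2(ρ²x-Gx)/ρ - V2x/ρ³ = 2rz+(|z|²/r)x_c+O(|z|³)`
(`V = ½κ²V2`), `v = ω - (1/2κr)F(z)ω + O(|z|²)`; so `|E²| ≤ C|z|³`. Norm bounds: D-norm and continuity. -/
def EstStmt (S : Setup F) : Prop := ∀ Ω : F, Ω ≠ 0 → (∀ A α, S.am A α Ω = 0) →
  ∃ c : ℝ, 0 < c ∧ ∀ δ : ℝ, 0 < δ → ∃ ε C : ℝ, 0 < ε ∧ 0 < C ∧ ∀ x : X3, x ≠ 0 →
    δ ^ 2 * ‖x‖ ^ 2 ≤ rho6sq x → S.V x ≤ ε ^ 2 * ‖x‖ ^ 4 →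
    (c / 2 ≤ ‖S.vv Ω x‖ ∧ ‖S.vv Ω x‖ ≤ 2 * c) ∧ ∀ m : ℝ, 0 ≤ m → ∀ β,
      ‖S.Qm m β (fun y => ((S.ph m y : ℝ) : ℂ) • S.vv Ω y) x‖ ≤ C * S.ph m x *
        ((S.V x) ^ (3 / 2 : ℝ) / ‖x‖ ^ 4 + Real.sqrt (S.V x) / ‖x‖ ^ 3 +
          m * Real.sqrt (S.V x) / ‖x‖)

/-- **D-Int** volumes near the cone. `L(t) = ∫_{1≤|y|≤2} e^{-tV(y)}dy ~ t^{-8}`.
PROOF. (1) at least one `i` has `|x_i| ≥ |x|/3`; there `V ≥ ½κ²∑_{j≠i}|x_i×x_j|² ≥ (κ²/18)·∑_{j≠i}|x_j^⊥|²` (`⊥` to `x_i`, `|x|≥1`); integrate over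
`x_j`, `j≠i` for fixed `x_i` (rotate `x_i/|x_i|` to `e_3`; measure preserving): `∫_{ℝ^16}e^{-ct|z|²} = Ct^{-8}`. (2) if `ρ6 ≤ δρ`, `δ<1/3`, then `i ∈ I3`,
and the parallel components `x_a^∥`, `a∈I6` lie in a ball of radius `2δ` in `ℝ⁶`. (3) lower bound: `x_3 ∈ ℝ³` (an index in `I6`) with
`5/4≤|x_3|≤3/2`, `|x_j^∥| ≤ 1/10`, `|x_j^⊥| ≤ c t^{-1/2}` for `j≠3` (rotate again). -/
def IntStmt (S : Setup F) : Prop := ∀ k : ℝ, 0 < k → ∃ C : ℝ, 0 < C ∧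
  (∀ t : ℝ, 1 ≤ t → ∫ x : X3, (if 1 ≤ ‖x‖ ∧ ‖x‖ ≤ 2 then Real.exp (-(k * t * S.V x)) else 0) ≤
    C * t ^ (-8 : ℝ)) ∧
  (∀ t δ : ℝ, 1 ≤ t → 0 < δ → δ ≤ 1 / 10 → ∫ x : X3, (if 1 ≤ ‖x‖ ∧ ‖x‖ ≤ 2 ∧ rho6sq x ≤ δ ^ 2 * ‖x‖ ^ 2
    then Real.exp (-(k * t * S.V x)) else 0) ≤ C * δ ^ 6 * t ^ (-8 : ℝ)) ∧
  (∀ t : ℝ, 1 ≤ t → t ^ (-8 : ℝ) ≤ C * ∫ x : X3, (if 1 ≤ ‖x‖ ∧ ‖x‖ ≤ 2 ∧ ‖x‖ ^ 2 / 4 ≤ rho6sq x ∧
    S.V x ≤ 1 / t then 1 else 0))

/-- **D-Out** the outer state. PROOF. `u = χφ_mv`, `χ = h_1(ρ√m/c0)h_3(ρ√m/K)h_2(ρ6/(δρ))h_4(V/(ε²ρ⁴))`: `h_1 = 0` for `ρ ≤ c0m^{-1/2}`, `1` for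
`ρ ≥ 2c0m^{-1/2}`; `h_3 = 1` for `ρ ≤ Km^{-1/2}`, `0` for `ρ≥2Km^{-1/2}`; `h_2 = 0` for `ρ6≤δρ`, `1` for `ρ6≥2δρ`; `h_4 = 1` for
`V ≤ ε²ρ⁴/4`, `0` for `V≥ε²ρ⁴`. Invariance: D-sm, all other factors depend on `ρ,ρ6,V` only. `∑‖Q(χφv)‖² ≤ 2∑∫χ²|Q(φv)|² + 16∫|∇χ|²φ²|v|²`.
Let `N = m^{-9/2}`. D-Int on dyadic shells `ρ ∈ [r,2r]`: `x = ry'`: `∫_{shell}e^{-2V/(κρ)} ≤ r^27·C(r³)^{-8} = Cr³`, so `∫_{shell}φ_m² ≤ Cr⁹e^{-mr²}`;
weights: `V^ke^{-V/(κρ)} ≤ C_kρ^k`. (i) lower bound: shell `r = m^{-1/2}`, `ρ6≥ρ/2`, `V/ρ ≤ C`: `nsq u ≥ cN`. (ii) D-Est terms: `≤ C(c0,K,δ)m^{5/2}N`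
(`V³/ρ⁸ ~ ρ^{-5}`, `V/ρ⁶ ~ ρ^{-5}`, `m²V/ρ² ~ m²/ρ`). (iii) `h_1`: `C(c0m^{-1/2})⁷ = Cc0⁷mN`; `h_3`: `CK⁷e^{-K²/2}mN`; `h_2`: `Cδ^{-2}·δ⁶∑_r r⁷e^{-mr²} ≤ Cδ⁴mN`
(constants `C` independent of `δ,c0,K` because `‖v‖` is between `c/2` and `2c`); `h_4`: `C(…)e^{-c'm^{-3/2}}`. Choose `δ,c0` small, `K` large so that (iii) `≤ ηmcN/4`, then
`ε(δ)`, then `m` small. -/
def OutStmt (S : Setup F) : Prop := ∀ Ω : F, Ω ≠ 0 → (∀ A α, S.am A α Ω = 0) →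
  ∀ η : ℝ, 0 < η → ∃ c0 m0 : ℝ, 0 < c0 ∧ 0 < m0 ∧ ∀ m : ℝ, 0 < m → m < m0 → ∃ u : X3 → F,
    S.Inv u ∧ (∀ x, ‖x‖ ≤ c0 / Real.sqrt m → u x = 0) ∧ 0 < nsq u ∧
    ∑ β, nsq (S.Qm m β u) ≤ η * m * nsq u

/-- **D-zm** zero modes of `H_2` are invariant, have second moments. (landed: `weak_J`, `decay`, `wineq`) -/
def ZmStmt (S : Setup F) : Prop := ∀ Ψ : Lp F 2 (volume : Measure X3), S.IsZM Ψ →
  S.Em 0 Ψ ∧ Integrable (fun x : X3 => ‖x‖ ^ 2 * ‖Ψ x‖ ^ 2)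

/-- **D-Inv** the case `m = 0`, `Θ = 0` of B8 together with a bound for the second moment of `u`
(`u = χ_R(ρ_ε*Ψ)`, `∫|x|²|u|² ≤ 2∫(|x|²+1)|Ψ|²`). -/
def InvMomStmt (S : Setup F) : Prop := ∀ Ψ : X3 → F,
  MemLp Ψ 2 (volume : Measure X3) → S.wG Ψ → S.wJ Ψ → (∀ β, S.wQ 0 β Ψ (fun _ => 0)) →
  Integrable (fun x => ‖x‖ ^ 2 * ‖Ψ x‖ ^ 2) →
  ∃ C : ℝ, ∀ R : ℝ, 1 ≤ R → ∀ δ : ℝ, 0 < δ → ∃ u : X3 → F, S.Inv u ∧
    (∀ x, R ≤ ‖x‖ → u x = 0) ∧
    nsq (fun x => u x - Ψ x) ≤ δ + C * (∫ x, (if R / 4 ≤ ‖x‖ then ‖Ψ x‖ ^ 2 else 0)) ∧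
    ∑ β, nsq (S.Qm 0 β u) ≤ δ +
      C / R ^ 2 * (∫ x, (if R / 4 ≤ ‖x‖ then ‖Ψ x‖ ^ 2 else 0)) ∧
    ∫ x, ‖x‖ ^ 2 * ‖u x‖ ^ 2 ≤ C

/-- **Theorem D** PROOF. `Ψ_1,Ψ_2` independent zero modes (D-zm), D-Inv with `R = c0m^{-1/2}`, `δ = m²`: `u_1,u_2` invariant, supported in
`‖x‖<R`, `∑‖Q_βu_j‖² = o(m)`, `∫|x|²|u_j|² ≤ C`, so `∑‖Q^m_βu_j‖² = o(m)`; `u_3` from D-Out with `η = 4`, zero for `‖x‖≤R`. Supports are disjoint, so for
`u = ∑a_ju_j` both `nsq u` and `∑nsq(Q^m_βu)` split. -/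
def ThmDStmt (S : Setup F) : Prop := S.Irr → (∃ v : F, v ≠ 0) →
  ∀ Ψ₁ Ψ₂ : Lp F 2 (volume : Measure X3), S.IsZM Ψ₁ → S.IsZM Ψ₂ → LinearIndependent ℂ ![Ψ₁, Ψ₂] →
  ∃ m : ℝ, 0 < m ∧ S.Low m (8 * m)

/-- **Uniqueness**: B + C + D. -/
def UniqStmt (S : Setup F) : Prop := S.Irr → (∃ v : F, v ≠ 0) →
  ∀ Ψ₁ Ψ₂ : Lp F 2 (volume : Measure X3), S.IsZM Ψ₁ → S.IsZM Ψ₂ → ¬ LinearIndependent ℂ ![Ψ₁, Ψ₂]

end U
end Vale.Agent.P353
end

section

open Matrix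

namespace Vale.Agent.P353

namespace CS

variable {R : Type*} [Ring R] [Algebra ℂ R] (S : CS R)

/-- the rotated system `θ'^A = ∑ O_{AC} θ^C` -/
noncomputable def rot (O : Matrix (Fin 3) (Fin 3) ℂ) (hO : O * Oᵀ = 1) : CS R where
  g := S.g
  g_symm := S.g_symm
  g_anti := S.g_anti
  th α A := ∑ C, O A C • S.th α C
  th_anti := by
    intro α A β B
    have h : (∑ C, O A C • S.th α C) * (∑ C, O B C • S.th β C) +
        (∑ C, O B C • S.th β C) * (∑ C, O A C • S.th α C) =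
        ∑ C, ∑ D, (O A C * O B D) • (S.th α C * S.th β D + S.th β D * S.th α C) := by
      have e1 : (∑ C, O A C • S.th α C) * (∑ C, O B C • S.th β C) =
          ∑ C, ∑ D, (O A C * O B D) • (S.th α C * S.th β D) := by
        simp only [Finset.sum_mul, Finset.mul_sum, smul_mul_smul_comm]
        rw [Finset.sum_comm]
      have e2 : (∑ C, O B C • S.th β C) * (∑ C, O A C • S.th α C) =
          ∑ C, ∑ D, (O A C * O B D) • (S.th β D * S.th α C) := by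
        simp only [Finset.sum_mul, Finset.mul_sum, smul_mul_smul_comm]
        refine Finset.sum_congr rfl fun i _ => Finset.sum_congr rfl fun j _ => ?_
        rw [mul_comm]
      rw [e1, e2]
      simp only [← Finset.sum_add_distrib, smul_add]
    rw [h]
    simp only [S.th_anti]
    have h2 : ∑ C, O A C * O B C = if A = B then 1 else 0 := by
      have := congrFun (congrFun hO A) B
      rw [Matrix.mul_apply, Matrix.one_apply] at this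
      simpa only [Matrix.transpose_apply] using this
    by_cases hα : α = β
    · simp only [hα, true_and, smul_ite, smul_zero, Finset.sum_ite_eq, Finset.mem_univ, if_true,
        ← Finset.sum_smul, h2]
      by_cases hAB : A = B <;> simp [hAB]
    · simp [hα]

section

variable (O : Matrix (Fin 3) (Fin 3) ℂ) (hO : O * Oᵀ = 1)

include hO in
lemma orth_row (A B : Fin 3) : ∑ C, O A C * O B C = if A = B then 1 else 0 := by
  have := congrFun (congrFun hO A) B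
  rw [Matrix.mul_apply, Matrix.one_apply] at this
  simpa only [Matrix.transpose_apply] using this

include hO in
lemma orth_col (C D : Fin 3) : ∑ A, O A C * O A D = if C = D then 1 else 0 := by
  have hO' : Oᵀ * O = 1 := mul_eq_one_comm.mp hO
  have := congrFun (congrFun hO' C) D
  rw [Matrix.mul_apply, Matrix.one_apply] at this
  simpa only [Matrix.transpose_apply] using this

lemma rot_vec (N : Matrix (Fin 16) (Fin 16) ℂ) (A : Fin 3) (β : Fin 16) :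
    (S.rot O hO).vec N A β = ∑ C, O A C • S.vec N C β := by
  simp only [vec, rot, Finset.smul_sum]
  rw [Finset.sum_comm]
  refine Finset.sum_congr rfl fun C _ => Finset.sum_congr rfl fun γ _ => ?_
  rw [smul_comm]

lemma rot_bil (N : Matrix (Fin 16) (Fin 16) ℂ) (A B : Fin 3) :
    (S.rot O hO).bil N A B = ∑ C, ∑ D, (O A C * O B D) • S.bil N C D := by
  have h : ∀ α, (S.rot O hO).th α A * (S.rot O hO).vec N B α =
      ∑ C, ∑ D, (O A C * O B D) • (S.th α C * S.vec N D α) := by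
    intro α
    rw [rot_vec]
    simp only [rot, Finset.sum_mul, Finset.mul_sum, smul_mul_smul_comm]
    rw [Finset.sum_comm]
  rw [bil, Finset.sum_congr rfl fun α _ => h α, Finset.sum_comm]
  refine Finset.sum_congr rfl fun C _ => ?_
  rw [Finset.sum_comm]
  refine Finset.sum_congr rfl fun D _ => ?_
  rw [bil, Finset.smul_sum]

lemma rot_g2 (k l : Fin 9) : (S.rot O hO).g2 k l = S.g2 k l := rfl

lemma rot_g (k : Fin 9) : (S.rot O hO).g k = S.g k := rfl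

lemma rot_tot (N : Matrix (Fin 16) (Fin 16) ℂ) : (S.rot O hO).tot N = S.tot N := by
  simp only [tot, rot_bil]
  rw [Finset.sum_comm]
  refine Finset.sum_congr rfl fun C _ => ?_
  rw [Finset.sum_comm]
  have : ∀ D, ∑ A, (O A C * O A D) • S.bil N C D = if C = D then S.bil N C D else 0 := by
    intro D
    rw [← Finset.sum_smul, orth_col O hO]
    split_ifs <;> simp
  simp only [this, Finset.sum_ite_eq, Finset.mem_univ, if_true]

lemma rot_Sk (k l : Fin 9) : (S.rot O hO).Sk k l = S.Sk k l := by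
  rw [Sk, Sk, rot_tot, rot_g2]

/-- `det O = 1` in the form used below -/
def IsSpecial (O : Matrix (Fin 3) (Fin 3) ℂ) : Prop :=
  ∀ C D E, ∑ A, ∑ B, (eps C A B : ℂ) * (O A D * O B E) = ∑ F, O C F * (eps F D E : ℂ)

variable (hS : IsSpecial O)

include hS in
lemma cross_rot {M : Type*} [AddCommGroup M] [Module ℂ M] (b : Fin 3 → Fin 3 → M) (C : Fin 3) :
    ∑ A, ∑ B, (eps C A B : ℂ) • ∑ D, ∑ E, (O A D * O B E) • b D E =
      ∑ F, O C F • ∑ D, ∑ E, (eps F D E : ℂ) • b D E := by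
  have s1 : ∀ (f : Fin 3 → Fin 3 → Fin 3 → Fin 3 → M),
      ∑ A, ∑ B, ∑ D, ∑ E, f A B D E = ∑ D, ∑ E, ∑ A, ∑ B, f A B D E := by
    intro f
    have a1 : ∀ A, ∑ B, ∑ D, ∑ E, f A B D E = ∑ D, ∑ B, ∑ E, f A B D E := fun A =>
      Finset.sum_comm
    have a2 : ∀ A D, ∑ B, ∑ E, f A B D E = ∑ E, ∑ B, f A B D E := fun A D => Finset.sum_comm
    simp only [a1, a2]
    rw [Finset.sum_comm]
    refine Finset.sum_congr rfl fun D _ => ?_
    rw [Finset.sum_comm]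
  have s2 : ∀ (f : Fin 3 → Fin 3 → Fin 3 → M),
      ∑ A, ∑ D, ∑ E, f A D E = ∑ D, ∑ E, ∑ A, f A D E := by
    intro f
    rw [Finset.sum_comm]
    refine Finset.sum_congr rfl fun D _ => ?_
    rw [Finset.sum_comm]
  simp only [Finset.smul_sum, smul_smul]
  rw [s1, s2 (fun A D E => (O C A * (eps A D E : ℂ)) • b D E)]
  refine Finset.sum_congr rfl fun D _ => Finset.sum_congr rfl fun E _ => ?_
  rw [← Finset.sum_smul, ← hS C D E, Finset.sum_smul]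
  refine Finset.sum_congr rfl fun A _ => ?_
  rw [Finset.sum_smul]

include hS in
lemma rot_sG (C : Fin 3) : (S.rot O hO).sG C = ∑ F, O C F • S.sG F := by
  have h2 : ∀ F, O C F • S.sG F = (-Complex.I / 2) • O C F • ∑ D, ∑ E, (eps F D E : ℂ) •
      S.bil 1 D E := by
    intro F
    rw [sG, smul_comm]
  simp only [h2, ← Finset.smul_sum]
  rw [sG]
  congr 1
  simp only [rot_bil]
  rw [cross_rot O hS]

include hS in
lemma rot_CG : ∑ C, (S.rot O hO).sG C * (S.rot O hO).sG C = ∑ C, S.sG C * S.sG C := by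
  simp only [S.rot_sG O hO hS]
  have h : ∀ C, (∑ F, O C F • S.sG F) * (∑ F, O C F • S.sG F) =
      ∑ F, ∑ H, (O C F * O C H) • (S.sG F * S.sG H) := by
    intro C
    simp only [Finset.sum_mul, Finset.mul_sum, smul_mul_smul_comm]
    rw [Finset.sum_comm]
  simp only [h]
  rw [Finset.sum_comm]
  refine Finset.sum_congr rfl fun F _ => ?_
  rw [Finset.sum_comm]
  have : ∀ H, ∑ C, (O C F * O C H) • (S.sG F * S.sG H) = if F = H then S.sG F * S.sG F else 0 := by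
    intro H
    rw [← Finset.sum_smul, orth_col O hO]
    split_ifs with h
    · subst h; simp
    · simp
  simp only [this, Finset.sum_ite_eq, Finset.mem_univ, if_true]

/-- rotated coordinates -/
noncomputable def rotX (O : Matrix (Fin 3) (Fin 3) ℂ) (X : Fin 9 → Fin 3 → ℂ) (j : Fin 9)
    (A : Fin 3) : ℂ := ∑ D, O A D * X j D

include hO in
lemma rot_contr {M : Type*} [AddCommGroup M] [Module ℂ M] (X : Fin 9 → Fin 3 → ℂ) (j : Fin 9)
    (f : Fin 3 → M) :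
    ∑ A, rotX O X j A • ∑ C, O A C • f C = ∑ A, X j A • f A := by
  have h : ∀ A, rotX O X j A • ∑ C, O A C • f C = ∑ D, ∑ C, (O A D * O A C) • X j D • f C := by
    intro A
    rw [rotX, Finset.sum_smul]
    refine Finset.sum_congr rfl fun D _ => ?_
    rw [Finset.smul_sum]
    refine Finset.sum_congr rfl fun C _ => ?_
    simp only [smul_smul]
    congr 1; ring
  simp only [h]
  rw [Finset.sum_comm]
  refine Finset.sum_congr rfl fun D _ => ?_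
  rw [Finset.sum_comm]
  have : ∀ C, ∑ A, (O A D * O A C) • X j D • f C = if D = C then X j D • f C else 0 := by
    intro C
    rw [← Finset.sum_smul, orth_col O hO]
    split_ifs <;> simp
  simp only [this, Finset.sum_ite_eq, Finset.mem_univ, if_true]

lemma rot_Bv (X : Fin 9 → Fin 3 → ℂ) (β : Fin 16) :
    (S.rot O hO).Bv (rotX O X) β = S.Bv X β := by
  simp only [Bv, rot_vec, rot_g, rot_contr O hO]

lemma rot_MS (X : Fin 9 → Fin 3 → ℂ) (β : Fin 16) :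
    (S.rot O hO).MS (rotX O X) β = S.MS X β := by
  simp only [MS, rot_vec, rot_g, rot_contr O hO, rot_Sk]

lemma rot_MI (X : Fin 9 → Fin 3 → ℂ) (β : Fin 16) :
    (S.rot O hO).MI (rotX O X) β = S.MI X β := by
  simp only [MI, rot_vec, rot_g, rot_g2, rot_contr O hO, rot_Sk]

lemma MG_eq (X : Fin 9 → Fin 3 → ℂ) (β : Fin 16) :
    S.MG X β = ∑ j, ∑ A, X j A • ∑ A', ∑ C, (eps A A' C : ℂ) • (S.vec (S.g j) A' β * S.sG C) := by
  have h : ∀ C, (∑ j, ∑ A, ∑ A', ((eps A A' C : ℂ) * X j A) • S.vec (S.g j) A' β) * S.sG C =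
      ∑ j, ∑ A, X j A • ∑ A', (eps A A' C : ℂ) • (S.vec (S.g j) A' β * S.sG C) := by
    intro C
    simp only [Finset.sum_mul, Finset.smul_sum, smul_mul_assoc, smul_smul]
    refine Finset.sum_congr rfl fun j _ => Finset.sum_congr rfl fun A _ =>
      Finset.sum_congr rfl fun A' _ => ?_
    rw [mul_comm]
  simp only [MG, h]
  rw [Finset.sum_comm]
  refine Finset.sum_congr rfl fun j _ => ?_
  rw [Finset.sum_comm]
  refine Finset.sum_congr rfl fun A _ => ?_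
  rw [← Finset.smul_sum, Finset.sum_comm]

include hS in
lemma rot_MG (X : Fin 9 → Fin 3 → ℂ) (β : Fin 16) :
    (S.rot O hO).MG (rotX O X) β = S.MG X β := by
  rw [MG_eq, MG_eq]
  refine Finset.sum_congr rfl fun j _ => ?_
  have h : ∀ A, ∑ A', ∑ C, (eps A A' C : ℂ) •
      ((S.rot O hO).vec ((S.rot O hO).g j) A' β * (S.rot O hO).sG C) =
      ∑ F, O A F • ∑ A', ∑ C, (eps F A' C : ℂ) • (S.vec (S.g j) A' β * S.sG C) := by
    intro A
    rw [← cross_rot O hS]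
    refine Finset.sum_congr rfl fun A' _ => Finset.sum_congr rfl fun C _ => ?_
    congr 1
    rw [rot_vec, S.rot_sG O hO hS, rot_g]
    simp only [Finset.sum_mul, Finset.mul_sum, smul_mul_smul_comm]
    rw [Finset.sum_comm]
  simp only [h]
  exact rot_contr O hO X j _

include hS in
lemma rot_Mv (X : Fin 9 → Fin 3 → ℂ) (β : Fin 16) :
    (S.rot O hO).Mv (rotX O X) β = S.Mv X β := by
  rw [Mv, Mv, rot_MS, S.rot_MG O hO hS, rot_MI, rot_Bv]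

/-- the fermionic potential -/
noncomputable def Fv (κ : ℂ) (X : Fin 9 → Fin 3 → ℂ) : R :=
  (Complex.I / 2 * κ) • ∑ q, ∑ A, ∑ B, ∑ C, ((eps A B C : ℂ) * X q C) • S.bil (S.g q) A B

lemma Fv_eq (κ : ℂ) (X : Fin 9 → Fin 3 → ℂ) :
    S.Fv κ X = (Complex.I / 2 * κ) • ∑ q, ∑ C, X q C • ∑ A, ∑ B, (eps C A B : ℂ) •
      S.bil (S.g q) A B := by
  rw [Fv]
  congr 1
  refine Finset.sum_congr rfl fun q _ => ?_
  have h : ∀ C, X q C • ∑ A, ∑ B, (eps C A B : ℂ) • S.bil (S.g q) A B =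
      ∑ A, ∑ B, ((eps A B C : ℂ) * X q C) • S.bil (S.g q) A B := by
    intro C
    simp only [Finset.smul_sum, smul_smul]
    refine Finset.sum_congr rfl fun A _ => Finset.sum_congr rfl fun B _ => ?_
    rw [eps_cyc A B C, mul_comm]
  simp only [h]
  have a1 : ∀ A, ∑ B, ∑ C, ((eps A B C : ℂ) * X q C) • S.bil (S.g q) A B =
      ∑ C, ∑ B, ((eps A B C : ℂ) * X q C) • S.bil (S.g q) A B := fun A => Finset.sum_comm
  simp only [a1]
  rw [Finset.sum_comm]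

include hS in
lemma rot_Fv (κ : ℂ) (X : Fin 9 → Fin 3 → ℂ) :
    (S.rot O hO).Fv κ (rotX O X) = S.Fv κ X := by
  rw [Fv_eq, Fv_eq]
  congr 1
  refine Finset.sum_congr rfl fun q _ => ?_
  have h : ∀ C, ∑ A, ∑ B, (eps C A B : ℂ) • (S.rot O hO).bil ((S.rot O hO).g q) A B =
      ∑ F, O C F • ∑ A, ∑ B, (eps F A B : ℂ) • S.bil (S.g q) A B := by
    intro C
    rw [← cross_rot O hS]
    simp only [rot_bil, rot_g]
  simp only [h]
  exact rot_contr O hO X q _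

end

end CS
end Vale.Agent.P353
end
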