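import Mathlib
import Vale.Agent.P353.BdU.B1

set_option linter.all false

section

open MeasureTheory Filter Topology
open scoped ContDiff

namespace Vale.Agent.P353

variable {F : Type*} [NormedAddCommGroup F] [InnerProductSpace ℂ F]

/-! ### rotations in the `(k,l)` plane -/

/-- projection to the `(k,l)` coordinates -/
noncomputable def PP (k l : Fin 9) : X3 →L[ℝ] X3 :=
  ∑ A : Fin 3, ((EuclideanSpace.proj (𝕜 := ℝ) (k, A) : X3 →L[ℝ] ℝ).smulRight
      (EuclideanSpace.single (k, A) (1 : ℝ)) +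
    (EuclideanSpace.proj (𝕜 := ℝ) (l, A) : X3 →L[ℝ] ℝ).smulRight
      (EuclideanSpace.single (l, A) (1 : ℝ)))

/-- generator of the rotations: `(Λ x)_k = x_l`, `(Λ x)_l = - x_k` -/
noncomputable def LL (k l : Fin 9) : X3 →L[ℝ] X3 :=
  ∑ A : Fin 3, ((EuclideanSpace.proj (𝕜 := ℝ) (l, A) : X3 →L[ℝ] ℝ).smulRight
      (EuclideanSpace.single (k, A) (1 : ℝ)) -
    (EuclideanSpace.proj (𝕜 := ℝ) (k, A) : X3 →L[ℝ] ℝ).smulRight
      (EuclideanSpace.single (l, A) (1 : ℝ)))

lemma PP_apply (k l i : Fin 9) (A : Fin 3) (x : X3) :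
    (PP k l x) (i, A) = (if i = k then x (k, A) else 0) + (if i = l then x (l, A) else 0) := by
  simp only [PP, _root_.sum_apply, _root_.add_apply, ContinuousLinearMap.smulRight_apply,
    PiLp.proj_apply, WithLp.ofLp_sum, Finset.sum_apply, WithLp.ofLp_add, WithLp.ofLp_smul,
    Pi.add_apply, Pi.smul_apply, PiLp.single_apply, Prod.mk.injEq, smul_eq_mul, mul_ite, mul_one,
    mul_zero]
  rw [Finset.sum_add_distrib]
  congr 1
  · by_cases h : i = k <;> simp [h]
  · by_cases h : i = l <;> simp [h]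

lemma LL_apply (k l i : Fin 9) (A : Fin 3) (x : X3) :
    (LL k l x) (i, A) = (if i = k then x (l, A) else 0) - (if i = l then x (k, A) else 0) := by
  simp only [LL, _root_.sum_apply, _root_.sub_apply, ContinuousLinearMap.smulRight_apply,
    PiLp.proj_apply, WithLp.ofLp_sum, Finset.sum_apply, WithLp.ofLp_sub, WithLp.ofLp_smul,
    Pi.sub_apply, Pi.smul_apply, PiLp.single_apply, Prod.mk.injEq, smul_eq_mul, mul_ite, mul_one,
    mul_zero]
  rw [Finset.sum_sub_distrib]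
  congr 1
  · by_cases h : i = k <;> simp [h]
  · by_cases h : i = l <;> simp [h]

/-- the rotation `R_t = exp (t Λ)` -/
noncomputable def RR (k l : Fin 9) (t : ℝ) : X3 →L[ℝ] X3 :=
  ContinuousLinearMap.id ℝ X3 + (Real.cos t - 1) • PP k l + Real.sin t • LL k l

lemma RR_apply (k l i : Fin 9) (A : Fin 3) (t : ℝ) (x : X3) :
    (RR k l t x) (i, A) = x (i, A) + (Real.cos t - 1) *
      ((if i = k then x (k, A) else 0) + (if i = l then x (l, A) else 0)) +
      Real.sin t * ((if i = k then x (l, A) else 0) - (if i = l then x (k, A) else 0)) := by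
  simp only [RR, _root_.add_apply, _root_.smul_apply, ContinuousLinearMap.id_apply,
    WithLp.ofLp_add, WithLp.ofLp_smul, Pi.add_apply, Pi.smul_apply, smul_eq_mul, PP_apply,
    LL_apply]

lemma RR_zero (k l : Fin 9) : RR k l 0 = ContinuousLinearMap.id ℝ X3 := by
  ext x ⟨i, A⟩
  rw [RR_apply]
  simp

lemma RR_add {k l : Fin 9} (h : k ≠ l) (s t : ℝ) (x : X3) :
    RR k l s (RR k l t x) = RR k l (s + t) x := by
  ext ⟨i, A⟩
  rw [RR_apply, RR_apply, RR_apply, RR_apply, RR_apply, Real.cos_add, Real.sin_add]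
  have h' : ¬ l = k := fun e => h e.symm
  by_cases h1 : i = k
  · subst h1
    simp only [if_true, if_neg h, if_neg h']
    ring
  · by_cases h2 : i = l
    · subst h2
      simp only [if_true, if_neg h, if_neg h']
      ring
    · simp only [if_neg h1, if_neg h2]
      ring

lemma PP_inner (k l : Fin 9) (x y : X3) : inner ℝ (PP k l x) y = inner ℝ x (PP k l y) := by
  simp only [PP, _root_.sum_apply, _root_.add_apply, ContinuousLinearMap.smulRight_apply,
    PiLp.proj_apply, sum_inner, inner_sum, inner_add_left, inner_add_right, inner_smul_left,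
    inner_smul_right, EuclideanSpace.inner_single_left, EuclideanSpace.inner_single_right]
  refine Finset.sum_congr rfl fun A _ => ?_
  simp only [conj_trivial, map_one, one_mul]
  ring

lemma LL_inner (k l : Fin 9) (x y : X3) : inner ℝ (LL k l x) y = - inner ℝ x (LL k l y) := by
  simp only [LL, _root_.sum_apply, _root_.sub_apply, ContinuousLinearMap.smulRight_apply,
    PiLp.proj_apply, sum_inner, inner_sum, inner_sub_left, inner_sub_right, inner_smul_left,
    inner_smul_right, EuclideanSpace.inner_single_left, EuclideanSpace.inner_single_right]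
  rw [← Finset.sum_neg_distrib]
  refine Finset.sum_congr rfl fun A _ => ?_
  simp only [conj_trivial, map_one, one_mul]
  ring

lemma RR_inner (k l : Fin 9) (t : ℝ) (x y : X3) :
    inner ℝ (RR k l t x) y = inner ℝ x (RR k l (-t) y) := by
  simp only [RR, _root_.add_apply, _root_.smul_apply, ContinuousLinearMap.id_apply,
    inner_add_left, inner_add_right, inner_smul_left, inner_smul_right, PP_inner, LL_inner,
    Real.cos_neg, Real.sin_neg, conj_trivial]
  ring

lemma RR_neg_cancel {k l : Fin 9} (h : k ≠ l) (t : ℝ) (x : X3) :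
    RR k l (-t) (RR k l t x) = x := by
  rw [RR_add h, neg_add_cancel, RR_zero]; rfl

lemma RR_cancel_neg {k l : Fin 9} (h : k ≠ l) (t : ℝ) (x : X3) :
    RR k l t (RR k l (-t) x) = x := by
  rw [RR_add h, add_neg_cancel, RR_zero]; rfl

lemma RR_norm {k l : Fin 9} (h : k ≠ l) (t : ℝ) (x : X3) : ‖RR k l t x‖ = ‖x‖ := by
  have h1 : ‖RR k l t x‖ ^ 2 = ‖x‖ ^ 2 := by
    rw [← real_inner_self_eq_norm_sq, ← real_inner_self_eq_norm_sq, RR_inner, RR_neg_cancel h]
  exact (sq_eq_sq₀ (norm_nonneg _) (norm_nonneg _)).mp h1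

/-- the rotation as a linear isometry equivalence -/
noncomputable def RI {k l : Fin 9} (h : k ≠ l) (t : ℝ) : X3 ≃ₗᵢ[ℝ] X3 where
  toFun := RR k l t
  invFun := RR k l (-t)
  map_add' := fun x y => map_add _ x y
  map_smul' := fun c x => map_smul _ c x
  left_inv := fun x => RR_neg_cancel h t x
  right_inv := fun x => RR_cancel_neg h t x
  norm_map' := fun x => RR_norm h t x

lemma integral_comp_RR {k l : Fin 9} (h : k ≠ l) (t : ℝ) {G : Type*} [NormedAddCommGroup G]
    [NormedSpace ℝ G] (f : X3 → G) : ∫ x, f (RR k l t x) = ∫ x, f x := by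
  have := (RI h t).measurePreserving.integral_comp (RI h t).toHomeomorph.measurableEmbedding f
  exact this

lemma hasDerivAt_RR_neg {k l : Fin 9} (h : k ≠ l) (t : ℝ) (x : X3) :
    HasDerivAt (fun s => RR k l (-s) x) (RR k l (-t) (-(LL k l x))) t := by
  have e : (fun s => RR k l (-s) x) = fun s => x + (Real.cos s - 1) • PP k l x -
      Real.sin s • LL k l x := by
    ext s
    simp only [RR, _root_.add_apply, _root_.smul_apply, ContinuousLinearMap.id_apply,
      Real.cos_neg, Real.sin_neg, neg_smul]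
    rfl
  have h1 : HasDerivAt (fun s => x + (Real.cos s - 1) • PP k l x - Real.sin s • LL k l x)
      ((-Real.sin t) • PP k l x - Real.cos t • LL k l x) t := by
    have a := ((Real.hasDerivAt_cos t).sub_const 1).smul_const (PP k l x)
    have b := (Real.hasDerivAt_sin t).smul_const (LL k l x)
    exact (a.const_add x).sub b
  rw [e]
  have e2 : RR k l (-t) (-(LL k l x)) = (-Real.sin t) • PP k l x - Real.cos t • LL k l x := by
    ext ⟨i, A⟩
    have h' : ¬ l = k := fun e => h e.symm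
    simp only [map_neg, WithLp.ofLp_neg, Pi.neg_apply, WithLp.ofLp_sub, Pi.sub_apply,
      WithLp.ofLp_smul, Pi.smul_apply, smul_eq_mul, RR_apply, PP_apply, LL_apply, Real.cos_neg,
      Real.sin_neg]
    by_cases h1 : i = k
    · subst h1
      simp only [if_true, if_neg h, if_neg h']
      ring
    · by_cases h2 : i = l
      · subst h2
        simp only [if_true, if_neg h, if_neg h']
        ring
      · simp only [if_neg h1, if_neg h2]
        ring
  rw [e2]
  exact h1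

lemma RR_LL {k l : Fin 9} (h : k ≠ l) (t : ℝ) (x : X3) :
    RR k l t (LL k l x) = LL k l (RR k l t x) := by
  ext ⟨i, A⟩
  have h' : ¬ l = k := fun e => h e.symm
  simp only [RR_apply, LL_apply]
  by_cases h1 : i = k
  · subst h1
    simp only [if_true, if_neg h, if_neg h']
    ring
  · by_cases h2 : i = l
    · subst h2
      simp only [if_true, if_neg h, if_neg h']
      ring
    · simp only [if_neg h1, if_neg h2]
      ring

lemma neg_LL_eq (k l : Fin 9) (x : X3) : -(LL k l x) =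
    ∑ A : Fin 3, (x (k, A) • (EuclideanSpace.single (l, A) (1 : ℝ) : X3) -
      x (l, A) • (EuclideanSpace.single (k, A) (1 : ℝ) : X3)) := by
  simp only [LL, _root_.sum_apply, _root_.sub_apply, ContinuousLinearMap.smulRight_apply,
    PiLp.proj_apply]
  rw [← Finset.sum_neg_distrib]
  refine Finset.sum_congr rfl fun A _ => ?_
  rw [neg_sub]

end Vale.Agent.P353
end

section

open MeasureTheory Filter Topology
open scoped ContDiff

namespace Vale.Agent.P353

variable {F : Type*} [NormedAddCommGroup F] [InnerProductSpace ℂ F]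

lemma pd_comm {d : ℕ} {u : Cfg d → F} (hu : ContDiff ℝ ∞ u) (i j : Fin 9) (A B : Fin d)
    (x : Cfg d) : pd i A (pd j B u) x = pd j B (pd i A u) x := by
  have hs : IsSymmSndFDerivAt ℝ u x := by
    refine (hu.contDiffAt).isSymmSndFDerivAt ?_
    simp only [minSmoothness_of_isRCLikeNormedField]
    exact WithTop.coe_le_coe.mpr le_top
  have hd : Differentiable ℝ (fderiv ℝ u) := (hu.fderiv_right (m := ∞) (by simp)).differentiable
    (by simp)
  have h : ∀ (a b : Cfg d), fderiv ℝ (fun y => fderiv ℝ u y a) x b = fderiv ℝ (fderiv ℝ u) x b a := by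
    intro a b
    rw [fderiv_clm_apply (hd x) (differentiableAt_const a)]
    simp
  unfold pd
  rw [h, h]
  exact hs _ _

namespace Setup

variable (S : Setup F)

lemma hasFDerivAt_coord (p : Fin 9 × Fin 3) (x : X3) :
    HasFDerivAt (fun y : X3 => y p) (EuclideanSpace.proj (𝕜 := ℝ) p : X3 →L[ℝ] ℝ) x :=
  (EuclideanSpace.proj (𝕜 := ℝ) p : X3 →L[ℝ] ℝ).hasFDerivAt

lemma fderiv_FF (A : Fin 3) (k l : Fin 9) (x : X3) (j : Fin 9) (B : Fin 3) :
    fderiv ℝ (S.FF A k l) x (EuclideanSpace.single (j, B) (1 : ℝ)) =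
      S.κ * ((if j = k then ∑ D, (eps A B D : ℝ) * x (l, D) else 0)
        + (if j = l then ∑ C, (eps A C B : ℝ) * x (k, C) else 0)) := by
  have hd : HasFDerivAt (S.FF A k l) (S.κ • ∑ C, ∑ D, ((eps A C D : ℝ) • (x (k, C) •
      (EuclideanSpace.proj (𝕜 := ℝ) (l, D) : X3 →L[ℝ] ℝ) + x (l, D) •
      (EuclideanSpace.proj (𝕜 := ℝ) (k, C) : X3 →L[ℝ] ℝ)))) x := by
    unfold FF
    refine HasFDerivAt.const_mul ?_ _
    refine HasFDerivAt.fun_sum fun C _ => HasFDerivAt.fun_sum fun D _ => ?_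
    have h := ((hasFDerivAt_coord (k, C) x).mul (hasFDerivAt_coord (l, D) x)).const_mul
      (eps A C D : ℝ)
    refine h.congr_of_eventuallyEq ?_
    filter_upwards with y
    simp [mul_assoc]
  rw [hd.fderiv]
  simp only [_root_.smul_apply, _root_.sum_apply, _root_.add_apply, PiLp.proj_apply,
    PiLp.single_apply, smul_eq_mul, Prod.mk.injEq, mul_ite, mul_one, mul_zero]
  congr 1
  simp only [mul_add, Finset.sum_add_distrib, mul_ite, mul_zero]
  rw [add_comm]
  congr 1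
  · by_cases h : j = k
    · subst h
      simp only [true_and, if_true]
      rw [Finset.sum_comm]
      simp
    · have h' : ¬ k = j := fun h2 => h h2.symm
      simp [h, h']
  · by_cases h : j = l
    · subst h
      simp only [true_and, if_true]
      simp
    · have h' : ¬ l = j := fun h2 => h h2.symm
      simp [h, h']

lemma fderiv_W (b : Fin 16) (x : X3) (j : Fin 9) (B : Fin 3) :
    fderiv ℝ (S.W b) x (EuclideanSpace.single (j, B) (1 : ℝ)) =
      (S.κ : ℂ) • ∑ A, ∑ l, ∑ D, ((eps A B D : ℂ) * (x (l, D) : ℂ)) • S.vec (S.g2 j l) A b := by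
  have hFF : ∀ A k l, DifferentiableAt ℝ (S.FF A k l) x := fun A k l =>
    (S.contDiff_FF A k l).differentiable (by simp) x
  have hd : HasFDerivAt (S.W b) ((1 / 2 : ℂ) • ∑ A, ∑ k, ∑ l,
      ((Complex.ofRealCLM.comp (fderiv ℝ (S.FF A k l) x)).smulRight (S.vec (S.g2 k l) A b))) x := by
    have h0 : HasFDerivAt (fun y => ∑ A, ∑ k, ∑ l, ((S.FF A k l y : ℝ) : ℂ) •
        S.vec (S.g2 k l) A b) (∑ A, ∑ k, ∑ l,
      ((Complex.ofRealCLM.comp (fderiv ℝ (S.FF A k l) x)).smulRight (S.vec (S.g2 k l) A b))) x := by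
      refine HasFDerivAt.fun_sum fun A _ => HasFDerivAt.fun_sum fun k _ =>
        HasFDerivAt.fun_sum fun l _ => ?_
      have h1 := (Complex.ofRealCLM.hasFDerivAt (x := S.FF A k l x)).comp x (hFF A k l).hasFDerivAt
      exact h1.smul_const (S.vec (S.g2 k l) A b)
    have h1 := h0.const_smul (1 / 2 : ℂ)
    refine h1.congr_of_eventuallyEq (Filter.Eventually.of_forall fun y => ?_)
    simp only [W, Pi.smul_apply]
  rw [hd.fderiv]
  simp only [_root_.smul_apply, _root_.sum_apply, ContinuousLinearMap.smulRight_apply,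
    ContinuousLinearMap.comp_apply, Complex.ofRealCLM_apply, fderiv_FF]
  have key : ∀ A, ∑ k, ∑ l, (((S.κ * ((if j = k then ∑ D, (eps A B D : ℝ) * x (l, D) else 0)
        + (if j = l then ∑ C, (eps A C B : ℝ) * x (k, C) else 0)) : ℝ)) : ℂ) •
        S.vec (S.g2 k l) A b = (2 * S.κ : ℂ) • ∑ l, ∑ D, ((eps A B D : ℂ) * (x (l, D) : ℂ)) •
          S.vec (S.g2 j l) A b := by
    intro A
    have he : ∀ C : Fin 3, eps A C B = - eps A B C := by
      intro C; revert A B C; decide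
    simp only [mul_add, Complex.ofReal_add, add_smul, Finset.sum_add_distrib]
    have p1 : ∑ k, ∑ l, (((S.κ * (if j = k then ∑ D, (eps A B D : ℝ) * x (l, D) else 0) : ℝ)) : ℂ) •
        S.vec (S.g2 k l) A b = (S.κ : ℂ) • ∑ l, ∑ D, ((eps A B D : ℂ) * (x (l, D) : ℂ)) •
          S.vec (S.g2 j l) A b := by
      rw [Finset.sum_eq_single j]
      · simp only [if_true, Finset.smul_sum, smul_smul]
        refine Finset.sum_congr rfl fun l _ => ?_
        rw [← Finset.sum_smul]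
        congr 1
        push_cast
        rw [Finset.mul_sum]
      · intro k _ hk
        have : ¬ j = k := fun h => hk h.symm
        simp [this]
      · intro h; exact absurd (Finset.mem_univ j) h
    have p2 : ∑ k, ∑ l, (((S.κ * (if j = l then ∑ C, (eps A C B : ℝ) * x (k, C) else 0) : ℝ)) : ℂ) •
        S.vec (S.g2 k l) A b = (S.κ : ℂ) • ∑ l, ∑ D, ((eps A B D : ℂ) * (x (l, D) : ℂ)) •
          S.vec (S.g2 j l) A b := by
      rw [Finset.sum_comm, Finset.sum_eq_single j]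
      · simp only [if_true, Finset.smul_sum, smul_smul]
        refine Finset.sum_congr rfl fun l _ => ?_
        rw [← Finset.sum_smul, S.g2_swap l j, S.vec_neg, smul_neg, ← neg_smul]
        congr 1
        simp only [he]
        push_cast
        rw [Finset.mul_sum, ← Finset.sum_neg_distrib]
        refine Finset.sum_congr rfl fun D _ => ?_
        ring
      · intro k _ hk
        have : ¬ j = k := fun h => hk h.symm
        simp [this]
      · intro h; exact absurd (Finset.mem_univ j) h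
    rw [p1, p2, mul_smul, two_smul]
  rw [Finset.sum_congr rfl fun A _ => key A, ← Finset.smul_sum, smul_smul]
  congr 1
  ring

lemma pd_Q (b : Fin 16) {u : X3 → F} (hu : ContDiff ℝ ∞ u) (j : Fin 9) (B : Fin 3) (x : X3) :
    pd j B (S.Q b u) x = (-Complex.I) • ∑ i, ∑ A, S.vec (S.g i) A b (pd j B (pd i A u) x)
      + (fderiv ℝ (S.W b) x (EuclideanSpace.single (j, B) (1 : ℝ))) (u x)
      + S.W b x (pd j B u x) := by
  have hd : ∀ i A, DifferentiableAt ℝ (pd i A u) x := fun i A =>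
    (contDiff_pd hu).differentiable (by simp) x
  have hdv : ∀ i A, DifferentiableAt ℝ (fun y => S.vec (S.g i) A b (pd i A u y)) x := fun i A =>
    ((S.vec (S.g i) A b).restrictScalars ℝ).differentiableAt.comp x (hd i A)
  have hWd : DifferentiableAt ℝ (S.W b) x := (S.contDiff_W b).differentiable (by simp) x
  have hud : DifferentiableAt ℝ u x := hu.differentiable (by simp) x
  have h1 : DifferentiableAt ℝ (fun y => (-Complex.I) • ∑ i, ∑ A, S.vec (S.g i) A b (pd i A u y)) x := by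
    refine DifferentiableAt.const_smul ?_ _
    refine DifferentiableAt.fun_sum fun i _ => DifferentiableAt.fun_sum fun A _ => hdv i A
  have h2 : DifferentiableAt ℝ (fun y => S.W b y (u y)) x :=
    (contDiff_clm_apply' (S.contDiff_W b) hu).differentiable (by simp) x
  have e : S.Q b u = fun y => (-Complex.I) • ∑ i, ∑ A, S.vec (S.g i) A b (pd i A u y)
      + S.W b y (u y) := rfl
  rw [e, pd_add h1 h2, pd_clm_apply hWd hud, ← add_assoc]
  congr 2
  have h3 : pd j B (fun y => (-Complex.I) • ∑ i, ∑ A, S.vec (S.g i) A b (pd i A u y)) x =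
      (-Complex.I) • pd j B (fun y => ∑ i, ∑ A, S.vec (S.g i) A b (pd i A u y)) x := by
    unfold pd
    rw [fderiv_fun_const_smul]
    · rfl
    · exact DifferentiableAt.fun_sum fun i _ => DifferentiableAt.fun_sum fun A _ => hdv i A
  rw [h3]
  congr 1
  rw [pd_sum _ (fun i _ => DifferentiableAt.fun_sum fun A _ => hdv i A)]
  refine Finset.sum_congr rfl fun i _ => ?_
  rw [pd_sum _ (fun A _ => hdv i A)]
  refine Finset.sum_congr rfl fun A _ => ?_
  rw [pd_clm _ (hd i A)]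

/-- the second order part -/
lemma second_order (D : Fin 9 → Fin 3 → Fin 9 → Fin 3 → F)
    (hD : ∀ i A j B, D i A j B = D j B i A) :
    ∑ b, ∑ j, ∑ B, ∑ i, ∑ A, S.vec (S.g j) B b (S.vec (S.g i) A b (D j B i A)) =
      (8 : ℂ) • ∑ i, ∑ A, D i A i A := by
  have h1 : ∑ b, ∑ j, ∑ B, ∑ i, ∑ A, S.vec (S.g j) B b (S.vec (S.g i) A b (D j B i A)) =
      ∑ j, ∑ B, ∑ i, ∑ A, S.bil (S.g j * S.g i) B A (D j B i A) := by
    rw [Finset.sum_comm]
    refine Finset.sum_congr rfl fun j _ => ?_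
    rw [Finset.sum_comm]
    refine Finset.sum_congr rfl fun B _ => ?_
    rw [Finset.sum_comm]
    refine Finset.sum_congr rfl fun i _ => ?_
    rw [Finset.sum_comm]
    refine Finset.sum_congr rfl fun A _ => ?_
    have h := S.sum_vec_mul_vec (S.g j) (S.g i) B A
    rw [S.g_symm] at h
    rw [← h]
    simp only [_root_.sum_apply]
    rfl
  have h2 : ∑ j, ∑ B, ∑ i, ∑ A, S.bil (S.g j * S.g i) B A (D j B i A) =
      ∑ j, ∑ B, ∑ i, ∑ A, S.bil (S.g i * S.g j) A B (D j B i A) := by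
    have e1 : ∀ (f : Fin 9 → Fin 3 → Fin 9 → Fin 3 → F), ∑ j, ∑ B, ∑ i, ∑ A, f j B i A =
        ∑ p : Fin 9 × Fin 3, ∑ q : Fin 9 × Fin 3, f p.1 p.2 q.1 q.2 := by
      intro f
      simp only [Fintype.sum_prod_type]
    rw [e1 (fun j B i A => S.bil (S.g j * S.g i) B A (D j B i A)),
      e1 (fun j B i A => S.bil (S.g i * S.g j) A B (D j B i A)), Finset.sum_comm]
    refine Finset.sum_congr rfl fun p _ => Finset.sum_congr rfl fun q _ => ?_
    rw [hD]
  have h3 : ∀ j B i A, S.bil (S.g j * S.g i) B A + S.bil (S.g i * S.g j) A B =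
      (if B = A then (if j = i then (16 : ℂ) else 0) else 0) • (1 : F →L[ℂ] F) := by
    intro j B i A
    rw [S.bil_swap (S.g j * S.g i) B A]
    have : (S.g j * S.g i).transpose = S.g i * S.g j := by
      rw [Matrix.transpose_mul, S.g_symm, S.g_symm]
    rw [this, S.trace_g_g]
    by_cases h : B = A <;> simp [h]
  have h4 : (2 : ℂ) • ∑ j, ∑ B, ∑ i, ∑ A, S.bil (S.g j * S.g i) B A (D j B i A) =
      (16 : ℂ) • ∑ i, ∑ A, D i A i A := by
    rw [two_smul]
    nth_rewrite 2 [h2]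
    simp only [← Finset.sum_add_distrib, ← _root_.add_apply, h3]
    simp only [ite_smul, zero_smul, Finset.smul_sum]
    refine Finset.sum_congr rfl fun i _ => Finset.sum_congr rfl fun A _ => ?_
    rw [Finset.sum_eq_single i, Finset.sum_eq_single A]
    · simp
    · intro B _ hB; simp [Ne.symm hB]
    · intro h; exact absurd (Finset.mem_univ _) h
    · intro k _ hk
      refine Finset.sum_eq_zero fun B _ => ?_
      simp [Ne.symm hk]
    · intro h; exact absurd (Finset.mem_univ _) h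
  rw [h1]
  have h5 := congrArg (fun w => (1 / 2 : ℂ) • w) h4
  simp only [smul_smul] at h5
  norm_num at h5
  exact h5

lemma FF_swap (A : Fin 3) (i j : Fin 9) (x : X3) : S.FF A i j x = - S.FF A j i x := by
  unfold FF
  rw [← mul_neg, ← Finset.sum_neg_distrib, Finset.sum_comm]
  congr 1
  refine Finset.sum_congr rfl fun B _ => ?_
  rw [← Finset.sum_neg_distrib]
  refine Finset.sum_congr rfl fun C _ => ?_
  have he : eps A C B = - eps A B C := by revert A B C; decide
  rw [he]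
  push_cast
  ring

/-- the matrix `(1/2) F^A_{ij} γ^{ij}` -/
noncomputable def NA (A : Fin 3) (x : X3) : Matrix (Fin 16) (Fin 16) ℂ :=
  (1 / 2 : ℂ) • ∑ i, ∑ j, ((S.FF A i j x : ℝ) : ℂ) • S.g2 i j

lemma W_eq_NA (b : Fin 16) (x : X3) : S.W b x = ∑ A, S.vec (S.NA A x) A b := by
  simp only [W, NA, S.vec_smul, S.vec_sum, Finset.smul_sum]

lemma NA_transpose (A : Fin 3) (x : X3) : (S.NA A x).transpose = - S.NA A x := by
  simp only [NA, Matrix.transpose_smul, Matrix.transpose_sum, S.g2_transpose', smul_neg,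
    Finset.sum_neg_distrib]

lemma trace_g_NA (j : Fin 9) (A : Fin 3) (x : X3) : (S.g j * S.NA A x).trace = 0 := by
  simp only [NA, Matrix.mul_smul, Matrix.mul_sum, Matrix.trace_smul, Matrix.trace_sum,
    S.trace_g_g2E, smul_zero, Finset.sum_const_zero]

lemma first_order (j : Fin 9) (B : Fin 3) (x : X3) :
    ∑ b, (S.vec (S.g j) B b * S.W b x + S.W b x * S.vec (S.g j) B b) = 0 := by
  have h : ∀ b, S.vec (S.g j) B b * S.W b x + S.W b x * S.vec (S.g j) B b =
      ∑ A, (if B = A then ((S.g j * (S.NA A x).transpose) b b) • (1 : F →L[ℂ] F) else 0) := by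
    intro b
    rw [W_eq_NA, Finset.mul_sum, Finset.sum_mul, ← Finset.sum_add_distrib]
    simp only [S.vec_anti]
  simp only [h]
  rw [Finset.sum_comm]
  refine Finset.sum_eq_zero fun A _ => ?_
  by_cases hA : B = A
  · simp only [hA, if_true, ← Finset.sum_smul]
    have h3 : ∑ b, (S.g j * (S.NA A x).transpose) b b = (S.g j * (S.NA A x).transpose).trace := rfl
    rw [h3, NA_transpose, Matrix.mul_neg, Matrix.trace_neg, S.trace_g_NA]
    simp
  · simp [hA]

lemma trace_NA_NA (A : Fin 3) (x : X3) :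
    (S.NA A x * S.NA A x).trace = ((-8 * ∑ i, ∑ j, (S.FF A i j x) ^ 2 : ℝ) : ℂ) := by
  have h1 : (S.NA A x * S.NA A x).trace = (1 / 4 : ℂ) * ∑ i, ∑ j, ∑ k, ∑ l,
      ((S.FF A i j x : ℝ) : ℂ) * ((S.FF A k l x : ℝ) : ℂ) * (S.g2 i j * S.g2 k l).trace := by
    simp only [NA, smul_mul_smul_comm, Matrix.trace_smul, Matrix.sum_mul, smul_eq_mul,
      Matrix.trace_sum]
    simp only [Matrix.mul_sum, Matrix.smul_mul, Matrix.mul_smul, Matrix.trace_smul, smul_eq_mul,
      Matrix.trace_sum]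
    rw [show (1 / 2 : ℂ) * (1 / 2) = 1 / 4 by norm_num]
    congr 1
    refine Finset.sum_congr rfl fun i _ => Finset.sum_congr rfl fun j _ =>
      Finset.sum_congr rfl fun k _ => Finset.sum_congr rfl fun l _ => ?_
    ring
  have h2 : ∀ i j, ∑ k, ∑ l,
      ((S.FF A i j x : ℝ) : ℂ) * ((S.FF A k l x : ℝ) : ℂ) * (S.g2 i j * S.g2 k l).trace =
      - 32 * ((S.FF A i j x : ℝ) : ℂ) ^ 2 := by
    intro i j
    simp only [S.trace_g2_g2, mul_sub, Finset.sum_sub_distrib]
    rw [Finset.sum_eq_single j, Finset.sum_eq_single i, Finset.sum_eq_single i,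
      Finset.sum_eq_single j]
    · rw [S.FF_swap A j i x]
      simp only [if_true]
      push_cast
      ring
    · intro l _ hl; simp [Ne.symm hl]
    · intro h; exact absurd (Finset.mem_univ _) h
    · intro k _ hk
      refine Finset.sum_eq_zero fun l _ => ?_
      simp [Ne.symm hk]
    · intro h; exact absurd (Finset.mem_univ _) h
    · intro l _ hl; simp [Ne.symm hl]
    · intro h; exact absurd (Finset.mem_univ _) h
    · intro k _ hk
      refine Finset.sum_eq_zero fun l _ => ?_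
      simp [Ne.symm hk]
    · intro h; exact absurd (Finset.mem_univ _) h
  rw [h1]
  simp only [h2, ← Finset.mul_sum]
  push_cast
  ring

lemma zero_order (x : X3) :
    ∑ b, S.W b x * S.W b x = ((16 * S.V x : ℝ) : ℂ) • (1 : F →L[ℂ] F) := by
  have h1 : ∑ b, S.W b x * S.W b x = ∑ A, ∑ B,
        S.bil ((S.NA A x).transpose * S.NA B x) A B := by
    simp only [W_eq_NA, Finset.sum_mul_sum, ← S.sum_vec_mul_vec]
    rw [Finset.sum_comm]
    refine Finset.sum_congr rfl fun A _ => ?_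
    rw [Finset.sum_comm]
  have h2 : ∑ A, ∑ B, S.bil ((S.NA A x).transpose * S.NA B x) A B = ∑ A, ∑ B,
      S.bil ((S.NA B x).transpose * S.NA A x) B A := Finset.sum_comm
  have h3 : ∀ A B, S.bil ((S.NA A x).transpose * S.NA B x) A B +
      S.bil ((S.NA B x).transpose * S.NA A x) B A = if A = B then
        (((8 * ∑ i, ∑ j, (S.FF A i j x) ^ 2 : ℝ) : ℂ)) • (1 : F →L[ℂ] F) else 0 := by
    intro A B
    rw [S.bil_swap ((S.NA A x).transpose * S.NA B x) A B]
    have : ((S.NA A x).transpose * S.NA B x).transpose = (S.NA B x).transpose * S.NA A x := by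
      rw [Matrix.transpose_mul, Matrix.transpose_transpose]
    rw [this]
    by_cases h : A = B
    · subst h
      simp only [if_true, sub_add_cancel]
      rw [S.NA_transpose, Matrix.neg_mul, Matrix.trace_neg, S.trace_NA_NA]
      congr 1
      push_cast
      ring
    · simp [h]
  have h4 : (2 : ℂ) • ∑ A, ∑ B, S.bil ((S.NA A x).transpose * S.NA B x) A B =
      ∑ A, (((8 * ∑ i, ∑ j, (S.FF A i j x) ^ 2 : ℝ) : ℂ)) • (1 : F →L[ℂ] F) := by
    rw [two_smul]
    nth_rewrite 2 [h2]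
    simp only [← Finset.sum_add_distrib, h3]
    simp
  rw [h1]
  have h5 := congrArg (fun w => (1 / 2 : ℂ) • w) h4
  simp only [smul_smul] at h5
  norm_num at h5
  rw [h5, ← Finset.sum_smul, smul_smul]
  congr 1
  simp only [V]
  push_cast
  rw [← Finset.mul_sum]
  ring

lemma ferm_order (x : X3) :
    (-Complex.I) • ∑ b, ∑ j, ∑ B, S.vec (S.g j) B b *
      (fderiv ℝ (S.W b) x (EuclideanSpace.single (j, B) (1 : ℝ))) = (16 : ℂ) • S.Fx x := by
  have e1 : ∀ (j : Fin 9) (l : Fin 9) (B A : Fin 3), S.bil (S.g j * S.g2 j l) B A =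
      ∑ b, S.vec (S.g j) B b * S.vec (S.g2 j l) A b := by
    intro j l B A
    rw [S.sum_vec_mul_vec, S.g_symm]
  have h1 : ∑ b, ∑ j, ∑ B, S.vec (S.g j) B b *
      (fderiv ℝ (S.W b) x (EuclideanSpace.single (j, B) (1 : ℝ))) =
      ∑ B, ∑ j, (S.κ : ℂ) • ∑ A, ∑ l, ∑ D, ((eps A B D : ℂ) * (x (l, D) : ℂ)) •
        S.bil (S.g j * S.g2 j l) B A := by
    rw [Finset.sum_comm]
    have : ∀ j, ∑ b, ∑ B, S.vec (S.g j) B b *
        (fderiv ℝ (S.W b) x (EuclideanSpace.single (j, B) (1 : ℝ))) = ∑ B,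
        (S.κ : ℂ) • ∑ A, ∑ l, ∑ D, ((eps A B D : ℂ) * (x (l, D) : ℂ)) •
        S.bil (S.g j * S.g2 j l) B A := by
      intro j
      rw [Finset.sum_comm]
      refine Finset.sum_congr rfl fun B _ => ?_
      simp only [fderiv_W, mul_smul_comm, ← Finset.smul_sum, Finset.mul_sum]
      congr 1
      rw [Finset.sum_comm]
      refine Finset.sum_congr rfl fun A _ => ?_
      rw [Finset.sum_comm]
      refine Finset.sum_congr rfl fun l _ => ?_
      rw [Finset.sum_comm]
      refine Finset.sum_congr rfl fun D _ => ?_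
      rw [e1, Finset.smul_sum]
    simp only [this]
    rw [Finset.sum_comm]
  have h2 : ∀ B, ∑ j, (S.κ : ℂ) • ∑ A, ∑ l, ∑ D, ((eps A B D : ℂ) * (x (l, D) : ℂ)) •
        S.bil (S.g j * S.g2 j l) B A = (8 * S.κ : ℂ) • ∑ A, ∑ l, ∑ D,
        ((eps A B D : ℂ) * (x (l, D) : ℂ)) • S.bil (S.g l) B A := by
    intro B
    rw [← Finset.smul_sum, mul_comm (8 : ℂ), mul_smul]
    congr 1
    rw [Finset.sum_comm, Finset.smul_sum]
    refine Finset.sum_congr rfl fun A _ => ?_
    rw [Finset.sum_comm, Finset.smul_sum]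
    refine Finset.sum_congr rfl fun l _ => ?_
    rw [Finset.sum_comm, Finset.smul_sum]
    refine Finset.sum_congr rfl fun D _ => ?_
    rw [← Finset.smul_sum, ← S.bil_sum, S.sum_g_g2, S.bil_smul, smul_comm]
  rw [h1]
  simp only [h2, ← Finset.smul_sum]
  rw [Fx, smul_smul, smul_smul]
  have h3 : ∑ B, ∑ A, ∑ l, ∑ D, ((eps A B D : ℂ) * (x (l, D) : ℂ)) • S.bil (S.g l) B A =
      - ∑ q, ∑ A, ∑ B, ∑ C, ((eps A B C : ℂ) * (x (q, C) : ℂ)) • S.bil (S.g q) A B := by
    have he : ∀ A B C : Fin 3, eps A B C = - eps B A C := by decide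
    rw [← Finset.sum_neg_distrib]
    calc _ = ∑ B, ∑ l, ∑ A, ∑ D, ((eps A B D : ℂ) * (x (l, D) : ℂ)) • S.bil (S.g l) B A := by
          refine Finset.sum_congr rfl fun B _ => ?_
          rw [Finset.sum_comm]
      _ = ∑ l, ∑ B, ∑ A, ∑ D, ((eps A B D : ℂ) * (x (l, D) : ℂ)) • S.bil (S.g l) B A := by
          rw [Finset.sum_comm]
      _ = _ := by
          refine Finset.sum_congr rfl fun l _ => ?_
          rw [← Finset.sum_neg_distrib]
          refine Finset.sum_congr rfl fun A _ => ?_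
          rw [← Finset.sum_neg_distrib]
          refine Finset.sum_congr rfl fun B _ => ?_
          rw [← Finset.sum_neg_distrib]
          refine Finset.sum_congr rfl fun D _ => ?_
          rw [he B A D, ← neg_smul]
          congr 1
          push_cast
          ring
  rw [h3, smul_neg, ← neg_smul]
  congr 1
  ring

/-- `∑_b Q_b Q_b u = -8 Δ u + 16 V u + 16 F(x) u` -/
theorem sum_QQ {u : X3 → F} (hu : ContDiff ℝ ∞ u) (x : X3) :
    ∑ b, S.Q b (S.Q b u) x = -((8 : ℂ) • ∑ i, ∑ A, pd i A (pd i A u) x) +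
      ((16 * S.V x : ℝ) : ℂ) • u x + (16 : ℂ) • S.Fx x (u x) := by
  have h0 : ∀ b, S.Q b (S.Q b u) x =
      -(∑ j, ∑ B, ∑ i, ∑ A, S.vec (S.g j) B b (S.vec (S.g i) A b (pd j B (pd i A u) x)))
      + ((-Complex.I) • ∑ j, ∑ B, S.vec (S.g j) B b *
        (fderiv ℝ (S.W b) x (EuclideanSpace.single (j, B) (1 : ℝ)))) (u x)
      + (-Complex.I) • ∑ j, ∑ B, (S.vec (S.g j) B b * S.W b x + S.W b x * S.vec (S.g j) B b)
          (pd j B u x)
      + (S.W b x * S.W b x) (u x) := by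
    intro b
    conv_lhs => rw [Q]
    simp only [pd_Q S b hu]
    rw [Q]
    simp only [map_add, map_smul, map_sum, Finset.sum_add_distrib, smul_add,
      _root_.smul_apply, _root_.sum_apply, _root_.add_apply, mul_apply_eq_comp,
      ← Finset.smul_sum, smul_smul]
    have hI : (-Complex.I) * (-Complex.I) = -1 := by
      rw [neg_mul_neg, Complex.I_mul_I]
    rw [hI, neg_one_smul]
    abel
  simp only [h0, Finset.sum_add_distrib, Finset.sum_neg_distrib]
  rw [S.second_order (fun j B i A => pd j B (pd i A u) x)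
    (fun i A j B => pd_comm hu i j A B x)]
  have h1 : ∑ b, ((-Complex.I) • ∑ j, ∑ B, S.vec (S.g j) B b *
        (fderiv ℝ (S.W b) x (EuclideanSpace.single (j, B) (1 : ℝ)))) (u x) =
        (16 : ℂ) • S.Fx x (u x) := by
    rw [← _root_.sum_apply, ← Finset.smul_sum, S.ferm_order x]
    rfl
  have h2 : ∑ b, (-Complex.I) • ∑ j, ∑ B, (S.vec (S.g j) B b * S.W b x +
      S.W b x * S.vec (S.g j) B b) (pd j B u x) = 0 := by
    rw [← Finset.smul_sum, Finset.sum_comm]
    have : ∀ j, ∑ b, ∑ B, (S.vec (S.g j) B b * S.W b x +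
      S.W b x * S.vec (S.g j) B b) (pd j B u x) = 0 := by
      intro j
      rw [Finset.sum_comm]
      refine Finset.sum_eq_zero fun B _ => ?_
      rw [← _root_.sum_apply, S.first_order]
      rfl
    simp only [this, Finset.sum_const_zero, smul_zero]
  have h3 : ∑ b, (S.W b x * S.W b x) (u x) = ((16 * S.V x : ℝ) : ℂ) • u x := by
    rw [← _root_.sum_apply, S.zero_order]
    rfl
  rw [h1, h2, h3]
  abel

end Setup

lemma re_inner_self (v : F) : (inner ℂ v v).re = ‖v‖ ^ 2 := by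
  rw [inner_self_eq_norm_sq_to_K]
  norm_cast

lemma contDiff_V (S : Setup F) : ContDiff ℝ ∞ S.V := by
  unfold Setup.V
  refine contDiff_const.mul (ContDiff.sum fun A _ => ContDiff.sum fun i _ =>
    ContDiff.sum fun j _ => (S.contDiff_FF A i j).pow 2)

lemma contDiff_Fx (S : Setup F) : ContDiff ℝ ∞ S.Fx := by
  unfold Setup.Fx
  refine ContDiff.const_smul _ (ContDiff.sum fun q _ => ContDiff.sum fun A _ =>
    ContDiff.sum fun B _ => ContDiff.sum fun C _ => ?_)
  exact (contDiff_const.mul (Setup.contDiff_ofReal (Setup.contDiff_coord _))).smul contDiff_const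

theorem energy_formula (S : Setup F) (u : X3 → F) (hu : Setup.Tst u) :
    (1 / 16 : ℝ) * ∑ β, ∫ x, ‖S.Q β u x‖ ^ 2 =
      (1 / 2) * (∑ i, ∑ A, ∫ x, ‖pd i A u x‖ ^ 2) + (∫ x, S.V x * ‖u x‖ ^ 2)
        + (∫ x, (inner ℂ (u x) (S.Fx x (u x))).re) := by
  have hI : ∀ v : X3 → F, Setup.Tst v → ((∫ x, ‖v x‖ ^ 2 : ℝ) : ℂ) = ∫ x, inner ℂ (v x) (v x) := by
    intro v _
    rw [← integral_complex_ofReal]
    congr 1
    ext x
    rw [inner_self_eq_norm_sq_to_K]
    norm_cast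
  have h1 : (((1 / 16 : ℝ) * ∑ β, ∫ x, ‖S.Q β u x‖ ^ 2 : ℝ) : ℂ) =
      (1 / 16 : ℂ) * ∫ x, inner ℂ (u x) (∑ b, S.Q b (S.Q b u) x) := by
    push_cast
    congr 1
    simp only [inner_sum]
    rw [integral_finsetSum]
    · refine Finset.sum_congr rfl fun b _ => ?_
      have := hI _ (hu.Q S b)
      rw [this, Q_symm S b u _ hu (S.contDiff_Q b hu.1)]
    · intro b _
      exact hu.inner_int (S.contDiff_Q b (S.contDiff_Q b hu.1)).continuous
  have hc1 : Continuous (fun x => S.V x) := (contDiff_V S).continuous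
  have hF : Setup.Tst (fun x => S.Fx x (u x)) := hu.clm (contDiff_Fx S)
  have h2 : ∀ x, inner ℂ (u x) (∑ b, S.Q b (S.Q b u) x) =
      -(8 : ℂ) * ∑ i, ∑ A, inner ℂ (u x) (pd i A (pd i A u) x) +
      (16 : ℂ) * ((S.V x * ‖u x‖ ^ 2 : ℝ) : ℂ) + (16 : ℂ) * inner ℂ (u x) (S.Fx x (u x)) := by
    intro x
    rw [S.sum_QQ hu.1, inner_add_right, inner_add_right, inner_neg_right, inner_smul_right,
      inner_smul_right, inner_smul_right]
    simp only [inner_sum, inner_self_eq_norm_sq_to_K]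
    push_cast
    simp only [Complex.coe_algebraMap]
    ring
  have h3 : (∫ x, inner ℂ (u x) (∑ b, S.Q b (S.Q b u) x)) =
      (8 : ℂ) * ∑ i, ∑ A, ((∫ x, ‖pd i A u x‖ ^ 2 : ℝ) : ℂ) +
      (16 : ℂ) * ((∫ x, S.V x * ‖u x‖ ^ 2 : ℝ) : ℂ) +
      (16 : ℂ) * ∫ x, inner ℂ (u x) (S.Fx x (u x)) := by
    simp only [h2]
    have i1 : ∀ i A, Integrable (fun x => inner ℂ (u x) (pd i A (pd i A u) x)) := fun i A =>
      hu.inner_int (contDiff_pd (contDiff_pd hu.1)).continuous
    have i1' : Integrable (fun x => -(8 : ℂ) * ∑ i, ∑ A, inner ℂ (u x) (pd i A (pd i A u) x)) :=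
      (integrable_finsetSum _ fun i _ => integrable_finsetSum _ fun A _ => i1 i A).const_mul _
    have i2 : Integrable (fun x => (16 : ℂ) * ((S.V x * ‖u x‖ ^ 2 : ℝ) : ℂ)) :=
      (hu.mul_norm_sq_int hc1).ofReal.const_mul _
    have i3 : Integrable (fun x => (16 : ℂ) * inner ℂ (u x) (S.Fx x (u x))) :=
      (hu.inner_int hF.1.continuous).const_mul _
    have i12 : Integrable (fun x => -(8 : ℂ) * ∑ i, ∑ A, inner ℂ (u x) (pd i A (pd i A u) x) +
        (16 : ℂ) * ((S.V x * ‖u x‖ ^ 2 : ℝ) : ℂ)) := i1'.add i2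
    rw [integral_add i12 i3, integral_add i1' i2, integral_const_mul, integral_const_mul,
      integral_const_mul, integral_complex_ofReal]
    congr 2
    rw [integral_finsetSum _ fun i _ => integrable_finsetSum _ fun A _ => i1 i A, neg_mul,
      ← mul_neg, ← Finset.sum_neg_distrib]
    congr 1
    refine Finset.sum_congr rfl fun i _ => ?_
    rw [integral_finsetSum _ fun A _ => i1 i A, ← Finset.sum_neg_distrib]
    refine Finset.sum_congr rfl fun A _ => ?_
    rw [← integral_inner_pd u (pd i A u) (hu.1.of_le (by simp)) ((contDiff_pd hu.1).of_le (by simp))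
      hu.2 i A, hI _ (hu.pd i A)]
  have h4 := h1.trans (congrArg (fun z => (1 / 16 : ℂ) * z) h3)
  have h5 := congrArg Complex.re h4
  have h6 : (∫ x, inner ℂ (u x) (S.Fx x (u x))).re = ∫ x, (inner ℂ (u x) (S.Fx x (u x))).re := by
    have := integral_re (hu.inner_int hF.1.continuous)
    exact this.symm
  rw [Complex.ofReal_re] at h5
  rw [h5, ← h6]
  simp only [Complex.mul_re, Complex.add_re, Complex.add_im, Complex.mul_im, Complex.ofReal_re,
    Complex.ofReal_im, ← Complex.ofReal_sum]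
  norm_num [Complex.div_re, Complex.div_im]
  ring

end Vale.Agent.P353
end

section

open MeasureTheory Filter Topology
open scoped ContDiff

namespace Vale.Agent.P353

variable {F : Type*} [NormedAddCommGroup F] [InnerProductSpace ℂ F]

/-- `|x|^2` -/
noncomputable def e1 (x : X3) : ℝ := ∑ i : Fin 9, ∑ A : Fin 3, x (i, A) ^ 2

/-- the 3 x 3 Gram matrix -/
noncomputable def Sm (A B : Fin 3) (x : X3) : ℝ := ∑ i : Fin 9, x (i, A) * x (i, B)

lemma e1_eq (x : X3) : e1 x = ‖x‖ ^ 2 := by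
  rw [EuclideanSpace.norm_sq_eq, Fintype.sum_prod_type]
  simp [e1]

lemma e1_eq_Sm (x : X3) : e1 x = ∑ A, Sm A A x := by
  simp only [e1, Sm]
  rw [Finset.sum_comm]
  refine Finset.sum_congr rfl fun A _ => Finset.sum_congr rfl fun i _ => ?_
  ring

lemma Sm_symm (A B : Fin 3) (x : X3) : Sm A B x = Sm B A x := by
  simp only [Sm]
  refine Finset.sum_congr rfl fun i _ => ?_
  ring

lemma V_eq (S : Setup F) (x : X3) :
    S.V x = S.κ ^ 2 / 4 * (e1 x ^ 2 - ∑ A, ∑ B, Sm A B x ^ 2) := by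
  have h1 : ∀ i j : Fin 9, ∑ A, S.FF A i j x ^ 2 = S.κ ^ 2 * ((∑ A, x (i, A) ^ 2) *
      (∑ A, x (j, A) ^ 2) - ∑ A, ∑ B, (x (i, A) * x (i, B)) * (x (j, A) * x (j, B))) := by
    intro i j
    simp only [Setup.FF, Fin.sum_univ_three]
    have e : ∀ A B C : Fin 3, (eps A B C : ℝ) = ((eps A B C : ℤ) : ℝ) := fun _ _ _ => rfl
    have v000 : eps 0 0 0 = 0 := by decide
    have v001 : eps 0 0 1 = 0 := by decide
    have v002 : eps 0 0 2 = 0 := by decide
    have v010 : eps 0 1 0 = 0 := by decide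
    have v011 : eps 0 1 1 = 0 := by decide
    have v012 : eps 0 1 2 = 1 := by decide
    have v020 : eps 0 2 0 = 0 := by decide
    have v021 : eps 0 2 1 = -1 := by decide
    have v022 : eps 0 2 2 = 0 := by decide
    have v100 : eps 1 0 0 = 0 := by decide
    have v101 : eps 1 0 1 = 0 := by decide
    have v102 : eps 1 0 2 = -1 := by decide
    have v110 : eps 1 1 0 = 0 := by decide
    have v111 : eps 1 1 1 = 0 := by decide
    have v112 : eps 1 1 2 = 0 := by decide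
    have v120 : eps 1 2 0 = 1 := by decide
    have v121 : eps 1 2 1 = 0 := by decide
    have v122 : eps 1 2 2 = 0 := by decide
    have v200 : eps 2 0 0 = 0 := by decide
    have v201 : eps 2 0 1 = 1 := by decide
    have v202 : eps 2 0 2 = 0 := by decide
    have v210 : eps 2 1 0 = -1 := by decide
    have v211 : eps 2 1 1 = 0 := by decide
    have v212 : eps 2 1 2 = 0 := by decide
    have v220 : eps 2 2 0 = 0 := by decide
    have v221 : eps 2 2 1 = 0 := by decide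
    have v222 : eps 2 2 2 = 0 := by decide
    simp only [v000, v001, v002, v010, v011, v012, v020, v021, v022, v100, v101, v102, v110, v111,
      v112, v120, v121, v122, v200, v201, v202, v210, v211, v212, v220, v221, v222]
    push_cast
    ring
  have h2 : ∑ A, ∑ i, ∑ j, S.FF A i j x ^ 2 = ∑ i, ∑ j, ∑ A, S.FF A i j x ^ 2 := by
    rw [Finset.sum_comm]
    refine Finset.sum_congr rfl fun i _ => ?_
    rw [Finset.sum_comm]
  rw [Setup.V, h2]
  simp only [h1]
  have h3 : ∑ i : Fin 9, ∑ j : Fin 9, (∑ A : Fin 3, x (i, A) ^ 2) * (∑ A, x (j, A) ^ 2) =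
      e1 x ^ 2 := by
    rw [e1, sq, Finset.sum_mul_sum]
  have h4 : ∑ i : Fin 9, ∑ j : Fin 9, ∑ A : Fin 3, ∑ B : Fin 3,
      (x (i, A) * x (i, B)) * (x (j, A) * x (j, B)) = ∑ A, ∑ B, Sm A B x ^ 2 := by
    have : ∀ A B, Sm A B x ^ 2 = ∑ i : Fin 9, ∑ j : Fin 9,
        (x (i, A) * x (i, B)) * (x (j, A) * x (j, B)) := by
      intro A B
      rw [Sm, sq, Finset.sum_mul_sum]
    simp only [this]
    calc _ = ∑ i : Fin 9, ∑ A : Fin 3, ∑ j : Fin 9, ∑ B : Fin 3,
          (x (i, A) * x (i, B)) * (x (j, A) * x (j, B)) := by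
          refine Finset.sum_congr rfl fun i _ => ?_
          rw [Finset.sum_comm]
      _ = ∑ A : Fin 3, ∑ i : Fin 9, ∑ j : Fin 9, ∑ B : Fin 3,
          (x (i, A) * x (i, B)) * (x (j, A) * x (j, B)) := by
          rw [Finset.sum_comm]
      _ = ∑ A : Fin 3, ∑ i : Fin 9, ∑ B : Fin 3, ∑ j : Fin 9,
          (x (i, A) * x (i, B)) * (x (j, A) * x (j, B)) := by
          refine Finset.sum_congr rfl fun A _ => Finset.sum_congr rfl fun i _ => ?_
          rw [Finset.sum_comm]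
      _ = _ := by
          refine Finset.sum_congr rfl fun A _ => ?_
          rw [Finset.sum_comm]
  rw [← h3, ← h4]
  simp only [mul_sub, Finset.sum_sub_distrib, ← Finset.mul_sum]
  ring

lemma hasFDerivAt_e1 (x : X3) : HasFDerivAt e1
    (∑ i, ∑ A, (2 * x (i, A)) • (EuclideanSpace.proj (𝕜 := ℝ) (i, A) : X3 →L[ℝ] ℝ)) x := by
  unfold e1
  refine HasFDerivAt.fun_sum fun i _ => HasFDerivAt.fun_sum fun A _ => ?_
  have h := (Setup.hasFDerivAt_coord (i, A) x).pow 2
  simpa using h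

lemma hasFDerivAt_Sm (A B : Fin 3) (x : X3) : HasFDerivAt (Sm A B)
    (∑ i, (x (i, A) • (EuclideanSpace.proj (𝕜 := ℝ) (i, B) : X3 →L[ℝ] ℝ) +
      x (i, B) • (EuclideanSpace.proj (𝕜 := ℝ) (i, A) : X3 →L[ℝ] ℝ))) x := by
  unfold Sm
  refine HasFDerivAt.fun_sum fun i _ => ?_
  exact (Setup.hasFDerivAt_coord (i, A) x).mul (Setup.hasFDerivAt_coord (i, B) x)

lemma pdr_coord (i j : Fin 9) (A B : Fin 3) (x : X3) :
    pdr j B (fun y => y (i, A)) x = if i = j ∧ A = B then 1 else 0 := by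
  unfold pdr
  rw [(Setup.hasFDerivAt_coord (i, A) x).fderiv]
  simp [PiLp.single_apply]

lemma pdr_e1 (j : Fin 9) (B : Fin 3) (x : X3) : pdr j B e1 x = 2 * x (j, B) := by
  unfold pdr
  rw [(hasFDerivAt_e1 x).fderiv]
  simp only [_root_.sum_apply, _root_.smul_apply, PiLp.proj_apply, PiLp.single_apply,
    Prod.mk.injEq, smul_eq_mul, mul_ite, mul_one, mul_zero]
  rw [Finset.sum_eq_single j, Finset.sum_eq_single B]
  · simp
  · intro A _ hA; simp [hA]
  · intro h; exact absurd (Finset.mem_univ _) h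
  · intro i _ hi
    refine Finset.sum_eq_zero fun A _ => ?_
    simp [hi]
  · intro h; exact absurd (Finset.mem_univ _) h

lemma pdr_Sm (A C : Fin 3) (j : Fin 9) (B : Fin 3) (x : X3) : pdr j B (Sm A C) x =
    (if C = B then x (j, A) else 0) + (if A = B then x (j, C) else 0) := by
  unfold pdr
  rw [(hasFDerivAt_Sm A C x).fderiv]
  simp only [_root_.sum_apply, _root_.smul_apply, _root_.add_apply, PiLp.proj_apply,
    PiLp.single_apply, Prod.mk.injEq, smul_eq_mul, mul_ite, mul_one, mul_zero]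
  rw [Finset.sum_eq_single j]
  · simp
  · intro i _ hi; simp [hi]
  · intro h; exact absurd (Finset.mem_univ _) h

lemma contDiff_e1 : ContDiff ℝ ∞ e1 := by
  unfold e1
  exact ContDiff.sum fun i _ => ContDiff.sum fun A _ => (Setup.contDiff_coord _).pow 2

lemma contDiff_Sm (A B : Fin 3) : ContDiff ℝ ∞ (Sm A B) := by
  unfold Sm
  exact ContDiff.sum fun i _ => (Setup.contDiff_coord _).mul (Setup.contDiff_coord _)

lemma diff_e1 (x : X3) : DifferentiableAt ℝ e1 x := contDiff_e1.differentiable (by simp) x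

lemma diff_Sm (A B : Fin 3) (x : X3) : DifferentiableAt ℝ (Sm A B) x :=
  (contDiff_Sm A B).differentiable (by simp) x

lemma diff_coord (p : Fin 9 × Fin 3) (x : X3) : DifferentiableAt ℝ (fun y : X3 => y p) x :=
  (Setup.contDiff_coord p).differentiable (by simp) x

/-! rules for `pdr` -/

lemma pdr_mul {φ ψ : X3 → ℝ} {x : X3} (j : Fin 9) (B : Fin 3) (hφ : DifferentiableAt ℝ φ x)
    (hψ : DifferentiableAt ℝ ψ x) :
    pdr j B (fun y => φ y * ψ y) x = φ x * pdr j B ψ x + pdr j B φ x * ψ x := by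
  unfold pdr
  rw [fderiv_fun_mul hφ hψ]
  simp only [_root_.add_apply, _root_.smul_apply, smul_eq_mul]
  ring

lemma pdr_sub {φ ψ : X3 → ℝ} {x : X3} (j : Fin 9) (B : Fin 3) (hφ : DifferentiableAt ℝ φ x)
    (hψ : DifferentiableAt ℝ ψ x) :
    pdr j B (fun y => φ y - ψ y) x = pdr j B φ x - pdr j B ψ x := by
  unfold pdr
  rw [fderiv_fun_sub hφ hψ]
  rfl

lemma pdr_const_mul {φ : X3 → ℝ} {x : X3} (j : Fin 9) (B : Fin 3) (c : ℝ)
    (hφ : DifferentiableAt ℝ φ x) :
    pdr j B (fun y => c * φ y) x = c * pdr j B φ x := by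
  unfold pdr
  rw [fderiv_const_mul hφ]
  rfl

lemma pdr_sum {ι : Type*} (s : Finset ι) {φ : ι → X3 → ℝ} {x : X3} (j : Fin 9) (B : Fin 3)
    (hφ : ∀ i ∈ s, DifferentiableAt ℝ (φ i) x) :
    pdr j B (fun y => ∑ i ∈ s, φ i y) x = ∑ i ∈ s, pdr j B (φ i) x := by
  unfold pdr
  rw [fderiv_fun_sum hφ]
  simp

/-- gradient of `V` -/
lemma pdr_V (S : Setup F) (j : Fin 9) (B : Fin 3) (x : X3) :
    pdr j B S.V x = S.κ ^ 2 * (e1 x * x (j, B) - ∑ C, Sm B C x * x (j, C)) := by
  have hV : S.V = fun y => S.κ ^ 2 / 4 * (e1 y * e1 y - ∑ A, ∑ C, Sm A C y * Sm A C y) := by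
    ext y
    rw [V_eq]
    simp only [sq]
  have hSS : ∀ A C, DifferentiableAt ℝ (fun y => Sm A C y * Sm A C y) x := fun A C =>
    (diff_Sm A C x).mul (diff_Sm A C x)
  have hS1 : ∀ A, DifferentiableAt ℝ (fun y => ∑ C, Sm A C y * Sm A C y) x := fun A =>
    DifferentiableAt.fun_sum fun C _ => hSS A C
  have hs : DifferentiableAt ℝ (fun y => ∑ A, ∑ C, Sm A C y * Sm A C y) x :=
    DifferentiableAt.fun_sum fun A _ => hS1 A
  have he : DifferentiableAt ℝ (fun y => e1 y * e1 y) x := (diff_e1 x).mul (diff_e1 x)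
  have hes : DifferentiableAt ℝ (fun y => e1 y * e1 y - ∑ A, ∑ C, Sm A C y * Sm A C y) x :=
    he.sub hs
  rw [hV, pdr_const_mul _ _ _ hes, pdr_sub _ _ he hs, pdr_mul _ _ (diff_e1 x) (diff_e1 x),
    pdr_sum _ _ _ (fun A _ => hS1 A), pdr_e1]
  have h1 : ∀ A, pdr j B (fun y => ∑ C, Sm A C y * Sm A C y) x =
      ∑ C, 2 * (Sm A C x * ((if C = B then x (j, A) else 0) + (if A = B then x (j, C) else 0))) := by
    intro A
    rw [pdr_sum _ _ _ (fun C _ => hSS A C)]
    refine Finset.sum_congr rfl fun C _ => ?_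
    rw [pdr_mul _ _ (diff_Sm A C x) (diff_Sm A C x), pdr_Sm]
    ring
  simp only [h1, mul_add, Finset.sum_add_distrib]
  have h2 : ∑ A, ∑ C, 2 * (Sm A C x * (if C = B then x (j, A) else 0)) =
      2 * ∑ C, Sm B C x * x (j, C) := by
    rw [Finset.mul_sum]
    refine Finset.sum_congr rfl fun A _ => ?_
    rw [Finset.sum_eq_single B]
    · simp [Sm_symm A B]
    · intro C _ hC; simp [hC]
    · intro h; exact absurd (Finset.mem_univ _) h
  have h3 : ∑ A, ∑ C, 2 * (Sm A C x * (if A = B then x (j, C) else 0)) =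
      2 * ∑ C, Sm B C x * x (j, C) := by
    rw [Finset.sum_eq_single B, Finset.mul_sum]
    · simp
    · intro A _ hA; simp [hA]
    · intro h; exact absurd (Finset.mem_univ _) h
  rw [h2, h3]
  ring

/-- `|∇V|^2` in terms of the Gram matrix -/
lemma sum_pdr_V_sq (S : Setup F) (x : X3) :
    ∑ j, ∑ B, pdr j B S.V x ^ 2 = S.κ ^ 4 * (e1 x ^ 3 - 2 * e1 x * ∑ A, ∑ B, Sm A B x ^ 2 +
      ∑ A, ∑ B, ∑ C, Sm A B x * Sm B C x * Sm C A x) := by
  simp only [pdr_V]
  have h : ∀ (j : Fin 9) (B : Fin 3), (S.κ ^ 2 * (e1 x * x (j, B) - ∑ C, Sm B C x * x (j, C))) ^ 2 =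
      S.κ ^ 4 * (e1 x ^ 2 * (x (j, B) * x (j, B)) - 2 * e1 x * ∑ C, Sm B C x * (x (j, B) * x (j, C)) +
        ∑ C, ∑ D, Sm B C x * Sm B D x * (x (j, C) * x (j, D))) := by
    intro j B
    simp only [Fin.sum_univ_three]
    ring
  simp only [h, ← Finset.mul_sum, Finset.sum_add_distrib, Finset.sum_sub_distrib]
  have t1 : ∑ j : Fin 9, ∑ B : Fin 3, x (j, B) * x (j, B) = e1 x := by
    simp only [e1, sq]
  have t2 : ∑ j : Fin 9, ∑ B : Fin 3, ∑ C : Fin 3, Sm B C x * (x (j, B) * x (j, C)) =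
      ∑ A, ∑ B, Sm A B x ^ 2 := by
    rw [Finset.sum_comm]
    refine Finset.sum_congr rfl fun B _ => ?_
    rw [Finset.sum_comm]
    refine Finset.sum_congr rfl fun C _ => ?_
    rw [← Finset.mul_sum, sq]
    rfl
  have t3 : ∑ j : Fin 9, ∑ B : Fin 3, ∑ C : Fin 3, ∑ D : Fin 3,
      Sm B C x * Sm B D x * (x (j, C) * x (j, D)) =
      ∑ A, ∑ B, ∑ C, Sm A B x * Sm B C x * Sm C A x := by
    rw [Finset.sum_comm]
    refine Finset.sum_congr rfl fun B _ => ?_
    rw [Finset.sum_comm]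
    refine Finset.sum_congr rfl fun C _ => ?_
    rw [Finset.sum_comm]
    refine Finset.sum_congr rfl fun D _ => ?_
    rw [← Finset.mul_sum]
    have : ∑ i : Fin 9, x (i, C) * x (i, D) = Sm C D x := rfl
    rw [this, Sm_symm B D]
    ring
  rw [t1, t2, t3]
  ring

lemma gram_ineq (a b c d e f : ℝ) :
    3 * (a + b + c) * (a * b * c + 2 * d * e * f - a * f ^ 2 - b * e ^ 2 - c * d ^ 2) ≤
      (a * b + b * c + c * a - d ^ 2 - e ^ 2 - f ^ 2) ^ 2 := by
  nlinarith [sq_nonneg ((b * c - f ^ 2) - (a * c - e ^ 2)),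
    sq_nonneg ((a * c - e ^ 2) - (a * b - d ^ 2)), sq_nonneg ((b * c - f ^ 2) - (a * b - d ^ 2)),
    sq_nonneg (e * f - c * d), sq_nonneg (d * f - b * e), sq_nonneg (d * e - a * f)]

theorem grad_V_sq_le (S : Setup F) (x : X3) :
    ‖x‖ ^ 2 * ∑ i, ∑ A, (pdr i A S.V x) ^ 2 ≤
      2 * S.κ ^ 2 * ‖x‖ ^ 4 * S.V x + 7 * S.V x ^ 2 := by
  have hx : ‖x‖ ^ 4 = e1 x ^ 2 := by rw [e1_eq]; ring
  rw [hx, ← e1_eq, sum_pdr_V_sq, V_eq]
  have h := gram_ineq (Sm 0 0 x) (Sm 1 1 x) (Sm 2 2 x) (Sm 0 1 x) (Sm 0 2 x) (Sm 1 2 x)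
  have s1 : Sm 1 0 x = Sm 0 1 x := Sm_symm _ _ _
  have s2 : Sm 2 0 x = Sm 0 2 x := Sm_symm _ _ _
  have s3 : Sm 2 1 x = Sm 1 2 x := Sm_symm _ _ _
  simp only [e1_eq_Sm, Fin.sum_univ_three, s1, s2, s3]
  have hk : 0 ≤ S.κ ^ 4 := by positivity
  have h2 := mul_le_mul_of_nonneg_left h hk
  have h3 : 0 ≤ S.κ ^ 4 * (Sm 0 0 x * Sm 1 1 x + Sm 1 1 x * Sm 2 2 x + Sm 2 2 x * Sm 0 0 x -
    Sm 0 1 x ^ 2 - Sm 0 2 x ^ 2 - Sm 1 2 x ^ 2) ^ 2 := by positivity
  nlinarith [h2, h3]

end Vale.Agent.P353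
end

section

open MeasureTheory Filter Topology
open scoped ContDiff

namespace Vale.Agent.P353

variable {F : Type*} [NormedAddCommGroup F] [InnerProductSpace ℂ F]

lemma sum_x_pdr_V (S : Setup F) (x : X3) :
    ∑ j, ∑ B, x (j, B) * pdr j B S.V x = 4 * S.V x := by
  simp only [pdr_V, V_eq]
  have h : ∀ (j : Fin 9) (B : Fin 3), x (j, B) * (S.κ ^ 2 * (e1 x * x (j, B) -
      ∑ C, Sm B C x * x (j, C))) = S.κ ^ 2 * (e1 x * (x (j, B) * x (j, B)) -
      ∑ C, Sm B C x * (x (j, B) * x (j, C))) := by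
    intro j B
    simp only [Fin.sum_univ_three]
    ring
  simp only [h, ← Finset.mul_sum, Finset.sum_sub_distrib]
  have t1 : ∑ j : Fin 9, ∑ B : Fin 3, x (j, B) * x (j, B) = e1 x := by
    simp only [e1, sq]
  have t2 : ∑ j : Fin 9, ∑ B : Fin 3, ∑ C : Fin 3, Sm B C x * (x (j, B) * x (j, C)) =
      ∑ A, ∑ B, Sm A B x ^ 2 := by
    rw [Finset.sum_comm]
    refine Finset.sum_congr rfl fun B _ => ?_
    rw [Finset.sum_comm]
    refine Finset.sum_congr rfl fun C _ => ?_
    rw [← Finset.mul_sum, sq]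
    rfl
  rw [t1, t2]
  ring

lemma pdr_pdr_V (S : Setup F) (j : Fin 9) (B : Fin 3) (x : X3) :
    pdr j B (pdr j B S.V) x = S.κ ^ 2 * (e1 x + x (j, B) ^ 2 - Sm B B x - ∑ A, x (j, A) ^ 2) := by
  have hV : pdr j B S.V = fun y => S.κ ^ 2 * (e1 y * y (j, B) - ∑ C, Sm B C y * y (j, C)) := by
    ext y
    rw [pdr_V]
  have d1 : DifferentiableAt ℝ (fun y : X3 => e1 y * y (j, B)) x := (diff_e1 x).mul (diff_coord _ x)
  have d2 : ∀ C, DifferentiableAt ℝ (fun y : X3 => Sm B C y * y (j, C)) x := fun C =>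
    (diff_Sm B C x).mul (diff_coord _ x)
  have d3 : DifferentiableAt ℝ (fun y : X3 => ∑ C, Sm B C y * y (j, C)) x :=
    DifferentiableAt.fun_sum fun C _ => d2 C
  have d4 : DifferentiableAt ℝ (fun y : X3 => e1 y * y (j, B) - ∑ C, Sm B C y * y (j, C)) x :=
    d1.sub d3
  rw [hV, pdr_const_mul _ _ _ d4, pdr_sub _ _ d1 d3, pdr_mul _ _ (diff_e1 x) (diff_coord _ x),
    pdr_sum _ _ _ (fun C _ => d2 C), pdr_e1, pdr_coord]
  have h1 : ∀ C, pdr j B (fun y : X3 => Sm B C y * y (j, C)) x =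
      (if C = B then Sm B B x + x (j, B) ^ 2 else 0) + x (j, C) ^ 2 := by
    intro C
    rw [pdr_mul _ _ (diff_Sm B C x) (diff_coord _ x), pdr_Sm, pdr_coord]
    by_cases h : C = B
    · subst h
      simp
      ring
    · simp [h]
      ring
  simp only [h1, Finset.sum_add_distrib, Finset.sum_ite_eq', Finset.mem_univ, if_true, and_self]
  ring

lemma laplacian_V (S : Setup F) (x : X3) :
    ∑ j, ∑ B, pdr j B (pdr j B S.V) x = 16 * S.κ ^ 2 * e1 x := by
  simp only [pdr_pdr_V, ← Finset.mul_sum]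
  have h : ∑ j : Fin 9, ∑ B : Fin 3, (e1 x + x (j, B) ^ 2 - Sm B B x - ∑ A, x (j, A) ^ 2) =
      16 * e1 x := by
    simp only [Finset.sum_sub_distrib, Finset.sum_add_distrib, Finset.sum_const, Finset.card_univ,
      Fintype.card_fin]
    have a1 : ∑ j : Fin 9, ∑ B : Fin 3, x (j, B) ^ 2 = e1 x := rfl
    have a2 : ∑ j : Fin 3, Sm j j x = e1 x := (e1_eq_Sm x).symm
    rw [← Finset.smul_sum, a1, a2]
    simp only [nsmul_eq_mul]
    push_cast
    ring
  rw [h]
  ring

/-! ### the inverse norm -/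

lemma pdr_inv_norm (j : Fin 9) (B : Fin 3) (x : X3) (hx : x ≠ 0) :
    pdr j B (fun y => ‖y‖⁻¹) x = - x (j, B) * ‖x‖⁻¹ ^ 3 := by
  have hn : 0 < ‖x‖ := norm_pos_iff.mpr hx
  have he : e1 x ≠ 0 := by rw [e1_eq]; positivity
  have h1 := (hasFDerivAt_e1 x).sqrt he
  have hsq : ∀ y : X3, Real.sqrt (e1 y) = ‖y‖ := by
    intro y
    rw [e1_eq, Real.sqrt_sq (norm_nonneg y)]
  have hne : Real.sqrt (e1 x) ≠ 0 := by rw [hsq]; exact hn.ne'
  have h2 := (hasDerivAt_inv hne).comp_hasFDerivAt x h1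
  have h3 : (fun y : X3 => ‖y‖⁻¹) = (fun y => (Real.sqrt (e1 y))⁻¹) := by
    ext y; rw [hsq]
  have h4 : fderiv ℝ (fun y : X3 => ‖y‖⁻¹) x =
      fderiv ℝ ((fun y => y⁻¹) ∘ fun y => Real.sqrt (e1 y)) x := by rw [h3]; rfl
  unfold pdr
  rw [h4, h2.fderiv]
  have h5 := pdr_e1 j B x
  unfold pdr at h5
  rw [(hasFDerivAt_e1 x).fderiv] at h5
  simp only [_root_.smul_apply, smul_eq_mul]
  rw [h5, hsq]
  field_simp

lemma diff_inv_norm (x : X3) (hx : x ≠ 0) : DifferentiableAt ℝ (fun y : X3 => ‖y‖⁻¹) x := by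
  have h := (differentiableAt_id (𝕜 := ℝ) (x := x)).norm ℝ hx
  exact h.inv (norm_ne_zero_iff.mpr hx)

lemma contDiffAt_inv_norm (x : X3) (hx : x ≠ 0) : ContDiffAt ℝ ∞ (fun y : X3 => ‖y‖⁻¹) x := by
  have h := contDiffAt_norm ℝ (n := ∞) hx
  exact h.inv (norm_ne_zero_iff.mpr hx)

/-- the vector field `c ∇(V/|x|)` -/
noncomputable def GV (S : Setup F) (c : ℝ) (j : Fin 9) (B : Fin 3) (x : X3) : ℝ :=
  c * (pdr j B S.V x * ‖x‖⁻¹ - S.V x * x (j, B) * ‖x‖⁻¹ ^ 3)

lemma contDiff_pdr {φ : X3 → ℝ} (hφ : ContDiff ℝ ∞ φ) (j : Fin 9) (B : Fin 3) :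
    ContDiff ℝ ∞ (pdr j B φ) := by
  unfold pdr
  exact (hφ.fderiv_right (m := ∞) (by simp)).clm_apply contDiff_const

lemma div_GV (S : Setup F) (c : ℝ) (x : X3) (hx : x ≠ 0) :
    ∑ j, ∑ B, pdr j B (GV S c j B) x =
      c * (16 * S.κ ^ 2 * ‖x‖ - 32 * S.V x * ‖x‖⁻¹ ^ 3) := by
  have hn : 0 < ‖x‖ := norm_pos_iff.mpr hx
  have dn := diff_inv_norm x hx
  have dV : DifferentiableAt ℝ S.V x := (contDiff_V S).differentiable (by simp) x
  have h : ∀ j B, pdr j B (GV S c j B) x = c * (pdr j B (pdr j B S.V) x * ‖x‖⁻¹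
      - 2 * ‖x‖⁻¹ ^ 3 * (x (j, B) * pdr j B S.V x) - S.V x * ‖x‖⁻¹ ^ 3
      + 3 * S.V x * ‖x‖⁻¹ ^ 5 * (x (j, B)) ^ 2) := by
    intro j B
    have dp : DifferentiableAt ℝ (pdr j B S.V) x :=
      (contDiff_pdr (contDiff_V S) j B).differentiable (by simp) x
    have dc := diff_coord (j, B) x
    have e : GV S c j B = fun y => c * (pdr j B S.V y * ‖y‖⁻¹ -
        (S.V y * y (j, B)) * ((‖y‖⁻¹ * ‖y‖⁻¹) * ‖y‖⁻¹)) := by
      ext y
      rw [GV]
      ring
    have q1 : DifferentiableAt ℝ (fun y => pdr j B S.V y * ‖y‖⁻¹) x := dp.mul dn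
    have q2 : DifferentiableAt ℝ (fun y => S.V y * y (j, B)) x := dV.mul dc
    have q3 : DifferentiableAt ℝ (fun y : X3 => ‖y‖⁻¹ * ‖y‖⁻¹) x := dn.mul dn
    have q4 : DifferentiableAt ℝ (fun y : X3 => (‖y‖⁻¹ * ‖y‖⁻¹) * ‖y‖⁻¹) x := q3.mul dn
    have q5 : DifferentiableAt ℝ (fun y => (S.V y * y (j, B)) * ((‖y‖⁻¹ * ‖y‖⁻¹) * ‖y‖⁻¹)) x :=
      q2.mul q4
    have q6 : DifferentiableAt ℝ (fun y => pdr j B S.V y * ‖y‖⁻¹ -
        (S.V y * y (j, B)) * ((‖y‖⁻¹ * ‖y‖⁻¹) * ‖y‖⁻¹)) x := q1.sub q5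
    rw [e, pdr_const_mul _ _ _ q6, pdr_sub _ _ q1 q5, pdr_mul _ _ dp dn, pdr_mul _ _ q2 q4,
      pdr_mul _ _ dV dc, pdr_mul _ _ q3 dn, pdr_mul _ _ dn dn, pdr_inv_norm _ _ _ hx, pdr_coord]
    simp only [and_self, if_true]
    ring
  simp only [h, ← Finset.mul_sum, Finset.sum_add_distrib, Finset.sum_sub_distrib,
    ← Finset.sum_mul, laplacian_V, sum_x_pdr_V, Finset.sum_const, Finset.card_univ,
    Fintype.card_fin, nsmul_eq_mul]
  have a1 : ∑ j : Fin 9, ∑ B : Fin 3, x (j, B) ^ 2 = ‖x‖ ^ 2 := by rw [← e1_eq]; rfl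
  rw [a1, e1_eq]
  push_cast
  field_simp
  ring

lemma sum_GV_sq (S : Setup F) (c : ℝ) (x : X3) (hx : x ≠ 0) :
    ∑ j, ∑ B, GV S c j B x ^ 2 ≤ c ^ 2 * (2 * S.κ ^ 2 * S.V x) := by
  have hn : 0 < ‖x‖ := norm_pos_iff.mpr hx
  have h : ∀ j B, GV S c j B x ^ 2 = c ^ 2 * (‖x‖⁻¹ ^ 2 * pdr j B S.V x ^ 2
      - 2 * S.V x * ‖x‖⁻¹ ^ 4 * (x (j, B) * pdr j B S.V x)
      + S.V x ^ 2 * ‖x‖⁻¹ ^ 6 * (x (j, B)) ^ 2) := by
    intro j B
    rw [GV]
    ring
  simp only [h, ← Finset.mul_sum, Finset.sum_add_distrib, Finset.sum_sub_distrib, sum_x_pdr_V]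
  have a1 : ∑ j : Fin 9, ∑ B : Fin 3, x (j, B) ^ 2 = ‖x‖ ^ 2 := by rw [← e1_eq]; rfl
  rw [a1]
  refine mul_le_mul_of_nonneg_left ?_ (sq_nonneg c)
  have g := grad_V_sq_le S x
  have e : ‖x‖⁻¹ ^ 2 * ∑ j, ∑ B, pdr j B S.V x ^ 2 - 2 * S.V x * ‖x‖⁻¹ ^ 4 * (4 * S.V x)
      + S.V x ^ 2 * ‖x‖⁻¹ ^ 6 * ‖x‖ ^ 2 =
      ‖x‖⁻¹ ^ 4 * (‖x‖ ^ 2 * ∑ j, ∑ B, pdr j B S.V x ^ 2 - 7 * S.V x ^ 2) := by
    field_simp
    ring
  rw [e]
  calc ‖x‖⁻¹ ^ 4 * (‖x‖ ^ 2 * ∑ j, ∑ B, pdr j B S.V x ^ 2 - 7 * S.V x ^ 2) ≤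
      ‖x‖⁻¹ ^ 4 * (2 * S.κ ^ 2 * ‖x‖ ^ 4 * S.V x) :=
        mul_le_mul_of_nonneg_left (by linarith) (by positivity)
    _ = 2 * S.κ ^ 2 * S.V x := by field_simp

omit [InnerProductSpace ℂ F] in
lemma eventually_zero {u : X3 → F} {r : ℝ} (hr : 0 < r) (hsupp : ∀ x, ‖x‖ < r → u x = 0) :
    ∀ᶠ x in 𝓝 (0 : X3), u x = 0 := by
  filter_upwards [Metric.ball_mem_nhds (0 : X3) hr] with x hx
  exact hsupp x (by simpa using hx)

lemma integrable_sing {h : X3 → ℝ} (hh : ∀ x, x ≠ 0 → ContinuousAt h x) {u : X3 → F}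
    (hu : Setup.Tst u) {r : ℝ} (hr : 0 < r) (hsupp : ∀ x, ‖x‖ < r → u x = 0) :
    Integrable (fun x => h x * ‖u x‖ ^ 2) := by
  have hc : Continuous (fun x => h x * ‖u x‖ ^ 2) := by
    rw [continuous_iff_continuousAt]
    intro x
    by_cases hx : x = 0
    · subst hx
      have : (fun x => h x * ‖u x‖ ^ 2) =ᶠ[𝓝 (0 : X3)] fun _ => 0 := by
        filter_upwards [eventually_zero hr hsupp] with y hy
        simp [hy]
      exact continuousAt_const.congr this.symm
    · exact (hh x hx).mul ((hu.1.continuous.norm.pow 2).continuousAt)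
  refine hc.integrable_of_hasCompactSupport (hu.2.mono ?_)
  intro x hx
  simp only [Function.mem_support] at hx ⊢
  intro h0
  exact hx (by simp [h0])

lemma contDiffAt_GV (S : Setup F) (c : ℝ) (j : Fin 9) (B : Fin 3) (x : X3) (hx : x ≠ 0) :
    ContDiffAt ℝ ∞ (GV S c j B) x := by
  unfold GV
  have h1 := (contDiff_pdr (contDiff_V S) j B).contDiffAt (x := x)
  have h2 := contDiffAt_inv_norm x hx
  have h3 := (contDiff_V S).contDiffAt (x := x)
  have h4 := (Setup.contDiff_coord (j, B)).contDiffAt (x := x)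
  exact contDiffAt_const.mul ((h1.mul h2).sub ((h3.mul h4).mul (h2.pow 3)))

theorem square_lower_bound (S : Setup F) (u : X3 → F)
    (hu : Setup.Tst u) (r : ℝ) (hr : 0 < r) (hsupp : ∀ x, ‖x‖ < r → u x = 0)
    (ε : ℝ) (_h0 : 0 ≤ ε) (_h1 : ε ≤ 1) :
    ∫ x, ((1 - ε) * (8 * S.κ * ‖x‖ - 16 / S.κ * S.V x / ‖x‖ ^ 3) +
        (2 * ε - ε ^ 2) * S.V x) * ‖u x‖ ^ 2 ≤
      (1 / 2) * (∑ i, ∑ A, ∫ x, ‖pd i A u x‖ ^ 2) + (∫ x, S.V x * ‖u x‖ ^ 2) := by
  set c : ℝ := (1 - ε) / S.κ with hc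
  have hκ := S.κ_pos
  -- the auxiliary functions
  have hn2 : ContDiff ℝ ∞ (fun x => ‖u x‖ ^ 2) := hu.1.norm_sq ℂ
  have hd2 : ∀ j B x, fderiv ℝ (fun x => ‖u x‖ ^ 2) x (EuclideanSpace.single (j, B) (1 : ℝ)) =
      2 * (inner ℂ (u x) (pd j B u x)).re := by
    intro j B x
    have e : (fun x => ‖u x‖ ^ 2) = fun x => (inner ℂ (u x) (u x)).re := by
      ext y; rw [re_inner_self]
    have hi : DifferentiableAt ℝ (fun x => inner ℂ (u x) (u x)) x :=
      (hu.diff x).inner ℂ (hu.diff x)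
    have h := (Complex.reCLM.hasFDerivAt (x := inner ℂ (u x) (u x))).comp x hi.hasFDerivAt
    have h' : fderiv ℝ (fun x => (inner ℂ (u x) (u x)).re) x = _ := h.fderiv
    rw [e, h']
    simp only [ContinuousLinearMap.comp_apply, Complex.reCLM_apply]
    rw [fderiv_inner_apply ℂ (hu.diff x) (hu.diff x), Complex.add_re]
    have hs : (inner ℂ (fderiv ℝ u x (EuclideanSpace.single (j, B) (1 : ℝ))) (u x)).re =
        (inner ℂ (u x) (fderiv ℝ u x (EuclideanSpace.single (j, B) (1 : ℝ)))).re := by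
      rw [← inner_conj_symm, Complex.conj_re]
    rw [hs, pd]
    ring
  let w : Fin 9 → Fin 3 → X3 → ℝ := fun j B x => GV S c j B x * ‖u x‖ ^ 2
  have hw : ∀ j B, ContDiff ℝ 1 (w j B) := by
    intro j B
    rw [contDiff_iff_contDiffAt]
    intro x
    by_cases hx : x = 0
    · subst hx
      have : (w j B) =ᶠ[𝓝 (0 : X3)] fun _ => 0 := by
        filter_upwards [eventually_zero hr hsupp] with y hy
        simp [w, hy]
      exact contDiffAt_const.congr_of_eventuallyEq this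
    · exact ((contDiffAt_GV S c j B x hx).mul hn2.contDiffAt).of_le (by simp)
  have hwc : ∀ j B, HasCompactSupport (w j B) := by
    intro j B
    refine hu.2.mono ?_
    intro x hx
    simp only [Function.mem_support] at hx ⊢
    intro h0
    exact hx (by simp [w, h0])
  have hwd : ∀ j B x, fderiv ℝ (w j B) x (EuclideanSpace.single (j, B) (1 : ℝ)) =
      pdr j B (GV S c j B) x * ‖u x‖ ^ 2 +
        GV S c j B x * (2 * (inner ℂ (u x) (pd j B u x)).re) := by
    intro j B x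
    by_cases hx : x = 0
    · subst hx
      have h0 : (w j B) =ᶠ[𝓝 (0 : X3)] fun _ => 0 := by
        filter_upwards [eventually_zero hr hsupp] with y hy
        simp [w, hy]
      have hu0 : u 0 = 0 := hsupp 0 (by simpa using hr)
      rw [h0.fderiv_eq]
      simp [hu0]
    · have dG : DifferentiableAt ℝ (GV S c j B) x :=
        (contDiffAt_GV S c j B x hx).differentiableAt (by simp)
      have dn : DifferentiableAt ℝ (fun x => ‖u x‖ ^ 2) x := hn2.differentiable (by simp) x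
      have e := fderiv_fun_mul dG dn
      have : w j B = fun y => GV S c j B y * (‖u y‖ ^ 2) := rfl
      rw [this, e]
      simp only [_root_.add_apply, _root_.smul_apply, smul_eq_mul, hd2]
      rw [pdr]
      ring
  -- pointwise inequality
  have hpt : ∀ x, (2 * (((1 - ε) * (8 * S.κ * ‖x‖ - 16 / S.κ * S.V x / ‖x‖ ^ 3) +
        (2 * ε - ε ^ 2) * S.V x) * ‖u x‖ ^ 2)) ≤
      (∑ j, ∑ B, ‖pd j B u x‖ ^ 2) + 2 * (S.V x * ‖u x‖ ^ 2) +
        ∑ j, ∑ B, fderiv ℝ (w j B) x (EuclideanSpace.single (j, B) (1 : ℝ)) := by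
    intro x
    by_cases hx : x = 0
    · subst hx
      have hu0 : u 0 = 0 := hsupp 0 (by simpa using hr)
      simp only [hwd, hu0]
      simp only [norm_zero, inner_zero_left, Complex.zero_re]
      norm_num
      positivity
    · have hsq : ∀ j B, 0 ≤ ‖pd j B u x‖ ^ 2 + GV S c j B x * (2 * (inner ℂ (u x) (pd j B u x)).re)
          + GV S c j B x ^ 2 * ‖u x‖ ^ 2 := by
        intro j B
        have h := sq_nonneg ‖pd j B u x + ((GV S c j B x : ℝ) : ℂ) • u x‖
        rw [@norm_add_sq ℂ, norm_smul, inner_smul_right] at h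
        have hre : RCLike.re (((GV S c j B x : ℝ) : ℂ) * inner ℂ (pd j B u x) (u x)) =
            GV S c j B x * (inner ℂ (u x) (pd j B u x)).re := by
          have hs2 : (inner ℂ (pd j B u x) (u x)).re = (inner ℂ (u x) (pd j B u x)).re := by
            rw [← inner_conj_symm, Complex.conj_re]
          rw [← hs2]
          simp
        rw [hre, Complex.norm_real, mul_pow, Real.norm_eq_abs, sq_abs] at h
        linarith
      have hsum := Finset.sum_nonneg (s := Finset.univ) fun j _ =>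
        Finset.sum_nonneg (s := Finset.univ) fun B _ => hsq j B
      simp only [Finset.sum_add_distrib, ← Finset.sum_mul] at hsum
      simp only [hwd, Finset.sum_add_distrib, ← Finset.sum_mul]
      rw [div_GV S c x hx]
      have hG := sum_GV_sq S c x hx
      have hG' := mul_le_mul_of_nonneg_right hG (sq_nonneg ‖u x‖)
      have hn : 0 < ‖x‖ := norm_pos_iff.mpr hx
      have id1 : 2 * (((1 - ε) * (8 * S.κ * ‖x‖ - 16 / S.κ * S.V x / ‖x‖ ^ 3) +
        (2 * ε - ε ^ 2) * S.V x) * ‖u x‖ ^ 2) =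
          c * (16 * S.κ ^ 2 * ‖x‖ - 32 * S.V x * ‖x‖⁻¹ ^ 3) * ‖u x‖ ^ 2 +
          2 * (S.V x * ‖u x‖ ^ 2) - c ^ 2 * (2 * S.κ ^ 2 * S.V x) * ‖u x‖ ^ 2 := by
        rw [hc]
        field_simp
        ring
      rw [id1]
      linarith
  -- integrate
  have iw : ∀ j B, Integrable (fun x => fderiv ℝ (w j B) x
      (EuclideanSpace.single (j, B) (1 : ℝ))) := by
    intro j B
    exact (((hw j B).continuous_fderiv (by simp)).clm_apply continuous_const
      ).integrable_of_hasCompactSupport ((hwc j B).fderiv_apply (𝕜 := ℝ) _)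
  have ip : ∀ j B, Integrable (fun x => ‖pd j B u x‖ ^ 2) := fun j B => (hu.pd j B).norm_sq_int
  have iV : Integrable (fun x => 2 * (S.V x * ‖u x‖ ^ 2)) :=
    (hu.mul_norm_sq_int (contDiff_V S).continuous).const_mul 2
  have iL : Integrable (fun x => ((1 - ε) * (8 * S.κ * ‖x‖ - 16 / S.κ * S.V x / ‖x‖ ^ 3) +
        (2 * ε - ε ^ 2) * S.V x) * ‖u x‖ ^ 2) := by
    refine integrable_sing ?_ hu hr hsupp
    intro x hx
    have hV := (contDiff_V S).continuous.continuousAt (x := x)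
    have hn := continuous_norm.continuousAt (x := x)
    have hne : ‖x‖ ^ 3 ≠ 0 := pow_ne_zero 3 (norm_ne_zero_iff.mpr hx)
    exact (continuousAt_const.mul ((continuousAt_const.mul hn).sub
      ((continuousAt_const.mul hV).div (hn.pow 3) hne))).add (continuousAt_const.mul hV)
  have i1 : Integrable (fun x => ∑ j, ∑ B, ‖pd j B u x‖ ^ 2) :=
    integrable_finsetSum _ fun j _ => integrable_finsetSum _ fun B _ => ip j B
  have i3 : Integrable (fun x => ∑ j, ∑ B, fderiv ℝ (w j B) x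
      (EuclideanSpace.single (j, B) (1 : ℝ))) :=
    integrable_finsetSum _ fun j _ => integrable_finsetSum _ fun B _ => iw j B
  have i12 : Integrable (fun x => (∑ j, ∑ B, ‖pd j B u x‖ ^ 2) + 2 * (S.V x * ‖u x‖ ^ 2)) :=
    i1.add iV
  have hint := integral_mono (iL.const_mul 2) (i12.add i3) hpt
  have e1' : ∫ x, ((∑ j, ∑ B, ‖pd j B u x‖ ^ 2) + 2 * (S.V x * ‖u x‖ ^ 2)) +
      ∑ j, ∑ B, fderiv ℝ (w j B) x (EuclideanSpace.single (j, B) (1 : ℝ)) =
      (∑ i, ∑ A, ∫ x, ‖pd i A u x‖ ^ 2) + 2 * (∫ x, S.V x * ‖u x‖ ^ 2) := by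
    rw [integral_add i12 i3, integral_add i1 iV, integral_const_mul]
    rw [integral_finsetSum _ fun j _ => integrable_finsetSum _ fun B _ => ip j B,
      integral_finsetSum _ fun j _ => integrable_finsetSum _ fun B _ => iw j B]
    have z1 : ∑ j, ∫ x, ∑ B, fderiv ℝ (w j B) x (EuclideanSpace.single (j, B) (1 : ℝ)) = 0 := by
      refine Finset.sum_eq_zero fun j _ => ?_
      rw [integral_finsetSum _ fun B _ => iw j B]
      refine Finset.sum_eq_zero fun B _ => ?_
      exact integral_fderiv_eq_zero _ (hw j B) (hwc j B) _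
    rw [z1, add_zero]
    congr 1
    refine Finset.sum_congr rfl fun j _ => ?_
    rw [integral_finsetSum _ fun B _ => ip j B]
  have hint2 : 2 * ∫ x, ((1 - ε) * (8 * S.κ * ‖x‖ - 16 / S.κ * S.V x / ‖x‖ ^ 3) +
        (2 * ε - ε ^ 2) * S.V x) * ‖u x‖ ^ 2 ≤
      (∑ i, ∑ A, ∫ x, ‖pd i A u x‖ ^ 2) + 2 * (∫ x, S.V x * ‖u x‖ ^ 2) := by
    rw [← e1', ← integral_const_mul]
    exact hint
  linarith

end Vale.Agent.P353
end
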