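import Mathlib
import Vale.Agent.P353.BdU.B3
import Vale.Agent.P353.BdU.B2

set_option linter.all false

section

/-! # Energy identities for supercharges with a multiplier that is linear in `x` -/

open MeasureTheory Filter Topology
open scoped ContDiff Matrix

namespace Vale.Agent.P353.U.En

variable {F : Type*} [NormedAddCommGroup F] [InnerProductSpace ℂ F]

/-- multiplier linear in `x`, with coefficient matrices `N j B A` -/
noncomputable def TT (S : Setup F) (N : Fin 9 → Fin 3 → Fin 3 → Matrix (Fin 16) (Fin 16) ℂ)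
    (β : Fin 16) (x : X3) : F →L[ℂ] F :=
  ∑ j, ∑ B, ((x (j, B) : ℝ) : ℂ) • ∑ A, S.vec (N j B A) A β

/-- the matrix in front of `θ^A` -/
noncomputable def NX (N : Fin 9 → Fin 3 → Fin 3 → Matrix (Fin 16) (Fin 16) ℂ) (x : X3)
    (A : Fin 3) : Matrix (Fin 16) (Fin 16) ℂ :=
  ∑ j, ∑ B, ((x (j, B) : ℝ) : ℂ) • N j B A

/-- the supercharge with a linear multiplier -/
noncomputable def QT (S : Setup F) (N : Fin 9 → Fin 3 → Fin 3 → Matrix (Fin 16) (Fin 16) ℂ)
    (β : Fin 16) (u : X3 → F) (x : X3) : F := S.Q0 β u x + TT S N β x (u x)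

variable (S : Setup F) (N : Fin 9 → Fin 3 → Fin 3 → Matrix (Fin 16) (Fin 16) ℂ)

lemma TT_eq (β : Fin 16) (x : X3) : TT S N β x = ∑ A, S.vec (NX N x A) A β := by
  have key : ∀ f : Fin 9 → Fin 3 → Fin 3 → (F →L[ℂ] F),
      ∑ j, ∑ B, ∑ A, f j B A = ∑ A, ∑ j, ∑ B, f j B A := by
    intro f
    calc ∑ j, ∑ B, ∑ A, f j B A = ∑ j, ∑ A, ∑ B, f j B A :=
          Finset.sum_congr rfl fun j _ => Finset.sum_comm
      _ = _ := Finset.sum_comm
  simp only [TT, NX, S.vec_sum, S.vec_smul, Finset.smul_sum]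
  exact key fun j B A => ((x (j, B) : ℝ) : ℂ) • S.vec (N j B A) A β

lemma contDiff_TT (β : Fin 16) : ContDiff ℝ ∞ (TT S N β) := by
  unfold TT
  refine ContDiff.sum fun i _ => ContDiff.sum fun A _ => ?_
  exact (Setup.contDiff_ofReal (Setup.contDiff_coord _)).smul contDiff_const

lemma fderiv_TT (β : Fin 16) (x : X3) (j : Fin 9) (B : Fin 3) :
    fderiv ℝ (TT S N β) x (EuclideanSpace.single (j, B) (1 : ℝ)) = ∑ A, S.vec (N j B A) A β := by
  have hd : HasFDerivAt (TT S N β) (∑ i, ∑ C,
      ((Complex.ofRealCLM.comp (EuclideanSpace.proj (𝕜 := ℝ) (i, C) : X3 →L[ℝ] ℝ)).smulRight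
        (∑ A, S.vec (N i C A) A β))) x := by
    unfold TT
    refine HasFDerivAt.fun_sum fun i _ => HasFDerivAt.fun_sum fun C _ => ?_
    have h1 := (Complex.ofRealCLM.hasFDerivAt (x := x (i, C))).comp x
      (Setup.hasFDerivAt_coord (i, C) x)
    exact h1.smul_const (∑ A, S.vec (N i C A) A β)
  rw [hd.fderiv]
  simp only [_root_.sum_apply, ContinuousLinearMap.smulRight_apply,
    ContinuousLinearMap.comp_apply, Complex.ofRealCLM_apply, PiLp.proj_apply,
    PiLp.single_apply, Prod.mk.injEq]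
  rw [Finset.sum_eq_single j, Finset.sum_eq_single B]
  · simp
  · intro C _ hC
    simp [hC]
  · intro h; exact absurd (Finset.mem_univ _) h
  · intro i _ hi
    refine Finset.sum_eq_zero fun C _ => ?_
    simp [hi]
  · intro h; exact absurd (Finset.mem_univ _) h

lemma NX_im (hN : ∀ j B A α β, (N j B A α β).im = 0) (x : X3) (A : Fin 3) (α β : Fin 16) :
    (NX N x A α β).im = 0 := by
  simp only [NX, Matrix.sum_apply, Matrix.smul_apply, smul_eq_mul, Complex.im_sum]
  refine Finset.sum_eq_zero fun j _ => Finset.sum_eq_zero fun B _ => ?_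
  rw [Complex.mul_im, hN, Complex.ofReal_im]
  ring

lemma TT_symm (hN : ∀ j B A α β, (N j B A α β).im = 0) (β : Fin 16) (x : X3) (v w : F) :
    inner ℂ (TT S N β x v) w = inner ℂ v (TT S N β x w) := by
  rw [TT_eq]
  simp only [_root_.sum_apply, sum_inner, inner_sum, S.vec_symm _ (NX_im N hN x _)]

lemma contDiff_QT (β : Fin 16) {u : X3 → F} (hu : ContDiff ℝ ∞ u) :
    ContDiff ℝ ∞ (QT S N β u) := by
  unfold QT Setup.Q0
  refine ContDiff.add (contDiff_const.smul (ContDiff.sum fun i _ => ContDiff.sum fun A _ => ?_))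
    (Setup.contDiff_clm_apply' (contDiff_TT S N β) hu)
  exact Setup.contDiff_clm_apply' contDiff_const (contDiff_pd hu)

lemma hasCompactSupport_QT (β : Fin 16) {u : X3 → F} (hu : HasCompactSupport u) :
    HasCompactSupport (QT S N β u) := by
  refine HasCompactSupport.intro' (K := tsupport u) hu (isClosed_tsupport u) ?_
  intro x hx
  have h0 : u x = 0 := image_eq_zero_of_notMem_tsupport hx
  have h1 : ∀ i A, pd i A u x = 0 := by
    intro i A
    have : fderiv ℝ u x = 0 := by
      have h := (tsupport_fderiv_subset ℝ (f := u))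
      by_contra hne
      exact hx (h (subset_tsupport _ hne))
    simp [pd, this]
  simp [QT, Setup.Q0, h0, h1]

lemma tst_QT {u : X3 → F} (hu : Setup.Tst u) (β : Fin 16) : Setup.Tst (QT S N β u) :=
  ⟨contDiff_QT S N β hu.1, hasCompactSupport_QT S N β hu.2⟩

theorem QT_symm (hN : ∀ j B A α β, (N j B A α β).im = 0) (β : Fin 16) (u v : X3 → F)
    (hu : Setup.Tst u) (hv : ContDiff ℝ ∞ v) :
    ∫ x, inner ℂ (QT S N β u x) (v x) = ∫ x, inner ℂ (u x) (QT S N β v x) := by
  have hv1 : ContDiff ℝ 1 v := hv.of_le (by simp)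
  have hu1 : ContDiff ℝ 1 u := hu.1.of_le (by simp)
  have hpt : ∀ x, inner ℂ (QT S N β u x) (v x) - inner ℂ (u x) (QT S N β v x) =
      ∑ i, ∑ A, Complex.I * (fderiv ℝ (fun y => inner ℂ (u y) (S.vec (S.g i) A β (v y))) x
        (EuclideanSpace.single (i, A) (1 : ℝ))) := by
    intro x
    have hd : ∀ i A, fderiv ℝ (fun y => inner ℂ (u y) (S.vec (S.g i) A β (v y))) x
        (EuclideanSpace.single (i, A) (1 : ℝ)) =
        inner ℂ (u x) (S.vec (S.g i) A β (pd i A v x)) +
          inner ℂ (pd i A u x) (S.vec (S.g i) A β (v x)) := by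
      intro i A
      have hdv : DifferentiableAt ℝ v x := (hv1.differentiable (by simp)) x
      have hdT : DifferentiableAt ℝ (fun y => S.vec (S.g i) A β (v y)) x :=
        ((S.vec (S.g i) A β).restrictScalars ℝ).differentiableAt.comp x hdv
      rw [fderiv_inner_apply ℂ ((hu1.differentiable (by simp)) x) hdT]
      have := pd_clm (i := i) (A := A) (S.vec (S.g i) A β) hdv
      unfold pd at this ⊢
      rw [this]
    simp only [hd, QT, Setup.Q0, inner_add_left, inner_add_right, inner_smul_left, inner_smul_right,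
      sum_inner, inner_sum, TT_symm S N hN, S.vec_symm _ (S.g_im _)]
    simp only [map_neg, Complex.conj_I, neg_neg]
    simp only [mul_add, Finset.sum_add_distrib, Finset.mul_sum]
    simp only [neg_mul, Finset.sum_neg_distrib]
    ring
  have hI : ∫ x, (inner ℂ (QT S N β u x) (v x) - inner ℂ (u x) (QT S N β v x)) = 0 := by
    simp only [hpt]
    have hw : ∀ i A, ContDiff ℝ 1 (fun y => inner ℂ (u y) (S.vec (S.g i) A β (v y))) := by
      intro i A
      exact hu1.inner ℂ ((S.vec (S.g i) A β).restrictScalars ℝ |>.contDiff.comp hv1)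
    have hcs : ∀ i A, HasCompactSupport (fun y => inner ℂ (u y) (S.vec (S.g i) A β (v y))) :=
      fun i A => hu.inner_cs
    have hint : ∀ i A, Integrable (fun x => fderiv ℝ (fun y => inner ℂ (u y)
        (S.vec (S.g i) A β (v y))) x (EuclideanSpace.single (i, A) (1 : ℝ))) := by
      intro i A
      exact (((hw i A).continuous_fderiv (by simp)).clm_apply
        continuous_const).integrable_of_hasCompactSupport ((hcs i A).fderiv_apply (𝕜 := ℝ) _)
    rw [integral_finsetSum _ fun i _ => integrable_finsetSum _ fun A _ => (hint i A).const_mul _]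
    refine Finset.sum_eq_zero fun i _ => ?_
    rw [integral_finsetSum _ fun A _ => (hint i A).const_mul _]
    refine Finset.sum_eq_zero fun A _ => ?_
    rw [integral_const_mul, integral_fderiv_eq_zero _ (hw i A) (hcs i A), mul_zero]
  rw [integral_sub ((tst_QT S N hu β).inner_int hv.continuous)
    (hu.inner_int (contDiff_QT S N β hv).continuous)] at hI
  exact sub_eq_zero.mp hI

lemma pd_QT (b : Fin 16) {u : X3 → F} (hu : ContDiff ℝ ∞ u) (j : Fin 9) (B : Fin 3) (x : X3) :
    pd j B (QT S N b u) x = (-Complex.I) • ∑ i, ∑ A, S.vec (S.g i) A b (pd j B (pd i A u) x)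
      + (∑ A, S.vec (N j B A) A b) (u x) + TT S N b x (pd j B u x) := by
  have hd : ∀ i A, DifferentiableAt ℝ (pd i A u) x := fun i A =>
    (contDiff_pd hu).differentiable (by simp) x
  have hdv : ∀ i A, DifferentiableAt ℝ (fun y => S.vec (S.g i) A b (pd i A u y)) x := fun i A =>
    ((S.vec (S.g i) A b).restrictScalars ℝ).differentiableAt.comp x (hd i A)
  have hWd : DifferentiableAt ℝ (TT S N b) x := (contDiff_TT S N b).differentiable (by simp) x
  have hud : DifferentiableAt ℝ u x := hu.differentiable (by simp) x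
  have h1 : DifferentiableAt ℝ (fun y => (-Complex.I) • ∑ i, ∑ A,
      S.vec (S.g i) A b (pd i A u y)) x := by
    refine DifferentiableAt.const_smul ?_ _
    refine DifferentiableAt.fun_sum fun i _ => DifferentiableAt.fun_sum fun A _ => hdv i A
  have h2 : DifferentiableAt ℝ (fun y => TT S N b y (u y)) x :=
    (Setup.contDiff_clm_apply' (contDiff_TT S N b) hu).differentiable (by simp) x
  have e : QT S N b u = fun y => (-Complex.I) • ∑ i, ∑ A, S.vec (S.g i) A b (pd i A u y)
      + TT S N b y (u y) := rfl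
  rw [e, pd_add h1 h2, pd_clm_apply hWd hud, ← add_assoc, fderiv_TT]
  congr 2
  have h3 : pd j B (fun y => (-Complex.I) • ∑ i, ∑ A, S.vec (S.g i) A b (pd i A u y)) x =
      (-Complex.I) • pd j B (fun y => ∑ i, ∑ A, S.vec (S.g i) A b (pd i A u y)) x := by
    unfold pd
    rw [fderiv_fun_const_smul]
    · rfl
    · exact DifferentiableAt.fun_sum fun i _ => DifferentiableAt.fun_sum fun A _ => hdv i A
  rw [h3]
  congr 1
  rw [pd_sum _ (fun i _ => DifferentiableAt.fun_sum fun A _ => hdv i A)]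
  refine Finset.sum_congr rfl fun i _ => ?_
  rw [pd_sum _ (fun A _ => hdv i A)]
  refine Finset.sum_congr rfl fun A _ => ?_
  rw [pd_clm _ (hd i A)]

/-- first order terms vanish -/
lemma first_order_TT (h1 : ∀ j k C B, (S.g j * (N k C B)ᵀ).trace = 0) (j : Fin 9) (B : Fin 3)
    (x : X3) :
    ∑ b, (S.vec (S.g j) B b * TT S N b x + TT S N b x * S.vec (S.g j) B b) = 0 := by
  have h : ∀ b, S.vec (S.g j) B b * TT S N b x + TT S N b x * S.vec (S.g j) B b =
      ∑ A, (if B = A then ((S.g j * (NX N x A)ᵀ) b b) • (1 : F →L[ℂ] F) else 0) := by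
    intro b
    rw [TT_eq, Finset.mul_sum, Finset.sum_mul, ← Finset.sum_add_distrib]
    simp only [S.vec_anti]
  simp only [h]
  rw [Finset.sum_comm]
  refine Finset.sum_eq_zero fun A _ => ?_
  by_cases hA : B = A
  · simp only [hA, if_true, ← Finset.sum_smul]
    have h3 : ∑ b, (S.g j * (NX N x A)ᵀ) b b = (S.g j * (NX N x A)ᵀ).trace := rfl
    have h4 : (S.g j * (NX N x A)ᵀ).trace = 0 := by
      simp only [NX, Matrix.transpose_sum, Matrix.transpose_smul, Matrix.mul_sum, Matrix.mul_smul,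
        Matrix.trace_sum, Matrix.trace_smul, h1, smul_zero, Finset.sum_const_zero]
    rw [h3, h4, zero_smul]
  · simp [hA]

/-- the square of the multiplier -/
lemma zero_order_TT (x : X3) :
    ∑ b, TT S N b x * TT S N b x =
      ((1 / 2 : ℂ) * ∑ A, (NX N x A * (NX N x A)ᵀ).trace) • (1 : F →L[ℂ] F) := by
  have h : ∀ b, (2 : ℂ) • (TT S N b x * TT S N b x) =
      ∑ A, ((NX N x A * (NX N x A)ᵀ) b b) • (1 : F →L[ℂ] F) := by
    intro b
    have e1 : TT S N b x * TT S N b x = ∑ A, ∑ B, S.vec (NX N x A) A b * S.vec (NX N x B) B b := by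
      rw [TT_eq, Finset.sum_mul_sum]
    have e2 : TT S N b x * TT S N b x = ∑ A, ∑ B, S.vec (NX N x B) B b * S.vec (NX N x A) A b := by
      rw [e1, Finset.sum_comm]
    rw [two_smul]
    nth_rewrite 1 [e1]
    rw [e2, ← Finset.sum_add_distrib]
    simp only [← Finset.sum_add_distrib, S.vec_anti]
    simp
  have h2 : (2 : ℂ) • ∑ b, TT S N b x * TT S N b x =
      (∑ A, (NX N x A * (NX N x A)ᵀ).trace) • (1 : F →L[ℂ] F) := by
    rw [Finset.smul_sum]
    simp only [h]
    rw [Finset.sum_comm, Finset.sum_smul]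
    refine Finset.sum_congr rfl fun A _ => ?_
    rw [← Finset.sum_smul]
    rfl
  rw [mul_smul, ← h2, smul_smul]
  norm_num

/-- the constant term -/
noncomputable def KT : F →L[ℂ] F :=
  (-Complex.I) • ∑ j, ∑ B, ∑ A, S.bil (S.g j * N j B A) B A

lemma ferm_order_TT :
    (-Complex.I) • ∑ b, ∑ j, ∑ B, S.vec (S.g j) B b * (∑ A, S.vec (N j B A) A b) = KT S N := by
  unfold KT
  congr 1
  rw [Finset.sum_comm]
  refine Finset.sum_congr rfl fun j _ => ?_
  rw [Finset.sum_comm]
  refine Finset.sum_congr rfl fun B _ => ?_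
  simp only [Finset.mul_sum]
  rw [Finset.sum_comm]
  refine Finset.sum_congr rfl fun A _ => ?_
  rw [S.sum_vec_mul_vec, S.g_symm]

/-- `∑_b Q_b Q_b u` -/
theorem sum_QTQT (h1 : ∀ j k C B, (S.g j * (N k C B)ᵀ).trace = 0) {u : X3 → F}
    (hu : ContDiff ℝ ∞ u) (x : X3) :
    ∑ b, QT S N b (QT S N b u) x = -((8 : ℂ) • ∑ i, ∑ A, pd i A (pd i A u) x) +
      ((1 / 2 : ℂ) * ∑ A, (NX N x A * (NX N x A)ᵀ).trace) • u x + KT S N (u x) := by
  have h0 : ∀ b, QT S N b (QT S N b u) x =
      -(∑ j, ∑ B, ∑ i, ∑ A, S.vec (S.g j) B b (S.vec (S.g i) A b (pd j B (pd i A u) x)))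
      + ((-Complex.I) • ∑ j, ∑ B, S.vec (S.g j) B b * (∑ A, S.vec (N j B A) A b)) (u x)
      + (-Complex.I) • ∑ j, ∑ B, (S.vec (S.g j) B b * TT S N b x + TT S N b x * S.vec (S.g j) B b)
          (pd j B u x)
      + (TT S N b x * TT S N b x) (u x) := by
    intro b
    conv_lhs => rw [QT, Setup.Q0]
    simp only [pd_QT S N b hu]
    rw [QT, Setup.Q0]
    simp only [map_add, map_smul, map_sum, Finset.sum_add_distrib, smul_add,
      _root_.smul_apply, _root_.sum_apply, _root_.add_apply, mul_apply_eq_comp,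
      ← Finset.smul_sum, smul_smul]
    have hI : (-Complex.I) * (-Complex.I) = -1 := by
      rw [neg_mul_neg, Complex.I_mul_I]
    rw [hI, neg_one_smul]
    abel
  simp only [h0, Finset.sum_add_distrib, Finset.sum_neg_distrib]
  rw [S.second_order (fun j B i A => pd j B (pd i A u) x)
    (fun i A j B => pd_comm hu i j A B x)]
  have h2 : ∑ b, ((-Complex.I) • ∑ j, ∑ B, S.vec (S.g j) B b * (∑ A, S.vec (N j B A) A b)) (u x) =
        KT S N (u x) := by
    rw [← _root_.sum_apply, ← Finset.smul_sum, ferm_order_TT]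
  have h3 : ∑ b, (-Complex.I) • ∑ j, ∑ B, (S.vec (S.g j) B b * TT S N b x +
      TT S N b x * S.vec (S.g j) B b) (pd j B u x) = 0 := by
    rw [← Finset.smul_sum, Finset.sum_comm]
    have : ∀ j, ∑ b, ∑ B, (S.vec (S.g j) B b * TT S N b x +
      TT S N b x * S.vec (S.g j) B b) (pd j B u x) = 0 := by
      intro j
      rw [Finset.sum_comm]
      refine Finset.sum_eq_zero fun B _ => ?_
      rw [← _root_.sum_apply, first_order_TT S N h1]
      rfl
    simp only [this, Finset.sum_const_zero, smul_zero]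
  have h4 : ∑ b, (TT S N b x * TT S N b x) (u x) =
      ((1 / 2 : ℂ) * ∑ A, (NX N x A * (NX N x A)ᵀ).trace) • u x := by
    rw [← _root_.sum_apply, zero_order_TT]
    rfl
  rw [h2, h3, h4]
  abel

/-- the energy identity for a linear multiplier -/
theorem energy_QT (hN : ∀ j B A α β, (N j B A α β).im = 0)
    (h1 : ∀ j k C B, (S.g j * (N k C B)ᵀ).trace = 0) (q : X3 → ℝ) (hq : Continuous q)
    (h2 : ∀ x, (1 / 2 : ℂ) * ∑ A, (NX N x A * (NX N x A)ᵀ).trace = ((q x : ℝ) : ℂ))
    (u : X3 → F) (hu : Setup.Tst u) :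
    ∑ β, nsq (QT S N β u) = 8 * (∑ i, ∑ A, nsq (pd i A u)) + (∫ x, q x * ‖u x‖ ^ 2)
        + (∫ x, inner ℂ (u x) (KT S N (u x))).re := by
  have hI : ∀ v : X3 → F, Setup.Tst v → ((nsq v : ℝ) : ℂ) = ∫ x, inner ℂ (v x) (v x) := by
    intro v _
    rw [nsq, ← integral_complex_ofReal]
    congr 1
    ext x
    rw [inner_self_eq_norm_sq_to_K]
    norm_cast
  have h3 : ((∑ β, nsq (QT S N β u) : ℝ) : ℂ) =
      ∫ x, inner ℂ (u x) (∑ b, QT S N b (QT S N b u) x) := by
    push_cast
    simp only [inner_sum]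
    rw [integral_finsetSum]
    · refine Finset.sum_congr rfl fun b _ => ?_
      rw [hI _ (tst_QT S N hu b), QT_symm S N hN b u _ hu (contDiff_QT S N b hu.1)]
    · intro b _
      exact hu.inner_int (contDiff_QT S N b (contDiff_QT S N b hu.1)).continuous
  have hF : Setup.Tst (fun x => KT S N (u x)) := hu.clm contDiff_const
  have h4 : ∀ x, inner ℂ (u x) (∑ b, QT S N b (QT S N b u) x) =
      -(8 : ℂ) * ∑ i, ∑ A, inner ℂ (u x) (pd i A (pd i A u) x) +
      ((q x * ‖u x‖ ^ 2 : ℝ) : ℂ) + inner ℂ (u x) (KT S N (u x)) := by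
    intro x
    rw [sum_QTQT S N h1 hu.1, h2, inner_add_right, inner_add_right, inner_neg_right,
      inner_smul_right, inner_smul_right]
    simp only [inner_sum, inner_self_eq_norm_sq_to_K]
    push_cast
    simp only [Complex.coe_algebraMap]
    ring
  have h5 : (∫ x, inner ℂ (u x) (∑ b, QT S N b (QT S N b u) x)) =
      (8 : ℂ) * ∑ i, ∑ A, ((nsq (pd i A u) : ℝ) : ℂ) +
      ((∫ x, q x * ‖u x‖ ^ 2 : ℝ) : ℂ) +
      ∫ x, inner ℂ (u x) (KT S N (u x)) := by
    simp only [h4]
    have i1 : ∀ i A, Integrable (fun x => inner ℂ (u x) (pd i A (pd i A u) x)) := fun i A =>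
      hu.inner_int (contDiff_pd (contDiff_pd hu.1)).continuous
    have i1' : Integrable (fun x => -(8 : ℂ) * ∑ i, ∑ A, inner ℂ (u x) (pd i A (pd i A u) x)) :=
      (integrable_finsetSum _ fun i _ => integrable_finsetSum _ fun A _ => i1 i A).const_mul _
    have i2 : Integrable (fun x => ((q x * ‖u x‖ ^ 2 : ℝ) : ℂ)) :=
      (hu.mul_norm_sq_int hq).ofReal
    have i3 : Integrable (fun x => inner ℂ (u x) (KT S N (u x))) :=
      (hu.inner_int hF.1.continuous)
    have i12 : Integrable (fun x => -(8 : ℂ) * ∑ i, ∑ A, inner ℂ (u x) (pd i A (pd i A u) x) +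
        ((q x * ‖u x‖ ^ 2 : ℝ) : ℂ)) := i1'.add i2
    rw [integral_add i12 i3, integral_add i1' i2, integral_const_mul, integral_complex_ofReal]
    congr 2
    rw [integral_finsetSum _ fun i _ => integrable_finsetSum _ fun A _ => i1 i A, neg_mul,
      ← mul_neg, ← Finset.sum_neg_distrib]
    congr 1
    refine Finset.sum_congr rfl fun i _ => ?_
    rw [integral_finsetSum _ fun A _ => i1 i A, ← Finset.sum_neg_distrib]
    refine Finset.sum_congr rfl fun A _ => ?_
    rw [← integral_inner_pd u (pd i A u) (hu.1.of_le (by simp)) ((contDiff_pd hu.1).of_le (by simp))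
      hu.2 i A, hI _ (hu.pd i A)]
  have h6 := h3.trans h5
  have h7 := congrArg Complex.re h6
  rw [Complex.ofReal_re] at h7
  rw [h7]
  simp only [Complex.add_re, Complex.ofReal_re, ← Complex.ofReal_sum]
  congr 2
  simp

/-- completing the square with a function `L` whose derivative in direction `(i, A)` is constant -/
theorem nsq_pd_add (L : X3 → ℝ) (hL : ContDiff ℝ ∞ L) (i : Fin 9) (A : Fin 3) (c : ℝ)
    (hc : ∀ x, fderiv ℝ L x (EuclideanSpace.single (i, A) (1 : ℝ)) = c)
    (v : X3 → F) (hv : Setup.Tst v) :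
    nsq (fun x => pd i A v x + ((L x : ℝ) : ℂ) • v x) =
      nsq (pd i A v) + (∫ x, L x ^ 2 * ‖v x‖ ^ 2) - c * nsq v := by
  have hv1 : ContDiff ℝ 1 v := hv.1.of_le (by simp)
  have hLv : Setup.Tst (fun x => ((L x : ℝ) : ℂ) • v x) := hv.rsmul hL
  have hw : ContDiff ℝ 1 (fun x => inner ℂ (v x) (((L x : ℝ) : ℂ) • v x)) :=
    hv1.inner ℂ (hLv.1.of_le (by simp))
  have h0 := integral_fderiv_eq_zero _ hw hv.inner_cs (EuclideanSpace.single (i, A) (1 : ℝ))
  have hd : ∀ x, fderiv ℝ (fun x => inner ℂ (v x) (((L x : ℝ) : ℂ) • v x)) x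
      (EuclideanSpace.single (i, A) (1 : ℝ)) =
      inner ℂ (v x) (((L x : ℝ) : ℂ) • pd i A v x) + inner ℂ (pd i A v x) (((L x : ℝ) : ℂ) • v x)
        + (c : ℂ) * inner ℂ (v x) (v x) := by
    intro x
    have hdv : DifferentiableAt ℝ v x := hv.diff x
    have hdL : DifferentiableAt ℝ L x := hL.differentiable (by simp) x
    rw [fderiv_inner_apply ℂ hdv ((hLv.1.differentiable (by simp)) x)]
    have h := pd_rsmul (i := i) (A := A) hdL hdv
    rw [hc] at h
    change inner ℂ (v x) (pd i A (fun y => ((L y : ℝ) : ℂ) • v y) x) +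
      inner ℂ (pd i A v x) (((L x : ℝ) : ℂ) • v x) = _
    rw [h, inner_add_right, inner_smul_right]
    ring
  simp only [hd] at h0
  have hLc : Continuous (fun x => ((L x : ℝ) : ℂ)) := (Setup.contDiff_ofReal hL).continuous
  have j1 : Integrable (fun x => inner ℂ (v x) (((L x : ℝ) : ℂ) • pd i A v x)) :=
    hv.inner_int (hLc.smul (hv.pd i A).1.continuous)
  have j2 : Integrable (fun x => inner ℂ (pd i A v x) (((L x : ℝ) : ℂ) • v x)) :=
    (hv.pd i A).inner_int (hLc.smul hv.1.continuous)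
  have j3 : Integrable (fun x => (c : ℂ) * inner ℂ (v x) (v x)) :=
    (hv.inner_int hv.1.continuous).const_mul _
  have j12 : Integrable (fun x => inner ℂ (v x) (((L x : ℝ) : ℂ) • pd i A v x) +
      inner ℂ (pd i A v x) (((L x : ℝ) : ℂ) • v x)) := j1.add j2
  rw [integral_add j12 j3, integral_const_mul] at h0
  have hre := congrArg Complex.re h0
  rw [Complex.add_re, Complex.re_ofReal_mul, Complex.zero_re] at hre
  have e3 : (∫ x, inner ℂ (v x) (v x)).re = nsq v := by
    have : ∫ x, inner ℂ (v x) (v x) = ((nsq v : ℝ) : ℂ) := by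
      rw [nsq, ← integral_complex_ofReal]
      congr 1
      ext x
      rw [inner_self_eq_norm_sq_to_K]
      norm_cast
    rw [this, Complex.ofReal_re]
  rw [e3] at hre
  have e12 : (∫ x, (inner ℂ (v x) (((L x : ℝ) : ℂ) • pd i A v x) +
      inner ℂ (pd i A v x) (((L x : ℝ) : ℂ) • v x))).re =
      ∫ x, 2 * (inner ℂ (pd i A v x) (((L x : ℝ) : ℂ) • v x)).re := by
    have := integral_re j12
    have h' : (∫ x, (inner ℂ (v x) (((L x : ℝ) : ℂ) • pd i A v x) +
      inner ℂ (pd i A v x) (((L x : ℝ) : ℂ) • v x))).re = ∫ x, RCLike.re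
      (inner ℂ (v x) (((L x : ℝ) : ℂ) • pd i A v x) +
      inner ℂ (pd i A v x) (((L x : ℝ) : ℂ) • v x)) := this.symm
    rw [h']
    refine integral_congr_ae (Filter.Eventually.of_forall fun x => ?_)
    simp only [map_add]
    have e : (inner ℂ (v x) (((L x : ℝ) : ℂ) • pd i A v x)).re =
        (inner ℂ (pd i A v x) (((L x : ℝ) : ℂ) • v x)).re := by
      rw [inner_smul_right, inner_smul_right, Complex.re_ofReal_mul, Complex.re_ofReal_mul]
      congr 1
      exact inner_re_symm (𝕜 := ℂ) (v x) (pd i A v x)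
    change (inner ℂ (v x) (((L x : ℝ) : ℂ) • pd i A v x)).re +
      (inner ℂ (pd i A v x) (((L x : ℝ) : ℂ) • v x)).re = _
    rw [e]
    ring
  rw [e12] at hre
  have hpt : ∀ x, ‖pd i A v x + ((L x : ℝ) : ℂ) • v x‖ ^ 2 = ‖pd i A v x‖ ^ 2 +
      L x ^ 2 * ‖v x‖ ^ 2 + 2 * (inner ℂ (pd i A v x) (((L x : ℝ) : ℂ) • v x)).re := by
    intro x
    have h := norm_add_sq (𝕜 := ℂ) (pd i A v x) (((L x : ℝ) : ℂ) • v x)
    rw [h, norm_smul, mul_pow]
    have hn : ‖((L x : ℝ) : ℂ)‖ ^ 2 = L x ^ 2 := by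
      rw [Complex.norm_real, Real.norm_eq_abs, sq_abs]
    rw [hn]
    change ‖pd i A v x‖ ^ 2 + 2 * (inner ℂ (pd i A v x) (((L x : ℝ) : ℂ) • v x)).re +
      L x ^ 2 * ‖v x‖ ^ 2 = _
    ring
  have k1 : Integrable (fun x => ‖pd i A v x‖ ^ 2) := (hv.pd i A).norm_sq_int
  have k2 : Integrable (fun x => L x ^ 2 * ‖v x‖ ^ 2) :=
    hv.mul_norm_sq_int (hL.continuous.pow 2)
  have k3 : Integrable (fun x => 2 * (inner ℂ (pd i A v x) (((L x : ℝ) : ℂ) • v x)).re) :=
    (j2.re).const_mul 2
  have k12 : Integrable (fun x => ‖pd i A v x‖ ^ 2 + L x ^ 2 * ‖v x‖ ^ 2) := k1.add k2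
  rw [nsq]
  simp only [hpt]
  rw [integral_add k12 k3, integral_add k1 k2]
  change nsq (pd i A v) + _ + _ = _
  linarith

end Vale.Agent.P353.U.En
end

section

/-! # P353, uniqueness: mollifiers (general tools) -/

open MeasureTheory Filter Topology
open scoped ContDiff Convolution

namespace Vale.Agent.P353.U

variable {F : Type*} [NormedAddCommGroup F] [InnerProductSpace ℂ F]

/-- bump functions -/
noncomputable def bmp (n : ℕ) : ContDiffBump (0 : X3) where
  rIn := 1 / (2 * ((n : ℝ) + 1))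
  rOut := 1 / ((n : ℝ) + 1)
  rIn_pos := by positivity
  rIn_lt_rOut := by
    have h : (0 : ℝ) < (n : ℝ) + 1 := by positivity
    exact one_div_lt_one_div_of_lt h (by linarith)

/-- the mollifier `ρ_n`, supported in the ball of radius `1/(n+1)` -/
noncomputable def rho (n : ℕ) : X3 → ℝ := (bmp n).normed volume

lemma rho_contDiff (n : ℕ) : ContDiff ℝ ∞ (rho n) := (bmp n).contDiff_normed

lemma rho_hcs (n : ℕ) : HasCompactSupport (rho n) := (bmp n).hasCompactSupport_normed

lemma rho_nonneg (n : ℕ) (x : X3) : 0 ≤ rho n x := (bmp n).nonneg_normed x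

lemma rho_int (n : ℕ) : ∫ x, rho n x = 1 := (bmp n).integral_normed

lemma rho_neg (n : ℕ) (x : X3) : rho n (-x) = rho n x := (bmp n).normed_neg x

lemma rho_swap (n : ℕ) (x y : X3) : rho n (x - y) = rho n (y - x) := by
  rw [← rho_neg, neg_sub]

lemma rho_zero {n : ℕ} {x : X3} (h : 1 / ((n : ℝ) + 1) ≤ ‖x‖) : rho n x = 0 := by
  by_contra hne
  have h1 : x ∈ Function.support ((bmp n).normed (volume : Measure X3)) := hne
  rw [(bmp n).support_normed_eq] at h1
  rw [Metric.mem_ball, dist_zero_right] at h1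
  exact absurd h (not_le.mpr h1)

/-- convolution of a scalar kernel with `u` -/
noncomputable def cv (k : X3 → ℝ) (u : X3 → F) (x : X3) : F := ∫ y, ((k (x - y) : ℝ) : ℂ) • u y

lemma cv_eq (k : X3 → ℝ) (u : X3 → F) :
    cv k u = (k ⋆[ContinuousLinearMap.lsmul ℝ ℝ, volume] u) := by
  funext x
  rw [convolution_eq_swap]
  rfl

lemma cv_integrable {k : X3 → ℝ} (hk : Continuous k) (hc : HasCompactSupport k) {u : X3 → F}
    (hu : LocallyIntegrable u (volume : Measure X3)) (x : X3) :
    Integrable (fun y => ((k (x - y) : ℝ) : ℂ) • u y) := by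
  have h := (hc.convolutionExists_left (ContinuousLinearMap.lsmul ℝ ℝ) hk hu) x
  exact h.integrable_swap

lemma cv_contDiff {k : X3 → ℝ} (hk : ContDiff ℝ ∞ k) (hc : HasCompactSupport k) {u : X3 → F}
    (hu : LocallyIntegrable u (volume : Measure X3)) : ContDiff ℝ ∞ (cv k u) := by
  rw [cv_eq]
  exact hc.contDiff_convolution_left (n := (⊤ : ℕ∞)) _ hk hu

lemma pd_cv [CompleteSpace F] {k : X3 → ℝ} (hk : ContDiff ℝ ∞ k) (hc : HasCompactSupport k)
    {u : X3 → F} (hu : LocallyIntegrable u (volume : Measure X3)) (i : Fin 9) (A : Fin 3) (x : X3) :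
    pd i A (cv k u) x = cv (pdr i A k) u x := by
  have h1 := hc.hasFDerivAt_convolution_left (ContinuousLinearMap.lsmul ℝ ℝ (E := F))
    (hk.of_le (by simp)) hu x
  rw [← cv_eq] at h1
  rw [pd, h1.fderiv, cv_eq, convolution, convolution]
  rw [ContinuousLinearMap.integral_apply]
  · rfl
  · exact ((hc.fderiv (𝕜 := ℝ)).convolutionExists_left
      ((ContinuousLinearMap.lsmul ℝ ℝ (E := F)).precompL X3)
      (hk.continuous_fderiv (by simp)) hu) x

lemma inner_cv [CompleteSpace F] {k : X3 → ℝ} (hk : Continuous k) (hc : HasCompactSupport k)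
    {u : X3 → F} (hu : LocallyIntegrable u (volume : Measure X3)) (e : F) (x : X3) :
    inner ℂ e (cv k u x) = ∫ y, inner ℂ (((k (x - y) : ℝ) : ℂ) • e) (u y) := by
  rw [cv, ← integral_inner (cv_integrable hk hc hu x)]
  congr 1
  funext y
  rw [inner_smul_right, inner_smul_left, Complex.conj_ofReal]

/-- `y ↦ k(x - y) e` is a test function -/
lemma tst_kernel {k : X3 → ℝ} (hk : ContDiff ℝ ∞ k) (hc : HasCompactSupport k) (x : X3) (e : F) :
    Setup.Tst (fun y => ((k (x - y) : ℝ) : ℂ) • e) := by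
  refine ⟨(Setup.contDiff_ofReal (hk.comp (contDiff_const.sub contDiff_id))).smul contDiff_const, ?_⟩
  have h1 : HasCompactSupport (fun y => k (x - y)) :=
    hc.comp_homeomorph (Homeomorph.subLeft x)
  refine h1.mono ?_
  intro y hy
  simp only [Function.mem_support] at hy ⊢
  intro h0
  exact hy (by simp [h0])

lemma pd_kernel {k : X3 → ℝ} (hk : ContDiff ℝ ∞ k) (x : X3) (e : F) (i : Fin 9) (A : Fin 3)
    (y : X3) : pd i A (fun y => ((k (x - y) : ℝ) : ℂ) • e) y =
      -(((pdr i A k (x - y) : ℝ) : ℂ) • e) := by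
  have h1 : HasFDerivAt (fun y : X3 => x - y) (-ContinuousLinearMap.id ℝ X3) y := by
    simpa using (hasFDerivAt_id y).const_sub x
  have h2 : HasFDerivAt k (fderiv ℝ k (x - y)) (x - y) :=
    ((hk.differentiable (by simp)) (x - y)).hasFDerivAt
  have h3 := h2.comp y h1
  rw [pd_rsmul (φ := fun y => k (x - y)) h3.differentiableAt (differentiableAt_const e)]
  have h4 : fderiv ℝ (fun y => k (x - y)) y = _ := h3.fderiv
  have h5 : pd i A (fun _ : X3 => e) y = 0 := by simp [pd]
  rw [h4, h5, smul_zero, add_zero]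
  simp [pdr]

/-- integrability of `⟨f, u⟩`, `f` continuous with compact support -/
lemma inner_int_loc {f u : X3 → F} (hf : Continuous f) (hc : HasCompactSupport f)
    (hu : LocallyIntegrable u (volume : Measure X3)) :
    Integrable (fun y => inner ℂ (f y) (u y)) := by
  have h1 := hu.integrable_smul_left_of_hasCompactSupport (g := fun y => ‖f y‖) hf.norm hc.norm
  refine h1.mono (hf.aestronglyMeasurable.inner hu.aestronglyMeasurable)
    (Filter.Eventually.of_forall fun y => ?_)
  rw [norm_smul, norm_norm]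
  exact norm_inner_le_norm _ _

/-- first order operator `-i ∑ V_j ∂_j + N(x)` -/
noncomputable def fop (V : Fin 9 → Fin 3 → (F →L[ℂ] F)) (N : X3 → F →L[ℂ] F) (u : X3 → F)
    (x : X3) : F := (-Complex.I) • ∑ i, ∑ A, V i A (pd i A u x) + N x (u x)

/-- the operator applied to a mollified weak solution -/
lemma inner_fop_cv [CompleteSpace F] {V : Fin 9 → Fin 3 → (F →L[ℂ] F)} {N : X3 → F →L[ℂ] F}
    (hV : ∀ i A (v w : F), inner ℂ (V i A v) w = inner ℂ v (V i A w))
    (hN : ∀ x (v w : F), inner ℂ (N x v) w = inner ℂ v (N x w)) (hNc : Continuous N)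
    {u Θ : X3 → F} (hu : LocallyIntegrable u (volume : Measure X3))
    (hΘ : LocallyIntegrable Θ (volume : Measure X3))
    (hw : ∀ ζ, Setup.Tst ζ → ∫ x, inner ℂ (fop V N ζ x) (u x) = ∫ x, inner ℂ (ζ x) (Θ x))
    {k : X3 → ℝ} (hk : ContDiff ℝ ∞ k) (hc : HasCompactSupport k) (e : F) (x : X3) :
    inner ℂ e (fop V N (cv k u) x) = inner ℂ e (cv k Θ x) +
      ∫ y, inner ℂ (((k (x - y) : ℝ) : ℂ) • (N x e - N y e)) (u y) := by
  have hpk : ∀ i A, ContDiff ℝ ∞ (pdr i A k) := fun i A =>
    (hk.fderiv_right (m := ∞) (by simp)).clm_apply contDiff_const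
  have hpc : ∀ i A, HasCompactSupport (pdr i A k) := fun i A =>
    hc.fderiv_apply (𝕜 := ℝ) (EuclideanSpace.single (i, A) (1 : ℝ) : X3)
  have hkc := hk.continuous
  -- the left side
  have e1 : inner ℂ e (fop V N (cv k u) x) = (-Complex.I) * ∑ i, ∑ A,
      (∫ y, inner ℂ (((pdr i A k (x - y) : ℝ) : ℂ) • V i A e) (u y)) +
      ∫ y, inner ℂ (((k (x - y) : ℝ) : ℂ) • N x e) (u y) := by
    simp only [fop, inner_add_right, inner_smul_right, inner_sum, pd_cv hk hc hu, ← hV, ← hN,
      inner_cv (hpk _ _).continuous (hpc _ _) hu, inner_cv hkc hc hu]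
  have i1 : ∀ i A, Integrable (fun y => inner ℂ (((pdr i A k (x - y) : ℝ) : ℂ) • V i A e) (u y)) := by
    intro i A
    have h := tst_kernel (hpk i A) (hpc i A) x (V i A e)
    exact inner_int_loc h.1.continuous h.2 hu
  have i2 : Integrable (fun y => inner ℂ (((k (x - y) : ℝ) : ℂ) • N y e) (u y)) := by
    have h := tst_kernel hk hc x e
    refine inner_int_loc ?_ ?_ hu
    · exact (Complex.continuous_ofReal.comp (hkc.comp (continuous_const.sub continuous_id))).smul
        (hNc.clm_apply continuous_const)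
    · refine (hc.comp_homeomorph (Homeomorph.subLeft x)).mono ?_
      intro y hy
      simp only [Function.mem_support, Function.comp, Homeomorph.coe_subLeft] at hy ⊢
      intro h0
      exact hy (by simp [h0])
  have i3 : Integrable (fun y => inner ℂ (((k (x - y) : ℝ) : ℂ) • N x e) (u y)) := by
    have h := tst_kernel hk hc x (N x e)
    exact inner_int_loc h.1.continuous h.2 hu
  -- the weak equation
  have e2 := hw _ (tst_kernel hk hc x e)
  have e3 : ∀ y, inner ℂ (fop V N (fun y => ((k (x - y) : ℝ) : ℂ) • e) y) (u y) =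
      (-Complex.I) * ∑ i, ∑ A, inner ℂ (((pdr i A k (x - y) : ℝ) : ℂ) • V i A e) (u y) +
        inner ℂ (((k (x - y) : ℝ) : ℂ) • N y e) (u y) := by
    intro y
    simp only [fop, pd_kernel hk, map_neg, map_smul, Finset.sum_neg_distrib, smul_neg,
      inner_add_left, inner_neg_left, inner_smul_left, sum_inner, map_neg, Complex.conj_I]
    ring
  simp only [e3] at e2
  rw [integral_add ((integrable_finsetSum _ fun i _ =>
    integrable_finsetSum _ fun A _ => i1 i A).const_mul _) i2, integral_const_mul,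
    integral_finsetSum _ fun i _ => integrable_finsetSum _ fun A _ => i1 i A,
    Finset.sum_congr rfl fun i _ => integral_finsetSum _ fun A _ => i1 i A] at e2
  have e4 : ∫ y, inner ℂ (((k (x - y) : ℝ) : ℂ) • (N x e - N y e)) (u y) =
      (∫ y, inner ℂ (((k (x - y) : ℝ) : ℂ) • N x e) (u y)) -
        ∫ y, inner ℂ (((k (x - y) : ℝ) : ℂ) • N y e) (u y) := by
    rw [← integral_sub i3 i2]
    congr 1
    funext y
    rw [smul_sub, inner_sub_left]
  rw [e1, e4, inner_cv hkc hc hΘ, ← e2]
  ring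

/-! ### `L²` bounds -/

/-- convolution of real functions -/
noncomputable def cvr (k g : X3 → ℝ) (x : X3) : ℝ := ∫ y, k (x - y) * g y

lemma cvr_eq (k g : X3 → ℝ) : cvr k g = (k ⋆[ContinuousLinearMap.lsmul ℝ ℝ, volume] g) := by
  funext x
  rw [convolution_eq_swap]
  rfl

lemma cvr_continuous {k g : X3 → ℝ} (hk : Continuous k) (hc : HasCompactSupport k)
    (hg : LocallyIntegrable g (volume : Measure X3)) : Continuous (cvr k g) := by
  rw [cvr_eq]
  exact hc.continuous_convolution_left _ hk hg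

lemma cvr_integrable {k g : X3 → ℝ} (hk : Continuous k) (hc : HasCompactSupport k)
    (hg : LocallyIntegrable g (volume : Measure X3)) (x : X3) :
    Integrable (fun y => k (x - y) * g y) := by
  have h := (hc.convolutionExists_left (ContinuousLinearMap.lsmul ℝ ℝ) hk hg) x
  exact h.integrable_swap

lemma locInt_of_memLp {G : Type*} [NormedAddCommGroup G] {g : X3 → G}
    (hg : MemLp g 2 (volume : Measure X3)) : LocallyIntegrable g (volume : Measure X3) :=
  hg.locallyIntegrable (by norm_num)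

lemma cvr_sq_le {k g : X3 → ℝ} (hk : Continuous k) (hc : HasCompactSupport k)
    (h0 : ∀ x, 0 ≤ k x) (h1 : ∫ x, k x = 1) (hg : MemLp g 2 (volume : Measure X3)) (x : X3) :
    cvr k g x ^ 2 ≤ cvr k (fun y => g y ^ 2) x := by
  have hg2 : Integrable (fun y => g y ^ 2) := by
    simpa using (memLp_two_iff_integrable_sq_norm hg.1).mp hg
  have i1 := cvr_integrable hk hc (locInt_of_memLp hg) x
  have i2 := cvr_integrable hk hc hg2.locallyIntegrable x
  have i3 : Integrable (fun y => k (x - y)) :=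
    (hk.integrable_of_hasCompactSupport hc).comp_sub_left x
  have e1 : ∫ y, k (x - y) = 1 := by
    rw [integral_sub_left_eq_self (fun y => k y) volume x, h1]
  set m := cvr k g x with hm
  have h2 : 0 ≤ ∫ y, k (x - y) * (g y - m) ^ 2 :=
    integral_nonneg fun y => mul_nonneg (h0 _) (sq_nonneg _)
  have h3 : ∫ y, k (x - y) * (g y - m) ^ 2 = cvr k (fun y => g y ^ 2) x - 2 * m * m + m ^ 2 := by
    have : ∀ y, k (x - y) * (g y - m) ^ 2 =
        (k (x - y) * g y ^ 2 - (2 * m) * (k (x - y) * g y)) + m ^ 2 * k (x - y) := by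
      intro y; ring
    simp only [this]
    have i4 : Integrable (fun y => k (x - y) * g y ^ 2 - (2 * m) * (k (x - y) * g y)) :=
      i2.sub (i1.const_mul _)
    rw [integral_add i4 (i3.const_mul _), integral_sub i2 (i1.const_mul _),
      integral_const_mul, integral_const_mul, e1, mul_one]
    rfl
  rw [h3] at h2
  nlinarith

lemma young {k g : X3 → ℝ} (hk : Continuous k) (hc : HasCompactSupport k)
    (h0 : ∀ x, 0 ≤ k x) (h1 : ∫ x, k x = 1) (hg : MemLp g 2 (volume : Measure X3)) :
    MemLp (cvr k g) 2 (volume : Measure X3) ∧ ∫ x, cvr k g x ^ 2 ≤ ∫ x, g x ^ 2 := by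
  have hg2 : Integrable (fun y => g y ^ 2) := by
    simpa using (memLp_two_iff_integrable_sq_norm hg.1).mp hg
  have hki : Integrable k := hk.integrable_of_hasCompactSupport hc
  have i1 : Integrable (cvr k (fun y => g y ^ 2)) := by
    rw [cvr_eq]
    exact hki.integrable_convolution (ContinuousLinearMap.lsmul ℝ ℝ) hg2
  have e1 : ∫ x, cvr k (fun y => g y ^ 2) x = ∫ x, g x ^ 2 := by
    rw [cvr_eq, integral_convolution (ContinuousLinearMap.lsmul ℝ ℝ) hki hg2, h1]
    simp
  have hcc := cvr_continuous hk hc (locInt_of_memLp hg)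
  have i2 : Integrable (fun x => cvr k g x ^ 2) := by
    refine i1.mono (hcc.pow 2).aestronglyMeasurable (Filter.Eventually.of_forall fun x => ?_)
    rw [Real.norm_of_nonneg (sq_nonneg _)]
    exact (cvr_sq_le hk hc h0 h1 hg x).trans (le_abs_self _)
  refine ⟨?_, ?_⟩
  · rw [memLp_two_iff_integrable_sq_norm hcc.aestronglyMeasurable]
    simpa using i2
  · rw [← e1]
    exact integral_mono i2 i1 fun x => cvr_sq_le hk hc h0 h1 hg x

lemma norm_cv_le {k : X3 → ℝ} (h0 : ∀ x, 0 ≤ k x) (u : X3 → F) (x : X3) :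
    ‖cv k u x‖ ≤ cvr k (fun y => ‖u y‖) x := by
  refine (norm_integral_le_integral_norm _).trans (le_of_eq ?_)
  rw [cvr]
  congr 1
  funext y
  rw [norm_smul, Complex.norm_real, Real.norm_of_nonneg (h0 _)]

lemma norm_le_of_inner {T : F} {R : ℝ} (hR : 0 ≤ R) (h : ∀ e : F, ‖inner ℂ e T‖ ≤ ‖e‖ * R) :
    ‖T‖ ≤ R := by
  by_cases hT : T = 0
  · rw [hT, norm_zero]; exact hR
  · have h1 := h T
    have h2 : ‖inner ℂ T T‖ = ‖T‖ * ‖T‖ := by
      rw [inner_self_eq_norm_sq_to_K, norm_pow]
      simp [sq]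
    rw [h2] at h1
    exact le_of_mul_le_mul_left h1 (norm_pos_iff.mpr hT)

/-- pointwise bound for the operator applied to a mollified weak solution -/
lemma norm_fop_cv_le [CompleteSpace F] {V : Fin 9 → Fin 3 → (F →L[ℂ] F)} {N : X3 → F →L[ℂ] F}
    (hV : ∀ i A (v w : F), inner ℂ (V i A v) w = inner ℂ v (V i A w))
    (hN : ∀ x (v w : F), inner ℂ (N x v) w = inner ℂ v (N x w)) (hNc : Continuous N)
    {u Θ : X3 → F} (hu : LocallyIntegrable u (volume : Measure X3))
    (hΘ : LocallyIntegrable Θ (volume : Measure X3))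
    (hw : ∀ ζ, Setup.Tst ζ → ∫ x, inner ℂ (fop V N ζ x) (u x) = ∫ x, inner ℂ (ζ x) (Θ x))
    {k : X3 → ℝ} (hk : ContDiff ℝ ∞ k) (hc : HasCompactSupport k) (h0 : ∀ x, 0 ≤ k x) (x : X3)
    {C : ℝ} (hC : 0 ≤ C) (hCN : ∀ y, k (x - y) * ‖N x - N y‖ ≤ k (x - y) * C) :
    ‖fop V N (cv k u) x‖ ≤ cvr k (fun y => ‖Θ y‖) x + C * cvr k (fun y => ‖u y‖) x := by
  have n1 : 0 ≤ cvr k (fun y => ‖Θ y‖) x :=
    integral_nonneg fun y => mul_nonneg (h0 _) (norm_nonneg _)
  have n2 : 0 ≤ cvr k (fun y => ‖u y‖) x :=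
    integral_nonneg fun y => mul_nonneg (h0 _) (norm_nonneg _)
  refine norm_le_of_inner (by positivity) fun e => ?_
  rw [inner_fop_cv hV hN hNc hu hΘ hw hk hc e x]
  refine (norm_add_le _ _).trans ?_
  rw [mul_add]
  refine add_le_add ?_ ?_
  · exact (norm_inner_le_norm _ _).trans
      (mul_le_mul_of_nonneg_left (norm_cv_le h0 Θ x) (norm_nonneg _))
  · have hun : LocallyIntegrable (fun y => ‖u y‖) (volume : Measure X3) := fun x => (hu x).norm
    have i1 := cvr_integrable hk.continuous hc hun x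
    refine (norm_integral_le_integral_norm _).trans ?_
    rw [cvr, ← integral_const_mul, ← integral_const_mul]
    refine integral_mono_of_nonneg (Filter.Eventually.of_forall fun y => norm_nonneg _)
      ((i1.const_mul _).const_mul _) (Filter.Eventually.of_forall fun y => ?_)
    simp only
    refine (norm_inner_le_norm _ _).trans ?_
    rw [norm_smul, Complex.norm_real, Real.norm_of_nonneg (h0 _)]
    have a1 : ‖N x e - N y e‖ ≤ ‖N x - N y‖ * ‖e‖ := by
      rw [← _root_.sub_apply]
      exact (N x - N y).le_opNorm e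
    calc k (x - y) * ‖N x e - N y e‖ * ‖u y‖
        ≤ k (x - y) * (‖N x - N y‖ * ‖e‖) * ‖u y‖ := by
          refine mul_le_mul_of_nonneg_right (mul_le_mul_of_nonneg_left a1 (h0 _)) (norm_nonneg _)
      _ = k (x - y) * ‖N x - N y‖ * (‖e‖ * ‖u y‖) := by ring
      _ ≤ k (x - y) * C * (‖e‖ * ‖u y‖) :=
          mul_le_mul_of_nonneg_right (hCN y) (by positivity)
      _ = ‖e‖ * (C * (k (x - y) * ‖u y‖)) := by ring

/-- cutoffs -/
lemma fop_cut (V : Fin 9 → Fin 3 → (F →L[ℂ] F)) (N : X3 → F →L[ℂ] F) {χ : X3 → ℝ} {u : X3 → F}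
    {x : X3} (hχ : DifferentiableAt ℝ χ x) (hu : DifferentiableAt ℝ u x) :
    fop V N (fun y => ((χ y : ℝ) : ℂ) • u y) x = ((χ x : ℝ) : ℂ) • fop V N u x +
      (-Complex.I) • ∑ i, ∑ A, ((pdr i A χ x : ℝ) : ℂ) • V i A (u x) := by
  have h : ∀ i A, pd i A (fun y => ((χ y : ℝ) : ℂ) • u y) x =
      ((pdr i A χ x : ℝ) : ℂ) • u x + ((χ x : ℝ) : ℂ) • pd i A u x := fun i A => pd_rsmul hχ hu
  simp only [fop, h, map_add, map_smul, Finset.sum_add_distrib, smul_add, ← Finset.smul_sum]
  rw [smul_comm (-Complex.I) ((χ x : ℝ) : ℂ)]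
  abel

lemma norm_fop_cut_le (V : Fin 9 → Fin 3 → (F →L[ℂ] F)) (N : X3 → F →L[ℂ] F) {χ : X3 → ℝ}
    {u : X3 → F} {K R : ℝ} (hR : 0 < R) (hχ : IsCut K R χ) (x : X3)
    (hu : DifferentiableAt ℝ u x) :
    ‖fop V N (fun y => ((χ y : ℝ) : ℂ) • u y) x‖ ≤
      ‖fop V N u x‖ + K / R * (∑ i, ∑ A, ‖V i A‖) * ‖u x‖ := by
  obtain ⟨c1, c2, c3, c4, c5, c6, c7, c8⟩ := hχ
  rw [fop_cut V N (c1.differentiable (by simp) x) hu]
  refine (norm_add_le _ _).trans (add_le_add ?_ ?_)
  · rw [norm_smul, Complex.norm_real, Real.norm_of_nonneg (c3 x)]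
    exact mul_le_of_le_one_left (norm_nonneg _) (c4 x)
  · have hp : ∀ i A, |pdr i A χ x| ≤ K / R := by
      intro i A
      have hK : 0 ≤ K := le_trans (by positivity) (c7 i A x)
      by_cases hx : ‖x‖ < R
      · rw [c8 i A x hx, abs_zero]; positivity
      · rw [le_div_iff₀ hR]
        exact (mul_le_mul_of_nonneg_left (not_lt.mp hx) (abs_nonneg _)).trans (c7 i A x)
    rw [norm_smul, norm_neg, Complex.norm_I, one_mul, mul_assoc, Finset.sum_mul, Finset.mul_sum]
    refine (norm_sum_le _ _).trans (Finset.sum_le_sum fun i _ => ?_)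
    rw [Finset.sum_mul, Finset.mul_sum]
    refine (norm_sum_le _ _).trans (Finset.sum_le_sum fun A _ => ?_)
    rw [norm_smul, Complex.norm_real, Real.norm_eq_abs]
    exact mul_le_mul (hp i A) ((V i A).le_opNorm _) (norm_nonneg _)
      ((abs_nonneg _).trans (hp i A))

/-! ### weak convergence of the mollified functions -/

lemma cv_tendsto [CompleteSpace F] {ψ : X3 → F} (hψ : Continuous ψ) (y : X3) :
    Tendsto (fun n => cv (rho n) ψ y) atTop (𝓝 (ψ y)) := by
  have h1 : Tendsto (fun n => (bmp n).rOut) atTop (𝓝 0) := by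
    have := tendsto_one_div_add_atTop_nhds_zero_nat (𝕜 := ℝ)
    exact this
  have h2 := ContDiffBump.convolution_tendsto_right_of_continuous (μ := (volume : Measure X3)) h1 hψ y
  refine h2.congr fun n => ?_
  rw [cv_eq]
  rfl

lemma cv_ae_tendsto [CompleteSpace F] {w : X3 → F} (hw : LocallyIntegrable w (volume : Measure X3)) :
    ∀ᵐ y ∂(volume : Measure X3), Tendsto (fun n => cv (rho n) w y) atTop (𝓝 (w y)) := by
  have h1 : Tendsto (fun n => (bmp n).rOut) atTop (𝓝 0) := by
    have := tendsto_one_div_add_atTop_nhds_zero_nat (𝕜 := ℝ)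
    exact this
  have h2 := ContDiffBump.ae_convolution_tendsto_right_of_locallyIntegrable
    (μ := (volume : Measure X3)) (K := 2) (φ := bmp) h1 ?_ hw
  · filter_upwards [h2] with y hy
    refine hy.congr fun n => ?_
    rw [cv_eq]
    rfl
  · refine Filter.Eventually.of_forall fun n => ?_
    change 1 / ((n : ℝ) + 1) ≤ 2 * (1 / (2 * ((n : ℝ) + 1)))
    apply le_of_eq
    field_simp

lemma cv_bound {ψ : X3 → F} {C r : ℝ} (hC : ∀ x, ‖ψ x‖ ≤ C) (h0 : ∀ x, r < ‖x‖ → ψ x = 0)
    (n : ℕ) (y : X3) :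
    ‖cv (rho n) ψ y‖ ≤ Set.indicator (Metric.closedBall (0 : X3) (r + 1)) (fun _ => C) y := by
  have hC0 : 0 ≤ C := (norm_nonneg _).trans (hC 0)
  by_cases hy : y ∈ Metric.closedBall (0 : X3) (r + 1)
  · rw [Set.indicator_of_mem hy]
    refine (norm_cv_le (rho_nonneg n) ψ y).trans ?_
    have i3 : Integrable (fun z => rho n (y - z)) :=
      ((rho_contDiff n).continuous.integrable_of_hasCompactSupport (rho_hcs n)).comp_sub_left y
    have e1 : ∫ z, rho n (y - z) * C = C := by
      rw [integral_mul_const, integral_sub_left_eq_self (fun y => rho n y) volume y, rho_int, one_mul]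
    rw [cvr, ← e1]
    refine integral_mono_of_nonneg (Filter.Eventually.of_forall fun z =>
      mul_nonneg (rho_nonneg n _) (norm_nonneg _)) (i3.mul_const _)
      (Filter.Eventually.of_forall fun z => ?_)
    exact mul_le_mul_of_nonneg_left (hC z) (rho_nonneg n _)
  · rw [Set.indicator_of_notMem hy]
    rw [Metric.mem_closedBall, dist_zero_right, not_le] at hy
    have : cv (rho n) ψ y = 0 := by
      rw [cv]
      refine integral_eq_zero_of_ae (Filter.Eventually.of_forall fun z => ?_)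
      simp only [Pi.zero_apply]
      by_cases hz : r < ‖z‖
      · rw [h0 z hz, smul_zero]
      · rw [rho_zero, Complex.ofReal_zero, zero_smul]
        have h1 : ‖y‖ ≤ ‖y - z‖ + ‖z‖ := by
          simpa using norm_add_le (y - z) z
        have h2 : 1 / ((n : ℝ) + 1) ≤ 1 := by
          rw [div_le_one (by positivity)]
          have : (0 : ℝ) ≤ n := n.cast_nonneg
          linarith
        linarith [not_lt.mp hz]
    rw [this, norm_zero]

lemma cv_weak_eq [CompleteSpace F] {u : X3 → F} (hu : LocallyIntegrable u (volume : Measure X3))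
    {ψ : X3 → F} (hψ : Continuous ψ) (hc : HasCompactSupport ψ) (n : ℕ) :
    ∫ x, inner ℂ (ψ x) (cv (rho n) u x) = ∫ y, inner ℂ (cv (rho n) ψ y) (u y) := by
  obtain ⟨C, hC⟩ := hc.exists_bound_of_continuous hψ
  obtain ⟨r, hr⟩ := hc.isCompact.isBounded.subset_closedBall (0 : X3)
  have h0 : ∀ x, r < ‖x‖ → ψ x = 0 := by
    intro x hx
    by_contra hne
    have h2 := hr (subset_tsupport _ hne)
    rw [Metric.mem_closedBall, dist_zero_right] at h2
    exact absurd hx (not_lt.mpr h2)
  have hρc := (rho_contDiff n).continuous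
  have hρi : Integrable (rho n) := hρc.integrable_of_hasCompactSupport (rho_hcs n)
  have hC0 : 0 ≤ C := (norm_nonneg _).trans (hC 0)
  -- integrability on the product
  set g : X3 → ℝ := (Metric.closedBall (0 : X3) (r + 1)).indicator (fun y => ‖u y‖) with hg
  have hgi : Integrable g := by
    rw [hg, integrable_indicator_iff Metric.isClosed_closedBall.measurableSet]
    exact (hu.integrableOn_isCompact (isCompact_closedBall _ _)).norm
  have hgn : ∀ y, 0 ≤ g y := fun y => Set.indicator_nonneg (fun _ _ => norm_nonneg _) _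
  have hprod : Integrable (Function.uncurry fun x y => inner ℂ (((rho n (x - y) : ℝ) : ℂ) • ψ x) (u y))
      ((volume : Measure X3).prod volume) := by
    have h1 := (hgi.convolution_integrand (ContinuousLinearMap.lsmul ℝ ℝ) hρi).const_mul C
    refine h1.mono ?_ (Filter.Eventually.of_forall fun p => ?_)
    · refine AEStronglyMeasurable.inner ?_ ?_
      · refine Continuous.aestronglyMeasurable ?_
        exact (Complex.continuous_ofReal.comp (hρc.comp (continuous_fst.sub continuous_snd))).smul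
          (hψ.comp continuous_fst)
      · exact hu.aestronglyMeasurable.comp_snd
    · obtain ⟨x, y⟩ := p
      simp only [Function.uncurry_apply_pair, ContinuousLinearMap.lsmul_apply, smul_eq_mul]
      rw [Real.norm_of_nonneg (mul_nonneg hC0 (mul_nonneg (hgn y) (rho_nonneg n _)))]
      refine (norm_inner_le_norm _ _).trans ?_
      rw [norm_smul, Complex.norm_real, Real.norm_of_nonneg (rho_nonneg n _)]
      by_cases hy : y ∈ Metric.closedBall (0 : X3) (r + 1)
      · rw [hg, Set.indicator_of_mem hy]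
        calc rho n (x - y) * ‖ψ x‖ * ‖u y‖ ≤ rho n (x - y) * C * ‖u y‖ := by
              refine mul_le_mul_of_nonneg_right (mul_le_mul_of_nonneg_left (hC x)
                (rho_nonneg n _)) (norm_nonneg _)
          _ = C * (‖u y‖ * rho n (x - y)) := by ring
      · rw [hg, Set.indicator_of_notMem hy, zero_mul, mul_zero]
        rw [Metric.mem_closedBall, dist_zero_right, not_le] at hy
        by_cases hx : r < ‖x‖
        · rw [h0 x hx]; simp
        · rw [rho_zero]
          · simp
          · have h1 : ‖y‖ ≤ ‖x - y‖ + ‖x‖ := by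
              have := norm_sub_norm_le y x
              rw [norm_sub_rev] at this
              linarith
            have h2 : 1 / ((n : ℝ) + 1) ≤ 1 := by
              rw [div_le_one (by positivity)]
              have : (0 : ℝ) ≤ n := n.cast_nonneg
              linarith
            linarith [not_lt.mp hx]
  have e1 : ∀ x, inner ℂ (ψ x) (cv (rho n) u x) =
      ∫ y, inner ℂ (((rho n (x - y) : ℝ) : ℂ) • ψ x) (u y) := fun x =>
    inner_cv hρc (rho_hcs n) hu (ψ x) x
  have e2 : ∀ y, ∫ x, inner ℂ (((rho n (x - y) : ℝ) : ℂ) • ψ x) (u y) =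
      inner ℂ (cv (rho n) ψ y) (u y) := by
    intro y
    have hi : Integrable (fun x => ((rho n (y - x) : ℝ) : ℂ) • ψ x) :=
      cv_integrable hρc (rho_hcs n) hψ.locallyIntegrable y
    have h1 := integral_inner (𝕜 := ℂ) hi (u y)
    have h2 : ∀ x, inner ℂ (((rho n (x - y) : ℝ) : ℂ) • ψ x) (u y) =
        (starRingEnd ℂ) (inner ℂ (u y) (((rho n (y - x) : ℝ) : ℂ) • ψ x)) := by
      intro x
      rw [inner_conj_symm, rho_swap]
    simp only [h2]
    rw [integral_conj, h1, inner_conj_symm]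
    rfl
  simp only [e1]
  rw [integral_integral_swap hprod]
  simp only [e2]

lemma cv_weak [CompleteSpace F] {u : X3 → F} (hu : LocallyIntegrable u (volume : Measure X3))
    {ψ : X3 → F} (hψ : Continuous ψ) (hc : HasCompactSupport ψ) :
    Tendsto (fun n => ∫ x, inner ℂ (ψ x) (cv (rho n) u x)) atTop (𝓝 (∫ x, inner ℂ (ψ x) (u x))) := by
  simp only [cv_weak_eq hu hψ hc]
  obtain ⟨C, hC⟩ := hc.exists_bound_of_continuous hψ
  obtain ⟨r, hr⟩ := hc.isCompact.isBounded.subset_closedBall (0 : X3)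
  have h0 : ∀ x, r < ‖x‖ → ψ x = 0 := by
    intro x hx
    by_contra hne
    have h2 := hr (subset_tsupport _ hne)
    rw [Metric.mem_closedBall, dist_zero_right] at h2
    exact absurd hx (not_lt.mpr h2)
  refine tendsto_integral_of_dominated_convergence
    (fun y => C * (Metric.closedBall (0 : X3) (r + 1)).indicator (fun y => ‖u y‖) y) ?_ ?_ ?_ ?_
  · intro n
    exact (cv_contDiff (rho_contDiff n) (rho_hcs n)
      hψ.locallyIntegrable).continuous.aestronglyMeasurable.inner hu.aestronglyMeasurable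
  · refine Integrable.const_mul ?_ C
    rw [integrable_indicator_iff Metric.isClosed_closedBall.measurableSet]
    exact (hu.integrableOn_isCompact (isCompact_closedBall _ _)).norm
  · intro n
    refine Filter.Eventually.of_forall fun y => ?_
    refine (norm_inner_le_norm _ _).trans ?_
    have h1 := cv_bound hC h0 n y
    by_cases hy : y ∈ Metric.closedBall (0 : X3) (r + 1)
    · rw [Set.indicator_of_mem hy] at h1 ⊢
      exact mul_le_mul_of_nonneg_right h1 (norm_nonneg _)
    · rw [Set.indicator_of_notMem hy] at h1 ⊢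
      rw [le_antisymm h1 (norm_nonneg _)]
      simp
  · refine Filter.Eventually.of_forall fun y => ?_
    have h3 : Tendsto (fun _ : ℕ => u y) atTop (𝓝 (u y)) := tendsto_const_nhds
    exact Filter.Tendsto.inner (𝕜 := ℂ) (cv_tendsto hψ y) h3

/-- a locally integrable function with vanishing weak gradient is constant -/
theorem const_of_weak [CompleteSpace F] {w : X3 → F}
    (hw : LocallyIntegrable w (volume : Measure X3))
    (h : ∀ i A ψ, Setup.Tst ψ → ∫ x, inner ℂ (pd i A ψ x) (w x) = 0) :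
    ∃ c : F, ∀ᵐ x ∂(volume : Measure X3), w x = c := by
  have h1 : ∀ n x, cv (rho n) w x = cv (rho n) w 0 := by
    intro n x
    have hd : Differentiable ℝ (cv (rho n) w) :=
      (cv_contDiff (rho_contDiff n) (rho_hcs n) hw).differentiable (by simp)
    refine is_const_of_fderiv_eq_zero hd (fun x => ?_) x 0
    have hp : ∀ i A, pd i A (cv (rho n) w) x = 0 := by
      intro i A
      rw [pd_cv (rho_contDiff n) (rho_hcs n) hw]
      have hpk : ContDiff ℝ ∞ (pdr i A (rho n)) :=
        ((rho_contDiff n).fderiv_right (m := ∞) (by simp)).clm_apply contDiff_const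
      have hpc : HasCompactSupport (pdr i A (rho n)) :=
        (rho_hcs n).fderiv_apply (𝕜 := ℝ) (EuclideanSpace.single (i, A) (1 : ℝ) : X3)
      rw [← inner_self_eq_zero (𝕜 := ℂ), inner_cv hpk.continuous hpc hw]
      have h2 := h i A _ (tst_kernel (rho_contDiff n) (rho_hcs n) x
        (cv (pdr i A (rho n)) w x))
      simp only [pd_kernel (rho_contDiff n), inner_neg_left] at h2
      rw [integral_neg, neg_eq_zero] at h2
      exact h2
    have hl : (fderiv ℝ (cv (rho n) w) x : X3 →ₗ[ℝ] F) = 0 := by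
      refine (EuclideanSpace.basisFun (Fin 9 × Fin 3) ℝ).toBasis.ext fun p => ?_
      have := hp p.1 p.2
      rw [pd] at this
      simpa using this
    ext v
    have := congrArg (fun f : X3 →ₗ[ℝ] F => f v) hl
    simpa using this
  have h2 := cv_ae_tendsto hw
  obtain ⟨y0, hy0⟩ := h2.exists
  refine ⟨w y0, ?_⟩
  filter_upwards [h2] with y hy
  refine tendsto_nhds_unique hy (hy0.congr fun n => ?_)
  rw [h1 n y0, h1 n y]

end Vale.Agent.P353.U
end

section

/-! # P353, uniqueness for `N = 2`: the Liouville theorem at `0` (C-L0) -/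

open MeasureTheory Filter Topology
open scoped ContDiff

namespace Vale.Agent.P353.U

variable {F : Type*} [NormedAddCommGroup F] [InnerProductSpace ℂ F]

/-- the Gaussian exponent -/
noncomputable def qa (x : X3) : ℝ := ∑ i, ∑ A, aw i * x (i, A) ^ 2

lemma qa_contDiff : ContDiff ℝ ∞ qa := by
  unfold qa
  exact ContDiff.sum fun i _ => ContDiff.sum fun A _ =>
    contDiff_const.mul ((Setup.contDiff_coord (i, A)).pow 2)

lemma pdr_qa (j : Fin 9) (B : Fin 3) (x : X3) : pdr j B qa x = 2 * (aw j * x (j, B)) := by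
  have hd : HasFDerivAt qa (∑ i, ∑ A, aw i • ((2 * x (i, A)) •
      (EuclideanSpace.proj (𝕜 := ℝ) (i, A) : X3 →L[ℝ] ℝ))) x := by
    unfold qa
    refine HasFDerivAt.fun_sum fun i _ => HasFDerivAt.fun_sum fun A _ => ?_
    have h := ((Setup.hasFDerivAt_coord (i, A) x).pow 2).const_mul (aw i)
    simpa using h
  rw [pdr, hd.fderiv]
  simp only [_root_.smul_apply, _root_.sum_apply, PiLp.proj_apply, PiLp.single_apply, smul_eq_mul,
    Prod.mk.injEq]
  rw [Finset.sum_eq_single j, Finset.sum_eq_single B]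
  · simp; ring
  · intro A _ hA; simp [hA]
  · intro h; exact absurd (Finset.mem_univ _) h
  · intro i _ hi
    refine Finset.sum_eq_zero fun A _ => ?_
    simp [hi]
  · intro h; exact absurd (Finset.mem_univ _) h

variable (S : Setup F)

lemma Qlin_zero (β : Fin 16) (ζ : X3 → F) (x : X3) :
    S.Qlin 0 β ζ x = fop (fun i A => S.vec (S.g i) A β) (S.MM β) ζ x := by
  have h : S.DW 0 β x = 0 := by simp [Setup.DW]
  rw [Setup.Qlin, h, Setup.Q0, fop]
  simp

lemma MM_symm (β : Fin 16) (x : X3) (v w : F) :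
    inner ℂ (S.MM β x v) w = inner ℂ v (S.MM β x w) := by
  simp only [Setup.MM, _root_.sum_apply, _root_.smul_apply, sum_inner, inner_sum, inner_smul_left,
    inner_smul_right, Complex.conj_ofReal,
    S.vec_symm _ (Setup.mul_im_zero (S.g_im _) S.Gam_real)]

lemma MM_sub (β : Fin 16) (x y : X3) : S.MM β x - S.MM β y = S.MM β (x - y) := by
  simp only [Setup.MM, ← Finset.sum_sub_distrib, ← sub_smul]
  refine Finset.sum_congr rfl fun i _ => Finset.sum_congr rfl fun A _ => ?_
  congr 1
  rw [PiLp.sub_apply]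
  push_cast
  ring

lemma MM_bound (β : Fin 16) : ∃ C, 0 ≤ C ∧ ∀ x, ‖S.MM β x‖ ≤ C * ‖x‖ := by
  refine ⟨∑ i, ∑ A, |aw i| * ‖S.vec (S.g i * S.Gam) A β‖, by positivity, fun x => ?_⟩
  rw [Setup.MM, Finset.sum_mul]
  refine (norm_sum_le _ _).trans (Finset.sum_le_sum fun i _ => ?_)
  rw [Finset.sum_mul]
  refine (norm_sum_le _ _).trans (Finset.sum_le_sum fun A _ => ?_)
  rw [norm_smul, Complex.norm_real, norm_mul, Real.norm_eq_abs]
  have h := PiLp.norm_apply_le x (i, A)
  calc |aw i| * ‖x (i, A)‖ * ‖S.vec (S.g i * S.Gam) A β‖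
      ≤ |aw i| * ‖x‖ * ‖S.vec (S.g i * S.Gam) A β‖ := by gcongr
    _ = |aw i| * ‖S.vec (S.g i * S.Gam) A β‖ * ‖x‖ := by ring

lemma MM_continuous (β : Fin 16) : Continuous (S.MM β) := by
  have h : ContDiff ℝ ∞ (S.MM β) := by
    unfold Setup.MM
    refine ContDiff.sum fun i _ => ContDiff.sum fun A _ => ?_
    exact (Setup.contDiff_ofReal (contDiff_const.mul (Setup.contDiff_coord (i, A)))).smul
      contDiff_const
  exact h.continuous

lemma FG_symm (v w : F) : inner ℂ (S.FG v) w = inner ℂ v (S.FG w) := by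
  simp only [Setup.FG, _root_.smul_apply, inner_smul_left, inner_smul_right,
    S.tot_adj _ S.Gam_real, S.Gam_transpose, S.tot_neg, _root_.neg_apply, inner_neg_right,
    Complex.conj_I]
  ring

lemma N0_symm (v w : F) : inner ℂ (S.N0 v) w = inner ℂ v (S.N0 w) := by
  have h18 : (starRingEnd ℂ) (18 : ℂ) = 18 := Complex.conj_ofNat 18
  have h34 : (starRingEnd ℂ) (3 / 4 : ℂ) = 3 / 4 := by
    rw [map_div₀, Complex.conj_ofNat, Complex.conj_ofNat]
  simp only [Setup.N0, _root_.sub_apply, _root_.smul_apply, inner_sub_left, inner_sub_right,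
    inner_smul_left, inner_smul_right, FG_symm, h18, h34, one_apply_eq_self]

/-- the approximating test functions: `v_n = χ_n · (ρ_n * u)` -/
lemma exists_approx [CompleteSpace F] {u : X3 → F} (hu : MemLp u 2 (volume : Measure X3))
    (hw : ∀ β ζ, Setup.Tst ζ → ∫ x, inner ℂ (S.Qlin 0 β ζ x) (u x) = 0) :
    ∃ v : ℕ → X3 → F, (∀ n, Setup.Tst (v n)) ∧
      Tendsto (fun n => ∑ β, nsq (S.Qlin 0 β (v n))) atTop (𝓝 0) ∧
      ∀ φ : X3 → F, Continuous φ → HasCompactSupport φ →
        Tendsto (fun n => ∫ x, inner ℂ (φ x) (v n x)) atTop (𝓝 (∫ x, inner ℂ (φ x) (u x))) := by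
  obtain ⟨K, hK0, hK⟩ := exists_cut
  have hpos : ∀ n : ℕ, (0 : ℝ) < (n : ℝ) + 1 := fun n => by positivity
  choose χ hχ using fun n : ℕ => hK ((n : ℝ) + 1) (hpos n)
  have hul := locInt_of_memLp hu
  choose CN hCN0 hCN using MM_bound S
  set un : ℕ → X3 → F := fun n => cv (rho n) u with hun
  have hunc : ∀ n, ContDiff ℝ ∞ (un n) := fun n => cv_contDiff (rho_contDiff n) (rho_hcs n) hul
  set v : ℕ → X3 → F := fun n x => ((χ n x : ℝ) : ℂ) • un n x with hv
  have hvt : ∀ n, Setup.Tst (v n) := by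
    intro n
    refine ⟨(Setup.contDiff_ofReal (hχ n).1).smul (hunc n), (hχ n).2.1.mono ?_⟩
    intro x hx
    simp only [Function.mem_support, hv] at hx ⊢
    intro h0
    exact hx (by simp [h0])
  refine ⟨v, hvt, ?_, ?_⟩
  · -- the energies
    set CV : Fin 16 → ℝ := fun β => ∑ i, ∑ A, ‖S.vec (S.g i) A β‖ with hCV
    have hCV0 : ∀ β, 0 ≤ CV β := fun β => by positivity
    have hb : ∀ β n, nsq (S.Qlin 0 β (v n)) ≤
        ((CN β + K * CV β) * (1 / ((n : ℝ) + 1))) ^ 2 * nsq u := by
      intro β n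
      obtain ⟨y1, y2⟩ := young (rho_contDiff n).continuous (rho_hcs n) (rho_nonneg n) (rho_int n)
        hu.norm
      have y3 : Integrable (fun x => cvr (rho n) (fun y => ‖u y‖) x ^ 2) := by
        simpa using (memLp_two_iff_integrable_sq_norm y1.1).mp y1
      have hpt : ∀ x, ‖S.Qlin 0 β (v n) x‖ ≤
          ((CN β + K * CV β) * (1 / ((n : ℝ) + 1))) * cvr (rho n) (fun y => ‖u y‖) x := by
        intro x
        have hc0 : 0 ≤ cvr (rho n) (fun y => ‖u y‖) x :=
          integral_nonneg fun y => mul_nonneg (rho_nonneg n _) (norm_nonneg _)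
        have b1 := norm_fop_cv_le (V := fun i A => S.vec (S.g i) A β) (N := S.MM β)
          (fun i A => S.vec_symm _ (S.g_im i) A β) (MM_symm S β) (MM_continuous S β) hul
          (Θ := fun _ => (0 : F)) (by exact (integrable_zero X3 F volume).locallyIntegrable)
          (fun ζ hζ => by
            have := hw β ζ hζ
            simp only [Qlin_zero] at this
            simp [this]) (rho_contDiff n) (rho_hcs n) (rho_nonneg n) x
          (C := CN β * (1 / ((n : ℝ) + 1))) (mul_nonneg (hCN0 β) (by positivity)) (by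
            intro y
            by_cases hy : 1 / ((n : ℝ) + 1) ≤ ‖x - y‖
            · rw [rho_zero hy, zero_mul, zero_mul]
            · refine mul_le_mul_of_nonneg_left ?_ (rho_nonneg n _)
              rw [MM_sub]
              exact (hCN β _).trans (mul_le_mul_of_nonneg_left (not_le.mp hy).le (hCN0 β)))
        have b2 := norm_fop_cut_le (fun i A => S.vec (S.g i) A β) (S.MM β) (hpos n) (hχ n) x
          ((hunc n).differentiable (by simp) x)
        have b3 := norm_cv_le (rho_nonneg n) u x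
        have b4 : cvr (rho n) (fun y => ‖(fun _ => (0 : F)) y‖) x = 0 := by simp [cvr]
        rw [b4, zero_add] at b1
        rw [Qlin_zero]
        refine b2.trans ?_
        have b5 : K / ((n : ℝ) + 1) * CV β * ‖un n x‖ ≤
            K / ((n : ℝ) + 1) * CV β * cvr (rho n) (fun y => ‖u y‖) x :=
          mul_le_mul_of_nonneg_left b3 (mul_nonneg (div_nonneg hK0 (hpos n).le) (hCV0 β))
        refine (add_le_add b1 b5).trans (le_of_eq ?_)
        ring
      calc nsq (S.Qlin 0 β (v n)) ≤ ∫ x, (((CN β + K * CV β) * (1 / ((n : ℝ) + 1))) *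
            cvr (rho n) (fun y => ‖u y‖) x) ^ 2 := by
            refine integral_mono_of_nonneg (Filter.Eventually.of_forall fun x => by positivity)
              ?_ (Filter.Eventually.of_forall fun x => pow_le_pow_left₀ (norm_nonneg _) (hpt x) 2)
            simp only [mul_pow _ _ 2]
            exact y3.const_mul _
        _ = ((CN β + K * CV β) * (1 / ((n : ℝ) + 1))) ^ 2 *
            ∫ x, cvr (rho n) (fun y => ‖u y‖) x ^ 2 := by
            rw [← integral_const_mul]
            congr 1; funext x; ring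
        _ ≤ _ := mul_le_mul_of_nonneg_left y2 (by positivity)
    have hlim : Tendsto (fun n : ℕ => ∑ β, ((CN β + K * CV β) * (1 / ((n : ℝ) + 1))) ^ 2 * nsq u)
        atTop (𝓝 (∑ β : Fin 16, ((CN β + K * CV β) * 0) ^ 2 * nsq u)) := by
      refine tendsto_finsetSum _ fun β _ => ?_
      exact (((tendsto_one_div_add_atTop_nhds_zero_nat (𝕜 := ℝ)).const_mul _).pow 2).mul_const _
    simp only [mul_zero, ne_eq, OfNat.ofNat_ne_zero, not_false_eq_true, zero_pow, zero_mul,
      Finset.sum_const_zero] at hlim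
    exact squeeze_zero (fun n => Finset.sum_nonneg fun β _ => nsq_nonneg _)
      (fun n => Finset.sum_le_sum fun β _ => hb β n) hlim
  · -- weak convergence
    intro φ hφ hc
    have h1 := cv_weak hul hφ hc
    refine h1.congr' ?_
    obtain ⟨r, hr⟩ := hc.isCompact.isBounded.subset_closedBall (0 : X3)
    obtain ⟨n0, hn0⟩ := exists_nat_ge r
    filter_upwards [eventually_ge_atTop n0] with n hn
    congr 1
    funext x
    by_cases hx : ‖x‖ ≤ (n : ℝ) + 1
    · simp only [hv]
      rw [(hχ n).2.2.2.2.1 x hx]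
      simp [hun]
    · have h2 : φ x = 0 := by
        by_contra hne
        have h3 := hr (subset_tsupport _ hne)
        rw [Metric.mem_closedBall, dist_zero_right] at h3
        have h4 : (n0 : ℝ) ≤ n := by exact_mod_cast hn
        apply hx
        linarith
      rw [h2, inner_zero_left, inner_zero_left]

lemma A0_contDiff (i : Fin 9) (A : Fin 3) : ContDiff ℝ ∞ (fun x => A0 x i A) := by
  unfold A0
  exact contDiff_const.mul (Setup.contDiff_coord (i, A))

/-- the weak first order equation, from the approximation -/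
lemma weak_D [CompleteSpace F] {u : X3 → F} {v : ℕ → X3 → F} (hvt : ∀ n, Setup.Tst (v n))
    (i : Fin 9) (A : Fin 3)
    (hv : Tendsto (fun n => nsq (fun x => pd i A (v n) x + (A0 x i A : ℂ) • v n x)) atTop (𝓝 0))
    (hvw : ∀ φ : X3 → F, Continuous φ → HasCompactSupport φ →
      Tendsto (fun n => ∫ x, inner ℂ (φ x) (v n x)) atTop (𝓝 (∫ x, inner ℂ (φ x) (u x))))
    {φ : X3 → F} (hφ : Setup.Tst φ) :
    ∫ x, inner ℂ (-pd i A φ x + (A0 x i A : ℂ) • φ x) (u x) = 0 := by
  have hD : Setup.Tst (fun x => -pd i A φ x + (A0 x i A : ℂ) • φ x) :=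
    (hφ.pd i A).neg.add (Setup.Tst.rsmul (A0_contDiff i A) hφ)
  have h1 := hvw _ hD.1.continuous hD.2
  have h2 : ∀ n, ∫ x, inner ℂ (-pd i A φ x + (A0 x i A : ℂ) • φ x) (v n x) =
      ∫ x, inner ℂ (φ x) (pd i A (v n) x + (A0 x i A : ℂ) • v n x) := by
    intro n
    have hp := integral_inner_pd φ (v n) (hφ.1.of_le (by simp)) ((hvt n).1.of_le (by simp)) hφ.2 i A
    have i1 : Integrable (fun x => inner ℂ (pd i A φ x) (v n x)) :=
      (hφ.pd i A).inner_int (hvt n).1.continuous
    have i2 : Integrable (fun x => inner ℂ ((A0 x i A : ℂ) • φ x) (v n x)) :=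
      (Setup.Tst.rsmul (A0_contDiff i A) hφ).inner_int (hvt n).1.continuous
    have i3 : Integrable (fun x => inner ℂ (φ x) (pd i A (v n) x)) :=
      hφ.inner_int ((hvt n).pd i A).1.continuous
    have i4 : Integrable (fun x => inner ℂ (φ x) ((A0 x i A : ℂ) • v n x)) :=
      hφ.inner_int (Setup.Tst.rsmul (A0_contDiff i A) (hvt n)).1.continuous
    have e1 : ∀ x, inner ℂ (-pd i A φ x + (A0 x i A : ℂ) • φ x) (v n x) =
        -inner ℂ (pd i A φ x) (v n x) + inner ℂ ((A0 x i A : ℂ) • φ x) (v n x) := by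
      intro x; rw [inner_add_left, inner_neg_left]
    have e2 : ∀ x, inner ℂ (φ x) (pd i A (v n) x + (A0 x i A : ℂ) • v n x) =
        inner ℂ (φ x) (pd i A (v n) x) + inner ℂ (φ x) ((A0 x i A : ℂ) • v n x) := by
      intro x; rw [inner_add_right]
    simp only [e1, e2]
    rw [integral_add i1.fun_neg i2, integral_neg, hp, neg_neg, integral_add i3 i4]
    congr 2
    funext x
    rw [inner_smul_left, inner_smul_right, Complex.conj_ofReal]
  have h3 : Tendsto (fun n => ∫ x, inner ℂ (-pd i A φ x + (A0 x i A : ℂ) • φ x) (v n x)) atTop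
      (𝓝 0) := by
    simp only [h2]
    rw [tendsto_zero_iff_norm_tendsto_zero]
    have hb : Tendsto (fun n => Real.sqrt (nsq φ) *
        Real.sqrt (nsq (fun x => pd i A (v n) x + (A0 x i A : ℂ) • v n x))) atTop
        (𝓝 (Real.sqrt (nsq φ) * Real.sqrt 0)) :=
      ((Real.continuous_sqrt.tendsto 0).comp hv).const_mul _
    rw [Real.sqrt_zero, mul_zero] at hb
    refine squeeze_zero (fun n => norm_nonneg _) (fun n => ?_) hb
    exact cs_inner hφ.memLp
      (((hvt n).pd i A).add (Setup.Tst.rsmul (A0_contDiff i A) (hvt n))).memLp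
  exact tendsto_nhds_unique h1 h3

/-- **C-L0, core**: `L²` solutions are multiples of the Gaussian with values in the kernel of `N0` -/
theorem lzero_core [CompleteSpace F] (hE : En0Stmt S)
    (hpos : ∀ v : F, 0 ≤ (inner ℂ v (S.N0 v)).re) {u : X3 → F}
    (hu : MemLp u 2 (volume : Measure X3))
    (hw : ∀ β ζ, Setup.Tst ζ → ∫ x, inner ℂ (S.Qlin 0 β ζ x) (u x) = 0) :
    ∃ c : F, S.N0 c = 0 ∧ ∀ᵐ x ∂(volume : Measure X3),
      u x = ((Real.exp (-(qa x) / 2) : ℝ) : ℂ) • c := by
  have hul := locInt_of_memLp hu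
  obtain ⟨v, hvt, hvE, hvw⟩ := exists_approx S hu hw
  have hNc : ContDiff ℝ ∞ (fun _ : X3 => S.N0) := contDiff_const
  have hre : ∀ {f g : X3 → F}, Setup.Tst f → Continuous g →
      (∫ x, inner ℂ (f x) (g x)).re = ∫ x, (inner ℂ (f x) (g x)).re := by
    intro f g hf hg
    exact (integral_re (hf.inner_int hg)).symm
  have hq0 : ∀ f : X3 → F, Setup.Tst f → 0 ≤ (∫ x, inner ℂ (f x) (S.N0 (f x))).re := by
    intro f hf
    rw [hre hf (Setup.Tst.clm hNc hf).1.continuous]
    exact integral_nonneg fun x => hpos _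
  -- the two terms of the energy tend to zero
  have hterm : ∀ n, 8 * (∑ i, ∑ A, nsq (fun x => pd i A (v n) x + (A0 x i A : ℂ) • v n x)) +
      16 * (∫ x, inner ℂ (v n x) (S.N0 (v n x))).re = ∑ β, nsq (S.Qlin 0 β (v n)) := fun n =>
    (hE (v n) (hvt n)).symm
  have hD0 : ∀ i A, Tendsto (fun n => nsq (fun x => pd i A (v n) x + (A0 x i A : ℂ) • v n x))
      atTop (𝓝 0) := by
    intro i A
    refine squeeze_zero (fun n => nsq_nonneg _) (fun n => ?_) hvE
    have h1 := hterm n
    have h2 := hq0 _ (hvt n)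
    have h3 : nsq (fun x => pd i A (v n) x + (A0 x i A : ℂ) • v n x) ≤
        ∑ i, ∑ A, nsq (fun x => pd i A (v n) x + (A0 x i A : ℂ) • v n x) := by
      refine le_trans ?_ (Finset.single_le_sum (f := fun i => ∑ A, nsq (fun x =>
        pd i A (v n) x + (A0 x i A : ℂ) • v n x))
        (fun i _ => Finset.sum_nonneg fun A _ => nsq_nonneg _) (Finset.mem_univ i))
      exact Finset.single_le_sum (f := fun A => nsq (fun x =>
        pd i A (v n) x + (A0 x i A : ℂ) • v n x)) (fun A _ => nsq_nonneg _) (Finset.mem_univ A)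
    have h4 := nsq_nonneg (fun x => pd i A (v n) x + (A0 x i A : ℂ) • v n x)
    linarith
  have hN0 : Tendsto (fun n => (∫ x, inner ℂ (v n x) (S.N0 (v n x))).re) atTop (𝓝 0) := by
    refine squeeze_zero (fun n => hq0 _ (hvt n)) (fun n => ?_) hvE
    have h1 := hterm n
    have h2 := hq0 _ (hvt n)
    have h3 : 0 ≤ ∑ i, ∑ A, nsq (fun x => pd i A (v n) x + (A0 x i A : ℂ) • v n x) :=
      Finset.sum_nonneg fun i _ => Finset.sum_nonneg fun A _ => nsq_nonneg _
    linarith
  -- `w = e^{q/2} u` is constant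
  have hex : ContDiff ℝ ∞ (fun x => Real.exp (qa x / 2)) :=
    Real.contDiff_exp.comp (qa_contDiff.div_const 2)
  have hwl : LocallyIntegrable (fun x => ((Real.exp (qa x / 2) : ℝ) : ℂ) • u x)
      (volume : Measure X3) := by
    rw [locallyIntegrable_iff]
    intro k hk
    exact (hul.integrableOn_isCompact hk).continuousOn_smul
      (Complex.continuous_ofReal.comp hex.continuous).continuousOn hk
  obtain ⟨c, hc⟩ := const_of_weak hwl (fun i A ψ hψ => by
    have hφ : Setup.Tst (fun x => ((Real.exp (qa x / 2) : ℝ) : ℂ) • ψ x) :=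
      Setup.Tst.rsmul hex hψ
    have h1 := weak_D hvt i A (hD0 i A) hvw hφ
    have h2 : ∀ x, pd i A (fun x => ((Real.exp (qa x / 2) : ℝ) : ℂ) • ψ x) x =
        (A0 x i A : ℂ) • ((Real.exp (qa x / 2) : ℝ) : ℂ) • ψ x +
          ((Real.exp (qa x / 2) : ℝ) : ℂ) • pd i A ψ x := by
      intro x
      rw [pd_rsmul (hex.differentiable (by simp) x) (hψ.diff x)]
      have h3 : fderiv ℝ (fun x => Real.exp (qa x / 2)) x (EuclideanSpace.single (i, A) (1 : ℝ)) =
          A0 x i A * Real.exp (qa x / 2) := by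
        have h4 : HasFDerivAt qa (fderiv ℝ qa x) x :=
          (qa_contDiff.differentiable (by simp) x).hasFDerivAt
        have h5 : HasFDerivAt (fun x => qa x / 2) ((2 : ℝ)⁻¹ • fderiv ℝ qa x) x := by
          have := h4.const_mul (2 : ℝ)⁻¹
          refine this.congr_of_eventuallyEq (Filter.Eventually.of_forall fun y => ?_)
          simp only
          ring
        have h6 := h5.exp
        rw [h6.fderiv]
        have h7 := pdr_qa i A x
        rw [pdr] at h7
        simp only [_root_.smul_apply, smul_eq_mul, h7, A0]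
        ring
      rw [h3, smul_smul]
      push_cast
      rfl
    simp only [h2] at h1
    have h8 : ∀ x, inner ℂ (-((A0 x i A : ℂ) • ((Real.exp (qa x / 2) : ℝ) : ℂ) • ψ x +
          ((Real.exp (qa x / 2) : ℝ) : ℂ) • pd i A ψ x) +
          (A0 x i A : ℂ) • ((Real.exp (qa x / 2) : ℝ) : ℂ) • ψ x) (u x) =
        -inner ℂ (pd i A ψ x) (((Real.exp (qa x / 2) : ℝ) : ℂ) • u x) := by
      intro x
      rw [neg_add, add_comm (-((A0 x i A : ℂ) • ((Real.exp (qa x / 2) : ℝ) : ℂ) • ψ x)),
        neg_add_cancel_right, inner_neg_left, inner_smul_left, inner_smul_right,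
        Complex.conj_ofReal]
    simp only [h8] at h1
    rw [integral_neg, neg_eq_zero] at h1
    exact h1)
  have hue : ∀ᵐ x ∂(volume : Measure X3), u x = ((Real.exp (-(qa x) / 2) : ℝ) : ℂ) • c := by
    filter_upwards [hc] with x hx
    rw [← hx, smul_smul, ← Complex.ofReal_mul, ← Real.exp_add]
    have : -(qa x) / 2 + qa x / 2 = 0 := by ring
    rw [this, Real.exp_zero, Complex.ofReal_one, one_smul]
  refine ⟨c, ?_, hue⟩
  -- the vector is in the kernel of `N0`
  set e := S.N0 c with he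
  have hφ : Setup.Tst (fun x => ((rho 0 x : ℝ) : ℂ) • e) := by
    have := tst_kernel (rho_contDiff 0) (rho_hcs 0) (0 : X3) e
    simpa [rho_neg] using this
  set φ : X3 → F := fun x => ((rho 0 x : ℝ) : ℂ) • e with hφd
  have hNφ : Setup.Tst (fun x => S.N0 (φ x)) := Setup.Tst.clm hNc hφ
  have hL := hvw _ hNφ.1.continuous hNφ.2
  have hL' : Tendsto (fun n => (∫ x, inner ℂ (S.N0 (φ x)) (v n x)).re) atTop
      (𝓝 (∫ x, inner ℂ (S.N0 (φ x)) (u x)).re) := (Complex.continuous_re.tendsto _).comp hL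
  set Lr : ℝ := (∫ x, inner ℂ (S.N0 (φ x)) (u x)).re with hLr
  set Q0 : ℝ := (∫ x, inner ℂ (φ x) (S.N0 (φ x))).re with hQ0
  have hineq : ∀ t : ℝ, 0 ≤ Q0 + 2 * t * Lr := by
    intro t
    have h1 : ∀ n, 0 ≤ Q0 + 2 * t * (∫ x, inner ℂ (S.N0 (φ x)) (v n x)).re +
        t ^ 2 * (∫ x, inner ℂ (v n x) (S.N0 (v n x))).re := by
      intro n
      have hf : Setup.Tst (fun x => φ x + ((t : ℝ) : ℂ) • v n x) :=
        hφ.add (Setup.Tst.rsmul (φ := fun _ => t) contDiff_const (hvt n))
      have h2 := hq0 _ hf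
      have hNv : Setup.Tst (fun x => S.N0 (v n x)) := Setup.Tst.clm hNc (hvt n)
      have i1 : Integrable (fun x => inner ℂ (φ x) (S.N0 (φ x))) := hφ.inner_int hNφ.1.continuous
      have i2 : Integrable (fun x => inner ℂ (S.N0 (φ x)) (v n x)) :=
        hNφ.inner_int (hvt n).1.continuous
      have i3 : Integrable (fun x => inner ℂ (v n x) (S.N0 (φ x))) :=
        (hvt n).inner_int hNφ.1.continuous
      have i4 : Integrable (fun x => inner ℂ (v n x) (S.N0 (v n x))) :=
        (hvt n).inner_int hNv.1.continuous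
      have e0 : ∀ a b : F, inner ℂ (a + ((t : ℝ) : ℂ) • b) (S.N0 (a + ((t : ℝ) : ℂ) • b)) =
          inner ℂ a (S.N0 a) + (t : ℂ) * inner ℂ (S.N0 a) b + (t : ℂ) * inner ℂ b (S.N0 a) +
          (t : ℂ) ^ 2 * inner ℂ b (S.N0 b) := by
        intro a b
        rw [map_add, map_smul, inner_add_left, inner_add_right, inner_add_right, inner_smul_left,
          inner_smul_right, inner_smul_left, inner_smul_right, Complex.conj_ofReal, N0_symm S a b]
        ring
      have e1 : ∀ x, inner ℂ (φ x + ((t : ℝ) : ℂ) • v n x)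
          (S.N0 (φ x + ((t : ℝ) : ℂ) • v n x)) =
          inner ℂ (φ x) (S.N0 (φ x)) + (t : ℂ) * inner ℂ (S.N0 (φ x)) (v n x) +
          (t : ℂ) * inner ℂ (v n x) (S.N0 (φ x)) +
          (t : ℂ) ^ 2 * inner ℂ (v n x) (S.N0 (v n x)) := fun x => e0 (φ x) (v n x)
      simp only [e1] at h2
      have i12 : Integrable (fun x => inner ℂ (φ x) (S.N0 (φ x)) +
          (t : ℂ) * inner ℂ (S.N0 (φ x)) (v n x)) := i1.add (i2.const_mul _)
      have i123 : Integrable (fun x => inner ℂ (φ x) (S.N0 (φ x)) +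
          (t : ℂ) * inner ℂ (S.N0 (φ x)) (v n x) + (t : ℂ) * inner ℂ (v n x) (S.N0 (φ x))) :=
        i12.add (i3.const_mul _)
      rw [integral_add i123 (i4.const_mul _), integral_add i12 (i3.const_mul _),
        integral_add i1 (i2.const_mul _), integral_const_mul, integral_const_mul,
        integral_const_mul] at h2
      have e2 : (∫ x, inner ℂ (v n x) (S.N0 (φ x))) =
          (starRingEnd ℂ) (∫ x, inner ℂ (S.N0 (φ x)) (v n x)) := by
        rw [← integral_conj]
        congr 1
        funext x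
        rw [inner_conj_symm]
      rw [e2] at h2
      simp only [Complex.add_re, Complex.re_ofReal_mul, Complex.conj_re, ← Complex.ofReal_pow] at h2
      linarith
    have h3 : Tendsto (fun n => Q0 + 2 * t * (∫ x, inner ℂ (S.N0 (φ x)) (v n x)).re +
        t ^ 2 * (∫ x, inner ℂ (v n x) (S.N0 (v n x))).re) atTop
        (𝓝 (Q0 + 2 * t * Lr + t ^ 2 * 0)) :=
      (tendsto_const_nhds.add (hL'.const_mul _)).add (hN0.const_mul _)
    rw [mul_zero, add_zero] at h3
    exact ge_of_tendsto' h3 h1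
  have hL0 : Lr = 0 := by
    by_contra hne
    have h1 := hineq (-(Q0 + 1) / (2 * Lr))
    have h2 : 2 * (-(Q0 + 1) / (2 * Lr)) * Lr = -(Q0 + 1) := by
      field_simp
    rw [h2] at h1
    linarith
  -- compute `Lr`
  have hI : 0 < ∫ x, rho 0 x * Real.exp (-(qa x) / 2) := by
    have hcont : Continuous (fun x => rho 0 x * Real.exp (-(qa x) / 2)) :=
      (rho_contDiff 0).continuous.mul
        (Real.continuous_exp.comp ((qa_contDiff.continuous.neg).div_const 2))
    refine hcont.integral_pos_of_hasCompactSupport_nonneg_nonzero (x := 0) (rho_hcs 0).mul_right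
      (fun x => mul_nonneg (rho_nonneg 0 x) (Real.exp_pos _).le) ?_
    refine mul_ne_zero ?_ (Real.exp_pos _).ne'
    have : (0 : X3) ∈ Function.support ((bmp 0).normed (volume : Measure X3)) := by
      rw [(bmp 0).support_normed_eq]
      exact Metric.mem_ball_self (bmp 0).rOut_pos
    exact this
  have hcomp : Lr = (∫ x, rho 0 x * Real.exp (-(qa x) / 2)) * ‖e‖ ^ 2 := by
    have h1 : ∫ x, inner ℂ (S.N0 (φ x)) (u x) =
        ∫ x, ((rho 0 x * Real.exp (-(qa x) / 2) * ‖e‖ ^ 2 : ℝ) : ℂ) := by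
      refine integral_congr_ae ?_
      filter_upwards [hue] with x hx
      rw [hx, hφd]
      simp only
      rw [map_smul, inner_smul_left, inner_smul_right, N0_symm, ← he, inner_self_eq_norm_sq_to_K,
        Complex.conj_ofReal]
      push_cast
      simp only [Complex.coe_algebraMap]
      ring
    rw [hLr, h1, integral_complex_ofReal, Complex.ofReal_re, integral_mul_const]
  rw [hL0] at hcomp
  have h9 : ‖e‖ ^ 2 = 0 := by
    rcases mul_eq_zero.mp hcomp.symm with h | h
    · exact absurd h hI.ne'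
    · exact h
  simpa using h9

/-- **C-L0** with a given vacuum vector -/
theorem l0' [CompleteSpace F] (hE : En0Stmt S) (hN : N0Stmt S) (hI : S.Irr) (hne : ∃ v : F, v ≠ 0)
    (Ω : F) (hΩ : ‖Ω‖ = 1) (ha : ∀ A α, S.am A α Ω = 0) (u : X3 → F)
    (hu : MemLp u 2 (volume : Measure X3))
    (hw : ∀ β ζ, Setup.Tst ζ → ∫ x, inner ℂ (S.Qlin 0 β ζ x) (u x) = 0) :
    ∃ c : ℂ, ∀ᵐ x ∂(volume : Measure X3),
      u x = (c * (Real.exp (-(∑ i, ∑ A, aw i * x (i, A) ^ 2) / 2) : ℂ)) • Ω := by
  obtain ⟨hpos, Ω0, h1, h2, h3, h4, h5⟩ := hN hI hne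
  obtain ⟨c, hc0, hc⟩ := lzero_core S hE hpos hu hw
  obtain ⟨a, ha'⟩ := h4 c (by rw [hc0, inner_zero_right, Complex.zero_re])
  obtain ⟨b, hb⟩ := h5 Ω ha
  have hb0 : b ≠ 0 := by
    rintro rfl
    rw [zero_smul] at hb
    rw [hb, norm_zero] at hΩ
    exact zero_ne_one hΩ
  refine ⟨a / b, ?_⟩
  filter_upwards [hc] with x hx
  rw [hx, ha', hb, smul_smul, smul_smul]
  congr 1
  change _ * a = a / b * _ * b
  rw [div_mul_eq_mul_div, div_mul_cancel₀ _ hb0, mul_comm]
  rfl

/-- **C-L0** -/
theorem l0 [CompleteSpace F] (hE : En0Stmt S) (hN : N0Stmt S) : L0Stmt S := by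
  intro hI hne
  obtain ⟨-, Ω, h1, h2, -⟩ := hN hI hne
  exact ⟨Ω, h1, fun u hu hw => l0' S hE hN hI hne Ω h1 h2 u hu hw⟩

end Vale.Agent.P353.U
end

section

/-! # P353, uniqueness for `N = 2`: derivatives of `v` at a cone point (task D-3) -/

open MeasureTheory Filter Topology
open scoped ContDiff

namespace Vale.Agent.P353
namespace U

variable {F : Type*} [NormedAddCommGroup F] [InnerProductSpace ℂ F]

lemma v3_Fx_add (S : Setup F) (x z : X3) : S.Fx (x + z) = S.Fx x + S.Fx z := by
  unfold Setup.Fx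
  rw [← smul_add]
  congr 1
  simp only [← Finset.sum_add_distrib]
  refine Finset.sum_congr rfl fun q _ => Finset.sum_congr rfl fun A _ =>
    Finset.sum_congr rfl fun B _ => Finset.sum_congr rfl fun C _ => ?_
  rw [← add_smul]
  congr 1
  rw [PiLp.add_apply]
  push_cast
  ring

lemma v3_Fx_smul (S : Setup F) (c : ℝ) (x : X3) : S.Fx (c • x) = (c : ℂ) • S.Fx x := by
  unfold Setup.Fx
  rw [smul_comm (c : ℂ)]
  congr 1
  simp only [Finset.smul_sum]
  refine Finset.sum_congr rfl fun q _ => Finset.sum_congr rfl fun A _ =>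
    Finset.sum_congr rfl fun B _ => Finset.sum_congr rfl fun C _ => ?_
  rw [smul_smul]
  congr 1
  rw [PiLp.smul_apply, smul_eq_mul]
  push_cast
  ring

lemma v3_Fx_zero (S : Setup F) : S.Fx 0 = 0 := by
  have h := v3_Fx_smul S 0 0
  simpa using h

/-- `Fx` is linear, so it is its own derivative -/
lemma v3_Fx_fderiv (S : Setup F) (x h : X3) : fderiv ℝ S.Fx x h = S.Fx h := by
  let L : X3 →ₗ[ℝ] (F →L[ℂ] F) :=
    { toFun := S.Fx
      map_add' := v3_Fx_add S
      map_smul' := fun c x => by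
        rw [v3_Fx_smul, RingHom.id_apply]
        ext v
        simp }
  have h1 : S.Fx = (LinearMap.toContinuousLinearMap L : X3 → (F →L[ℂ] F)) := rfl
  have h2 : fderiv ℝ S.Fx x = LinearMap.toContinuousLinearMap L := by
    rw [h1]
    exact ContinuousLinearMap.fderiv _
  rw [h2]
  rfl

lemma v3_norm (n : Fin 3 → ℝ) (y : Fin 9 → ℝ) (hn : ∑ A, n A ^ 2 = 1) :
    ‖cone n y‖ ^ 2 = ry y ^ 2 := by
  rw [EuclideanSpace.norm_sq_eq, ry, Real.sq_sqrt (Finset.sum_nonneg fun i _ => sq_nonneg _),
    Fintype.sum_prod_type]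
  refine Finset.sum_congr rfl fun i _ => ?_
  have h : ∀ A, ‖(cone n y) (i, A)‖ ^ 2 = y i ^ 2 * n A ^ 2 := fun A => by
    rw [Real.norm_eq_abs, sq_abs, ← mul_pow]
    rfl
  rw [Finset.sum_congr rfl fun A _ => h A, ← Finset.mul_sum, hn, mul_one]

lemma v3_ry_sq (y : Fin 9 → ℝ) : ry y ^ 2 = ∑ i, y i ^ 2 := by
  rw [ry, Real.sq_sqrt (Finset.sum_nonneg fun i _ => sq_nonneg _)]

lemma v3_coord (x h : X3) (p : Fin 9 × Fin 3) :
    HasDerivAt (fun t : ℝ => (x + t • h) p) (h p) 0 := by
  have h1 : HasDerivAt (fun t : ℝ => x p + t * h p) (1 * h p) 0 :=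
    ((hasDerivAt_id 0).mul_const (h p)).const_add (x p)
  rw [one_mul] at h1
  exact h1

lemma v3_Gr (x h : X3) (A B : Fin 3) :
    HasDerivAt (fun t : ℝ => Gr (x + t • h) A B)
      (∑ i, (h (i, A) * x (i, B) + x (i, A) * h (i, B))) 0 := by
  have h1 : HasDerivAt (fun t : ℝ => ∑ i, (x + t • h) (i, A) * (x + t • h) (i, B))
      (∑ i, (h (i, A) * (x + (0 : ℝ) • h) (i, B) + (x + (0 : ℝ) • h) (i, A) * h (i, B))) 0 :=
    HasDerivAt.fun_sum fun i _ => (v3_coord x h (i, A)).mul (v3_coord x h (i, B))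
  rw [zero_smul, add_zero] at h1
  exact h1

lemma v3_num (x h : X3) (i : Fin 9) (A : Fin 3) :
    HasDerivAt (fun t : ℝ => ∑ B, Gr (x + t • h) A B * (x + t • h) (i, B))
      (∑ B, ((∑ j, (h (j, A) * x (j, B) + x (j, A) * h (j, B))) * x (i, B) +
        Gr x A B * h (i, B))) 0 := by
  have h1 := HasDerivAt.fun_sum (u := Finset.univ) fun (B : Fin 3) _ =>
    (v3_Gr x h A B).mul (v3_coord x h (i, B))
  simp only [zero_smul, add_zero] at h1
  exact h1

lemma v3_den (x h : X3) :
    HasDerivAt (fun t : ℝ => ‖x + t • h‖ ^ 2) (∑ p, 2 * (x p * h p)) 0 := by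
  have h1 : HasDerivAt (fun t : ℝ => ∑ p, (x + t • h) p ^ 2) (∑ p, 2 * (x p * h p)) 0 := by
    refine HasDerivAt.fun_sum fun p _ => ?_
    have h2 := (v3_coord x h p).pow 2
    simp only [zero_smul, add_zero] at h2
    refine h2.congr_deriv ?_
    push_cast
    ring
  have h3 : (fun t : ℝ => ‖x + t • h‖ ^ 2) = fun t : ℝ => ∑ p, (x + t • h) p ^ 2 := by
    funext t
    rw [EuclideanSpace.norm_sq_eq]
    exact Finset.sum_congr rfl fun p _ => by rw [Real.norm_eq_abs, sq_abs]
  rw [h3]
  exact h1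

lemma v3_xh_diff (x : X3) (hx : x ≠ 0) : DifferentiableAt ℝ xh x := by
  rw [differentiableAt_euclidean]
  intro p
  have hc : ∀ q : Fin 9 × Fin 3, DifferentiableAt ℝ (fun z : X3 => z q) x := fun q =>
    (differentiableAt_euclidean.1 differentiableAt_id) q
  have h1 : DifferentiableAt ℝ (fun z : X3 => ∑ B, Gr z p.2 B * z (p.1, B)) x := by
    refine DifferentiableAt.fun_sum fun B _ => DifferentiableAt.mul ?_ (hc _)
    exact DifferentiableAt.fun_sum fun i _ => (hc _).mul (hc _)
  have h2 : DifferentiableAt ℝ (fun z : X3 => (‖z‖ ^ 2)⁻¹) x := by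
    have hx2 : ‖x‖ ^ 2 ≠ 0 := pow_ne_zero 2 (norm_ne_zero_iff.2 hx)
    exact (differentiableAt_inv hx2).comp x (differentiableAt_id.norm_sq ℝ)
  exact (h1.mul h2).congr_of_eventuallyEq (Eventually.of_forall fun z => div_eq_mul_inv _ _)

/-- the derivative of `x̂` at a cone point -/
lemma v3_xh_single (n : Fin 3 → ℝ) (y : Fin 9 → ℝ) (hn : ∑ A, n A ^ 2 = 1) (hr : 0 < ry y)
    (i : Fin 9) (A : Fin 3) :
    fderiv ℝ xh (cone n y) (EuclideanSpace.single (i, A) 1) =
      n A • cone n (fun k => (if k = i then 1 else 0) - y k * y i / ry y ^ 2) +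
      (y i / ry y ^ 2) • cone (fun B => (if B = A then 1 else 0) - n B * n A) y +
      (y i * n A / ry y ^ 2) • cone n y := by
  have hnorm := v3_norm n y hn
  have hne : cone n y ≠ 0 := by
    intro h0
    rw [h0, norm_zero] at hnorm
    have : 0 < ry y ^ 2 := by positivity
    linarith only [this, hnorm]
  set h : X3 := EuclideanSpace.single (i, A) 1 with hh
  have hval : ∀ (k : Fin 9) (B : Fin 3), h (k, B) = (if k = i then 1 else 0) * (if B = A then 1 else 0) := by
    intro k B
    rw [hh]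
    by_cases h1 : k = i <;> by_cases h2 : B = A <;> simp [h1, h2, Prod.ext_iff]
  have hL := (v3_xh_diff (cone n y) hne).hasFDerivAt
  have hγ : HasDerivAt (fun t : ℝ => cone n y + t • h) h 0 := by
    have h1 : HasDerivAt (fun t : ℝ => cone n y + t • h) ((1 : ℝ) • h) 0 :=
      ((hasDerivAt_id (0 : ℝ)).smul_const h).const_add (cone n y)
    rwa [one_smul] at h1
  have h0 : cone n y + (0 : ℝ) • h = cone n y := by rw [zero_smul, add_zero]
  have hcomp : HasDerivAt (fun t : ℝ => xh (cone n y + t • h)) (fderiv ℝ xh (cone n y) h) 0 := by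
    have hL' : HasFDerivAt xh (fderiv ℝ xh (cone n y)) (cone n y + (0 : ℝ) • h) := by
      rw [h0]; exact hL
    exact hL'.comp_hasDerivAt 0 hγ
  ext p
  obtain ⟨k, B⟩ := p
  have hc1 : HasDerivAt (fun t : ℝ => xh (cone n y + t • h) (k, B))
      (fderiv ℝ xh (cone n y) h (k, B)) 0 := by
    have h1 := (EuclideanSpace.proj (𝕜 := ℝ) (k, B)).hasFDerivAt (x := xh (cone n y + (0 : ℝ) • h))
    exact h1.comp_hasDerivAt 0 hcomp
  have hc2 := (v3_num (cone n y) h k B).div (v3_den (cone n y) h)
    (by rw [h0, hnorm]; positivity)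
  have hu := hc1.unique hc2
  rw [hu]
  simp only [zero_smul, add_zero, hnorm]
  have hcn : ∀ (k : Fin 9) (B : Fin 3), (cone n y) (k, B) = y k * n B := fun k B => rfl
  have hG : ∀ B C, Gr (cone n y) B C = ry y ^ 2 * (n B * n C) := by
    intro B C
    rw [v3_ry_sq, Finset.sum_mul]
    exact Finset.sum_congr rfl fun j _ => by rw [hcn, hcn]; ring
  have e1 : (∑ C, Gr (cone n y) B C * (cone n y) (k, C)) = ry y ^ 2 * n B * y k := by
    have : ∀ C ∈ Finset.univ, Gr (cone n y) B C * (cone n y) (k, C) =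
        (ry y ^ 2 * n B * y k) * n C ^ 2 := fun C _ => by rw [hG, hcn]; ring
    rw [Finset.sum_congr rfl this, ← Finset.mul_sum, hn, mul_one]
  have e2 : (∑ p, 2 * ((cone n y) p * h p)) = 2 * (y i * n A) := by
    rw [Fintype.sum_prod_type]
    simp [hval, hcn]
  have e3 : ∀ C, (∑ j, (h (j, B) * (cone n y) (j, C) + (cone n y) (j, B) * h (j, C))) =
      y i * ((if B = A then 1 else 0) * n C + n B * (if C = A then 1 else 0)) := by
    intro C
    have : ∀ j ∈ Finset.univ, (h (j, B) * (cone n y) (j, C) + (cone n y) (j, B) * h (j, C)) =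
        (if j = i then y j * ((if B = A then 1 else 0) * n C + n B * (if C = A then 1 else 0))
          else 0) := by
      intro j _
      rw [hval, hval, hcn, hcn]
      by_cases hj : j = i
      · simp only [hj, if_true]; ring
      · simp only [hj, if_false]; ring
    rw [Finset.sum_congr rfl this, Finset.sum_ite_eq' Finset.univ i]
    simp
  have e4 : (∑ C, ((∑ j, (h (j, B) * (cone n y) (j, C) + (cone n y) (j, B) * h (j, C))) *
      (cone n y) (k, C) + Gr (cone n y) B C * h (k, C))) =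
      y i * y k * ((if B = A then 1 else 0) + n B * n A) +
        ry y ^ 2 * (n B * n A) * (if k = i then 1 else 0) := by
    have : ∀ C ∈ Finset.univ, ((∑ j, (h (j, B) * (cone n y) (j, C) +
        (cone n y) (j, B) * h (j, C))) * (cone n y) (k, C) + Gr (cone n y) B C * h (k, C)) =
        (y i * y k * (if B = A then 1 else 0)) * n C ^ 2 +
        (if C = A then y i * y k * (n B * n C) +
          ry y ^ 2 * (n B * n C) * (if k = i then 1 else 0) else 0) := by
      intro C _
      rw [e3, hval, hcn, hG]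
      by_cases hC : C = A
      · simp only [hC, if_true]; ring
      · simp only [hC, if_false]; ring
    rw [Finset.sum_congr rfl this, Finset.sum_add_distrib, ← Finset.mul_sum, hn,
      Finset.sum_ite_eq' Finset.univ A]
    simp only [Finset.mem_univ, if_true]
    ring
  rw [e4, e1, e2]
  have hr2 : ry y ^ 2 ≠ 0 := by positivity
  simp only [PiLp.add_apply, PiLp.smul_apply, smul_eq_mul]
  show _ = n A * (((if k = i then 1 else 0) - y k * y i / ry y ^ 2) * n B) +
    y i / ry y ^ 2 * (y k * ((if B = A then 1 else 0) - n B * n A)) +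
    y i * n A / ry y ^ 2 * (y k * n B)
  field_simp
  ring

lemma v3_single_sub (n : Fin 3 → ℝ) (y : Fin 9 → ℝ) (hr : 0 < ry y) (i : Fin 9) (A : Fin 3) :
    EuclideanSpace.single (i, A) 1 -
      (n A • cone n (fun k => (if k = i then 1 else 0) - y k * y i / ry y ^ 2) +
      (y i / ry y ^ 2) • cone (fun B => (if B = A then 1 else 0) - n B * n A) y +
      (y i * n A / ry y ^ 2) • cone n y) =
    cone (fun B => (if B = A then 1 else 0) - n B * n A)
      (fun k => (if k = i then 1 else 0) - y k * y i / ry y ^ 2) := by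
  ext p
  obtain ⟨k, B⟩ := p
  have hval : (EuclideanSpace.single (i, A) 1 : X3) (k, B) =
      (if k = i then 1 else 0) * (if B = A then 1 else 0) := by
    by_cases h1 : k = i <;> by_cases h2 : B = A <;> simp [h1, h2, Prod.ext_iff]
  simp only [PiLp.sub_apply, PiLp.add_apply, PiLp.smul_apply, smul_eq_mul, hval]
  show _ - (n A * (((if k = i then 1 else 0) - y k * y i / ry y ^ 2) * n B) +
    y i / ry y ^ 2 * (y k * ((if B = A then 1 else 0) - n B * n A)) +
    y i * n A / ry y ^ 2 * (y k * n B)) = ((if k = i then 1 else 0) - y k * y i / ry y ^ 2) *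
      ((if B = A then 1 else 0) - n B * n A)
  have hr2 : ry y ^ 2 ≠ 0 := by positivity
  field_simp
  ring

lemma v3_clm_diff {T : X3 → F →L[ℂ] F} {u : X3 → F} {x : X3}
    (hT : DifferentiableAt ℝ T x) (hu : DifferentiableAt ℝ u x) :
    DifferentiableAt ℝ (fun y => T y (u y)) x := by
  have hB : IsBoundedBilinearMap ℝ (fun p : (F →L[ℂ] F) × F => p.1 p.2) := by
    have h := (isBoundedBilinearMap_apply (𝕜 := ℂ) (E := F) (F := F))
    refine ⟨fun a b c => by simp, fun c a b => ?_, fun a b c => by simp, fun c a b => ?_, ?_⟩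
    · simp
    · simp
    · obtain ⟨C, hC, hb⟩ := h.bound
      exact ⟨C, hC, hb⟩
  have h1 := hB.hasFDerivAt (T x, u x)
  have h2 := hT.hasFDerivAt.prodMk hu.hasFDerivAt
  exact (h1.comp x h2).differentiableAt

theorem v3 (S : Setup F) (hs : SmStmt S) (h2 : Om2Stmt S) : V3Stmt S := by
  intro Ω hΩ n y hn hρ
  obtain ⟨h1, -, -, h4, h5, -⟩ := hs Ω hΩ
  obtain ⟨h6, h7⟩ := h2 Ω hΩ n y hn hρ
  have hne : cone n y ≠ 0 := by
    intro h0
    rw [h0] at hρ
    simp [rho6sq] at hρ
  have hnorm := v3_norm n y hn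
  have hr0 : 0 ≤ ry y := Real.sqrt_nonneg _
  have hnorm' : ‖cone n y‖ = ry y := by
    rwa [sq_eq_sq₀ (norm_nonneg _) hr0] at hnorm
  have hr : 0 < ry y := by rw [← hnorm']; exact norm_pos_iff.2 hne
  have hxh : xh (cone n y) = cone n y := h5 n y hn hne
  have hcont : Continuous (rho6sq) := by
    unfold rho6sq
    refine continuous_finsetSum _ fun i _ => continuous_finsetSum _ fun A _ => ?_
    split_ifs
    · exact (continuous_apply (i, A)).comp (PiLp.continuous_ofLp 2 _) |>.pow 2
    · exact continuous_const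
  have hopen : IsOpen {x : X3 | 0 < rho6sq x} := isOpen_lt continuous_const hcont
  have dom : DifferentiableAt ℝ (S.om Ω) (cone n y) :=
    (h1.contDiffAt (hopen.mem_nhds hρ)).differentiableAt (by simp)
  have dxh : DifferentiableAt ℝ xh (cone n y) := v3_xh_diff _ hne
  have hzero : S.Fx (cone n y - xh (cone n y)) = 0 := by rw [hxh, sub_self, v3_Fx_zero]
  have hrad : fderiv ℝ (S.om Ω) (cone n y) (cone n y) = 0 := by
    have hγ : HasDerivAt (fun t : ℝ => cone n y + t • cone n y) (cone n y) 0 := by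
      have h1 : HasDerivAt (fun t : ℝ => cone n y + t • cone n y) ((1 : ℝ) • cone n y) 0 :=
        ((hasDerivAt_id (0 : ℝ)).smul_const (cone n y)).const_add (cone n y)
      rwa [one_smul] at h1
    have hL' : HasFDerivAt (S.om Ω) (fderiv ℝ (S.om Ω) (cone n y))
        (cone n y + (0 : ℝ) • cone n y) := by
      rw [zero_smul, add_zero]; exact dom.hasFDerivAt
    have ha := hL'.comp_hasDerivAt 0 hγ
    have hb : HasDerivAt (S.om Ω ∘ fun t : ℝ => cone n y + t • cone n y) 0 0 := by
      refine (hasDerivAt_const (0 : ℝ) (S.om Ω (cone n y))).congr_of_eventuallyEq ?_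
      filter_upwards [isOpen_lt continuous_const (continuous_const.add continuous_id)
        |>.mem_nhds (show (0 : ℝ) < 1 + 0 by norm_num)] with t ht
      have ht' : (0 : ℝ) < 1 + t := ht
      have e : cone n y + t • cone n y = (1 + t) • cone n y := by rw [add_smul, one_smul]
      show S.om Ω (cone n y + t • cone n y) = S.om Ω (cone n y)
      rw [e, (h4 (cone n y) (1 + t) ht').1]
    exact ha.unique hb
  refine ⟨?_, fun i A => ?_⟩
  · unfold Setup.vv
    rw [hzero, hxh]
    simp
  · have domxh : DifferentiableAt ℝ (fun x => S.om Ω (xh x)) (cone n y) := by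
      have hd' : DifferentiableAt ℝ (S.om Ω) (xh (cone n y)) := by rw [hxh]; exact dom
      exact hd'.comp (cone n y) dxh
    have dT1 : DifferentiableAt ℝ (fun x : X3 => x - xh x) (cone n y) :=
      differentiableAt_id.sub dxh
    have dFx : Differentiable ℝ S.Fx := (contDiff_Fx S).differentiable (by simp)
    have dT : DifferentiableAt ℝ (fun x : X3 => S.Fx (x - xh x)) (cone n y) :=
      (dFx _).comp (cone n y) dT1
    have dφ : DifferentiableAt ℝ (fun x : X3 => 1 / (2 * S.κ * ‖x‖)) (cone n y) := by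
      have hd : DifferentiableAt ℝ (fun x : X3 => ‖x‖) (cone n y) :=
        differentiableAt_id.norm ℝ hne
      have hx2 : 2 * S.κ * ‖cone n y‖ ≠ 0 :=
        mul_ne_zero (mul_ne_zero two_ne_zero S.κ_pos.ne') (norm_ne_zero_iff.2 hne)
      have h8 : DifferentiableAt ℝ (fun x : X3 => (2 * S.κ * ‖x‖)⁻¹) (cone n y) :=
        (differentiableAt_inv hx2).comp (cone n y) (hd.const_mul (2 * S.κ))
      exact h8.congr_of_eventuallyEq (Eventually.of_forall fun z => one_div _)
    have dv : DifferentiableAt ℝ (fun x : X3 => S.Fx (x - xh x) (S.om Ω (xh x))) (cone n y) :=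
      v3_clm_diff dT domxh
    have e1 : pd i A (S.vv Ω) (cone n y) = pd i A (fun x => S.om Ω (xh x)) (cone n y) -
        ((1 / (2 * S.κ * ‖cone n y‖) : ℝ) : ℂ) •
          (fderiv ℝ (fun x : X3 => S.Fx (x - xh x)) (cone n y)
            (EuclideanSpace.single (i, A) 1)) (S.om Ω (cone n y)) := by
      have hv : S.vv Ω = fun x => S.om Ω (xh x) - ((1 / (2 * S.κ * ‖x‖) : ℝ) : ℂ) •
        S.Fx (x - xh x) (S.om Ω (xh x)) := rfl
      rw [hv, pd_sub domxh ?_, pd_rsmul dφ dv, pd_clm_apply dT domxh]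
      · rw [hzero, zero_apply, zero_apply, smul_zero, zero_add, add_zero, hxh]
      · exact (Complex.ofRealCLM.differentiableAt.comp _ dφ).smul dv
    rw [e1]
    have e2 : fderiv ℝ (fun x : X3 => S.Fx (x - xh x)) (cone n y)
        (EuclideanSpace.single (i, A) 1) = S.Fx (cone
          (fun B => (if B = A then 1 else 0) - n B * n A)
          (fun k => (if k = i then 1 else 0) - y k * y i / ry y ^ 2)) := by
      have ha : fderiv ℝ (fun x : X3 => S.Fx (x - xh x)) (cone n y) =
          (fderiv ℝ S.Fx (cone n y - xh (cone n y))).comp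
            (fderiv ℝ (fun x : X3 => x - xh x) (cone n y)) :=
        fderiv_comp (cone n y) (dFx _) dT1
      have hb : fderiv ℝ (fun x : X3 => x - xh x) (cone n y) (EuclideanSpace.single (i, A) 1) =
          EuclideanSpace.single (i, A) 1 -
            fderiv ℝ xh (cone n y) (EuclideanSpace.single (i, A) 1) := by
        have hc := (hasFDerivAt_id (𝕜 := ℝ) (cone n y)).sub dxh.hasFDerivAt
        have hd : fderiv ℝ (fun x : X3 => x - xh x) (cone n y) = _ := hc.fderiv
        rw [hd]
        rfl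
      rw [ha, ContinuousLinearMap.comp_apply, v3_Fx_fderiv, hb, v3_xh_single n y hn hr,
        v3_single_sub n y hr]
    have e3 : pd i A (fun x => S.om Ω (xh x)) (cone n y) =
        n A • fderiv ℝ (S.om Ω) (cone n y)
          (cone n (fun k => (if k = i then 1 else 0) - y k * y i / ry y ^ 2)) +
        (y i / ry y ^ 2) • fderiv ℝ (S.om Ω) (cone n y)
          (cone (fun B => (if B = A then 1 else 0) - n B * n A) y) := by
      have hd' : DifferentiableAt ℝ (S.om Ω) (xh (cone n y)) := by rw [hxh]; exact dom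
      have ha : fderiv ℝ (fun x => S.om Ω (xh x)) (cone n y) =
          (fderiv ℝ (S.om Ω) (xh (cone n y))).comp (fderiv ℝ xh (cone n y)) :=
        fderiv_comp (cone n y) hd' dxh
      rw [pd, ha, ContinuousLinearMap.comp_apply, hxh, v3_xh_single n y hn hr, map_add, map_add,
        map_smul, map_smul, map_smul, hrad, smul_zero, add_zero]
    have hw : ∑ k, ((if k = i then 1 else 0) - y k * y i / ry y ^ 2) * y k = 0 := by
      have : ∀ k ∈ Finset.univ, ((if k = i then 1 else 0) - y k * y i / ry y ^ 2) * y k =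
          (if k = i then y k else 0) - y i / ry y ^ 2 * y k ^ 2 := by
        intro k _
        by_cases hk : k = i
        · simp only [hk, if_true]; ring
        · simp only [hk, if_false]; ring
      rw [Finset.sum_congr rfl this, Finset.sum_sub_distrib, ← Finset.mul_sum, ← v3_ry_sq,
        Finset.sum_ite_eq' Finset.univ i]
      have hr2 : ry y ^ 2 ≠ 0 := by positivity
      simp only [Finset.mem_univ, if_true]
      field_simp
      ring
    have he : ∑ B, ((if B = A then 1 else 0) - n B * n A) * n B = 0 := by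
      have : ∀ B ∈ Finset.univ, ((if B = A then 1 else 0) - n B * n A) * n B =
          (if B = A then n B else 0) - n A * n B ^ 2 := by
        intro B _
        by_cases hk : B = A
        · simp only [hk, if_true]; ring
        · simp only [hk, if_false]; ring
      rw [Finset.sum_congr rfl this, Finset.sum_sub_distrib, ← Finset.mul_sum, hn,
        Finset.sum_ite_eq' Finset.univ A]
      simp
    rw [e2, e3, h6 _ hw, h7 _ he, hnorm']
    unfold Setup.XX
    simp only [sub_apply, add_apply, smul_apply, sum_apply]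
    congr 1
    congr 1
    rw [← Complex.coe_smul, smul_smul, ← Complex.ofReal_mul]
    congr 2
    ring

end U
end Vale.Agent.P353
end
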