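import Mathlib
import Vale.Agent.P353.BdU.B4
import Vale.Agent.P353.BdU.B2

set_option linter.all false

section

/-! Task EX-05: basic calculus for `K.DD` and `K.LL` (first part in `CalcA.lean`). -/

open MeasureTheory Filter Topology
open scoped ContDiff ComplexConjugate

namespace Vale.Agent.P353.Ex

variable {F : Type*} [NormedAddCommGroup F] [InnerProductSpace ℂ F]

namespace Fk

variable (K : Fk F)

/-! ### the superpotential -/

/-- the trilinear form `⟨a × b, c⟩` -/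
private noncomputable def calcTT (a b c : Fin 7 → ℝ) : ℝ :=
  ∑ k, ∑ i, ∑ j, K.t k i j * a i * b j * c k

private lemma calcTT_lin1 (r : Fin 3 → ℝ) (a : Fin 3 → Fin 7 → ℝ) (b c : Fin 7 → ℝ) :
    K.calcTT (fun i => ∑ A, r A * a A i) b c = ∑ A, r A * K.calcTT (a A) b c := by
  simp only [calcTT, Fin.sum_univ_three, Finset.mul_sum, ← Finset.sum_add_distrib]
  refine Finset.sum_congr rfl fun k _ => Finset.sum_congr rfl fun i _ =>
    Finset.sum_congr rfl fun j _ => ?_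
  ring

private lemma calcTT_swap (a b c : Fin 7 → ℝ) : K.calcTT b a c = -K.calcTT a b c := by
  unfold calcTT
  rw [← Finset.sum_neg_distrib]
  refine Finset.sum_congr rfl fun k _ => ?_
  rw [Finset.sum_comm, ← Finset.sum_neg_distrib]
  refine Finset.sum_congr rfl fun i _ => ?_
  rw [← Finset.sum_neg_distrib]
  refine Finset.sum_congr rfl fun j _ => ?_
  rw [K.t_swap k j i]
  ring

private lemma calcTT_cyc (a b c : Fin 7 → ℝ) : K.calcTT a b c = K.calcTT b c a := by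
  unfold calcTT
  rw [Finset.sum_comm]
  refine Finset.sum_congr rfl fun i _ => ?_
  rw [Finset.sum_comm]
  refine Finset.sum_congr rfl fun j _ => Finset.sum_congr rfl fun k _ => ?_
  rw [K.t_cyc k i j]
  ring

private lemma calcTT_lin2 (r : Fin 3 → ℝ) (a : Fin 3 → Fin 7 → ℝ) (b c : Fin 7 → ℝ) :
    K.calcTT b (fun i => ∑ A, r A * a A i) c = ∑ A, r A * K.calcTT b (a A) c := by
  simp only [K.calcTT_cyc b _ c, calcTT_lin1]

private lemma calcTT_lin3 (r : Fin 3 → ℝ) (a : Fin 3 → Fin 7 → ℝ) (b c : Fin 7 → ℝ) :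
    K.calcTT b c (fun i => ∑ A, r A * a A i) = ∑ A, r A * K.calcTT b c (a A) := by
  simp only [K.calcTT_cyc b c _, calcTT_lin2]

private lemma calcTT_single (b c : Fin 7 → ℝ) (i : Fin 7) :
    K.calcTT (fun p => if p = i then 1 else 0) b c = ∑ p, ∑ q, K.t i p q * b p * c q := by
  unfold calcTT
  have h : ∀ k, ∑ p, ∑ j, K.t k p j * (if p = i then 1 else 0) * b j * c k =
      ∑ j, K.t i j k * b j * c k := by
    intro k
    rw [Finset.sum_eq_single i (fun p _ hp => by simp [hp]) (fun h => absurd (Finset.mem_univ i) h)]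
    refine Finset.sum_congr rfl fun j _ => ?_
    rw [K.t_cyc k i j, if_pos rfl, mul_one]
  simp only [h]
  exact Finset.sum_comm

/-- the `A`-th vector of `x` -/
private noncomputable def calcV (x : X3) (A : Fin 3) : Fin 7 → ℝ := fun i => x (e9 i, A)

private lemma calcTT_eps (x : X3) (A B C : Fin 3) :
    K.calcTT (calcV x A) (calcV x B) (calcV x C) =
      (eps A B C : ℝ) * K.calcTT (calcV x 0) (calcV x 1) (calcV x 2) := by
  have hd : ∀ a c, K.calcTT a a c = 0 := fun a c => by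
    have := K.calcTT_swap a a c
    linarith
  have hd2 : ∀ a c, K.calcTT a c c = 0 := fun a c => by rw [calcTT_cyc, hd]
  have hd3 : ∀ a c, K.calcTT a c a = 0 := fun a c => by rw [calcTT_cyc, calcTT_cyc, hd]
  have h1 : K.calcTT (calcV x 1) (calcV x 2) (calcV x 0) =
    K.calcTT (calcV x 0) (calcV x 1) (calcV x 2) := (K.calcTT_cyc _ _ _).symm
  have h2 : K.calcTT (calcV x 2) (calcV x 0) (calcV x 1) =
    K.calcTT (calcV x 0) (calcV x 1) (calcV x 2) := K.calcTT_cyc _ _ _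
  have h3 : K.calcTT (calcV x 1) (calcV x 0) (calcV x 2) =
    -K.calcTT (calcV x 0) (calcV x 1) (calcV x 2) := K.calcTT_swap _ _ _
  have h4 : K.calcTT (calcV x 0) (calcV x 2) (calcV x 1) =
    -K.calcTT (calcV x 0) (calcV x 1) (calcV x 2) := by rw [K.calcTT_swap (calcV x 2), h2]
  have h5 : K.calcTT (calcV x 2) (calcV x 1) (calcV x 0) =
    -K.calcTT (calcV x 0) (calcV x 1) (calcV x 2) := by rw [K.calcTT_swap (calcV x 1), h1]
  have e : ∀ A B C : Fin 3, (A = B ∧ eps A B C = 0) ∨ (B = C ∧ eps A B C = 0) ∨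
      (A = C ∧ eps A B C = 0) ∨ (A = 0 ∧ B = 1 ∧ C = 2 ∧ eps A B C = 1) ∨
      (A = 1 ∧ B = 2 ∧ C = 0 ∧ eps A B C = 1) ∨ (A = 2 ∧ B = 0 ∧ C = 1 ∧ eps A B C = 1) ∨
      (A = 1 ∧ B = 0 ∧ C = 2 ∧ eps A B C = -1) ∨ (A = 0 ∧ B = 2 ∧ C = 1 ∧ eps A B C = -1) ∨
      (A = 2 ∧ B = 1 ∧ C = 0 ∧ eps A B C = -1) := by decide
  rcases e A B C with ⟨h, he⟩ | ⟨h, he⟩ | ⟨h, he⟩ | ⟨a, b, c, he⟩ | ⟨a, b, c, he⟩ | ⟨a, b, c, he⟩ |
    ⟨a, b, c, he⟩ | ⟨a, b, c, he⟩ | ⟨a, b, c, he⟩
  · rw [he, h, hd]; simp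
  · rw [he, h, hd2]; simp
  · rw [he, h, hd3]; simp
  · rw [he, a, b, c]; simp
  · rw [he, a, b, c, h1]; simp
  · rw [he, a, b, c, h2]; simp
  · rw [he, a, b, c, h3]; simp
  · rw [he, a, b, c, h4]; simp
  · rw [he, a, b, c, h5]; simp

private lemma calc_hh_eq (x : X3) :
    K.hh x = K.f0 * K.calcTT (calcV x 0) (calcV x 1) (calcV x 2) := rfl

/-- invariance of `h` under all rotations -/
theorem hh_act (U : SU2) (x : X3) : K.hh (act U x) = K.hh x := by
  have h1 : K.calcTT (calcV (act U x) 0) (calcV (act U x) 1) (calcV (act U x) 2) =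
      ∑ A', ∑ B', ∑ C', rotm U 0 A' * rotm U 1 B' * rotm U 2 C' *
        K.calcTT (calcV x A') (calcV x B') (calcV x C') := by
    have h0 : ∀ A, calcV (act U x) A = fun i => ∑ D, rotm U A D * calcV x D i := fun A => rfl
    rw [h0, h0, h0, calcTT_lin1]
    refine Finset.sum_congr rfl fun A' _ => ?_
    rw [calcTT_lin2, Finset.mul_sum]
    refine Finset.sum_congr rfl fun B' _ => ?_
    rw [calcTT_lin3, Finset.mul_sum, Finset.mul_sum]
    refine Finset.sum_congr rfl fun C' _ => ?_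
    ring
  rw [calc_hh_eq, calc_hh_eq, h1]
  have h2 : ∀ A' B' C', rotm U 0 A' * rotm U 1 B' * rotm U 2 C' *
      K.calcTT (calcV x A') (calcV x B') (calcV x C') =
      rotm U 0 A' * rotm U 1 B' * rotm U 2 C' * (eps A' B' C' : ℝ) *
        K.calcTT (calcV x 0) (calcV x 1) (calcV x 2) := by
    intro A' B' C'
    rw [K.calcTT_eps x A' B' C']
    ring
  simp only [h2, ← Finset.sum_mul]
  rw [rotm_eps]
  have h3 : (eps 0 1 2 : ℝ) = 1 := by
    have : eps 0 1 2 = 1 := by decide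
    rw [this]; simp
  rw [h3, one_mul]

private lemma calc_fderiv_hh (x v : X3) : fderiv ℝ K.hh x v =
    K.f0 * (K.calcTT (calcV v 0) (calcV x 1) (calcV x 2) +
      K.calcTT (calcV x 0) (calcV v 1) (calcV x 2) +
      K.calcTT (calcV x 0) (calcV x 1) (calcV v 2)) := by
  have h1 : ∀ p : Fin 9 × Fin 3, HasFDerivAt (fun y : X3 => y p)
      (EuclideanSpace.proj (𝕜 := ℝ) p : X3 →L[ℝ] ℝ) x := fun p =>
    (EuclideanSpace.proj (𝕜 := ℝ) p).hasFDerivAt
  have h2 : HasFDerivAt K.hh _ x := HasFDerivAt.const_mul (HasFDerivAt.fun_sum fun k _ =>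
    HasFDerivAt.fun_sum fun i _ => HasFDerivAt.fun_sum fun j _ =>
      (((h1 (e9 i, 0)).const_mul (K.t k i j)).mul (h1 (e9 j, 1))).mul (h1 (e9 k, 2))) K.f0
  have h3 : ∀ (p : Fin 9 × Fin 3) (w : X3),
      (EuclideanSpace.proj (𝕜 := ℝ) p : X3 →L[ℝ] ℝ) w = w p := fun p w => rfl
  rw [h2.fderiv]
  simp only [_root_.smul_apply, _root_.sum_apply, _root_.add_apply, smul_eq_mul,
    h3, Pi.mul_apply, calcTT, calcV, ← Finset.sum_add_distrib]
  congr 1
  refine Finset.sum_congr rfl fun k _ => Finset.sum_congr rfl fun i _ =>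
    Finset.sum_congr rfl fun j _ => ?_
  ring

private lemma calc_single (i : Fin 7) (A D : Fin 3) :
    calcV (EuclideanSpace.single (e9 i, A) (1 : ℝ)) D =
      if D = A then (fun p => if p = i then 1 else 0) else 0 := by
  funext p
  simp only [calcV, PiLp.single_apply, Prod.mk.injEq, Fin.castSucc_inj]
  by_cases h1 : p = i <;> by_cases h2 : D = A <;> simp [h1, h2]

private lemma calcTT_zero1 (b c : Fin 7 → ℝ) : K.calcTT 0 b c = 0 := by
  simp [calcTT]

private lemma calcTT_zero2 (b c : Fin 7 → ℝ) : K.calcTT b 0 c = 0 := by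
  simp [calcTT]

private lemma calcTT_zero3 (b c : Fin 7 → ℝ) : K.calcTT b c 0 = 0 := by
  simp [calcTT]

private lemma calc_dhc_eq (i : Fin 7) (A : Fin 3) (x : X3) :
    K.dhc i A x = K.f0 / 2 * ∑ B, ∑ C, (eps A B C : ℝ) *
      K.calcTT (fun p => if p = i then 1 else 0) (calcV x B) (calcV x C) := by
  simp only [calcTT_single, dhc, Finset.mul_sum, mul_assoc, calcV]

private lemma calc_eps3 : (∀ C, eps 0 0 C = 0) ∧ (∀ C, eps 0 C 0 = 0) ∧ (∀ C, eps 1 1 C = 0) ∧
    (∀ C, eps 1 C 1 = 0) ∧ (∀ C, eps 2 2 C = 0) ∧ (∀ C, eps 2 C 2 = 0) ∧ (∀ A C, eps A C C = 0) ∧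
    eps 0 1 2 = 1 ∧ eps 0 2 1 = -1 ∧ eps 1 2 0 = 1 ∧ eps 1 0 2 = -1 ∧ eps 2 0 1 = 1 ∧
    eps 2 1 0 = -1 := by decide

theorem pdr_hh (i : Fin 7) (A : Fin 3) (x : X3) : pdr (e9 i) A K.hh x = K.dhc i A x := by
  have hA : ∀ A : Fin 3, A = 0 ∨ A = 1 ∨ A = 2 := by decide
  obtain ⟨z1, z2, z3, z4, z5, z6, z7, e1, e2, e3, e4, e5, e6⟩ := calc_eps3
  rw [pdr, calc_fderiv_hh, calc_dhc_eq]
  simp only [calc_single]
  set s : Fin 7 → ℝ := fun p => if p = i then 1 else 0 with hs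
  have hsw : ∀ b c, K.calcTT s c b = -K.calcTT s b c := by
    intro b c
    rw [calcTT_cyc, calcTT_swap, ← calcTT_cyc]
  rcases hA A with rfl | rfl | rfl
  · have h : ∑ B, ∑ C, (eps 0 B C : ℝ) * K.calcTT s (calcV x B) (calcV x C) =
        2 * K.calcTT s (calcV x 1) (calcV x 2) := by
      simp only [Fin.sum_univ_three, z1, z2, z7, e1, e2, hsw (calcV x 1) (calcV x 2)]
      push_cast
      ring
    rw [h, if_pos rfl, if_neg (by decide), if_neg (by decide), calcTT_zero2, calcTT_zero3]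
    ring
  · have h : ∑ B, ∑ C, (eps 1 B C : ℝ) * K.calcTT s (calcV x B) (calcV x C) =
        2 * K.calcTT s (calcV x 2) (calcV x 0) := by
      simp only [Fin.sum_univ_three, z3, z4, z7, e3, e4, hsw (calcV x 2) (calcV x 0)]
      push_cast
      ring
    rw [h, if_pos rfl, if_neg (by decide), if_neg (by decide), calcTT_zero1, calcTT_zero3,
      K.calcTT_cyc (calcV x 0) s]
    ring
  · have h : ∑ B, ∑ C, (eps 2 B C : ℝ) * K.calcTT s (calcV x B) (calcV x C) =
        2 * K.calcTT s (calcV x 0) (calcV x 1) := by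
      simp only [Fin.sum_univ_three, z5, z6, z7, e5, e6, hsw (calcV x 0) (calcV x 1)]
      push_cast
      ring
    rw [h, if_pos rfl, if_neg (by decide), if_neg (by decide), calcTT_zero1, calcTT_zero2,
      ← K.calcTT_cyc s]
    ring

private lemma calc_single' (i : Fin 9) (hi : ∀ p : Fin 7, e9 p ≠ i) (A D : Fin 3) :
    calcV (EuclideanSpace.single (i, A) (1 : ℝ)) D = 0 := by
  funext p
  simp [calcV, hi p]

private lemma calc_pdr0 (i : Fin 9) (hi : ∀ p : Fin 7, e9 p ≠ i) (A : Fin 3) (x : X3) :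
    pdr i A K.hh x = 0 := by
  rw [pdr, calc_fderiv_hh, calc_single' i hi, calc_single' i hi, calc_single' i hi, calcTT_zero1,
    calcTT_zero2, calcTT_zero3]
  simp

theorem pdr_hh_7 (A : Fin 3) (x : X3) : pdr 7 A K.hh x = 0 :=
  K.calc_pdr0 7 (by decide) A x

theorem pdr_hh_8 (A : Fin 3) (x : X3) : pdr 8 A K.hh x = 0 :=
  K.calc_pdr0 8 (by decide) A x

private lemma calc_eps4 : ∀ A C : Fin 3,
    eps 0 A C * eps C 1 2 + eps 1 A C * eps 0 C 2 + eps 2 A C * eps 0 1 C = 0 := by decide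

theorem orb_hh (A : Fin 3) (x : X3) :
    ∑ i : Fin 9, ∑ B, ∑ C, ((eps B A C : ℝ) * x (i, C)) * pdr i B K.hh x = 0 := by
  have h1 : ∑ i : Fin 9, ∑ B, ∑ C, ((eps B A C : ℝ) * x (i, C)) * pdr i B K.hh x =
      fderiv ℝ K.hh x (∑ i : Fin 9, ∑ B, ∑ C, ((eps B A C : ℝ) * x (i, C)) •
        EuclideanSpace.single (i, B) (1 : ℝ)) := by
    simp only [map_sum, map_smul, smul_eq_mul, pdr]
  have h2 : ∀ D, calcV (∑ i : Fin 9, ∑ B, ∑ C, ((eps B A C : ℝ) * x (i, C)) •
        (EuclideanSpace.single (i, B) (1 : ℝ) : X3)) D =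
      fun p => ∑ C, (eps D A C : ℝ) * calcV x C p := by
    intro D
    funext p
    simp only [calcV, WithLp.ofLp_sum, Finset.sum_apply, WithLp.ofLp_smul, Pi.smul_apply,
      PiLp.single_apply, Prod.mk.injEq, smul_eq_mul, mul_ite, mul_one, mul_zero]
    rw [Finset.sum_eq_single (e9 p) (fun i _ hi => ?_) (fun h => absurd (Finset.mem_univ _) h),
      Finset.sum_eq_single D (fun B _ hB => ?_) (fun h => absurd (Finset.mem_univ _) h)]
    · simp
    · exact Finset.sum_eq_zero fun C _ => if_neg (fun h => hB h.2.symm)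
    · exact Finset.sum_eq_zero fun B _ => Finset.sum_eq_zero fun C _ =>
        if_neg (fun h => hi h.1.symm)
  rw [h1, calc_fderiv_hh, h2, h2, h2, calcTT_lin1, calcTT_lin2, calcTT_lin3]
  have h3 : ∀ C, (eps 0 A C : ℝ) * K.calcTT (calcV x C) (calcV x 1) (calcV x 2) +
      (eps 1 A C : ℝ) * K.calcTT (calcV x 0) (calcV x C) (calcV x 2) +
      (eps 2 A C : ℝ) * K.calcTT (calcV x 0) (calcV x 1) (calcV x C) = 0 := by
    intro C
    rw [K.calcTT_eps x C 1 2, K.calcTT_eps x 0 C 2, K.calcTT_eps x 0 1 C]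
    have h4 : (eps 0 A C : ℝ) * (eps C 1 2 : ℝ) + (eps 1 A C : ℝ) * (eps 0 C 2 : ℝ) +
        (eps 2 A C : ℝ) * (eps 0 1 C : ℝ) = 0 := by exact_mod_cast calc_eps4 A C
    linear_combination K.calcTT (calcV x 0) (calcV x 1) (calcV x 2) * h4
  rw [← Finset.sum_add_distrib, ← Finset.sum_add_distrib,
    Finset.sum_eq_zero fun C _ => h3 C, mul_zero]

private lemma calc_dhh (x : X3) : DifferentiableAt ℝ K.hh x :=
  (K.contDiff_hh.differentiable (by simp)) x

private lemma calc_pdr_exp (i : Fin 9) (A : Fin 3) (x : X3) :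
    pdr i A (fun y => Real.exp (-K.hh y)) x = -(Real.exp (-K.hh x) * pdr i A K.hh x) := by
  have h : HasFDerivAt (fun y => Real.exp (-K.hh y)) (Real.exp (-K.hh x) • -fderiv ℝ K.hh x) x :=
    (K.calc_dhh x).hasFDerivAt.neg.exp
  rw [pdr, h.fderiv]
  simp [pdr]

private lemma calc_dexp (x : X3) : DifferentiableAt ℝ (fun y => Real.exp (-K.hh y)) x :=
  (K.calc_dhh x).neg.exp

/-- `(D + dh)(e^{-h} u) = e^{-h} D u` -/
theorem DD_exp {u : X3 → F} {x : X3} (hu : DifferentiableAt ℝ u x) :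
    K.DD (fun y => (Real.exp (-K.hh y) : ℂ) • u y) x = (Real.exp (-K.hh x) : ℂ) • K.D0 u x := by
  rw [K.DD_smul (K.calc_dexp x) hu]
  simp only [calc_pdr_exp, pdr_hh, pdr_hh_7, pdr_hh_8, mul_zero, neg_zero, Complex.ofReal_zero,
    add_zero, zero_smul, Finset.sum_const_zero]
  rw [DD, dh]
  simp only [_root_.sum_apply, _root_.smul_apply, smul_add, Finset.smul_sum, smul_smul,
    Complex.ofReal_neg, Complex.ofReal_mul, neg_smul, Finset.sum_neg_distrib]
  abel

theorem LL_exp (A : Fin 3) {u : X3 → F} {x : X3} (hu : DifferentiableAt ℝ u x) :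
    K.LL A (fun y => (Real.exp (-K.hh y) : ℂ) • u y) x = (Real.exp (-K.hh x) : ℂ) • K.LL A u x := by
  have h : ∀ i A, pd i A (fun y => ((Real.exp (-K.hh y) : ℝ) : ℂ) • u y) x =
      ((pdr i A (fun y => Real.exp (-K.hh y)) x : ℝ) : ℂ) • u x +
        ((Real.exp (-K.hh x) : ℝ) : ℂ) • pd i A u x := fun i A => pd_rsmul (K.calc_dexp x) hu
  have h2 : ∑ i : Fin 9, ∑ B, ∑ C, ((eps B A C : ℂ) * (x (i, C) : ℂ)) •
      (((pdr i B (fun y => Real.exp (-K.hh y)) x : ℝ) : ℂ) • u x) = 0 := by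
    simp only [smul_smul, ← Finset.sum_smul, calc_pdr_exp]
    have h3 : ∑ i : Fin 9, ∑ B, ∑ C, ((eps B A C : ℂ) * (x (i, C) : ℂ)) *
        ((-(Real.exp (-K.hh x) * pdr i B K.hh x) : ℝ) : ℂ) =
        ((-Real.exp (-K.hh x) * ∑ i : Fin 9, ∑ B, ∑ C,
          ((eps B A C : ℝ) * x (i, C)) * pdr i B K.hh x : ℝ) : ℂ) := by
      push_cast
      simp only [Finset.mul_sum]
      refine Finset.sum_congr rfl fun i _ => Finset.sum_congr rfl fun B _ =>
        Finset.sum_congr rfl fun C _ => ?_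
      ring
    rw [h3, orb_hh, mul_zero, Complex.ofReal_zero, zero_smul]
  simp only [LL, orb, h, smul_add, Finset.sum_add_distrib, map_smul]
  rw [h2, zero_add]
  simp only [Finset.smul_sum]
  congr 1
  exact Finset.sum_congr rfl fun i _ => Finset.sum_congr rfl fun B _ =>
    Finset.sum_congr rfl fun C _ => smul_comm _ _ _

end Fk

end Vale.Agent.P353.Ex
end

section

/-! Task EX-07: `(D + dh)² = ν ∑ φ_A L_A`.

`D0 D0 u = ν ∑ φ_A LL_A u`: write `D0 = d + ν ∑ φ_A ι_A`; `d d = 0` (mixed partials commute, `c`'s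
anticommute), `d φ_A = φ_A d` (only the antiholomorphic derivative occurs), `{d, ι_A} = L_A - (φ
part of the rotation)`, and the `φ` parts cancel in `∑_A φ_A (e_A × φ)·∂_φ = 0`; `{ι_A, ι_B} = 0`.
`{D0, dh}`: `d(dh) = 0` (symmetric second derivatives), `{ι_A, dh} = L_A h = 0`; `dh dh = 0`. -/

open MeasureTheory Filter Topology
open scoped ContDiff ComplexConjugate

namespace Vale.Agent.P353.Ex

variable {F : Type*} [NormedAddCommGroup F] [InnerProductSpace ℂ F]

/-! ### algebra of the creation and annihilation operators -/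

section car

variable {ι : Type*} [Fintype ι] {c a : ι → (F →L[ℂ] F)}

/-- antisymmetric operators against a symmetric family -/
private lemma sq_l1 (hcc : ∀ α β, c α * c β + c β * c α = 0) {w : ι → ι → F}
    (hw : ∀ α β, w α β = w β α) : ∑ α, ∑ β, c α (c β (w α β)) = 0 := by
  have h1 : ∀ α β, c α (c β (w α β)) = -(c β (c α (w β α))) := by
    intro α β
    have h2 := congrArg (fun T : F →L[ℂ] F => T (w α β)) (hcc α β)
    have h3 : c α (c β (w α β)) + c β (c α (w α β)) = 0 := h2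
    rw [hw β α]
    exact eq_neg_of_add_eq_zero_left h3
  have h4 : ∑ α, ∑ β, c α (c β (w α β)) = -∑ α, ∑ β, c α (c β (w α β)) := by
    calc ∑ α, ∑ β, c α (c β (w α β)) = ∑ α, ∑ β, -(c β (c α (w β α))) :=
          Finset.sum_congr rfl fun α _ => Finset.sum_congr rfl fun β _ => h1 α β
      _ = -∑ α, ∑ β, c β (c α (w β α)) := by simp only [Finset.sum_neg_distrib]
      _ = -∑ α, ∑ β, c α (c β (w α β)) := by rw [Finset.sum_comm]
  have h5 : (2 : ℂ) • ∑ α, ∑ β, c α (c β (w α β)) = 0 := by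
    rw [two_smul]
    nth_rewrite 1 [h4]
    exact neg_add_cancel _
  rcases smul_eq_zero.1 h5 with h6 | h6
  · norm_num at h6
  · exact h6

private lemma sq_l3 [DecidableEq ι] (hcc : ∀ α β, c α * c β + c β * c α = 0)
    (hac : ∀ α β, a α * c β + c β * a α = if α = β then 1 else 0) (p q : ι → ℂ) (v : ι → F) :
    (∑ α, c α (∑ β, (p β • a β (v α) + q β • c β (v α)))) +
      ∑ β, (p β • a β (∑ α, c α (v α)) + q β • c β (∑ α, c α (v α))) = ∑ α, p α • v α := by
  have h1 : ∀ α β, c α (p β • a β (v α) + q β • c β (v α)) +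
      (p β • a β (c α (v α)) + q β • c β (c α (v α))) = if α = β then p β • v α else 0 := by
    intro α β
    have h2 : a β (c α (v α)) + c α (a β (v α)) = if β = α then v α else 0 := by
      have h := congrArg (fun T : F →L[ℂ] F => T (v α)) (hac β α)
      by_cases hb : β = α
      · rw [if_pos hb] at h ⊢; exact h
      · rw [if_neg hb] at h ⊢; exact h
    have h3 : c α (c β (v α)) + c β (c α (v α)) = 0 :=
      congrArg (fun T : F →L[ℂ] F => T (v α)) (hcc α β)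
    rw [map_add, map_smul, map_smul]
    calc p β • c α (a β (v α)) + q β • c α (c β (v α)) +
        (p β • a β (c α (v α)) + q β • c β (c α (v α)))
        = p β • (a β (c α (v α)) + c α (a β (v α))) +
          q β • (c α (c β (v α)) + c β (c α (v α))) := by module
      _ = if α = β then p β • v α else 0 := by
        rw [h2, h3, smul_zero, add_zero]
        by_cases hb : β = α
        · rw [if_pos hb, if_pos hb.symm]
        · rw [if_neg hb, if_neg (fun h => hb h.symm), smul_zero]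
  have h4 : ∑ β, (p β • a β (∑ α, c α (v α)) + q β • c β (∑ α, c α (v α))) =
      ∑ α, ∑ β, (p β • a β (c α (v α)) + q β • c β (c α (v α))) := by
    rw [Finset.sum_comm]
    refine Finset.sum_congr rfl fun β _ => ?_
    rw [map_sum, map_sum, Finset.smul_sum, Finset.smul_sum, ← Finset.sum_add_distrib]
  rw [h4, ← Finset.sum_add_distrib]
  refine Finset.sum_congr rfl fun α _ => ?_
  rw [map_sum, ← Finset.sum_add_distrib]
  rw [Finset.sum_congr rfl fun β _ => h1 α β, Finset.sum_ite_eq, if_pos (Finset.mem_univ _)]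

private lemma sq_l2 [DecidableEq ι] (hcc : ∀ α β, c α * c β + c β * c α = 0)
    (haa : ∀ α β, a α * a β + a β * a α = 0)
    (hac : ∀ α β, a α * c β + c β * a α = if α = β then 1 else 0) (p q : ι → ℂ) (v : F) :
    ∑ α, (p α • a α (∑ β, (p β • a β v + q β • c β v)) +
      q α • c α (∑ β, (p β • a β v + q β • c β v))) = (∑ α, p α * q α) • v := by
  have h2 : (2 : ℂ) • ∑ α, (p α • a α (∑ β, (p β • a β v + q β • c β v)) +
      q α • c α (∑ β, (p β • a β v + q β • c β v))) = (2 : ℂ) • (∑ α, p α * q α) • v := by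
    have h1 : ∀ α β, (p α • a α (p β • a β v + q β • c β v) +
        q α • c α (p β • a β v + q β • c β v)) +
        (p β • a β (p α • a α v + q α • c α v) +
        q β • c β (p α • a α v + q α • c α v)) =
        if α = β then (2 : ℂ) • (p α * q α) • v else 0 := by
      intro α β
      have e1 : c α (c β v) + c β (c α v) = 0 :=
        congrArg (fun T : F →L[ℂ] F => T v) (hcc α β)
      have e2 : a α (a β v) + a β (a α v) = 0 :=
        congrArg (fun T : F →L[ℂ] F => T v) (haa α β)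
      have e3 : a α (c β v) + c β (a α v) = if α = β then v else 0 := by
        have h := congrArg (fun T : F →L[ℂ] F => T v) (hac α β)
        by_cases hb : α = β
        · rw [if_pos hb] at h ⊢; exact h
        · rw [if_neg hb] at h ⊢; exact h
      have e4 : a β (c α v) + c α (a β v) = if α = β then v else 0 := by
        have h := congrArg (fun T : F →L[ℂ] F => T v) (hac β α)
        by_cases hb : α = β
        · rw [if_pos hb.symm] at h; rw [if_pos hb]; exact h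
        · rw [if_neg (fun h => hb h.symm)] at h; rw [if_neg hb]; exact h
      simp only [map_add, map_smul]
      calc _ = (p α * p β) • (a α (a β v) + a β (a α v)) +
            (q α * q β) • (c α (c β v) + c β (c α v)) +
            (p α * q β) • (a α (c β v) + c β (a α v)) +
            (q α * p β) • (a β (c α v) + c α (a β v)) := by module
        _ = _ := by
          rw [e1, e2, e3, e4]
          by_cases hb : α = β
          · subst hb
            simp only [if_true]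
            module
          · simp only [if_neg hb, smul_zero, add_zero]
    rw [two_smul]
    have h3 : ∑ α, (p α • a α (∑ β, (p β • a β v + q β • c β v)) +
        q α • c α (∑ β, (p β • a β v + q β • c β v))) =
        ∑ α, ∑ β, (p α • a α (p β • a β v + q β • c β v) +
          q α • c α (p β • a β v + q β • c β v)) := by
      refine Finset.sum_congr rfl fun α _ => ?_
      rw [map_sum, map_sum, Finset.smul_sum, Finset.smul_sum, ← Finset.sum_add_distrib]
    rw [h3]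
    nth_rewrite 2 [Finset.sum_comm]
    rw [← Finset.sum_add_distrib]
    simp only [← Finset.sum_add_distrib]
    rw [Finset.sum_congr rfl fun α _ => Finset.sum_congr rfl fun β _ => h1 α β]
    simp only [Finset.sum_ite_eq, Finset.mem_univ, if_true]
    rw [← Finset.smul_sum, ← Finset.sum_smul]
  have h4 := congrArg (fun z : F => (2 : ℂ)⁻¹ • z) h2
  simpa only [smul_smul, inv_mul_cancel₀ (two_ne_zero : (2 : ℂ) ≠ 0), one_smul, ← mul_assoc,
    one_mul] using h4

end car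

/-! ### calculus -/

private lemma sq_snd_comm {G : Type*} [NormedAddCommGroup G] [NormedSpace ℝ G] {u : X3 → G}
    (hu : ContDiff ℝ ∞ u) (e e' x : X3) :
    fderiv ℝ (fun y => fderiv ℝ u y e) x e' = fderiv ℝ (fun y => fderiv ℝ u y e') x e := by
  have hd : DifferentiableAt ℝ (fderiv ℝ u) x :=
    ((hu.fderiv_right (m := ∞) (by simp)).differentiable (by simp)) x
  have h1 : ∀ e e' : X3, fderiv ℝ (fun y => fderiv ℝ u y e) x e' =
      fderiv ℝ (fderiv ℝ u) x e' e := by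
    intro e e'
    rw [fderiv_clm_apply hd (differentiableAt_const e)]
    simp
  rw [h1, h1]
  have h2 : IsSymmSndFDerivAt ℝ u x := by
    refine (hu.contDiffAt (x := x)).isSymmSndFDerivAt ?_
    rw [minSmoothness_of_isRCLikeNormedField]
    exact WithTop.coe_le_coe.2 le_top
  exact h2.eq e' e

private lemma sq_diff_fderiv {G : Type*} [NormedAddCommGroup G] [NormedSpace ℝ G] {u : X3 → G}
    (hu : ContDiff ℝ ∞ u) (e : X3) : ContDiff ℝ ∞ (fun y => fderiv ℝ u y e) :=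
  (hu.fderiv_right (m := ∞) (by simp)).clm_apply contDiff_const

namespace Fk

variable (K : Fk F)

private noncomputable def sgi (i : Fin 8) : ℂ := if i = 7 then Complex.I * (K.sg : ℂ) else 0

private noncomputable def gd (α : Fin 8 × Fin 3) (u : X3 → F) (x : X3) : F :=
  pd (f9 α.1) α.2 u x + K.sgi α.1 • pd 8 α.2 u x

private noncomputable def gs (α : Fin 8 × Fin 3) (c : X3 → ℂ) (x : X3) : ℂ :=
  fderiv ℝ c x (EuclideanSpace.single (f9 α.1, α.2) 1) +
    K.sgi α.1 * fderiv ℝ c x (EuclideanSpace.single (8, α.2) 1)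

private lemma contDiff_gd (α : Fin 8 × Fin 3) {u : X3 → F} (hu : ContDiff ℝ ∞ u) :
    ContDiff ℝ ∞ (K.gd α u) := by
  unfold gd
  exact (contDiff_pd hu).add ((contDiff_pd hu).const_smul _)

private lemma contDiff_gs (α : Fin 8 × Fin 3) {c : X3 → ℂ} (hc : ContDiff ℝ ∞ c) :
    ContDiff ℝ ∞ (K.gs α c) := by
  unfold gs
  exact (sq_diff_fderiv hc _).add (contDiff_const.mul (sq_diff_fderiv hc _))

private lemma sq_pd_comm {u : X3 → F} (hu : ContDiff ℝ ∞ u) (i j : Fin 9) (A B : Fin 3) (x : X3) :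
    pd i A (pd j B u) x = pd j B (pd i A u) x :=
  sq_snd_comm hu _ _ x

private lemma gd_add (α : Fin 8 × Fin 3) {u v : X3 → F} {x : X3} (hu : DifferentiableAt ℝ u x)
    (hv : DifferentiableAt ℝ v x) :
    K.gd α (fun y => u y + v y) x = K.gd α u x + K.gd α v x := by
  unfold gd
  rw [pd_add hu hv, pd_add hu hv]
  module

private lemma gd_sum {ι : Type*} (s : Finset ι) (α : Fin 8 × Fin 3) {u : ι → X3 → F} {x : X3}
    (hu : ∀ k ∈ s, DifferentiableAt ℝ (u k) x) :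
    K.gd α (fun y => ∑ k ∈ s, u k y) x = ∑ k ∈ s, K.gd α (u k) x := by
  unfold gd
  rw [pd_sum s hu, pd_sum s hu, Finset.smul_sum, ← Finset.sum_add_distrib]

private lemma gd_clm (α : Fin 8 × Fin 3) (T : F →L[ℂ] F) {u : X3 → F} {x : X3}
    (hu : DifferentiableAt ℝ u x) :
    K.gd α (fun y => T (u y)) x = T (K.gd α u x) := by
  unfold gd
  rw [pd_clm T hu, pd_clm T hu, map_add, map_smul]

private lemma gd_csmul (α : Fin 8 × Fin 3) {c : X3 → ℂ} {u : X3 → F} {x : X3}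
    (hc : DifferentiableAt ℝ c x) (hu : DifferentiableAt ℝ u x) :
    K.gd α (fun y => c y • u y) x = K.gs α c x • u x + c x • K.gd α u x := by
  unfold gd gs
  rw [pd_csmul hc hu, pd_csmul hc hu]
  module

private lemma gs_mul (α : Fin 8 × Fin 3) {c d : X3 → ℂ} {x : X3}
    (hc : DifferentiableAt ℝ c x) (hd : DifferentiableAt ℝ d x) :
    K.gs α (fun y => c y * d y) x = K.gs α c x * d x + c x * K.gs α d x := by
  unfold gs
  rw [fderiv_fun_mul hc hd]
  simp only [add_apply, smul_apply, smul_eq_mul]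
  ring

private lemma gs_const_mul (α : Fin 8 × Fin 3) (c : ℂ) {d : X3 → ℂ} {x : X3}
    (hd : DifferentiableAt ℝ d x) :
    K.gs α (fun y => c * d y) x = c * K.gs α d x := by
  unfold gs
  rw [fderiv_const_mul hd]
  simp only [smul_apply, smul_eq_mul]
  ring

private lemma gs_sum {ι : Type*} (s : Finset ι) (α : Fin 8 × Fin 3) {u : ι → X3 → ℂ} {x : X3}
    (hu : ∀ k ∈ s, DifferentiableAt ℝ (u k) x) :
    K.gs α (fun y => ∑ k ∈ s, u k y) x = ∑ k ∈ s, K.gs α (u k) x := by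
  unfold gs
  rw [fderiv_fun_sum hu]
  simp only [sum_apply, Finset.mul_sum, ← Finset.sum_add_distrib]

private lemma gd_comm (α β : Fin 8 × Fin 3) {u : X3 → F} (hu : ContDiff ℝ ∞ u) (x : X3) :
    K.gd α (K.gd β u) x = K.gd β (K.gd α u) x := by
  have h1 : ∀ (i : Fin 9) (A : Fin 3) (γ : Fin 8 × Fin 3), pd i A (K.gd γ u) x =
      pd i A (pd (f9 γ.1) γ.2 u) x + K.sgi γ.1 • pd i A (pd 8 γ.2 u) x := by
    intro i A γ
    have d1 : DifferentiableAt ℝ (pd (f9 γ.1) γ.2 u) x :=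
      ((contDiff_pd hu).differentiable (by simp)) x
    have d2 : DifferentiableAt ℝ (pd 8 γ.2 u) x :=
      ((contDiff_pd hu).differentiable (by simp)) x
    have h2 : pd i A (fun y => K.sgi γ.1 • pd 8 γ.2 u y) x =
        K.sgi γ.1 • pd i A (pd 8 γ.2 u) x := by
      rw [pd_csmul (differentiableAt_const _) d2]
      simp
    rw [← h2]
    exact pd_add d1 (d2.const_smul _)
  change pd (f9 α.1) α.2 (K.gd β u) x + K.sgi α.1 • pd 8 α.2 (K.gd β u) x =
    pd (f9 β.1) β.2 (K.gd α u) x + K.sgi β.1 • pd 8 β.2 (K.gd α u) x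
  rw [h1, h1, h1, h1, sq_pd_comm hu (f9 α.1) (f9 β.1), sq_pd_comm hu (f9 α.1) 8,
    sq_pd_comm hu 8 (f9 β.1), sq_pd_comm hu 8 8 α.2 β.2]
  module

private lemma gs_comm (α β : Fin 8 × Fin 3) {c : X3 → ℂ} (hc : ContDiff ℝ ∞ c) (x : X3) :
    K.gs α (K.gs β c) x = K.gs β (K.gs α c) x := by
  have h1 : ∀ (e : X3) (γ : Fin 8 × Fin 3), fderiv ℝ (K.gs γ c) x e =
      fderiv ℝ (fun y => fderiv ℝ c y (EuclideanSpace.single (f9 γ.1, γ.2) 1)) x e +
      K.sgi γ.1 * fderiv ℝ (fun y => fderiv ℝ c y (EuclideanSpace.single (8, γ.2) 1)) x e := by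
    intro e γ
    have d1 := ((sq_diff_fderiv hc (EuclideanSpace.single (f9 γ.1, γ.2) 1)).differentiable
      (by simp)) x
    have d2 := ((sq_diff_fderiv hc (EuclideanSpace.single (8, γ.2) 1)).differentiable
      (by simp)) x
    unfold gs
    rw [fderiv_fun_add d1 (d2.const_mul _), fderiv_const_mul d2]
    simp only [add_apply, smul_apply, smul_eq_mul]
  change fderiv ℝ (K.gs β c) x _ + K.sgi α.1 * fderiv ℝ (K.gs β c) x _ =
    fderiv ℝ (K.gs α c) x _ + K.sgi β.1 * fderiv ℝ (K.gs α c) x _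
  rw [h1, h1, h1, h1, sq_snd_comm hc (EuclideanSpace.single (f9 β.1, β.2) 1)
      (EuclideanSpace.single (f9 α.1, α.2) 1),
    sq_snd_comm hc (EuclideanSpace.single (8, β.2) 1) (EuclideanSpace.single (f9 α.1, α.2) 1),
    sq_snd_comm hc (EuclideanSpace.single (f9 β.1, β.2) 1) (EuclideanSpace.single (8, α.2) 1),
    sq_snd_comm hc (EuclideanSpace.single (8, β.2) 1) (EuclideanSpace.single (8, α.2) 1)]
  ring

/-! ### the coordinates -/

private noncomputable def cl (p : Fin 9 × Fin 3) : X3 →L[ℝ] ℂ :=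
  Complex.ofRealCLM.comp (EuclideanSpace.proj p : X3 →L[ℝ] ℝ)

private lemma cl_apply (p : Fin 9 × Fin 3) (x : X3) : cl p x = (x p : ℂ) := rfl

private noncomputable def phL (A : Fin 3) : X3 →L[ℝ] ℂ :=
  cl (7, A) + (Complex.I * (K.sg : ℂ)) • cl (8, A)

private noncomputable def ycL (i : Fin 8) (A : Fin 3) : X3 →L[ℝ] ℂ :=
  if i = 7 then (1 / 2 : ℂ) • (cl (7, A) - (Complex.I * (K.sg : ℂ)) • cl (8, A))
  else cl (f9 i, A)

private lemma ph_eq (A : Fin 3) : K.ph A = fun x => K.phL A x := by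
  funext x
  simp only [ph, phL, add_apply, smul_apply, smul_eq_mul, cl_apply]

private lemma gs_clm (α : Fin 8 × Fin 3) (L : X3 →L[ℝ] ℂ) (x : X3) :
    K.gs α (fun y => L y) x = L (EuclideanSpace.single (f9 α.1, α.2) 1) +
      K.sgi α.1 * L (EuclideanSpace.single (8, α.2) 1) := by
  unfold gs
  have h : fderiv ℝ (fun y => L y) x = L := L.fderiv
  rw [h]

private lemma sgC : (K.sg : ℂ) * (K.sg : ℂ) = 1 := by
  have := K.sg_sq
  exact_mod_cast this

private lemma cl_single (p q : Fin 9 × Fin 3) :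
    cl p (EuclideanSpace.single q (1 : ℝ)) = if p = q then 1 else 0 := by
  rw [cl_apply, PiLp.single_apply]
  split_ifs <;> simp

private lemma f9_ne (k : Fin 8) : ¬ (f9 k = 8) := by
  intro h
  have := congrArg Fin.val h
  simp only [Fin.val_castSucc] at this
  have h2 := k.2
  simp at this
  omega

private lemma f9_ne' (k : Fin 8) : ¬ ((8 : Fin 9) = f9 k) := fun h => f9_ne k h.symm

private lemma f9_seven : (7 : Fin 9) = f9 7 := by decide

private lemma f9_iff (k l : Fin 8) : f9 k = f9 l ↔ k = l := Fin.castSucc_inj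

private lemma gs_ph (α : Fin 8 × Fin 3) (A : Fin 3) (x : X3) : K.gs α (K.ph A) x = 0 := by
  rw [ph_eq, gs_clm]
  obtain ⟨i, B⟩ := α
  have hI := Complex.I_mul_I
  have hs := K.sgC
  simp only [phL, add_apply, smul_apply, smul_eq_mul, cl_single, Prod.mk.injEq, f9_seven, f9_iff,
    f9_ne, f9_ne', false_and, if_false, mul_zero, add_zero, true_and]
  by_cases hi : i = 7
  · subst hi
    by_cases hA : A = B
    · simp only [sgi, if_pos hA, if_true, true_and]
      linear_combination hI * ((K.sg : ℂ) * (K.sg : ℂ)) - hs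
    · simp only [hA, and_false, if_false]
      ring
  · have hi' : ¬ (7 = i) := fun h => hi h.symm
    simp only [sgi, if_neg hi, hi', false_and, if_false]
    ring

private lemma gs_yc (α : Fin 8 × Fin 3) (i : Fin 8) (A : Fin 3) (x : X3) :
    K.gs α (fun y => K.ycL i A y) x = if α = (i, A) then 1 else 0 := by
  rw [gs_clm]
  obtain ⟨j, B⟩ := α
  have hI := Complex.I_mul_I
  have hs := K.sgC
  by_cases hi : i = 7
  · subst hi
    simp only [ycL, if_true, smul_apply, sub_apply, smul_eq_mul, cl_single, Prod.mk.injEq,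
      f9_seven, f9_iff, f9_ne, f9_ne', false_and, if_false, true_and]
    by_cases hj : j = 7
    · subst hj
      by_cases hA : A = B
      · subst hA
        simp only [sgi, if_true, true_and]
        linear_combination (-1 / 2 : ℂ) * hI * ((K.sg : ℂ) * (K.sg : ℂ)) + (1 / 2 : ℂ) * hs
      · have hA' : ¬ (B = A) := fun h => hA h.symm
        simp only [hA, hA', and_false, if_false]
        ring
    · have hj' : ¬ (7 = j) := fun h => hj h.symm
      simp only [sgi, hj, hj', false_and, if_false]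
      ring
  · simp only [ycL, if_neg hi, cl_single, Prod.mk.injEq, f9_iff, f9_ne, false_and, if_false,
      mul_zero, add_zero]
    refine if_congr ?_ rfl rfl
    constructor
    · rintro ⟨rfl, rfl⟩; exact ⟨rfl, rfl⟩
    · rintro ⟨rfl, rfl⟩; exact ⟨rfl, rfl⟩

/-! ### the zeroth order terms -/

private noncomputable def pp (α : Fin 8 × Fin 3) (x : X3) : ℂ :=
  K.nu * ∑ D, K.ph D x * ∑ C, (eps α.2 D C : ℂ) * K.ycL α.1 C x

private noncomputable def qq' (α : Fin 8 × Fin 3) (x : X3) : ℂ :=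
  K.gs α (fun y => (K.hh y : ℂ)) x

private lemma contDiff_ph (A : Fin 3) : ContDiff ℝ ∞ (K.ph A) := by
  rw [ph_eq]; exact (K.phL A).contDiff

private lemma contDiff_hhC : ContDiff ℝ ∞ (fun y => (K.hh y : ℂ)) :=
  Complex.ofRealCLM.contDiff.comp K.contDiff_hh

private lemma contDiff_pp (α : Fin 8 × Fin 3) : ContDiff ℝ ∞ (K.pp α) := by
  unfold pp
  exact contDiff_const.mul (ContDiff.sum fun D _ => (K.contDiff_ph D).mul
    (ContDiff.sum fun C _ => contDiff_const.mul (K.ycL α.1 C).contDiff))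

private lemma contDiff_qq' (α : Fin 8 × Fin 3) : ContDiff ℝ ∞ (K.qq' α) :=
  K.contDiff_gs α K.contDiff_hhC

private lemma gs_pp (α β : Fin 8 × Fin 3) (x : X3) :
    K.gs α (K.pp β) x = if α.1 = β.1 then K.nu * ∑ D, K.ph D x * (eps β.2 D α.2 : ℂ) else 0 := by
  have dph : ∀ D, DifferentiableAt ℝ (K.ph D) x := fun D =>
    ((K.contDiff_ph D).differentiable (by simp)) x
  have dyc : ∀ C, DifferentiableAt ℝ (fun y => K.ycL β.1 C y) x := fun C =>
    (K.ycL β.1 C).differentiableAt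
  have d1 : ∀ D, DifferentiableAt ℝ (fun y => ∑ C, (eps β.2 D C : ℂ) * K.ycL β.1 C y) x :=
    fun D => DifferentiableAt.fun_sum fun C _ => (dyc C).const_mul _
  have d2 : ∀ D, DifferentiableAt ℝ
      (fun y => K.ph D y * ∑ C, (eps β.2 D C : ℂ) * K.ycL β.1 C y) x :=
    fun D => (dph D).mul (d1 D)
  have d3 : DifferentiableAt ℝ
      (fun y => ∑ D, K.ph D y * ∑ C, (eps β.2 D C : ℂ) * K.ycL β.1 C y) x :=
    DifferentiableAt.fun_sum fun D _ => d2 D
  change K.gs α (fun y => K.nu * ∑ D, K.ph D y * ∑ C, (eps β.2 D C : ℂ) * K.ycL β.1 C y) x = _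
  rw [gs_const_mul K α K.nu d3, gs_sum K Finset.univ α fun D _ => d2 D]
  have h1 : ∀ D, K.gs α (fun y => K.ph D y * ∑ C, (eps β.2 D C : ℂ) * K.ycL β.1 C y) x =
      if α.1 = β.1 then K.ph D x * (eps β.2 D α.2 : ℂ) else 0 := by
    intro D
    rw [gs_mul K α (dph D) (d1 D), gs_ph, zero_mul, zero_add,
      gs_sum K Finset.univ α fun C _ => (dyc C).const_mul _]
    have h2 : ∀ C, K.gs α (fun y => (eps β.2 D C : ℂ) * K.ycL β.1 C y) x =
        if α = (β.1, C) then (eps β.2 D C : ℂ) else 0 := by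
      intro C
      rw [gs_const_mul K α _ (dyc C), gs_yc]
      split_ifs <;> simp
    rw [Finset.sum_congr rfl fun C _ => h2 C]
    by_cases h : α.1 = β.1
    · rw [if_pos h, Finset.sum_eq_single α.2]
      · rw [if_pos (Prod.ext h rfl : α = (β.1, α.2))]
      · intro C _ hC
        exact if_neg fun h' => hC (congrArg Prod.snd h').symm
      · intro h'; exact absurd (Finset.mem_univ _) h'
    · rw [if_neg h, Finset.sum_eq_zero, mul_zero]
      intro C _
      exact if_neg fun h' : α = (β.1, C) => h (by rw [h'])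
  rw [Finset.sum_congr rfl fun D _ => h1 D]
  split_ifs with h
  · rfl
  · rw [Finset.sum_const_zero, mul_zero]

private lemma ycL_last (C : Fin 3) (x : X3) : K.ycL 7 C x = (1 / 2 : ℂ) * K.phb C x := by
  simp only [ycL, if_true, smul_apply, sub_apply, smul_eq_mul, cl_apply, phb]

private lemma e8_ne (i : Fin 7) : ¬ (e8 i = 7) := by
  intro h
  have := congrArg Fin.val h
  simp only [Fin.val_castSucc] at this
  have h2 := i.2
  simp at this
  omega

private lemma ycL_cast (i : Fin 7) (C : Fin 3) (x : X3) : K.ycL (e8 i) C x = (x (e9 i, C) : ℂ) := by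
  simp only [ycL, if_neg (e8_ne i), cl_apply]

private lemma dd_eq (u : X3 → F) (x : X3) : K.dd u x = ∑ α : Fin 8 × Fin 3, K.c α.1 α.2 (K.gd α u x) := by
  rw [Fintype.sum_prod_type, Fin.sum_univ_castSucc, dd]
  congr 1
  refine Finset.sum_congr rfl fun i _ => Finset.sum_congr rfl fun A _ => ?_
  simp only [gd, sgi, if_neg (e8_ne i), zero_smul, add_zero]

private lemma pdr_ofReal {g : X3 → ℝ} {x : X3} (hg : DifferentiableAt ℝ g x) (i : Fin 9)
    (A : Fin 3) :
    fderiv ℝ (fun y => ((g y : ℝ) : ℂ)) x (EuclideanSpace.single (i, A) 1) = (pdr i A g x : ℂ) :=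
  fderiv_ofReal_comp hg _

private lemma qq'_cast (i : Fin 7) (A : Fin 3) (x : X3) :
    K.qq' (e8 i, A) x = (K.dhc i A x : ℂ) := by
  have hd : DifferentiableAt ℝ K.hh x := (K.contDiff_hh.differentiable (by simp)) x
  simp only [qq', gs, sgi, if_neg (e8_ne i), zero_mul, add_zero]
  rw [pdr_ofReal hd, pdr_hh]

private lemma qq'_last (A : Fin 3) (x : X3) : K.qq' (7, A) x = 0 := by
  have hd : DifferentiableAt ℝ K.hh x := (K.contDiff_hh.differentiable (by simp)) x
  simp only [qq', gs]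
  rw [pdr_ofReal hd, pdr_ofReal hd, pdr_hh_8, ← f9_seven, pdr_hh_7]
  simp

private lemma sum_eps_split (f : Fin 8 → Fin 3 → Fin 3 → Fin 3 → ℂ) (w : Fin 8 → Fin 3 → F)
    (g : Fin 3 → ℂ) (n : ℂ) :
    ∑ α : Fin 8 × Fin 3, (n * ∑ D, g D * ∑ C, f α.1 α.2 D C) • w α.1 α.2 =
    n • ∑ D, g D • ∑ i, ∑ B, ∑ C, f i B D C • w i B := by
  rw [Fintype.sum_prod_type]
  have h1 : ∀ i B, (n * ∑ D, g D * ∑ C, f i B D C) • w i B =
      n • ∑ D, g D • ∑ C, f i B D C • w i B := by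
    intro i B
    rw [mul_smul, Finset.sum_smul]
    congr 1
    refine Finset.sum_congr rfl fun D _ => ?_
    rw [mul_smul, Finset.sum_smul]
  simp only [h1]
  simp only [← Finset.smul_sum]
  congr 1
  have h2 : ∀ i, ∑ B, ∑ D, g D • ∑ C, f i B D C • w i B =
      ∑ D, ∑ B, g D • ∑ C, f i B D C • w i B := fun i => Finset.sum_comm
  rw [Finset.sum_congr rfl fun i _ => h2 i, Finset.sum_comm]
  refine Finset.sum_congr rfl fun D _ => ?_
  rw [Finset.smul_sum]
  refine Finset.sum_congr rfl fun i _ => ?_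
  rw [Finset.smul_sum]

private lemma io_eq (A : Fin 3) (x : X3) (v : F) :
    K.io A x v = ∑ i : Fin 8, ∑ B, ∑ C, ((eps B A C : ℂ) * K.ycL i C x) • K.a i B v := by
  rw [Fin.sum_univ_castSucc, io, add_apply]
  refine congrArg₂ (· + ·) ?_ ?_
  · simp only [sum_apply, smul_apply]
    refine Finset.sum_congr rfl fun i _ => Finset.sum_congr rfl fun B _ =>
      Finset.sum_congr rfl fun C _ => ?_
    rw [ycL_cast]
  · simp only [sum_apply, smul_apply, Finset.smul_sum]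
    refine Finset.sum_congr rfl fun B _ => Finset.sum_congr rfl fun C _ => ?_
    change _ = ((eps B A C : ℂ) * K.ycL 7 C x) • K.a 7 B v
    rw [ycL_last, smul_smul]
    congr 1
    ring

private lemma zero_eq (x : X3) (v : F) :
    K.nu • (∑ A, K.ph A x • K.io A x v) + K.dh x v =
      ∑ α : Fin 8 × Fin 3, (K.pp α x • K.a α.1 α.2 v + K.qq' α x • K.c α.1 α.2 v) := by
  rw [Finset.sum_add_distrib]
  congr 1
  · unfold pp
    rw [sum_eps_split (fun i B D C => (eps B D C : ℂ) * K.ycL i C x) (fun i B => K.a i B v)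
      (fun D => K.ph D x) K.nu]
    congr 1
    refine Finset.sum_congr rfl fun D _ => ?_
    rw [io_eq]
  · rw [Fintype.sum_prod_type, Fin.sum_univ_castSucc, dh]
    have h : ∑ A, K.qq' (Fin.last 7, A) x • K.c (Fin.last 7) A v = 0 :=
      Finset.sum_eq_zero fun A _ => by
        rw [show (Fin.last 7 : Fin 8) = 7 from rfl, qq'_last, zero_smul]
    rw [h, add_zero, sum_apply]
    refine Finset.sum_congr rfl fun i _ => ?_
    rw [sum_apply]
    refine Finset.sum_congr rfl fun A _ => ?_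
    rw [smul_apply, qq'_cast]

private lemma DD_eq (u : X3 → F) (x : X3) :
    K.DD u x = ∑ α : Fin 8 × Fin 3, K.c α.1 α.2 (K.gd α u x) +
      ∑ α : Fin 8 × Fin 3, (K.pp α x • K.a α.1 α.2 (u x) + K.qq' α x • K.c α.1 α.2 (u x)) := by
  rw [DD, D0, dd_eq, ← zero_eq, add_assoc]

/-- `ι_A h = 0` -/
private lemma sq_s3 (x : X3) : ∑ α, K.pp α x * K.qq' α x = 0 := by
  have h := sum_eps_split (F := ℂ) (fun i B D C => (eps B D C : ℂ) * K.ycL i C x)
    (fun i B => K.qq' (i, B) x) (fun D => K.ph D x) K.nu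
  have h2 : ∑ α, K.pp α x * K.qq' α x = ∑ α : Fin 8 × Fin 3,
      (K.nu * ∑ D, K.ph D x * ∑ C, (eps α.2 D C : ℂ) * K.ycL α.1 C x) • K.qq' (α.1, α.2) x := rfl
  rw [h2, h]
  have h3 : ∀ D, ∑ i : Fin 8, ∑ B, ∑ C, ((eps B D C : ℂ) * K.ycL i C x) • K.qq' (i, B) x = 0 := by
    intro D
    have h4 := K.orb_hh D x
    rw [Fin.sum_univ_castSucc, Fin.sum_univ_castSucc] at h4
    have h5 : ∑ B, ∑ C, (eps B D C : ℝ) * x ((Fin.last 7).castSucc, C) *
        pdr (Fin.last 7).castSucc B K.hh x = 0 :=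
      Finset.sum_eq_zero fun B _ => Finset.sum_eq_zero fun C _ => by
        rw [show ((Fin.last 7).castSucc : Fin 9) = 7 from rfl, pdr_hh_7, mul_zero]
    have h6 : ∑ B, ∑ C, (eps B D C : ℝ) * x (Fin.last 8, C) *
        pdr (Fin.last 8) B K.hh x = 0 :=
      Finset.sum_eq_zero fun B _ => Finset.sum_eq_zero fun C _ => by
        rw [show (Fin.last 8 : Fin 9) = 8 from rfl, pdr_hh_8, mul_zero]
    rw [h5, h6, add_zero, add_zero] at h4
    rw [Fin.sum_univ_castSucc]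
    have h7 : ∑ B, ∑ C, ((eps B D C : ℂ) * K.ycL (Fin.last 7) C x) • K.qq' (Fin.last 7, B) x = 0 :=
      Finset.sum_eq_zero fun B _ => Finset.sum_eq_zero fun C _ => by
        rw [show (Fin.last 7 : Fin 8) = 7 from rfl, qq'_last, smul_zero]
    rw [h7, add_zero]
    have h8 := congrArg (fun r : ℝ => (r : ℂ)) h4
    push_cast at h8
    rw [← h8]
    refine Finset.sum_congr rfl fun i _ => Finset.sum_congr rfl fun B _ =>
      Finset.sum_congr rfl fun C _ => ?_
    rw [ycL_cast, qq'_cast, pdr_hh, smul_eq_mul]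
  simp only [h3, smul_zero, Finset.sum_const_zero]

private lemma sq_s4_aux (g : Fin 3 → ℂ) (w : Fin 3 → F) :
    ∑ D, g D • ∑ B, ∑ C, ((eps B D C : ℂ) * ((1 / 2 : ℂ) * g C)) • w B = 0 := by
  simp only [Fin.sum_univ_three]
  simp [eps]
  module

private lemma sum9 {M : Type*} [AddCommMonoid M] (f : Fin 9 → M) :
    ∑ i, f i = (∑ i : Fin 7, f (e9 i)) + f 7 + f 8 := by
  rw [Fin.sum_univ_castSucc, Fin.sum_univ_castSucc]; rfl

private lemma sum8 {M : Type*} [AddCommMonoid M] (f : Fin 8 → M) :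
    ∑ i, f i = (∑ i : Fin 7, f (e8 i)) + f 7 := by
  rw [Fin.sum_univ_castSucc]; rfl

private lemma sq_s4 (u : X3 → F) (x : X3) :
    ∑ α : Fin 8 × Fin 3, K.pp α x • K.gd α u x = K.nu • ∑ D, K.ph D x • orb D u x := by
  unfold pp
  have h0 := sum_eps_split (fun i B D C => (eps B D C : ℂ) * K.ycL i C x)
    (fun i B => K.gd (i, B) u x) (fun D => K.ph D x) K.nu
  have h0' : ∑ α : Fin 8 × Fin 3, (K.nu * ∑ D, K.ph D x *
      ∑ C, (eps α.2 D C : ℂ) * K.ycL α.1 C x) • K.gd α u x =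
      ∑ α : Fin 8 × Fin 3, (K.nu * ∑ D, K.ph D x *
      ∑ C, (eps α.2 D C : ℂ) * K.ycL α.1 C x) • K.gd (α.1, α.2) u x := rfl
  rw [h0', h0]
  congr 1
  have h1 : ∀ D, orb D u x = (∑ i, ∑ B, ∑ C, ((eps B D C : ℂ) * K.ycL i C x) • K.gd (i, B) u x) +
      ∑ B, ∑ C, ((eps B D C : ℂ) * ((1 / 2 : ℂ) * K.ph C x)) •
        (pd 7 B u x - (Complex.I * (K.sg : ℂ)) • pd 8 B u x) := by
    intro D
    rw [orb, sum9, sum8, add_assoc, add_assoc]
    refine congrArg₂ (· + ·) ?_ ?_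
    · refine Finset.sum_congr rfl fun i _ => Finset.sum_congr rfl fun B _ =>
        Finset.sum_congr rfl fun C _ => ?_
      rw [ycL_cast]
      simp only [gd, sgi, if_neg (e8_ne i), zero_smul, add_zero]
    · rw [← Finset.sum_add_distrib, ← Finset.sum_add_distrib]
      refine Finset.sum_congr rfl fun B _ => ?_
      rw [← Finset.sum_add_distrib, ← Finset.sum_add_distrib]
      refine Finset.sum_congr rfl fun C _ => ?_
      have hs := K.sgC
      have hI := Complex.I_mul_I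
      have e1 : K.gd (7, B) u x = pd 7 B u x + (Complex.I * (K.sg : ℂ)) • pd 8 B u x := by
        simp only [gd, sgi, if_true]
        rfl
      rw [ycL_last, e1, phb, ph]
      have e2 : (x (8, C) : ℂ) = (1 / 2 : ℂ) * ((x (7, C) : ℂ) -
          Complex.I * (K.sg : ℂ) * (x (8, C) : ℂ)) * (Complex.I * (K.sg : ℂ)) -
          (1 / 2 : ℂ) * ((x (7, C) : ℂ) +
          Complex.I * (K.sg : ℂ) * (x (8, C) : ℂ)) * (Complex.I * (K.sg : ℂ)) := by
        linear_combination (K.sg : ℂ) * (K.sg : ℂ) * (x (8, C) : ℂ) * hI - (x (8, C) : ℂ) * hs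
      have e3 : ((eps B D C : ℂ) * (x (8, C) : ℂ)) • pd 8 B u x =
          ((eps B D C : ℂ) * ((1 / 2 : ℂ) * ((x (7, C) : ℂ) -
          Complex.I * (K.sg : ℂ) * (x (8, C) : ℂ)) * (Complex.I * (K.sg : ℂ)) -
          (1 / 2 : ℂ) * ((x (7, C) : ℂ) +
          Complex.I * (K.sg : ℂ) * (x (8, C) : ℂ)) * (Complex.I * (K.sg : ℂ)))) • pd 8 B u x := by
        rw [← e2]
      rw [e3]
      module
  simp only [h1, smul_add, Finset.sum_add_distrib]
  rw [sq_s4_aux, add_zero]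

private lemma sq_s5 (x : X3) (v : F) :
    ∑ α : Fin 8 × Fin 3, ∑ β : Fin 8 × Fin 3, K.gs α (K.pp β) x • K.c α.1 α.2 (K.a β.1 β.2 v) =
      K.nu • ∑ D, K.ph D x • K.spin D v := by
  have h1 : ∀ (i : Fin 8) (C : Fin 3), ∑ β : Fin 8 × Fin 3,
      K.gs (i, C) (K.pp β) x • K.c i C (K.a β.1 β.2 v) =
      ∑ B, (K.nu * ∑ D, K.ph D x * (eps B D C : ℂ)) • K.c i C (K.a i B v) := by
    intro i C
    rw [Fintype.sum_prod_type, Finset.sum_eq_single i]
    · refine Finset.sum_congr rfl fun B _ => ?_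
      rw [gs_pp, if_pos rfl]
    · intro j _ hj
      refine Finset.sum_eq_zero fun B _ => ?_
      rw [gs_pp, if_neg (fun h => hj h.symm), zero_smul]
    · intro h; exact absurd (Finset.mem_univ _) h
  rw [Fintype.sum_prod_type]
  simp only [h1]
  have h2 : ∀ D, K.spin D v = ∑ i, ∑ C, ∑ B, (eps B D C : ℂ) • K.c i C (K.a i B v) := by
    intro D
    rw [spin, sum_apply]
    refine Finset.sum_congr rfl fun i _ => ?_
    rw [sum_apply, Finset.sum_comm]
    refine Finset.sum_congr rfl fun B _ => ?_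
    rw [sum_apply]
    rfl
  simp only [h2]
  have h3 : ∀ (i : Fin 8) (C B : Fin 3),
      (K.nu * ∑ D, K.ph D x * (eps B D C : ℂ)) • K.c i C (K.a i B v) =
      ∑ D, K.nu • K.ph D x • (eps B D C : ℂ) • K.c i C (K.a i B v) := by
    intro i C B
    rw [Finset.mul_sum, Finset.sum_smul]
    refine Finset.sum_congr rfl fun D _ => ?_
    rw [smul_smul, smul_smul, mul_assoc]
  simp only [h3, Finset.smul_sum]
  calc ∑ i : Fin 8, ∑ C, ∑ B, ∑ D, K.nu • K.ph D x • (eps B D C : ℂ) • K.c i C (K.a i B v)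
      = ∑ i : Fin 8, ∑ C, ∑ D, ∑ B, K.nu • K.ph D x • (eps B D C : ℂ) • K.c i C (K.a i B v) :=
        Finset.sum_congr rfl fun i _ => Finset.sum_congr rfl fun C _ => Finset.sum_comm
    _ = ∑ i : Fin 8, ∑ D, ∑ C, ∑ B, K.nu • K.ph D x • (eps B D C : ℂ) • K.c i C (K.a i B v) :=
        Finset.sum_congr rfl fun i _ => Finset.sum_comm
    _ = _ := Finset.sum_comm

private lemma gd_DD (α : Fin 8 × Fin 3) {u : X3 → F} (hu : ContDiff ℝ ∞ u) (x : X3) :
    K.gd α (K.DD u) x = ∑ β : Fin 8 × Fin 3, K.c β.1 β.2 (K.gd α (K.gd β u) x) +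
      ((∑ β : Fin 8 × Fin 3, K.gs α (K.pp β) x • K.a β.1 β.2 (u x)) +
      (∑ β : Fin 8 × Fin 3, K.gs α (K.qq' β) x • K.c β.1 β.2 (u x)) +
      ∑ β : Fin 8 × Fin 3, (K.pp β x • K.a β.1 β.2 (K.gd α u x) +
        K.qq' β x • K.c β.1 β.2 (K.gd α u x))) := by
  have du : DifferentiableAt ℝ u x := (hu.differentiable (by simp)) x
  have dg : ∀ β, DifferentiableAt ℝ (K.gd β u) x := fun β =>
    ((K.contDiff_gd β hu).differentiable (by simp)) x
  have dT : ∀ (T : F →L[ℂ] F) {w : X3 → F}, DifferentiableAt ℝ w x →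
      DifferentiableAt ℝ (fun y => T (w y)) x := fun T w hw =>
    (T.restrictScalars ℝ).differentiableAt.comp x hw
  have dp : ∀ β, DifferentiableAt ℝ (K.pp β) x := fun β =>
    ((K.contDiff_pp β).differentiable (by simp)) x
  have dq : ∀ β, DifferentiableAt ℝ (K.qq' β) x := fun β =>
    ((K.contDiff_qq' β).differentiable (by simp)) x
  have d1 : ∀ β : Fin 8 × Fin 3, DifferentiableAt ℝ (fun y => K.c β.1 β.2 (K.gd β u y)) x :=
    fun β => dT _ (dg β)
  have d2 : ∀ β : Fin 8 × Fin 3, DifferentiableAt ℝ (fun y => K.pp β y • K.a β.1 β.2 (u y)) x :=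
    fun β => (dp β).smul (dT _ du)
  have d3 : ∀ β : Fin 8 × Fin 3, DifferentiableAt ℝ (fun y => K.qq' β y • K.c β.1 β.2 (u y)) x :=
    fun β => (dq β).smul (dT _ du)
  have d4 : ∀ β : Fin 8 × Fin 3, DifferentiableAt ℝ
      (fun y => K.pp β y • K.a β.1 β.2 (u y) + K.qq' β y • K.c β.1 β.2 (u y)) x :=
    fun β => (d2 β).add (d3 β)
  have e : K.DD u = fun y => (∑ β : Fin 8 × Fin 3, K.c β.1 β.2 (K.gd β u y)) +
      ∑ β : Fin 8 × Fin 3, (K.pp β y • K.a β.1 β.2 (u y) + K.qq' β y • K.c β.1 β.2 (u y)) :=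
    funext fun y => K.DD_eq u y
  rw [e, gd_add K α (DifferentiableAt.fun_sum fun β _ => d1 β)
    (DifferentiableAt.fun_sum fun β _ => d4 β), gd_sum K Finset.univ α fun β _ => d1 β,
    gd_sum K Finset.univ α fun β _ => d4 β]
  refine congrArg₂ (· + ·) ?_ ?_
  · exact Finset.sum_congr rfl fun β _ => gd_clm K α _ (dg β)
  · rw [← Finset.sum_add_distrib, ← Finset.sum_add_distrib]
    refine Finset.sum_congr rfl fun β _ => ?_
    rw [gd_add K α (d2 β) (d3 β), gd_csmul K α (dp β) (dT _ du), gd_csmul K α (dq β) (dT _ du),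
      gd_clm K α _ du, gd_clm K α _ du]
    abel

theorem DD_DD {u : X3 → F} (hu : ContDiff ℝ ∞ u) (x : X3) :
    K.DD (K.DD u) x = K.nu • ∑ A, K.ph A x • K.LL A u x := by
  have hcc : ∀ α β : Fin 8 × Fin 3, K.c α.1 α.2 * K.c β.1 β.2 + K.c β.1 β.2 * K.c α.1 α.2 = 0 :=
    fun α β => K.cc _ _ _ _
  have haa : ∀ α β : Fin 8 × Fin 3, K.a α.1 α.2 * K.a β.1 β.2 + K.a β.1 β.2 * K.a α.1 α.2 = 0 :=
    fun α β => K.aa _ _ _ _
  have hac : ∀ α β : Fin 8 × Fin 3, K.a α.1 α.2 * K.c β.1 β.2 + K.c β.1 β.2 * K.a α.1 α.2 =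
      if α = β then 1 else 0 := by
    intro α β
    rw [K.ac]
    refine if_congr ?_ rfl rfl
    rw [Prod.ext_iff]
  have t1 : ∑ α : Fin 8 × Fin 3, K.c α.1 α.2
      (∑ β : Fin 8 × Fin 3, K.c β.1 β.2 (K.gd α (K.gd β u) x)) = 0 := by
    have h := sq_l1 (c := fun α : Fin 8 × Fin 3 => K.c α.1 α.2) hcc
      (w := fun α β => K.gd α (K.gd β u) x) (fun α β => K.gd_comm α β hu x)
    rw [← h]
    exact Finset.sum_congr rfl fun α _ => map_sum _ _ _
  have t3 : ∑ α : Fin 8 × Fin 3, K.c α.1 α.2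
      (∑ β : Fin 8 × Fin 3, K.gs α (K.qq' β) x • K.c β.1 β.2 (u x)) = 0 := by
    have h := sq_l1 (c := fun α : Fin 8 × Fin 3 => K.c α.1 α.2) hcc
      (w := fun α β => K.gs α (K.qq' β) x • u x)
      (fun α β => by
        have := K.gs_comm α β K.contDiff_hhC x
        exact congrArg (fun z : ℂ => z • u x) this)
    rw [← h]
    refine Finset.sum_congr rfl fun α _ => ?_
    rw [map_sum]
    refine Finset.sum_congr rfl fun β _ => ?_
    rw [map_smul (K.c β.1 β.2)]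
  have t2 : ∑ α : Fin 8 × Fin 3, K.c α.1 α.2
      (∑ β : Fin 8 × Fin 3, K.gs α (K.pp β) x • K.a β.1 β.2 (u x)) =
      K.nu • ∑ D, K.ph D x • K.spin D (u x) := by
    rw [← sq_s5]
    refine Finset.sum_congr rfl fun α _ => ?_
    rw [map_sum]
    refine Finset.sum_congr rfl fun β _ => ?_
    rw [map_smul]
  have t4 := sq_l3 (c := fun α : Fin 8 × Fin 3 => K.c α.1 α.2)
    (a := fun α : Fin 8 × Fin 3 => K.a α.1 α.2) hcc hac (fun α => K.pp α x) (fun α => K.qq' α x)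
    (fun α => K.gd α u x)
  have t5 := sq_l2 (c := fun α : Fin 8 × Fin 3 => K.c α.1 α.2)
    (a := fun α : Fin 8 × Fin 3 => K.a α.1 α.2) hcc haa hac (fun α => K.pp α x)
    (fun α => K.qq' α x) (u x)
  rw [sq_s3, zero_smul] at t5
  rw [sq_s4] at t4
  have e1 : K.DD (K.DD u) x = (∑ α : Fin 8 × Fin 3, K.c α.1 α.2
      (∑ β : Fin 8 × Fin 3, K.c β.1 β.2 (K.gd α (K.gd β u) x))) +
      (∑ α : Fin 8 × Fin 3, K.c α.1 α.2
      (∑ β : Fin 8 × Fin 3, K.gs α (K.pp β) x • K.a β.1 β.2 (u x))) +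
      (∑ α : Fin 8 × Fin 3, K.c α.1 α.2
      (∑ β : Fin 8 × Fin 3, K.gs α (K.qq' β) x • K.c β.1 β.2 (u x))) +
      ((∑ α : Fin 8 × Fin 3, K.c α.1 α.2 (∑ β : Fin 8 × Fin 3,
        (K.pp β x • K.a β.1 β.2 (K.gd α u x) + K.qq' β x • K.c β.1 β.2 (K.gd α u x)))) +
      ∑ β : Fin 8 × Fin 3, (K.pp β x • K.a β.1 β.2 (∑ α : Fin 8 × Fin 3,
        K.c α.1 α.2 (K.gd α u x)) + K.qq' β x • K.c β.1 β.2 (∑ α : Fin 8 × Fin 3,
        K.c α.1 α.2 (K.gd α u x)))) +
      ∑ α : Fin 8 × Fin 3, (K.pp α x • K.a α.1 α.2 (∑ β : Fin 8 × Fin 3,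
        (K.pp β x • K.a β.1 β.2 (u x) + K.qq' β x • K.c β.1 β.2 (u x))) +
        K.qq' α x • K.c α.1 α.2 (∑ β : Fin 8 × Fin 3,
        (K.pp β x • K.a β.1 β.2 (u x) + K.qq' β x • K.c β.1 β.2 (u x)))) := by
    rw [DD_eq]
    simp only [K.gd_DD _ hu, map_add, Finset.sum_add_distrib]
    rw [K.DD_eq u x]
    simp only [map_add, smul_add, Finset.sum_add_distrib]
    abel
  rw [e1, t1, t2, t3, t4, t5, zero_add, add_zero, add_zero, ← smul_add, ← Finset.sum_add_distrib]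
  congr 1
  refine Finset.sum_congr rfl fun D _ => ?_
  rw [← smul_add, LL, add_comm]

theorem DD_DD_core (hG : K.Gauss) {u : X3 → F} (hu : K.Core u) (x : X3) :
    K.DD (K.DD u) x = 0 := by
  rw [K.DD_DD hu.1 x]
  simp only [hG u hu, smul_zero, Finset.sum_const_zero]

end Fk

end Vale.Agent.P353.Ex
end

section

/-! Task EX-21: frame change, and invariance under the torus.

The structure `Fk.rot` is in `PosDef.lean`.
`B`, `μ`, `ds`, `ds̄` and `∑_k c_k^2 dκ_k` are invariant under orthogonal changes of frame, and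
`∏_k (c_k^2 dκ_k) = (∑_k c_k^2 dκ_k)^7 / 7!` (commuting elements of square zero).
`Ctop`: `∏_k X_k Y_k Z_k` is up to the same sign `(∏X)(∏Y)(∏Z)` and each `∏ X'_k = det O ∏ X_k`
(alternating multilinear map), `(det O)³ = det O`.
Torus: `S(Tel θ)` conjugation, `S vac = vac`, `S vacb = vacb`; all factors are invariant. -/

open MeasureTheory Filter Topology
open scoped ContDiff ComplexConjugate

namespace Vale.Agent.P353.Ex

variable {F : Type*} [NormedAddCommGroup F] [InnerProductSpace ℂ F]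

/-! ### pure algebra -/

section alg

variable {R : Type*} [Ring R]

private theorem rot_comm_of_anti {a b c : R} (h1 : a * c = -(c * a)) (h2 : b * c = -(c * b)) :
    Commute (a * b) c := by
  show a * b * c = c * (a * b)
  rw [mul_assoc, h2, mul_neg, ← mul_assoc, h1, neg_mul, neg_neg, mul_assoc]

private theorem rot_sq_zero {a b : R} (h : a * b = -(b * a)) (ha : a * a = 0) :
    (a * b) * (a * b) = 0 := by
  rw [h, neg_mul_neg, mul_assoc, ← mul_assoc a b a, h, neg_mul, mul_neg, mul_assoc b a a, ha,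
    mul_zero, mul_zero, neg_zero]

private theorem rot_add_pow {s q : R} (h : Commute s q) (hq : q * q = 0) (n : ℕ) :
    (s + q) ^ (n + 1) = s ^ (n + 1) + ((n + 1 : ℕ) : R) * (s ^ n * q) := by
  induction n with
  | zero => simp only [zero_add, pow_one, pow_zero, one_mul, Nat.cast_one]
  | succ n ih =>
    rw [pow_succ (s + q), ih, add_mul, mul_add, mul_add, ← pow_succ, mul_assoc _ _ q,
      mul_assoc (s ^ n) q q, hq, mul_zero, mul_zero, add_zero, mul_assoc _ _ s, mul_assoc (s ^ n) q s,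
      ← h.eq, ← mul_assoc (s ^ n) s q, ← pow_succ, add_assoc]
    congr 1
    push_cast
    ring_nf
    noncomm_ring

private theorem rot_sum_pow (n : ℕ) : ∀ p : Fin n → R, (∀ i j, Commute (p i) (p j)) →
    (∀ i, p i * p i = 0) → (∑ i, p i) ^ n = ((n.factorial : ℕ) : R) * (List.ofFn p).prod ∧
      (∑ i, p i) ^ (n + 1) = 0 := by
  induction n with
  | zero => intro p _ _; simp
  | succ n ih =>
    intro p hc hs
    obtain ⟨h1, h2⟩ := ih (fun i => p i.succ) (fun i j => hc _ _) (fun i => hs _)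
    have hq : Commute (∑ i : Fin n, p i.succ) (p 0) :=
      (Finset.sum_induction _ (fun x => Commute x (p 0)) (fun a b ha hb => ha.add_left hb)
        (Commute.zero_left _) (fun i _ => hc _ _))
    rw [Fin.sum_univ_succ, add_comm (p 0), rot_add_pow hq (hs 0) n, rot_add_pow hq (hs 0) (n + 1),
      h2, h1, List.ofFn_succ, List.prod_cons, pow_succ (∑ i : Fin n, p i.succ) (n + 1), h2]
    refine ⟨?_, by simp⟩
    have h3 : Commute (List.ofFn fun i : Fin n => p i.succ).prod (p 0) := by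
      refine Commute.list_prod_left _ _ fun x hx => ?_
      obtain ⟨i, rfl⟩ := (List.mem_ofFn' _ _).1 hx
      exact hc _ _
    rw [zero_add, mul_assoc ((n.factorial : ℕ) : R), h3.eq, ← mul_assoc, ← Nat.cast_mul,
      Nat.factorial_succ]

/-- moving one odd element past a product of odd elements -/
private theorem rot_move {n : ℕ} (v : R) (X : Fin n → R) (h : ∀ i, v * X i = -(X i * v)) :
    v * (List.ofFn X).prod = (-1) ^ n * ((List.ofFn X).prod * v) := by
  induction n with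
  | zero => simp
  | succ n ih =>
    rw [List.ofFn_succ, List.prod_cons, ← mul_assoc, h, neg_mul, mul_assoc,
      ih (fun i => X i.succ) (fun i => h _), pow_succ, ← mul_assoc (X 0),
      ((Commute.neg_one_left (X 0)).pow_left n).symm.eq]
    noncomm_ring

/-- `∏ X_k Y_k Z_k = ± (∏ X) (∏ Y) (∏ Z)` with a universal sign -/
private theorem rot_shuffle (n : ℕ) : ∃ e : ℤ, ∀ X Y Z : Fin n → R,
    (∀ i j, Y i * X j = -(X j * Y i)) → (∀ i j, Z i * X j = -(X j * Z i)) →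
    (∀ i j, Z i * Y j = -(Y j * Z i)) →
    (List.ofFn fun k => X k * Y k * Z k).prod =
      (e : R) * ((List.ofFn X).prod * (List.ofFn Y).prod * (List.ofFn Z).prod) := by
  induction n with
  | zero => exact ⟨1, fun X Y Z _ _ _ => by simp⟩
  | succ n ih =>
    obtain ⟨e, he⟩ := ih
    refine ⟨e * (-1) ^ n, fun X Y Z hYX hZX hZY => ?_⟩
    rw [List.ofFn_succ, List.prod_cons, he (fun i => X i.succ) (fun i => Y i.succ)
      (fun i => Z i.succ) (fun i j => hYX _ _) (fun i j => hZX _ _) (fun i j => hZY _ _),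
      List.ofFn_succ (f := X), List.ofFn_succ (f := Y), List.ofFn_succ (f := Z),
      List.prod_cons, List.prod_cons, List.prod_cons]
    set PX := (List.ofFn fun i : Fin n => X i.succ).prod with hPX
    set PY := (List.ofFn fun i : Fin n => Y i.succ).prod with hPY
    set PZ := (List.ofFn fun i : Fin n => Z i.succ).prod
    have h1 : Z 0 * PX = (-1) ^ n * (PX * Z 0) := rot_move _ _ fun i => hZX _ _
    have h2 : Z 0 * PY = (-1) ^ n * (PY * Z 0) := rot_move _ _ fun i => hZY _ _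
    have h3 : Y 0 * PX = (-1) ^ n * (PX * Y 0) := rot_move _ _ fun i => hYX _ _
    have hc : ∀ a : R, a * (-1) ^ n = (-1) ^ n * a := fun a =>
      ((Commute.neg_one_left a).pow_left n).symm.eq
    have hh : ((-1 : R) ^ n) * (-1) ^ n = 1 := by
      rw [← pow_add, ← two_mul, pow_mul, neg_one_sq, one_pow]
    have hz : Z 0 * (PX * PY * PZ) = PX * PY * (Z 0 * PZ) := by
      calc Z 0 * (PX * PY * PZ) = (Z 0 * PX) * PY * PZ := by simp only [mul_assoc]
        _ = (-1) ^ n * (PX * (Z 0 * PY)) * PZ := by rw [h1]; simp only [mul_assoc]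
        _ = (-1) ^ n * ((PX * (-1) ^ n) * (PY * Z 0)) * PZ := by rw [h2]; simp only [mul_assoc]
        _ = ((-1) ^ n * (-1) ^ n) * (PX * (PY * (Z 0 * PZ))) := by
          rw [hc PX]; simp only [mul_assoc]
        _ = _ := by rw [hh, one_mul, mul_assoc]
    have hy : Y 0 * (PX * PY * (Z 0 * PZ)) = (-1) ^ n * (PX * (Y 0 * PY) * (Z 0 * PZ)) := by
      calc Y 0 * (PX * PY * (Z 0 * PZ)) = (Y 0 * PX) * PY * (Z 0 * PZ) := by
            simp only [mul_assoc]
        _ = _ := by rw [h3]; simp only [mul_assoc]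
    have hce : ∀ a : R, a * (e : R) = (e : R) * a := fun a => (Int.cast_commute e a).symm.eq
    calc X 0 * Y 0 * Z 0 * ((e : R) * (PX * PY * PZ))
        = (e : R) * (X 0 * (Y 0 * (Z 0 * (PX * PY * PZ)))) := by
          rw [← mul_assoc (X 0 * Y 0 * Z 0) (e : R), hce]; simp only [mul_assoc]
      _ = (e : R) * ((X 0 * (-1) ^ n) * (PX * (Y 0 * PY) * (Z 0 * PZ))) := by
          rw [hz, hy]; simp only [mul_assoc]
      _ = _ := by
          rw [hc (X 0)]
          push_cast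
          simp only [mul_assoc]

end alg

private theorem rot_det {A : Type*} [Ring A] [Algebra ℂ A] {n : ℕ} (X : Fin n → A)
    (hX : ∀ i j, X i * X j + X j * X i = 0) (O : Matrix (Fin n) (Fin n) ℂ) :
    (List.ofFn fun k => ∑ l, O k l • X l).prod = O.det • (List.ofFn X).prod := by
  have hL : ∀ v : Fin n → ℂ, Fintype.linearCombination ℂ X v * Fintype.linearCombination ℂ X v = 0 := by
    intro v
    rw [Fintype.linearCombination_apply]
    have h2 : (2 : ℂ) • ((∑ i, v i • X i) * (∑ i, v i • X i)) = 0 := by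
      have h3 : (∑ i, v i • X i) * (∑ i, v i • X i) = ∑ i, ∑ j, (v j • X j) * (v i • X i) := by
        rw [Finset.sum_mul_sum, Finset.sum_comm]
      rw [two_smul]
      nth_rewrite 2 [h3]
      rw [Finset.sum_mul_sum, ← Finset.sum_add_distrib]
      refine Finset.sum_eq_zero fun i _ => ?_
      rw [← Finset.sum_add_distrib]
      refine Finset.sum_eq_zero fun j _ => ?_
      rw [smul_mul_smul_comm, smul_mul_smul_comm, mul_comm (v j), ← smul_add, hX, smul_zero]
    exact (smul_eq_zero.1 h2).resolve_left two_ne_zero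
  let φ : ExteriorAlgebra ℂ (Fin n → ℂ) →ₐ[ℂ] A :=
    ExteriorAlgebra.lift ℂ ⟨Fintype.linearCombination ℂ X, hL⟩
  let f : (Fin n → ℂ) [⋀^Fin n]→ₗ[ℂ] A :=
    φ.toLinearMap.compAlternatingMap (ExteriorAlgebra.ιMulti ℂ n)
  have hf : ∀ v : Fin n → Fin n → ℂ, f v = (List.ofFn fun k => ∑ l, v k l • X l).prod := by
    intro v
    show φ (ExteriorAlgebra.ιMulti ℂ n v) = _
    rw [ExteriorAlgebra.ιMulti_apply, map_list_prod, List.map_ofFn]
    congr 2
    funext k
    simp only [Function.comp_apply, φ, ExteriorAlgebra.lift_ι_apply, Fintype.linearCombination_apply]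
  let g : (Fin n → ℂ) [⋀^Fin n]→ₗ[ℂ] A :=
    (LinearMap.toSpanSingleton ℂ A (f (Pi.basisFun ℂ (Fin n)))).compAlternatingMap
      (Pi.basisFun ℂ (Fin n)).det
  have hfg : f = g := by
    refine Module.Basis.ext_alternating (Pi.basisFun ℂ (Fin n)) fun v hv => ?_
    obtain ⟨σ, hσ⟩ : ∃ σ : Equiv.Perm (Fin n), ∀ i, v i = σ i :=
      ⟨Equiv.ofBijective v (Finite.injective_iff_bijective.1 hv), fun i => rfl⟩
    have e1 : (fun i => (Pi.basisFun ℂ (Fin n)) (v i)) = (Pi.basisFun ℂ (Fin n)) ∘ σ := by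
      funext i; rw [Function.comp_apply, hσ]
    rw [e1, AlternatingMap.map_perm, AlternatingMap.map_perm]
    congr 1
    show _ = (Pi.basisFun ℂ (Fin n)).det (Pi.basisFun ℂ (Fin n)) • f (Pi.basisFun ℂ (Fin n))
    rw [Module.Basis.det_self, one_smul]
  refine (hf fun k => O k).symm.trans ?_
  rw [hfg]
  show (Pi.basisFun ℂ (Fin n)).det (fun k => O k) • f (Pi.basisFun ℂ (Fin n)) = _
  rw [hf, Pi.basisFun_det]
  congr 2
  congr 1
  funext k
  simp only [Pi.basisFun_apply, Pi.single_apply, ite_smul, one_smul, zero_smul,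
    Finset.sum_ite_eq', Finset.mem_univ, if_true]

private theorem rot_bil {M N P : Type*} [AddCommGroup M] [Module ℂ M] [AddCommGroup N] [Module ℂ N]
    [AddCommGroup P] [Module ℂ P] (B : M →ₗ[ℂ] N →ₗ[ℂ] P) {O : Matrix (Fin 7) (Fin 7) ℝ}
    (hO : O * O.transpose = 1) (f : Fin 7 → M) (g : Fin 7 → N) :
    ∑ k, B (∑ l, (O k l : ℂ) • f l) (∑ l, (O k l : ℂ) • g l) = ∑ l, B (f l) (g l) := by
  calc ∑ k, B (∑ l, (O k l : ℂ) • f l) (∑ l, (O k l : ℂ) • g l)
      = ∑ k, ∑ a, ∑ b, ((O k a : ℂ) * (O k b : ℂ)) • B (f a) (g b) := by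
        refine Finset.sum_congr rfl fun k _ => ?_
        rw [map_sum B, LinearMap.sum_apply]
        refine Finset.sum_congr rfl fun a _ => ?_
        rw [map_sum]
        refine Finset.sum_congr rfl fun b _ => ?_
        rw [map_smul, map_smul, LinearMap.smul_apply, smul_smul, mul_comm]
    _ = ∑ a, ∑ b, ((∑ k, O k a * O k b : ℝ) : ℂ) • B (f a) (g b) := by
        rw [Finset.sum_comm]
        refine Finset.sum_congr rfl fun a _ => ?_
        rw [Finset.sum_comm]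
        refine Finset.sum_congr rfl fun b _ => ?_
        rw [Complex.ofReal_sum, Finset.sum_smul]
        refine Finset.sum_congr rfl fun k _ => by rw [Complex.ofReal_mul]
    _ = ∑ a, B (f a) (g a) := by
        refine Finset.sum_congr rfl fun a _ => ?_
        simp only [Fk.orth_col hO, apply_ite Complex.ofReal, Complex.ofReal_one, Complex.ofReal_zero,
          ite_smul, one_smul, zero_smul, Finset.sum_ite_eq, Finset.mem_univ, if_true]

namespace Fk

variable (K : Fk F)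

private theorem rotX_e9 (O : Matrix (Fin 7) (Fin 7) ℝ) (x : X3) (i : Fin 7) (A : Fin 3) :
    rotX O x (e9 i, A) = ∑ l, O i l * x (e9 l, A) := by
  show Fin.lastCases (motive := fun _ => ℝ) (x (8, A))
    (fun i8 => Fin.lastCases (motive := fun _ => ℝ) (x (7, A))
      (fun i => ∑ l, O i l * x (e9 l, A)) i8) (e9 i) = _
  rw [Fin.lastCases_castSucc, Fin.lastCases_castSucc]

private theorem rotX_e9C (O : Matrix (Fin 7) (Fin 7) ℝ) (x : X3) (i : Fin 7) (A : Fin 3) :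
    ((rotX O x (e9 i, A) : ℝ) : ℂ) = ∑ l, (O i l : ℂ) • (x (e9 l, A) : ℂ) := by
  rw [rotX_e9, Complex.ofReal_sum]
  refine Finset.sum_congr rfl fun l _ => by rw [Complex.ofReal_mul, smul_eq_mul]

private theorem rot_c8 (O : Matrix (Fin 7) (Fin 7) ℝ) (hO : O * O.transpose = 1) (k : Fin 7)
    (A : Fin 3) : (K.rot O hO).c (e8 k) A = ∑ l, (O k l : ℂ) • K.c (e8 l) A := by
  show Fin.lastCases (motive := fun _ => F →L[ℂ] F) (K.c 7 A)
    (fun k => ∑ l, (O k l : ℂ) • K.c (e8 l) A) (e8 k) = _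
  rw [Fin.lastCases_castSucc]

private theorem rot_c7 (O : Matrix (Fin 7) (Fin 7) ℝ) (hO : O * O.transpose = 1)
    (A : Fin 3) : (K.rot O hO).c 7 A = K.c 7 A := by
  show Fin.lastCases (motive := fun _ => F →L[ℂ] F) (K.c 7 A)
    (fun k => ∑ l, (O k l : ℂ) • K.c (e8 l) A) (Fin.last 7) = _
  rw [Fin.lastCases_last]

private theorem BB_rot (O : Matrix (Fin 7) (Fin 7) ℝ) (hO : O * O.transpose = 1) :
    (K.rot O hO).BB = K.BB := by
  unfold BB
  simp only [rot_c8]
  exact rot_bil (LinearMap.mul ℂ (F →L[ℂ] F)) hO (fun l => K.c (e8 l) 0) (fun l => K.c (e8 l) 1)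

private theorem mu_rot (O : Matrix (Fin 7) (Fin 7) ℝ) (hO : O * O.transpose = 1) (x : X3) :
    (K.rot O hO).mu (rotX O x) = K.mu x := by
  unfold mu
  simp only [rot_c8, rotX_e9C, Finset.sum_sub_distrib]
  congr 1
  · exact rot_bil (LinearMap.lsmul ℂ (F →L[ℂ] F)) hO (fun l => (x (e9 l, 0) : ℂ))
      (fun l => K.c (e8 l) 1)
  · exact rot_bil (LinearMap.lsmul ℂ (F →L[ℂ] F)) hO (fun l => (x (e9 l, 1) : ℂ))
      (fun l => K.c (e8 l) 0)

private theorem ds_rot (O : Matrix (Fin 7) (Fin 7) ℝ) (hO : O * O.transpose = 1) (x : X3) :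
    (K.rot O hO).ds (rotX O x) = K.ds x := by
  refine Eq.trans ?_ (rot_bil (LinearMap.lsmul ℂ (F →L[ℂ] F)) hO
    (fun l => 2 * ((x (e9 l, 0) : ℂ) + Complex.I * (x (e9 l, 1) : ℂ)))
    (fun l => K.c (e8 l) 0 + Complex.I • K.c (e8 l) 1))
  unfold ds
  refine Finset.sum_congr rfl fun k _ => ?_
  rw [rot_c8, rot_c8, rotX_e9C, rotX_e9C]
  show _ = (∑ l, (O k l : ℂ) • (2 * ((x (e9 l, 0) : ℂ) + Complex.I * (x (e9 l, 1) : ℂ)))) •
    (∑ l, (O k l : ℂ) • (K.c (e8 l) 0 + Complex.I • K.c (e8 l) 1))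
  congr 1
  · rw [Finset.mul_sum, ← Finset.sum_add_distrib, Finset.mul_sum]
    refine Finset.sum_congr rfl fun l _ => ?_
    simp only [smul_eq_mul]
    ring
  · rw [Finset.smul_sum, ← Finset.sum_add_distrib]
    refine Finset.sum_congr rfl fun l _ => ?_
    rw [smul_add, smul_comm]

private theorem dsb_rot (O : Matrix (Fin 7) (Fin 7) ℝ) (hO : O * O.transpose = 1) (x : X3) :
    (K.rot O hO).dsb (rotX O x) = K.dsb x := by
  refine Eq.trans ?_ (rot_bil (LinearMap.lsmul ℂ (F →L[ℂ] F)) hO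
    (fun l => 2 * ((x (e9 l, 0) : ℂ) - Complex.I * (x (e9 l, 1) : ℂ)))
    (fun l => K.c (e8 l) 0 - Complex.I • K.c (e8 l) 1))
  unfold dsb
  refine Finset.sum_congr rfl fun k _ => ?_
  rw [rot_c8, rot_c8, rotX_e9C, rotX_e9C]
  show _ = (∑ l, (O k l : ℂ) • (2 * ((x (e9 l, 0) : ℂ) - Complex.I * (x (e9 l, 1) : ℂ)))) •
    (∑ l, (O k l : ℂ) • (K.c (e8 l) 0 - Complex.I • K.c (e8 l) 1))
  congr 1
  · rw [Finset.mul_sum, ← Finset.sum_sub_distrib, Finset.mul_sum]
    refine Finset.sum_congr rfl fun l _ => ?_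
    simp only [smul_eq_mul]
    ring
  · rw [Finset.smul_sum, ← Finset.sum_sub_distrib]
    refine Finset.sum_congr rfl fun l _ => ?_
    rw [smul_sub, smul_comm]

private theorem rt_coef {O : Matrix (Fin 7) (Fin 7) ℝ} (hO : O * O.transpose = 1)
    (k b c : Fin 7) : ∑ i, ∑ j, K.rt O k i j * O i b * O j c = ∑ a, O k a * K.t a b c := by
  rw [K.rt_sum O k (fun i => O i b) (fun j => O j c)]
  simp only [orth_col hO, mul_ite, mul_one, mul_zero, Finset.sum_ite_eq', Finset.mem_univ, if_true]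

private theorem rt_gen {P : Type*} [AddCommGroup P] [Module ℂ P] {O : Matrix (Fin 7) (Fin 7) ℝ}
    (hO : O * O.transpose = 1) (k : Fin 7) (Ψ : Fin 7 → Fin 7 → P) :
    ∑ i, ∑ j, (K.rt O k i j : ℂ) • (∑ b, ∑ c, ((O i b * O j c : ℝ) : ℂ) • Ψ b c) =
      ∑ a, (O k a : ℂ) • ∑ b, ∑ c, (K.t a b c : ℂ) • Ψ b c := by
  have h1 : ∀ b c, (∑ i, ∑ j, ((K.rt O k i j * O i b * O j c : ℝ) : ℂ) • Ψ b c) =
      ∑ a, ((O k a * K.t a b c : ℝ) : ℂ) • Ψ b c := fun b c => by
    rw [← Finset.sum_smul, ← Complex.ofReal_sum, ← K.rt_coef hO, Complex.ofReal_sum, Finset.sum_smul]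
    refine Finset.sum_congr rfl fun i _ => ?_
    rw [Complex.ofReal_sum, Finset.sum_smul]
  calc ∑ i, ∑ j, (K.rt O k i j : ℂ) • (∑ b, ∑ c, ((O i b * O j c : ℝ) : ℂ) • Ψ b c)
      = ∑ i, ∑ j, ∑ b, ∑ c, ((K.rt O k i j * O i b * O j c : ℝ) : ℂ) • Ψ b c := by
        refine Finset.sum_congr rfl fun i _ => Finset.sum_congr rfl fun j _ => ?_
        rw [Finset.smul_sum]
        refine Finset.sum_congr rfl fun b _ => ?_
        rw [Finset.smul_sum]
        refine Finset.sum_congr rfl fun c _ => ?_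
        rw [smul_smul, mul_assoc, ← Complex.ofReal_mul]
    _ = ∑ b, ∑ c, ∑ i, ∑ j, ((K.rt O k i j * O i b * O j c : ℝ) : ℂ) • Ψ b c := by
        have e : ∀ f : Fin 7 → Fin 7 → Fin 7 → Fin 7 → P,
            ∑ i, ∑ j, ∑ b, ∑ c, f i j b c = ∑ b, ∑ c, ∑ i, ∑ j, f i j b c := fun f => by
          calc ∑ i, ∑ j, ∑ b, ∑ c, f i j b c = ∑ i, ∑ b, ∑ j, ∑ c, f i j b c :=
                Finset.sum_congr rfl fun i _ => Finset.sum_comm
            _ = ∑ b, ∑ i, ∑ j, ∑ c, f i j b c := Finset.sum_comm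
            _ = ∑ b, ∑ i, ∑ c, ∑ j, f i j b c :=
                Finset.sum_congr rfl fun b _ => Finset.sum_congr rfl fun i _ => Finset.sum_comm
            _ = ∑ b, ∑ c, ∑ i, ∑ j, f i j b c :=
                Finset.sum_congr rfl fun b _ => Finset.sum_comm
        exact e _
    _ = ∑ b, ∑ c, ∑ a, ((O k a * K.t a b c : ℝ) : ℂ) • Ψ b c := by simp only [h1]
    _ = ∑ a, ∑ b, ∑ c, ((O k a * K.t a b c : ℝ) : ℂ) • Ψ b c := by
        rw [Finset.sum_comm]
        calc ∑ c, ∑ b, ∑ a, ((O k a * K.t a b c : ℝ) : ℂ) • Ψ b c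
            = ∑ c, ∑ a, ∑ b, ((O k a * K.t a b c : ℝ) : ℂ) • Ψ b c :=
              Finset.sum_congr rfl fun c _ => Finset.sum_comm
          _ = ∑ a, ∑ c, ∑ b, ((O k a * K.t a b c : ℝ) : ℂ) • Ψ b c := Finset.sum_comm
          _ = _ := Finset.sum_congr rfl fun a _ => Finset.sum_comm
    _ = _ := by
        refine Finset.sum_congr rfl fun a _ => ?_
        rw [Finset.smul_sum]
        refine Finset.sum_congr rfl fun b _ => ?_
        rw [Finset.smul_sum]
        refine Finset.sum_congr rfl fun c _ => ?_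
        rw [smul_smul, Complex.ofReal_mul]

private theorem kap_rot (O : Matrix (Fin 7) (Fin 7) ℝ) (hO : O * O.transpose = 1) (k : Fin 7)
    (x : X3) : (K.rot O hO).kap k (rotX O x) = ∑ a, O k a * K.kap a x := by
  have hx : ∀ b A, ∑ i, O i b * rotX O x (e9 i, A) = x (e9 b, A) := fun b A => by
    simp only [rotX_e9, Finset.mul_sum]
    rw [Finset.sum_comm]
    simp only [← mul_assoc, ← Finset.sum_mul, orth_col hO, ite_mul, one_mul, zero_mul,
      Finset.sum_ite_eq, Finset.mem_univ, if_true]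
  show ∑ i, ∑ j, K.rt O k i j * rotX O x (e9 i, 0) * rotX O x (e9 j, 1) = _
  rw [K.rt_sum O k (fun i => rotX O x (e9 i, 0)) (fun j => rotX O x (e9 j, 1))]
  simp only [hx]
  rfl

private theorem dkap_rot (O : Matrix (Fin 7) (Fin 7) ℝ) (hO : O * O.transpose = 1) (k : Fin 7)
    (x : X3) : (K.rot O hO).dkap k (rotX O x) = ∑ a, (O k a : ℂ) • K.dkap a x := by
  refine Eq.trans ?_ (K.rt_gen hO k fun b c => (x (e9 c, 1) : ℂ) • K.c (e8 b) 0 +
    (x (e9 b, 0) : ℂ) • K.c (e8 c) 1)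
  show ∑ i, ∑ j, ((K.rt O k i j : ℂ)) • ((rotX O x (e9 j, 1) : ℂ) • (K.rot O hO).c (e8 i) 0 +
    (rotX O x (e9 i, 0) : ℂ) • (K.rot O hO).c (e8 j) 1) = _
  refine Finset.sum_congr rfl fun i _ => Finset.sum_congr rfl fun j _ => ?_
  congr 1
  rw [rot_c8, rot_c8, rotX_e9C, rotX_e9C]
  simp only [smul_add, Finset.sum_add_distrib]
  congr 1
  · rw [Finset.smul_sum]
    refine Finset.sum_congr rfl fun b _ => ?_
    rw [Finset.sum_smul]
    refine Finset.sum_congr rfl fun c _ => ?_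
    simp only [smul_smul, smul_eq_mul, Complex.ofReal_mul]
    congr 1
    ring
  · rw [Finset.sum_smul]
    refine Finset.sum_congr rfl fun b _ => ?_
    rw [Finset.smul_sum]
    refine Finset.sum_congr rfl fun c _ => ?_
    simp only [smul_smul, smul_eq_mul, Complex.ofReal_mul]
    congr 1
    ring

/-- linear combinations of creation operators -/
private def Lin (v : F →L[ℂ] F) : Prop :=
  v ∈ Submodule.span ℂ (Set.range fun p : Fin 8 × Fin 3 => K.c p.1 p.2)

private theorem lin_c (i : Fin 8) (A : Fin 3) : K.Lin (K.c i A) :=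
  Submodule.subset_span ⟨(i, A), rfl⟩

private theorem lin_dkap (k : Fin 7) (x : X3) : K.Lin (K.dkap k x) := by
  unfold Lin dkap
  refine Submodule.sum_mem _ fun i _ => Submodule.sum_mem _ fun j _ => ?_
  exact Submodule.smul_mem _ _ (Submodule.add_mem _ (Submodule.smul_mem _ _ (K.lin_c _ _))
    (Submodule.smul_mem _ _ (K.lin_c _ _)))

private theorem lin_anti' {v w : F →L[ℂ] F} (hv : K.Lin v) (hw : K.Lin w) :
    v * w = -(w * v) := by
  refine Submodule.span_induction (p := fun v _ => v * w = -(w * v)) ?_ ?_ ?_ ?_ hv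
  · rintro _ ⟨p, rfl⟩
    refine Submodule.span_induction (p := fun w _ => K.c p.1 p.2 * w = -(w * K.c p.1 p.2))
      ?_ ?_ ?_ ?_ hw
    · rintro _ ⟨q, rfl⟩
      exact eq_neg_of_add_eq_zero_left (K.cc _ _ _ _)
    · rw [mul_zero, zero_mul, neg_zero]
    · intro a b _ _ ha hb
      rw [mul_add, ha, hb, add_mul, neg_add]
    · intro r a _ ha
      rw [mul_smul_comm, ha, smul_mul_assoc, smul_neg]
  · rw [mul_zero, zero_mul, neg_zero]
  · intro a b _ _ ha hb
    rw [add_mul, ha, hb, mul_add, neg_add]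
  · intro r a _ ha
    rw [smul_mul_assoc, ha, mul_smul_comm, smul_neg]

private theorem lin_sq {v : F →L[ℂ] F} (hv : K.Lin v) : v * v = 0 := by
  have h := K.lin_anti' hv hv
  have h2 : (2 : ℂ) • (v * v) = 0 := by
    rw [two_smul]
    nth_rewrite 1 [h]
    exact neg_add_cancel _
  exact (smul_eq_zero.1 h2).resolve_left two_ne_zero

private theorem zk_pow (x : X3) :
    (∑ k : Fin 7, K.c (e8 k) 2 * K.dkap k x) ^ 7 =
      ((Nat.factorial 7 : ℕ) : F →L[ℂ] F) * K.zk x := by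
  refine (rot_sum_pow 7 (fun k => K.c (e8 k) 2 * K.dkap k x) (fun i j => ?_) (fun i => ?_)).1
  · exact (rot_comm_of_anti (K.lin_anti' (K.lin_c _ _) (K.lin_c _ _))
      (K.lin_anti' (K.lin_dkap _ _) (K.lin_c _ _))).mul_right
      (rot_comm_of_anti (K.lin_anti' (K.lin_c _ _) (K.lin_dkap _ _))
      (K.lin_anti' (K.lin_dkap _ _) (K.lin_dkap _ _)))
  · exact rot_sq_zero (K.lin_anti' (K.lin_c _ _) (K.lin_dkap _ _)) (K.lin_sq (K.lin_c _ _))

private theorem zk_rot (O : Matrix (Fin 7) (Fin 7) ℝ) (hO : O * O.transpose = 1) (x : X3) :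
    (K.rot O hO).zk (rotX O x) = K.zk x := by
  have h1 := (K.rot O hO).zk_pow (rotX O x)
  have h2 := K.zk_pow x
  have h3 : ∑ k : Fin 7, (K.rot O hO).c (e8 k) 2 * (K.rot O hO).dkap k (rotX O x) =
      ∑ k : Fin 7, K.c (e8 k) 2 * K.dkap k x := by
    simp only [rot_c8, dkap_rot]
    exact rot_bil (LinearMap.mul ℂ (F →L[ℂ] F)) hO (fun l => K.c (e8 l) 2) (fun l => K.dkap l x)
  rw [h3, h2] at h1
  have h4 : ∀ Z : F →L[ℂ] F, ((Nat.factorial 7 : ℕ) : F →L[ℂ] F) * Z =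
      ((Nat.factorial 7 : ℕ) : ℂ) • Z := fun Z => by
    rw [← nsmul_eq_mul, Nat.cast_smul_eq_nsmul]
  rw [h4, h4] at h1
  exact (smul_right_injective (F →L[ℂ] F)
    (Nat.cast_ne_zero.2 (Nat.factorial_ne_zero 7) : ((Nat.factorial 7 : ℕ) : ℂ) ≠ 0) h1).symm

private theorem c777_rot (O : Matrix (Fin 7) (Fin 7) ℝ) (hO : O * O.transpose = 1) :
    (K.rot O hO).c777 = K.c777 := by
  unfold c777
  rw [rot_c7, rot_c7, rot_c7]

private theorem det_sq {O : Matrix (Fin 7) (Fin 7) ℝ} (hO : O * O.transpose = 1) :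
    (O.det : ℂ) * (O.det : ℂ) = 1 := by
  have h := congrArg Matrix.det hO
  rw [Matrix.det_mul, Matrix.det_transpose, Matrix.det_one] at h
  rw [← Complex.ofReal_mul, h, Complex.ofReal_one]

private theorem Ctop_rot (O : Matrix (Fin 7) (Fin 7) ℝ) (hO : O * O.transpose = 1) :
    (K.rot O hO).Ctop = (O.det : ℂ) • K.Ctop := by
  obtain ⟨e, he⟩ := rot_shuffle (R := F →L[ℂ] F) 7
  have hd : ∀ A, (List.ofFn fun k : Fin 7 => (K.rot O hO).c (e8 k) A).prod =
      (O.det : ℂ) • (List.ofFn fun k : Fin 7 => K.c (e8 k) A).prod := fun A => by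
    have h := rot_det (fun k : Fin 7 => K.c (e8 k) A) (fun i j => K.cc _ _ _ _)
      (O.map (fun r => (r : ℂ)))
    have h2 : (O.map (fun r => (r : ℂ))).det = ((O.det : ℝ) : ℂ) :=
      (RingHom.map_det Complex.ofRealHom O).symm
    rw [h2] at h
    rw [← h]
    congr 2
    funext k
    rw [rot_c8]
    rfl
  have hanti : ∀ (L : Fk F) (A B : Fin 3) (i j : Fin 7),
      L.c (e8 i) A * L.c (e8 j) B = -(L.c (e8 j) B * L.c (e8 i) A) := fun L A B i j =>
    eq_neg_of_add_eq_zero_left (L.cc _ _ _ _)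
  unfold Ctop
  rw [he _ _ _ (hanti _ _ _) (hanti _ _ _) (hanti _ _ _),
    he _ _ _ (hanti K _ _) (hanti K _ _) (hanti K _ _), hd, hd, hd, rot_c7, rot_c7, rot_c7]
  simp only [smul_mul_assoc, mul_smul_comm, smul_smul]
  rw [det_sq hO, mul_one]

private theorem rot_vac (O : Matrix (Fin 7) (Fin 7) ℝ) (hO : O * O.transpose = 1) :
    (K.rot O hO).vac = K.vac := rfl

private theorem rot_vacb (O : Matrix (Fin 7) (Fin 7) ℝ) (hO : O * O.transpose = 1) :
    (K.rot O hO).vacb = K.vacb := rfl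

theorem A3_rot (O : Matrix (Fin 7) (Fin 7) ℝ) (hO : O * O.transpose = 1) (x : X3) :
    (K.rot O hO).A3 (rotX O x) = K.A3 x := by
  unfold A3
  rw [c777_rot, mu_rot, BB_rot, zk_rot, rot_vac, rot_vacb]

theorem A2_rot (O : Matrix (Fin 7) (Fin 7) ℝ) (hO : O * O.transpose = 1) (x : X3) :
    (K.rot O hO).A2 (rotX O x) = K.A2 x := by
  unfold A2
  rw [c777_rot, mu_rot, BB_rot, zk_rot, ds_rot, dsb_rot, rot_vac, rot_vacb]

theorem pairc_rot (O : Matrix (Fin 7) (Fin 7) ℝ) (hO : O * O.transpose = 1) :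
    (K.rot O hO).pairc = (O.det : ℂ) * K.pairc := by
  unfold pairc
  rw [Ctop_rot, rot_vac, rot_vacb, smul_apply, inner_smul_right]

private theorem sq_rot {O : Matrix (Fin 7) (Fin 7) ℝ} (hO : O * O.transpose = 1) (u : Fin 7 → ℝ) :
    ∑ k, (∑ a, O k a * u a) ^ 2 = ∑ a, u a ^ 2 := by
  have h := rot_bil (LinearMap.mul ℂ ℂ) hO (fun a => (u a : ℂ)) (fun a => (u a : ℂ))
  simp only [LinearMap.mul_apply', smul_eq_mul, ← Complex.ofReal_mul, ← Complex.ofReal_sum,
    Complex.ofReal_inj] at h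
  simp only [sq, h]

theorem kapsq_rot (O : Matrix (Fin 7) (Fin 7) ℝ) (hO : O * O.transpose = 1) (x : X3) :
    (K.rot O hO).kapsq (rotX O x) = K.kapsq x := by
  unfold kapsq
  simp only [kap_rot]
  exact sq_rot hO _

theorem wsq_rotX (O : Matrix (Fin 7) (Fin 7) ℝ) (hO : O * O.transpose = 1) (x : X3) :
    wsq (rotX O x) = wsq x := by
  unfold wsq
  simp only [rotX_e9, Finset.sum_add_distrib]
  rw [sq_rot hO, sq_rot hO]

/-! ### the torus -/

private theorem Tel00 (θ : ℝ) : rotm (Tel θ) 0 0 = Real.cos (2 * θ) := rotm_Tel θ 0 0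
private theorem Tel01 (θ : ℝ) : rotm (Tel θ) 0 1 = Real.sin (2 * θ) := rotm_Tel θ 0 1
private theorem Tel02 (θ : ℝ) : rotm (Tel θ) 0 2 = 0 := rotm_Tel θ 0 2
private theorem Tel10 (θ : ℝ) : rotm (Tel θ) 1 0 = -Real.sin (2 * θ) := rotm_Tel θ 1 0
private theorem Tel11 (θ : ℝ) : rotm (Tel θ) 1 1 = Real.cos (2 * θ) := rotm_Tel θ 1 1
private theorem Tel12 (θ : ℝ) : rotm (Tel θ) 1 2 = 0 := rotm_Tel θ 1 2
private theorem Tel20 (θ : ℝ) : rotm (Tel θ) 2 0 = 0 := rotm_Tel θ 2 0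
private theorem Tel21 (θ : ℝ) : rotm (Tel θ) 2 1 = 0 := rotm_Tel θ 2 1
private theorem Tel22 (θ : ℝ) : rotm (Tel θ) 2 2 = 1 := rotm_Tel θ 2 2

private theorem Tel_S0 (θ : ℝ) (i : Fin 8) : K.S (Tel θ) * K.c i 0 =
    ((Real.cos (2 * θ) : ℂ) • K.c i 0 - (Real.sin (2 * θ) : ℂ) • K.c i 1) * K.S (Tel θ) := by
  rw [K.S_c, Fin.sum_univ_three, Tel00, Tel10, Tel20, Complex.ofReal_neg, Complex.ofReal_zero,
    zero_smul, add_zero, neg_smul, sub_mul, smul_mul_assoc, smul_mul_assoc, ← sub_eq_add_neg]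

private theorem Tel_S1 (θ : ℝ) (i : Fin 8) : K.S (Tel θ) * K.c i 1 =
    ((Real.sin (2 * θ) : ℂ) • K.c i 0 + (Real.cos (2 * θ) : ℂ) • K.c i 1) * K.S (Tel θ) := by
  rw [K.S_c, Fin.sum_univ_three, Tel01, Tel11, Tel21, Complex.ofReal_zero,
    zero_smul, add_zero, add_mul, smul_mul_assoc, smul_mul_assoc]

private theorem Tel_S2 (θ : ℝ) (i : Fin 8) : K.S (Tel θ) * K.c i 2 =
    K.c i 2 * K.S (Tel θ) := by
  rw [K.S_c, Fin.sum_univ_three, Tel02, Tel12, Tel22, Complex.ofReal_zero, Complex.ofReal_one,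
    zero_smul, zero_smul, zero_add, zero_add, one_smul]

private theorem Tel_x0 (θ : ℝ) (x : X3) (i : Fin 9) : act (Tel θ) x (i, 0) =
    Real.cos (2 * θ) * x (i, 0) + Real.sin (2 * θ) * x (i, 1) := by
  show ∑ A, rotm (Tel θ) 0 A * x (i, A) = _
  rw [Fin.sum_univ_three, Tel00, Tel01, Tel02, zero_mul, add_zero]

private theorem Tel_x1 (θ : ℝ) (x : X3) (i : Fin 9) : act (Tel θ) x (i, 1) =
    -(Real.sin (2 * θ) * x (i, 0)) + Real.cos (2 * θ) * x (i, 1) := by
  show ∑ A, rotm (Tel θ) 1 A * x (i, A) = _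
  rw [Fin.sum_univ_three, Tel10, Tel11, Tel12, zero_mul, add_zero, neg_mul]

/-- `T'` is the conjugate of `T` -/
private def Cv (θ : ℝ) (T T' : F →L[ℂ] F) : Prop := K.S (Tel θ) * T = T' * K.S (Tel θ)

private theorem Cv.mul {θ : ℝ} {T1 T1' T2 T2' : F →L[ℂ] F} (h1 : K.Cv θ T1 T1')
    (h2 : K.Cv θ T2 T2') : K.Cv θ (T1 * T2) (T1' * T2') := by
  unfold Cv at *
  rw [← mul_assoc, h1, mul_assoc, h2, mul_assoc]

private theorem Cv.smul {θ : ℝ} {T T' : F →L[ℂ] F} (h : K.Cv θ T T') (r : ℂ) :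
    K.Cv θ (r • T) (r • T') := by
  unfold Cv at *
  rw [mul_smul_comm, h, smul_mul_assoc]

private theorem Cv.add {θ : ℝ} {T1 T1' T2 T2' : F →L[ℂ] F} (h1 : K.Cv θ T1 T1')
    (h2 : K.Cv θ T2 T2') : K.Cv θ (T1 + T2) (T1' + T2') := by
  unfold Cv at *
  rw [mul_add, h1, h2, add_mul]

private theorem Cv.sub {θ : ℝ} {T1 T1' T2 T2' : F →L[ℂ] F} (h1 : K.Cv θ T1 T1')
    (h2 : K.Cv θ T2 T2') : K.Cv θ (T1 - T2) (T1' - T2') := by
  unfold Cv at *
  rw [mul_sub, h1, h2, sub_mul]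

private theorem Cv.sum {θ : ℝ} {n : ℕ} {T T' : Fin n → F →L[ℂ] F} (h : ∀ i, K.Cv θ (T i) (T' i)) :
    K.Cv θ (∑ i, T i) (∑ i, T' i) := by
  unfold Cv at *
  rw [Finset.mul_sum, Finset.sum_mul]
  exact Finset.sum_congr rfl fun i _ => h i

private theorem Cv.prod {θ : ℝ} {n : ℕ} {T T' : Fin n → F →L[ℂ] F} (h : ∀ i, K.Cv θ (T i) (T' i)) :
    K.Cv θ (List.ofFn T).prod (List.ofFn T').prod := by
  induction n with
  | zero => simp only [Cv, List.ofFn_zero, List.prod_nil, mul_one, one_mul]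
  | succ n ih =>
    rw [List.ofFn_succ, List.ofFn_succ, List.prod_cons, List.prod_cons]
    exact Cv.mul K (h 0) (ih fun i => h i.succ)

private theorem Cv.inner {θ : ℝ} {T T' : F →L[ℂ] F} (h : K.Cv θ T T') :
    inner ℂ K.vacb (T' K.vac) = inner ℂ K.vacb (T K.vac) := by
  have h1 : K.S (Tel θ) (T K.vac) = T' K.vac := by
    have h2 : (K.S (Tel θ) * T) K.vac = (T' * K.S (Tel θ)) K.vac := by rw [h]
    change K.S (Tel θ) (T K.vac) = T' (K.S (Tel θ) K.vac) at h2
    rwa [K.S_vac] at h2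
  rw [← h1]
  nth_rewrite 1 [← K.S_vacb (Tel θ)]
  exact K.S_inner _ _ _

private theorem cs_C (θ : ℝ) : (Real.cos (2 * θ) : ℂ) * (Real.cos (2 * θ) : ℂ) +
    (Real.sin (2 * θ) : ℂ) * (Real.sin (2 * θ) : ℂ) = 1 := by
  rw [← Complex.ofReal_mul, ← Complex.ofReal_mul, ← Complex.ofReal_add, ← sq, ← sq,
    Real.cos_sq_add_sin_sq, Complex.ofReal_one]

private theorem cv_c01 (θ : ℝ) (i : Fin 8) : K.Cv θ (K.c i 0 * K.c i 1) (K.c i 0 * K.c i 1) := by
  have h := Cv.mul K (K.Tel_S0 θ i) (K.Tel_S1 θ i)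
  have e : ((Real.cos (2 * θ) : ℂ) • K.c i 0 - (Real.sin (2 * θ) : ℂ) • K.c i 1) *
      ((Real.sin (2 * θ) : ℂ) • K.c i 0 + (Real.cos (2 * θ) : ℂ) • K.c i 1) =
      K.c i 0 * K.c i 1 := by
    have h0 : K.c i 0 * K.c i 0 = 0 := K.lin_sq (K.lin_c _ _)
    have h1 : K.c i 1 * K.c i 1 = 0 := K.lin_sq (K.lin_c _ _)
    have h2 : K.c i 1 * K.c i 0 = -(K.c i 0 * K.c i 1) := K.lin_anti' (K.lin_c _ _) (K.lin_c _ _)
    rw [sub_mul, mul_add, mul_add, smul_mul_smul_comm, smul_mul_smul_comm, smul_mul_smul_comm,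
      smul_mul_smul_comm, h0, h1, h2, smul_zero, smul_zero, zero_add, add_zero, smul_neg,
      sub_neg_eq_add, ← add_smul, cs_C, one_smul]
  rwa [e] at h

private theorem cv_BB (θ : ℝ) : K.Cv θ K.BB K.BB := by
  unfold BB
  exact Cv.sum K fun k => K.cv_c01 θ _

private theorem cv_c777 (θ : ℝ) : K.Cv θ K.c777 K.c777 := by
  unfold c777
  exact Cv.mul K (K.cv_c01 θ _) (K.Tel_S2 θ _)

private theorem cv_mu (θ : ℝ) (x : X3) : K.Cv θ (K.mu x) (K.mu (act (Tel θ) x)) := by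
  unfold mu
  refine Cv.sum K fun k => ?_
  have h := Cv.sub K (Cv.smul K (K.Tel_S1 θ (e8 k)) (x (e9 k, 0) : ℂ))
    (Cv.smul K (K.Tel_S0 θ (e8 k)) (x (e9 k, 1) : ℂ))
  have e : ((x (e9 k, 0) : ℂ) • ((Real.sin (2 * θ) : ℂ) • K.c (e8 k) 0 +
      (Real.cos (2 * θ) : ℂ) • K.c (e8 k) 1) -
      (x (e9 k, 1) : ℂ) • ((Real.cos (2 * θ) : ℂ) • K.c (e8 k) 0 -
      (Real.sin (2 * θ) : ℂ) • K.c (e8 k) 1)) =
      ((act (Tel θ) x (e9 k, 0) : ℂ) • K.c (e8 k) 1 - (act (Tel θ) x (e9 k, 1) : ℂ) • K.c (e8 k) 0) := by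
    rw [Tel_x0, Tel_x1]
    push_cast
    module
  rwa [e] at h

/-- `ds` and `ds̄` together: `J = ± i` -/
private def dsJ (J : ℂ) (x : X3) : F →L[ℂ] F :=
  ∑ i : Fin 7, (2 * ((x (e9 i, 0) : ℂ) + J * (x (e9 i, 1) : ℂ))) •
    (K.c (e8 i) 0 + J • K.c (e8 i) 1)

private theorem ds_J (x : X3) : K.ds x = K.dsJ Complex.I x := rfl

private theorem dsb_J (x : X3) : K.dsb x = K.dsJ (-Complex.I) x := by
  unfold dsb dsJ
  refine Finset.sum_congr rfl fun i _ => ?_
  rw [neg_mul, neg_smul, ← sub_eq_add_neg, ← sub_eq_add_neg]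

private theorem cv_dsJ {J : ℂ} (hJ : J * J = -1) (θ : ℝ) (x : X3) : K.Cv θ (K.dsJ J x)
    ((((Real.cos (2 * θ) : ℂ) + J * (Real.sin (2 * θ) : ℂ)) ^ 2) •
      K.dsJ J (act (Tel θ) x)) := by
  unfold dsJ
  rw [Finset.smul_sum]
  refine Cv.sum K fun k => ?_
  have h := Cv.smul K (Cv.add K (K.Tel_S0 θ (e8 k)) (Cv.smul K (K.Tel_S1 θ (e8 k)) J))
    (2 * ((x (e9 k, 0) : ℂ) + J * (x (e9 k, 1) : ℂ)))
  have hcs := cs_C θ
  generalize hc : (Real.cos (2 * θ) : ℂ) = c at h hcs ⊢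
  generalize hs : (Real.sin (2 * θ) : ℂ) = s at h hcs ⊢
  have hx0 : ((act (Tel θ) x (e9 k, 0) : ℝ) : ℂ) = c * x (e9 k, 0) + s * x (e9 k, 1) := by
    rw [Tel_x0, ← hc, ← hs]; push_cast; ring
  have hx1 : ((act (Tel θ) x (e9 k, 1) : ℝ) : ℂ) = -(s * x (e9 k, 0)) + c * x (e9 k, 1) := by
    rw [Tel_x1, ← hc, ← hs]; push_cast; ring
  have e : (2 * ((x (e9 k, 0) : ℂ) + J * (x (e9 k, 1) : ℂ))) •
      (c • K.c (e8 k) 0 - s • K.c (e8 k) 1 + J • (s • K.c (e8 k) 0 + c • K.c (e8 k) 1)) =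
      ((c + J * s) ^ 2) • (2 * ((act (Tel θ) x (e9 k, 0) : ℂ) +
        J * (act (Tel θ) x (e9 k, 1) : ℂ))) • (K.c (e8 k) 0 + J • K.c (e8 k) 1) := by
    have e1 : c • K.c (e8 k) 0 - s • K.c (e8 k) 1 + J • (s • K.c (e8 k) 0 + c • K.c (e8 k) 1) =
        (c + J * s) • (K.c (e8 k) 0 + J • K.c (e8 k) 1) := by
      have hI : (c + J * s) * J = J * c - s := by
        linear_combination s * hJ
      rw [smul_add (c + J * s), smul_smul (c + J * s), hI]
      module
    have e2 : (c + J * s) ^ 2 * (2 * ((act (Tel θ) x (e9 k, 0) : ℂ) +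
        J * (act (Tel θ) x (e9 k, 1) : ℂ))) =
        2 * ((x (e9 k, 0) : ℂ) + J * (x (e9 k, 1) : ℂ)) * (c + J * s) := by
      have e3 : ((act (Tel θ) x (e9 k, 0) : ℂ) + J * (act (Tel θ) x (e9 k, 1) : ℂ)) =
          (c - J * s) * ((x (e9 k, 0) : ℂ) + J * (x (e9 k, 1) : ℂ)) := by
        rw [hx0, hx1]
        linear_combination (s * (x (e9 k, 1) : ℂ)) * hJ
      have e4 : (c + J * s) * (c - J * s) = 1 := by
        linear_combination hcs - s * s * hJ
      rw [e3]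
      linear_combination (2 * ((x (e9 k, 0) : ℂ) + J * (x (e9 k, 1) : ℂ)) *
        (c + J * s)) * e4
    rw [e1, smul_smul, smul_smul, e2]
  rwa [e] at h

private theorem cv_dd (θ : ℝ) (x : X3) : K.Cv θ (K.ds x * K.dsb x)
    (K.ds (act (Tel θ) x) * K.dsb (act (Tel θ) x)) := by
  have hI : Complex.I * Complex.I = -1 := Complex.I_mul_I
  have hI' : -Complex.I * -Complex.I = -1 := by rw [neg_mul_neg, Complex.I_mul_I]
  rw [ds_J, dsb_J, ds_J, dsb_J]
  have h := Cv.mul K (K.cv_dsJ hI θ x) (K.cv_dsJ hI' θ x)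
  have hcs := cs_C θ
  rw [smul_mul_smul_comm] at h
  generalize hc : (Real.cos (2 * θ) : ℂ) = c at h hcs
  generalize hs : (Real.sin (2 * θ) : ℂ) = s at h hcs
  have e : (c + Complex.I * s) ^ 2 * (c + -Complex.I * s) ^ 2 = 1 := by
    have e1 : (c + Complex.I * s) * (c + -Complex.I * s) = 1 := by
      linear_combination hcs - s * s * hI
    rw [← mul_pow, e1, one_pow]
  rwa [e, one_smul] at h

private theorem anti_sum {R M : Type*} [Field R] [CharZero R] [AddCommGroup M] [Module R M]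
    (τ : Fin 7 → Fin 7 → R) (hτ : ∀ i j, τ i j = -τ j i) (f : Fin 7 → Fin 7 → M)
    (hf : ∀ i j, f i j = f j i) : ∑ i, ∑ j, τ i j • f i j = 0 := by
  have h : ∑ i, ∑ j, τ i j • f i j = -∑ i, ∑ j, τ i j • f i j := by
    nth_rewrite 1 [Finset.sum_comm]
    rw [← Finset.sum_neg_distrib]
    refine Finset.sum_congr rfl fun i _ => ?_
    rw [← Finset.sum_neg_distrib]
    refine Finset.sum_congr rfl fun j _ => ?_
    rw [hτ j i, hf j i, neg_smul]
  have h2 : (2 : R) • ∑ i, ∑ j, τ i j • f i j = 0 := by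
    rw [two_smul]
    nth_rewrite 1 [h]
    exact neg_add_cancel _
  exact (smul_eq_zero.1 h2).resolve_left two_ne_zero

private theorem cv_dkap (θ : ℝ) (k : Fin 7) (x : X3) :
    K.Cv θ (K.dkap k x) (K.dkap k (act (Tel θ) x)) := by
  unfold dkap
  have h : K.Cv θ (∑ i, ∑ j, ((K.t k i j : ℂ)) • ((x (e9 j, 1) : ℂ) • K.c (e8 i) 0 +
      (x (e9 i, 0) : ℂ) • K.c (e8 j) 1)) (∑ i, ∑ j, ((K.t k i j : ℂ)) •
      ((x (e9 j, 1) : ℂ) • ((Real.cos (2 * θ) : ℂ) • K.c (e8 i) 0 -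
      (Real.sin (2 * θ) : ℂ) • K.c (e8 i) 1) + (x (e9 i, 0) : ℂ) •
      ((Real.sin (2 * θ) : ℂ) • K.c (e8 j) 0 + (Real.cos (2 * θ) : ℂ) • K.c (e8 j) 1))) :=
    Cv.sum K fun i => Cv.sum K fun j => Cv.smul K (Cv.add K
      (Cv.smul K (K.Tel_S0 θ (e8 i)) _) (Cv.smul K (K.Tel_S1 θ (e8 j)) _)) _
  have e : (∑ i, ∑ j, ((K.t k i j : ℂ)) •
      ((x (e9 j, 1) : ℂ) • ((Real.cos (2 * θ) : ℂ) • K.c (e8 i) 0 -
      (Real.sin (2 * θ) : ℂ) • K.c (e8 i) 1) + (x (e9 i, 0) : ℂ) •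
      ((Real.sin (2 * θ) : ℂ) • K.c (e8 j) 0 + (Real.cos (2 * θ) : ℂ) • K.c (e8 j) 1))) =
      ∑ i, ∑ j, ((K.t k i j : ℂ)) • ((act (Tel θ) x (e9 j, 1) : ℂ) • K.c (e8 i) 0 +
        (act (Tel θ) x (e9 i, 0) : ℂ) • K.c (e8 j) 1) := by
    have h0 := anti_sum (fun i j => (K.t k i j : ℂ))
      (fun i j => by rw [K.t_swap k i j, Complex.ofReal_neg])
      (fun i j => (Real.sin (2 * θ) : ℂ) • (((x (e9 i, 0) : ℂ) • K.c (e8 j) 0 +
        (x (e9 j, 0) : ℂ) • K.c (e8 i) 0) - ((x (e9 i, 1) : ℂ) • K.c (e8 j) 1 +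
        (x (e9 j, 1) : ℂ) • K.c (e8 i) 1)))
      (fun i j => by
        rw [add_comm ((x (e9 i, 0) : ℂ) • K.c (e8 j) 0), add_comm ((x (e9 i, 1) : ℂ) • K.c (e8 j) 1)])
    rw [← sub_eq_zero, ← Finset.sum_sub_distrib]
    refine Eq.trans (Finset.sum_congr rfl fun i _ => ?_) h0
    rw [← Finset.sum_sub_distrib]
    refine Finset.sum_congr rfl fun j _ => ?_
    rw [← smul_sub]
    congr 1
    rw [Tel_x0, Tel_x1]
    push_cast
    module
  rwa [e] at h

private theorem cv_zk (θ : ℝ) (x : X3) : K.Cv θ (K.zk x) (K.zk (act (Tel θ) x)) := by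
  unfold zk
  exact Cv.prod K fun k => Cv.mul K (K.Tel_S2 θ _) (K.cv_dkap θ k x)

theorem A3_Tel (θ : ℝ) (x : X3) : K.A3 (act (Tel θ) x) = K.A3 x := by
  unfold A3
  exact Cv.inner K (Cv.mul K (Cv.mul K (Cv.mul K (K.cv_c777 θ) (K.cv_mu θ x))
    (Cv.smul K (Cv.mul K (Cv.mul K (K.cv_BB θ) (K.cv_BB θ)) (K.cv_BB θ)) _)) (K.cv_zk θ x))

theorem A2_Tel (θ : ℝ) (x : X3) : K.A2 (act (Tel θ) x) = K.A2 x := by
  unfold A2
  exact Cv.inner K (Cv.mul K (Cv.mul K (Cv.mul K (Cv.mul K (K.cv_c777 θ) (K.cv_mu θ x))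
    (K.cv_dd θ x)) (Cv.smul K (Cv.mul K (K.cv_BB θ) (K.cv_BB θ)) _)) (K.cv_zk θ x))

private theorem kap_Tel (θ : ℝ) (k : Fin 7) (x : X3) : K.kap k (act (Tel θ) x) = K.kap k x := by
  unfold kap
  have h0 := anti_sum (fun i j => K.t k i j) (fun i j => K.t_swap k i j)
    (fun i j => Real.cos (2 * θ) * Real.sin (2 * θ) * (x (e9 i, 1) * x (e9 j, 1) -
      x (e9 i, 0) * x (e9 j, 0)) - Real.sin (2 * θ) ^ 2 * (x (e9 i, 1) * x (e9 j, 0) +
      x (e9 i, 0) * x (e9 j, 1)))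
    (fun i j => by ring)
  rw [← sub_eq_zero, ← Finset.sum_sub_distrib]
  refine Eq.trans (Finset.sum_congr rfl fun i _ => ?_) h0
  rw [← Finset.sum_sub_distrib]
  refine Finset.sum_congr rfl fun j _ => ?_
  rw [Tel_x0, Tel_x1, smul_eq_mul]
  linear_combination (K.t k i j * x (e9 i, 0) * x (e9 j, 1)) * Real.cos_sq_add_sin_sq (2 * θ)

theorem kapsq_Tel (θ : ℝ) (x : X3) : K.kapsq (act (Tel θ) x) = K.kapsq x := by
  unfold kapsq
  simp only [kap_Tel]

theorem wsq_Tel (θ : ℝ) (x : X3) : wsq (act (Tel θ) x) = wsq x := by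
  unfold wsq
  refine Finset.sum_congr rfl fun i _ => ?_
  rw [Tel_x0, Tel_x1]
  linear_combination (x (e9 i, 0) ^ 2 + x (e9 i, 1) ^ 2) * Real.cos_sq_add_sin_sq (2 * θ)

/-- a torus rotation makes `x¹ ⊥ x²` -/
theorem exists_Tel_orth (x : X3) : ∃ θ : ℝ,
    ∑ i : Fin 7, act (Tel θ) x (e9 i, 0) * act (Tel θ) x (e9 i, 1) = 0 := by
  obtain ⟨P, hP⟩ : ∃ P : ℝ, P = ∑ i : Fin 7, x (e9 i, 0) * x (e9 i, 1) := ⟨_, rfl⟩
  obtain ⟨Q, hQ⟩ : ∃ Q : ℝ, Q = ∑ i : Fin 7, (x (e9 i, 1) ^ 2 - x (e9 i, 0) ^ 2) / 2 := ⟨_, rfl⟩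
  obtain ⟨φ, hφ⟩ : ∃ φ : ℝ, φ = Complex.arg (⟨-Q, P⟩ : ℂ) := ⟨_, rfl⟩
  have h1 := Complex.norm_mul_cos_arg (⟨-Q, P⟩ : ℂ)
  have h2 := Complex.norm_mul_sin_arg (⟨-Q, P⟩ : ℂ)
  rw [← hφ] at h1 h2
  refine ⟨φ / 4, ?_⟩
  have h3 : ∑ i : Fin 7, act (Tel (φ / 4)) x (e9 i, 0) * act (Tel (φ / 4)) x (e9 i, 1) =
      Real.cos φ * P + Real.sin φ * Q := by
    rw [hP, hQ, Finset.mul_sum, Finset.mul_sum, ← Finset.sum_add_distrib]
    refine Finset.sum_congr rfl fun i _ => ?_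
    rw [Tel_x0, Tel_x1]
    have e1 : φ = 2 * (2 * (φ / 4)) := by ring
    have e2 : Real.cos φ = Real.cos (2 * (φ / 4)) ^ 2 - Real.sin (2 * (φ / 4)) ^ 2 := by
      nth_rewrite 1 [e1]
      exact Real.cos_two_mul' _
    have e3 : Real.sin φ = 2 * Real.sin (2 * (φ / 4)) * Real.cos (2 * (φ / 4)) := by
      nth_rewrite 1 [e1]
      exact Real.sin_two_mul _
    rw [e2, e3]
    ring
  rw [h3]
  have h1' : ‖(⟨-Q, P⟩ : ℂ)‖ * Real.cos φ = -Q := h1
  have h2' : ‖(⟨-Q, P⟩ : ℂ)‖ * Real.sin φ = P := h2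
  linear_combination (-Real.cos φ) * h2' + Real.sin φ * h1'

end Fk

end Vale.Agent.P353.Ex
end

section

/-! # P353, uniqueness for `N = 2`: module B5, eigenvalue of a compact symmetric operator -/

open MeasureTheory Filter Topology

namespace Vale.Agent.P353.U

theorem eig_aux {H : Type*} [NormedAddCommGroup H] [InnerProductSpace ℂ H]
    (T : H →L[ℂ] H) (hT : ∀ f g, inner ℂ (T f) g = inner ℂ f (T g)) (hc : IsCompactOperator T)
    (K : Submodule ℂ H) (hK : IsClosed (K : Set H)) (hinv : ∀ v ∈ K, T v ∈ K) (c : ℝ)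
    (h0 : 0 ≤ c) (v : H) (hv : v ∈ K) (hlt : c * ‖v‖ ^ 2 < (inner ℂ (T v) v).re) :
    ∃ μ : ℝ, c < μ ∧ ∃ w ∈ K, w ≠ 0 ∧ T w = (μ : ℂ) • w := by
  -- the set of Rayleigh quotients
  set A : Set ℝ := {r | ∃ x ∈ K, ‖x‖ = 1 ∧ (inner ℂ (T x) x).re = r} with hA
  have hbd : ∀ x : H, (inner ℂ (T x) x).re ≤ ‖T‖ * ‖x‖ ^ 2 := by
    intro x
    calc (inner ℂ (T x) x).re ≤ ‖(inner ℂ (T x) x : ℂ)‖ := Complex.re_le_norm _
      _ ≤ ‖T x‖ * ‖x‖ := norm_inner_le_norm _ _
      _ ≤ (‖T‖ * ‖x‖) * ‖x‖ := by gcongr; exact T.le_opNorm x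
      _ = ‖T‖ * ‖x‖ ^ 2 := by ring
  have hbd' : ∀ x : H, -(‖T‖ * ‖x‖ ^ 2) ≤ (inner ℂ (T x) x).re := by
    intro x
    have h1 : |(inner ℂ (T x) x).re| ≤ ‖(inner ℂ (T x) x : ℂ)‖ := Complex.abs_re_le_norm _
    have h2 : ‖(inner ℂ (T x) x : ℂ)‖ ≤ ‖T‖ * ‖x‖ ^ 2 := by
      calc ‖(inner ℂ (T x) x : ℂ)‖ ≤ ‖T x‖ * ‖x‖ := norm_inner_le_norm _ _
        _ ≤ (‖T‖ * ‖x‖) * ‖x‖ := by gcongr; exact T.le_opNorm x
        _ = ‖T‖ * ‖x‖ ^ 2 := by ring
    have h3 := neg_abs_le (inner ℂ (T x) x).re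
    linarith
  have hbA : BddAbove A := by
    refine ⟨‖T‖, ?_⟩
    rintro r ⟨x, -, hx1, rfl⟩
    have := hbd x
    rw [hx1] at this
    linarith
  have hv0 : v ≠ 0 := by
    rintro rfl
    simp at hlt
  have hvn : 0 < ‖v‖ := norm_pos_iff.2 hv0
  -- scaling
  have hscale : ∀ x ∈ K, x ≠ 0 → (inner ℂ (T x) x).re / ‖x‖ ^ 2 ∈ A := by
    intro x hx hx0
    have hxn : 0 < ‖x‖ := norm_pos_iff.2 hx0
    refine ⟨((‖x‖⁻¹ : ℝ) : ℂ) • x, K.smul_mem _ hx, ?_, ?_⟩
    · rw [norm_smul, Complex.norm_real, norm_inv, norm_norm, inv_mul_cancel₀ hxn.ne']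
    · rw [map_smul, inner_smul_left, inner_smul_right, Complex.conj_ofReal, Complex.re_ofReal_mul,
        Complex.re_ofReal_mul]
      field_simp
  have hAne : A.Nonempty := ⟨_, hscale v hv hv0⟩
  set M : ℝ := sSup A with hM
  have hcM : c < M := by
    refine lt_of_lt_of_le ?_ (le_csSup hbA (hscale v hv hv0))
    rw [lt_div_iff₀ (by positivity)]
    exact hlt
  have hMpos : 0 < M := lt_of_le_of_lt h0 hcM
  have hq : ∀ x ∈ K, 0 ≤ M * ‖x‖ ^ 2 - (inner ℂ (T x) x).re := by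
    intro x hx
    by_cases hx0 : x = 0
    · subst hx0; simp
    · have h1 := le_csSup hbA (hscale x hx hx0)
      rw [div_le_iff₀ (by have := norm_pos_iff.2 hx0; positivity)] at h1
      linarith
  -- the key estimate
  set L : ℝ := M + ‖T‖ + 1 with hL
  have hLpos : 0 < L := by have := norm_nonneg T; linarith
  have hkey : ∀ x ∈ K, ‖(M : ℂ) • x - T x‖ ^ 2 ≤ L * (M * ‖x‖ ^ 2 - (inner ℂ (T x) x).re) := by
    intro x hx
    set y : H := (M : ℂ) • x - T x with hy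
    have hyK : y ∈ K := K.sub_mem (K.smul_mem _ hx) (hinv x hx)
    set t : ℝ := 1 / L with ht
    have h1 := hq (x - (t : ℂ) • y) (K.sub_mem hx (K.smul_mem _ hyK))
    have hyy : (inner ℂ y y).re = ‖y‖ ^ 2 := by
      rw [inner_self_eq_norm_sq_to_K]
      norm_cast
    have hxx : (inner ℂ x x).re = ‖x‖ ^ 2 := by
      rw [inner_self_eq_norm_sq_to_K]
      norm_cast
    -- `⟪Mx - Tx, y⟫ = ‖y‖²`
    have e1 : M * (inner ℂ x y).re - (inner ℂ (T x) y).re = ‖y‖ ^ 2 := by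
      rw [← hyy]
      nth_rewrite 3 [hy]
      rw [inner_sub_left, inner_smul_left, Complex.conj_ofReal, Complex.sub_re,
        Complex.re_ofReal_mul]
    have e2 : (inner ℂ (T y) x).re = (inner ℂ (T x) y).re := by
      rw [hT y x, ← inner_conj_symm, Complex.conj_re]
    have e3 : (inner ℂ y x).re = (inner ℂ x y).re := by
      rw [← inner_conj_symm, Complex.conj_re]
    have n1 : ‖x - (t : ℂ) • y‖ ^ 2 = ‖x‖ ^ 2 - 2 * t * (inner ℂ x y).re + t ^ 2 * ‖y‖ ^ 2 := by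
      have hz : (inner ℂ (x - (t : ℂ) • y) (x - (t : ℂ) • y)).re = ‖x - (t : ℂ) • y‖ ^ 2 := by
        rw [inner_self_eq_norm_sq_to_K]
        norm_cast
      rw [← hz, inner_sub_left, inner_sub_right, inner_sub_right, inner_smul_left,
        inner_smul_left, inner_smul_right, inner_smul_right, Complex.conj_ofReal]
      simp only [Complex.sub_re, Complex.re_ofReal_mul]
      rw [hxx, hyy, e3]
      ring
    have n2 : (inner ℂ (T (x - (t : ℂ) • y)) (x - (t : ℂ) • y)).re =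
        (inner ℂ (T x) x).re - 2 * t * (inner ℂ (T x) y).re + t ^ 2 * (inner ℂ (T y) y).re := by
      rw [map_sub, map_smul, inner_sub_left, inner_sub_right, inner_sub_right, inner_smul_left,
        inner_smul_left, inner_smul_right, inner_smul_right, Complex.conj_ofReal]
      simp only [Complex.sub_re, Complex.re_ofReal_mul]
      rw [e2]
      ring
    rw [n1, n2] at h1
    have h2 := hbd' y
    have h3 : 0 ≤ (M * ‖x‖ ^ 2 - (inner ℂ (T x) x).re) - 2 * t * ‖y‖ ^ 2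
        + t ^ 2 * (M * ‖y‖ ^ 2 - (inner ℂ (T y) y).re) := by
      have : M * (‖x‖ ^ 2 - 2 * t * (inner ℂ x y).re + t ^ 2 * ‖y‖ ^ 2) -
          ((inner ℂ (T x) x).re - 2 * t * (inner ℂ (T x) y).re + t ^ 2 * (inner ℂ (T y) y).re) =
        (M * ‖x‖ ^ 2 - (inner ℂ (T x) x).re) -
          2 * t * (M * (inner ℂ x y).re - (inner ℂ (T x) y).re)
        + t ^ 2 * (M * ‖y‖ ^ 2 - (inner ℂ (T y) y).re) := by ring
      rw [this, e1] at h1
      exact h1
    have h4 : M * ‖y‖ ^ 2 - (inner ℂ (T y) y).re ≤ L * ‖y‖ ^ 2 := by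
      rw [hL]
      have : 0 ≤ ‖y‖ ^ 2 := by positivity
      nlinarith
    have htL : t * L = 1 := by rw [ht]; field_simp
    have ht0 : 0 < t := by rw [ht]; positivity
    have h5 : t ^ 2 * (M * ‖y‖ ^ 2 - (inner ℂ (T y) y).re) ≤ t * ‖y‖ ^ 2 := by
      calc t ^ 2 * (M * ‖y‖ ^ 2 - (inner ℂ (T y) y).re) ≤ t ^ 2 * (L * ‖y‖ ^ 2) := by gcongr
        _ = (t * L) * (t * ‖y‖ ^ 2) := by ring
        _ = t * ‖y‖ ^ 2 := by rw [htL, one_mul]
    have h6 : t * ‖y‖ ^ 2 ≤ M * ‖x‖ ^ 2 - (inner ℂ (T x) x).re := by linarith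
    calc ‖y‖ ^ 2 = L * (t * ‖y‖ ^ 2) := by rw [← mul_assoc, mul_comm L t, htL, one_mul]
      _ ≤ L * (M * ‖x‖ ^ 2 - (inner ℂ (T x) x).re) := by gcongr
  -- maximizing sequence
  obtain ⟨r, -, hr, hrA⟩ := exists_seq_tendsto_sSup hAne hbA
  choose x hxK hx1 hxr using hrA
  have hlim : Tendsto (fun n => (M : ℂ) • x n - T (x n)) atTop (𝓝 0) := by
    rw [tendsto_zero_iff_norm_tendsto_zero]
    have h1 : Tendsto (fun n => Real.sqrt (L * (M - r n))) atTop (𝓝 0) := by
      have : Tendsto (fun n => L * (M - r n)) atTop (𝓝 (L * (M - M))) :=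
        (tendsto_const_nhds.sub hr).const_mul L
      rw [sub_self, mul_zero] at this
      have h2 := (Real.continuous_sqrt.tendsto 0).comp this
      rw [Real.sqrt_zero] at h2
      exact h2
    refine squeeze_zero (fun n => norm_nonneg _) (fun n => ?_) h1
    apply Real.le_sqrt_of_sq_le
    have := hkey (x n) (hxK n)
    rw [hx1, hxr] at this
    linarith
  obtain ⟨C, hC, hCsub⟩ := hc.image_closedBall_subset_compact 1
  have hmem : ∀ n, T (x n) ∈ C := fun n => hCsub ⟨x n, by simp [hx1 n], rfl⟩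
  obtain ⟨y, -, φ, hφ, hy⟩ := hC.tendsto_subseq hmem
  have hMx : Tendsto (fun n => (M : ℂ) • x (φ n)) atTop (𝓝 y) := by
    have := (hlim.comp hφ.tendsto_atTop).add hy
    rw [zero_add] at this
    refine this.congr fun n => ?_
    simp [Function.comp]
  have hMne : (M : ℂ) ≠ 0 := by exact_mod_cast hMpos.ne'
  set w : H := (M : ℂ)⁻¹ • y with hw
  have hxw : Tendsto (fun n => x (φ n)) atTop (𝓝 w) := by
    have := hMx.const_smul ((M : ℂ)⁻¹)
    refine this.congr fun n => ?_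
    rw [smul_smul, inv_mul_cancel₀ hMne, one_smul]
  refine ⟨M, hcM, w, hK.mem_of_tendsto hxw (Eventually.of_forall fun n => hxK _), ?_, ?_⟩
  · have h1 : Tendsto (fun n => ‖x (φ n)‖) atTop (𝓝 ‖w‖) := hxw.norm
    have h2 : Tendsto (fun n => ‖x (φ n)‖) atTop (𝓝 1) := by
      simp only [hx1]; exact tendsto_const_nhds
    have h3 := tendsto_nhds_unique h1 h2
    intro h
    rw [h, norm_zero] at h3
    exact zero_ne_one h3
  · have h1 : Tendsto (fun n => T (x (φ n))) atTop (𝓝 (T w)) :=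
      (T.continuous.tendsto w).comp hxw
    have h2 := tendsto_nhds_unique h1 hy
    rw [h2, hw, smul_smul, mul_inv_cancel₀ hMne, one_smul]

/-- **B5** -/
theorem eig : EigStmt := by
  intro H _ _ _ T hT hc K hK hinv c h0 v hv hlt
  exact eig_aux T hT hc K hK hinv c h0 v hv hlt

end Vale.Agent.P353.U
end

section

/-! # P353, uniqueness for `N = 2`: invariance of the norm under colour rotations -/

set_option linter.all false

open MeasureTheory Filter Topology
open scoped ContDiff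

namespace Vale.Agent.P353.U

variable {F : Type*} [NormedAddCommGroup F] [InnerProductSpace ℂ F]

/-- rotation about the coordinate axis `C` -/
noncomputable def RC (C : Fin 3) (t : ℝ) : Matrix (Fin 3) (Fin 3) ℝ :=
  Matrix.of fun B A => Real.cos t * (if A = B then 1 else 0) + Real.sin t * (eps C A B : ℝ) +
    (1 - Real.cos t) * (if A = C ∧ B = C then 1 else 0)

/-- infinitesimal rotation about the axis `C` -/
noncomputable def kk (C : Fin 3) (x : X3) : X3 :=
  WithLp.toLp 2 fun p => ∑ A, (eps C A p.2 : ℝ) * x (p.1, A)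

noncomputable def ee (C : Fin 3) (x : X3) : X3 :=
  WithLp.toLp 2 fun p => if p.2 = C then x (p.1, C) else 0

lemma ro_mul (O O' : Matrix (Fin 3) (Fin 3) ℝ) (x : X3) : ro (O * O') x = ro O (ro O' x) := by
  ext ⟨i, A⟩
  simp only [ro, Matrix.mul_apply, Finset.sum_mul, Finset.mul_sum]
  rw [Finset.sum_comm]
  refine Finset.sum_congr rfl fun B _ => Finset.sum_congr rfl fun D _ => ?_
  ring

lemma ro_RC (C : Fin 3) (t : ℝ) (x : X3) :
    ro (RC C t) x = Real.cos t • x + Real.sin t • kk C x + (1 - Real.cos t) • ee C x := by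
  ext ⟨i, B⟩
  simp only [ro, RC, kk, ee, Matrix.of_apply, WithLp.ofLp_add, WithLp.ofLp_smul, Pi.add_apply,
    Pi.smul_apply, smul_eq_mul, Fin.sum_univ_three]
  fin_cases C <;> fin_cases B <;> simp [eps] <;> ring

lemma hasDerivAt_ro (C : Fin 3) (t : ℝ) (x : X3) :
    HasDerivAt (fun t => ro (RC C t) x) (kk C (ro (RC C t) x)) t := by
  have h1 : HasDerivAt (fun t : ℝ => Real.cos t • x + Real.sin t • kk C x +
      (1 - Real.cos t) • ee C x) (-Real.sin t • x + Real.cos t • kk C x +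
      (0 - -Real.sin t) • ee C x) t :=
    (((Real.hasDerivAt_cos t).smul_const x).add ((Real.hasDerivAt_sin t).smul_const (kk C x))).add
      (((hasDerivAt_const t (1 : ℝ)).sub (Real.hasDerivAt_cos t)).smul_const (ee C x))
  have e : (fun t => ro (RC C t) x) = fun t : ℝ => Real.cos t • x + Real.sin t • kk C x +
      (1 - Real.cos t) • ee C x := funext fun t => ro_RC C t x
  rw [e]
  refine h1.congr_deriv ?_
  rw [ro_RC]
  ext ⟨i, B⟩
  simp only [kk, ee, WithLp.ofLp_add, WithLp.ofLp_smul, Pi.add_apply,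
    Pi.smul_apply, smul_eq_mul, Fin.sum_univ_three]
  fin_cases C <;> fin_cases B <;> simp [eps] <;> ring

lemma fderiv_kk (C : Fin 3) (u : X3 → F) (y : X3) :
    fderiv ℝ u y (kk C y) =
      ∑ i, ∑ A, ∑ B, ((eps C A B : ℂ) * (y (i, A) : ℂ)) • pd i B u y := by
  have hx : kk C y = ∑ p : Fin 9 × Fin 3, (kk C y) p • (EuclideanSpace.single p (1 : ℝ) : X3) := by
    ext q
    simp only [WithLp.ofLp_sum, WithLp.ofLp_smul, Finset.sum_apply, Pi.smul_apply,
        PiLp.single_apply, smul_eq_mul, mul_ite, mul_one, mul_zero]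
    rw [Finset.sum_ite_eq]
    simp
  rw [hx, map_sum]
  simp only [map_smul]
  rw [Fintype.sum_prod_type]
  refine Finset.sum_congr rfl fun i _ => ?_
  rw [Finset.sum_comm]
  refine Finset.sum_congr rfl fun B _ => ?_
  have : (kk C y) (i, B) = ∑ A, (eps C A B : ℝ) * y (i, A) := rfl
  rw [this, Finset.sum_smul]
  refine Finset.sum_congr rfl fun A _ => ?_
  unfold pd
  rw [show ((eps C A B : ℂ) * (y (i, A) : ℂ)) = (((eps C A B : ℝ) * y (i, A) : ℝ) : ℂ) by push_cast; ring]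
  exact (RCLike.real_smul_eq_coe_smul (K := ℂ) _ _)

variable (S : Setup F)

lemma norm_RC {u : X3 → F} (hu : Setup.Tst u) (hG : ∀ C x, S.G C u x = 0) (C : Fin 3) (t : ℝ)
    (x : X3) : ‖u (ro (RC C t) x)‖ = ‖u x‖ := by
  have hd : ∀ t, HasDerivAt (fun t => u (ro (RC C t) x))
      ((-Complex.I) • S.cS C (u (ro (RC C t) x))) t := by
    intro t
    have h1 : HasDerivAt (fun t => u (ro (RC C t) x))
        (fderiv ℝ u (ro (RC C t) x) (kk C (ro (RC C t) x))) t :=
      ((hu.1.differentiable (by simp)) (ro (RC C t) x)).hasFDerivAt.comp_hasDerivAt t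
        (hasDerivAt_ro C t x)
    refine h1.congr_deriv ?_
    rw [fderiv_kk]
    have h2 := hG C (ro (RC C t) x)
    unfold Setup.G at h2
    have h3 := congrArg (fun v => Complex.I • v) h2
    simp only [smul_add, smul_smul, smul_zero] at h3
    rw [show Complex.I * -Complex.I = 1 by rw [mul_neg, Complex.I_mul_I, neg_neg], one_smul] at h3
    rw [neg_smul]
    exact eq_neg_of_add_eq_zero_left h3
  have hn : ∀ t, HasDerivAt (fun t => inner ℂ (u (ro (RC C t) x)) (u (ro (RC C t) x))) 0 t := by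
    intro t
    have h1 := (hd t).inner ℂ (hd t)
    refine h1.congr_deriv ?_
    rw [inner_smul_right, inner_smul_left, S.cS_symm]
    simp
  have hc := is_const_of_deriv_eq_zero (f := fun t => inner ℂ (u (ro (RC C t) x)) (u (ro (RC C t) x)))
    (fun t => (hn t).differentiableAt) (fun t => (hn t).deriv) t 0
  have h0 : ro (RC C 0) x = x := by
    rw [ro_RC]
    simp
  rw [h0] at hc
  simp only [inner_self_eq_norm_sq_to_K] at hc
  have h4 : ‖u (ro (RC C t) x)‖ ^ 2 = ‖u x‖ ^ 2 := by exact_mod_cast hc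
  exact (sq_eq_sq₀ (norm_nonneg _) (norm_nonneg _)).1 h4

lemma RC_orth (C : Fin 3) (t : ℝ) : (RC C t).transpose * RC C t = 1 := by
  have h := Real.sin_sq_add_cos_sq t
  ext A B
  simp only [Matrix.mul_apply, Matrix.transpose_apply, RC, Matrix.of_apply, Fin.sum_univ_three]
  fin_cases C <;> fin_cases A <;> fin_cases B <;> simp [eps] <;>
    first | (ring; done) | linear_combination h

lemma RC_det (C : Fin 3) (t : ℝ) : (RC C t).det = 1 := by
  have h := Real.sin_sq_add_cos_sq t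
  rw [Matrix.det_fin_three]
  simp only [RC, Matrix.of_apply]
  fin_cases C <;> simp [eps] <;> linear_combination h

lemma exists_rot (p q : ℝ) : ∃ a : ℝ, 0 ≤ Real.cos a * p - Real.sin a * q ∧
    Real.sin a * p + Real.cos a * q = 0 := by
  refine ⟨-Complex.arg ⟨p, q⟩, ?_, ?_⟩
  · have h1 := Complex.norm_mul_cos_arg ⟨p, q⟩
    have h2 := Complex.norm_mul_sin_arg ⟨p, q⟩
    simp only at h1 h2
    rw [Real.cos_neg, Real.sin_neg]
    have h3 := Real.sin_sq_add_cos_sq (Complex.arg ⟨p, q⟩)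
    have h4 : Real.cos (Complex.arg ⟨p, q⟩) * p - -Real.sin (Complex.arg ⟨p, q⟩) * q =
        ‖(⟨p, q⟩ : ℂ)‖ := by
      linear_combination -Real.cos (Complex.arg ⟨p, q⟩) * h1 - Real.sin (Complex.arg ⟨p, q⟩) * h2 +
        ‖(⟨p, q⟩ : ℂ)‖ * h3
    rw [h4]
    exact norm_nonneg _
  · have h1 := Complex.norm_mul_cos_arg ⟨p, q⟩
    have h2 := Complex.norm_mul_sin_arg ⟨p, q⟩
    simp only at h1 h2
    rw [Real.cos_neg, Real.sin_neg]
    linear_combination Real.sin (Complex.arg ⟨p, q⟩) * h1 - Real.cos (Complex.arg ⟨p, q⟩) * h2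

/-- Euler angles -/
lemma exists_angles (O : Matrix (Fin 3) (Fin 3) ℝ) (h1 : O.transpose * O = 1) (h2 : O.det = 1) :
    ∃ a b c : ℝ, RC 1 b * (RC 2 a * O) = RC 0 c := by
  obtain ⟨a, ha0, ha1⟩ := exists_rot (O 0 0) (O 1 0)
  set P := RC 2 a * O with hP
  have hP1 : P.transpose * P = 1 := by
    rw [hP, Matrix.transpose_mul, Matrix.mul_assoc, ← Matrix.mul_assoc (RC 2 a).transpose,
      RC_orth, Matrix.one_mul, h1]
  have hP2 : P.det = 1 := by rw [hP, Matrix.det_mul, RC_det, h2, one_mul]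
  have hP3 : P 1 0 = 0 := by
    rw [hP]
    simp only [Matrix.mul_apply, RC, Matrix.of_apply, Fin.sum_univ_three]
    simp [eps]
    linear_combination ha1
  obtain ⟨b, hb0, hb1⟩ := exists_rot (P 0 0) (P 2 0)
  set Q := RC 1 (-b) * P with hQ
  have hQ1 : Q.transpose * Q = 1 := by
    rw [hQ, Matrix.transpose_mul, Matrix.mul_assoc, ← Matrix.mul_assoc (RC 1 (-b)).transpose,
      RC_orth, Matrix.one_mul, hP1]
  have hQ2 : Q.det = 1 := by rw [hQ, Matrix.det_mul, RC_det, hP2, one_mul]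
  have hQ3 : Q 1 0 = 0 := by
    rw [hQ]
    simp only [Matrix.mul_apply, RC, Matrix.of_apply, Fin.sum_univ_three, Real.cos_neg,
      Real.sin_neg]
    simp [eps, hP3]
  have hQ4 : Q 2 0 = 0 := by
    rw [hQ]
    simp only [Matrix.mul_apply, RC, Matrix.of_apply, Fin.sum_univ_three, Real.cos_neg,
      Real.sin_neg]
    simp [eps]
    linear_combination hb1
  have hQ5 : 0 ≤ Q 0 0 := by
    have : Q 0 0 = Real.cos b * P 0 0 - Real.sin b * P 2 0 := by
      rw [hQ]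
      simp only [Matrix.mul_apply, RC, Matrix.of_apply, Fin.sum_univ_three, Real.cos_neg,
        Real.sin_neg]
      simp [eps]
      ring
    rw [this]
    exact hb0
  have e : ∀ i j, ∑ k, Q k i * Q k j = if i = j then 1 else 0 := by
    intro i j
    have := congrFun (congrFun hQ1 i) j
    rw [Matrix.mul_apply, Matrix.one_apply] at this
    simpa [Matrix.transpose_apply] using this
  simp only [Fin.sum_univ_three] at e
  have e00 := e 0 0
  have e01 := e 0 1
  have e02 := e 0 2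
  have e11 := e 1 1
  have e22 := e 2 2
  have e12 := e 1 2
  simp [hQ3, hQ4] at e00 e01 e02 e11 e22 e12
  have q00 : Q 0 0 = 1 := by nlinarith
  simp [q00] at e01 e02
  rw [Matrix.det_fin_three] at hQ2
  simp [q00, hQ3, hQ4, e01, e02] at hQ2 e11 e22 e12
  have q22 : Q 2 2 = Q 1 1 := by
    linear_combination -Q 2 2 * e11 + Q 1 1 * hQ2 + Q 2 1 * e12
  have q12 : Q 1 2 = -Q 2 1 := by
    linear_combination -Q 1 2 * e11 - Q 2 1 * hQ2 + Q 1 1 * e12
  refine ⟨a, -b, Complex.arg ⟨Q 1 1, Q 2 1⟩, ?_⟩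
  have hn : ‖(⟨Q 1 1, Q 2 1⟩ : ℂ)‖ = 1 := by
    rw [Complex.norm_def, Complex.normSq_mk]
    rw [show Q 1 1 * Q 1 1 + Q 2 1 * Q 2 1 = 1 by linear_combination e11]
    exact Real.sqrt_one
  have hcos := Complex.norm_mul_cos_arg ⟨Q 1 1, Q 2 1⟩
  have hsin := Complex.norm_mul_sin_arg ⟨Q 1 1, Q 2 1⟩
  rw [hn, one_mul] at hcos hsin
  simp only at hcos hsin
  change Q = _
  ext i j
  simp only [RC, Matrix.of_apply, hcos, hsin]
  fin_cases i <;> fin_cases j <;> simp [eps, q00, hQ3, hQ4, e01, e02, q22, q12]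

theorem grp : GrpStmt S := by
  intro u hu hG O h1 h2 x
  obtain ⟨a, b, c, h⟩ := exists_angles O h1 h2
  rw [← norm_RC S hu hG 2 a (ro O x), ← norm_RC S hu hG 1 b, ← ro_mul, ← ro_mul, Matrix.mul_assoc,
    h, norm_RC S hu hG]

end Vale.Agent.P353.U
end
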