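import Mathlib
import Vale.Agent.P353.BdU.B4
import Vale.Agent.P353.BdU.B1
import Vale.Agent.P353.BdU.B2

set_option linter.all false

section

/-! Task EX-14: the integral over the group.

`perp2 (act U⁻¹ x) = |φ_R × n|² + |φ_I × n|²`, `n_B = rotm U B 2`, `φ_R = x_7`, `φ_I = x_8`.  Take
the longer of the two vectors, `m`, `|m|² ≥ phsq/2`; rotate it to `|m| e_2` with `exists_rot`,
`gU_left` (the isometry `L` preserves the measure and `‖v‖`), so the integrand is at most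
`exp(-s |m|² (1 - n_2²))`, `1 - n_2² = 4|a|²|b|²/|v|⁴`.  By the symmetry `a ↔ b` integrate over
`|b| ≤ |a|`, where `4|a|²|b|²/|v|⁴ ≥ |b|²/|a|²`, and
`∫ e^{-|a|²} ∫ e^{-s|m|²|b|²/|a|²} d²b d²a = π²/(s|m|²)`.  Together with the trivial bound `π²` this
gives `C/(1 + s phsq)`. -/

open MeasureTheory Filter Topology
open scoped ContDiff ComplexConjugate

namespace Vale.Agent.P353.Ex

theorem sph_continuous_va : Continuous va := by
  have h : ∀ i : Fin 4, Continuous fun v : V4 => v i := fun i =>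
    (EuclideanSpace.proj (𝕜 := ℝ) i).continuous
  exact Complex.equivRealProdCLM.symm.continuous.comp ((h 0).prodMk (h 1))

theorem sph_continuous_vb : Continuous vb := by
  have h : ∀ i : Fin 4, Continuous fun v : V4 => v i := fun i =>
    (EuclideanSpace.proj (𝕜 := ℝ) i).continuous
  exact Complex.equivRealProdCLM.symm.continuous.comp ((h 2).prodMk (h 3))

/-- the parametrisation `ℂ × ℂ ≃ V4` -/
noncomputable def sphMk : (ℂ × ℂ) ≃ₜ V4 where
  toFun p := WithLp.toLp 2 ![p.1.re, p.1.im, p.2.re, p.2.im]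
  invFun v := (va v, vb v)
  left_inv p := by
    ext <;> rfl
  right_inv v := by
    ext i; fin_cases i <;> rfl
  continuous_toFun := by
    refine (PiLp.continuous_toLp 2 _).comp (continuous_pi fun i => ?_)
    fin_cases i
    · exact Complex.continuous_re.comp continuous_fst
    · exact Complex.continuous_im.comp continuous_fst
    · exact Complex.continuous_re.comp continuous_snd
    · exact Complex.continuous_im.comp continuous_snd
  continuous_invFun := sph_continuous_va.prodMk sph_continuous_vb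

theorem va_sphMk (p : ℂ × ℂ) : va (sphMk p) = p.1 := rfl

theorem vb_sphMk (p : ℂ × ℂ) : vb (sphMk p) = p.2 := rfl

theorem sphMk_eta (v : V4) : sphMk (va v, vb v) = v := sphMk.right_inv v

theorem norm_sphMk (p : ℂ × ℂ) : ‖sphMk p‖ ^ 2 = ‖p.1‖ ^ 2 + ‖p.2‖ ^ 2 := by
  rw [norm_sq_eq, va_sphMk, vb_sphMk]

/-- `sphMk` as a linear isometry -/
noncomputable def sphL : WithLp 2 (ℂ × ℂ) ≃ₗᵢ[ℝ] V4 where
  toFun p := sphMk p.ofLp
  invFun v := WithLp.toLp 2 (va v, vb v)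
  map_add' p q := by
    ext i; fin_cases i <;> rfl
  map_smul' c p := by
    ext i
    fin_cases i
    · exact (Complex.smul_re c p.ofLp.1)
    · exact (Complex.smul_im c p.ofLp.1)
    · exact (Complex.smul_re c p.ofLp.2)
    · exact (Complex.smul_im c p.ofLp.2)
  left_inv p := rfl
  right_inv v := sphMk_eta v
  norm_map' p := by
    have h : ‖sphMk p.ofLp‖ ^ 2 = ‖p‖ ^ 2 := by
      rw [norm_sphMk, WithLp.prod_norm_sq_eq_of_L2]; rfl
    exact (sq_eq_sq₀ (norm_nonneg _) (norm_nonneg _)).1 h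

theorem sphMk_mp : MeasurePreserving sphMk volume volume :=
  sphL.measurePreserving.comp (WithLp.volume_preserving_toLp ℂ ℂ)

theorem sph_integral {E : Type*} [NormedAddCommGroup E] [NormedSpace ℝ E] (Φ : V4 → E) :
    ∫ v, Φ v = ∫ p : ℂ × ℂ, Φ (sphMk p) :=
  (sphMk_mp.integral_comp sphMk.measurableEmbedding Φ).symm

theorem sph_integrable {E : Type*} [NormedAddCommGroup E] {Φ : V4 → E} :
    Integrable (fun p : ℂ × ℂ => Φ (sphMk p)) ↔ Integrable Φ :=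
  sphMk_mp.integrable_comp_emb sphMk.measurableEmbedding

theorem sph_gauss_int {W : Type*} [NormedAddCommGroup W] [InnerProductSpace ℝ W]
    [FiniteDimensional ℝ W] [MeasurableSpace W] [BorelSpace W] {b : ℝ} (hb : 0 < b) :
    Integrable fun v : W => Real.exp (-b * ‖v‖ ^ 2) := by
  have h := (GaussianFourier.integrable_cexp_neg_mul_sq_norm_add (V := W) (b := (b : ℂ))
    (by simpa using hb) 0 0).norm
  refine h.congr (Eventually.of_forall fun v => ?_)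
  simp only [zero_mul, add_zero, Complex.norm_exp]
  congr 1
  norm_cast

theorem integrable_gauss4 : Integrable fun v : V4 => Real.exp (-‖v‖ ^ 2) := by
  simpa using sph_gauss_int (W := V4) one_pos

theorem sph_gauss_val {b : ℝ} (hb : 0 < b) : ∫ v : ℂ, Real.exp (-b * ‖v‖ ^ 2) = Real.pi / b := by
  rw [GaussianFourier.integral_rexp_neg_mul_sq_norm hb, Complex.finrank_real_complex]
  norm_num

/-- `(1 + |a|²) e^{-|a|²}` is integrable -/
theorem sph_gauss_one : Integrable fun a : ℂ => (1 + ‖a‖ ^ 2) * Real.exp (-‖a‖ ^ 2) := by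
  refine ((sph_gauss_int (W := ℂ) (b := 1 / 2) (by norm_num)).const_mul 2).mono'
    (by fun_prop) (Eventually.of_forall fun a => ?_)
  rw [Real.norm_of_nonneg (by positivity)]
  have h1 : -‖a‖ ^ 2 = ‖a‖ ^ 2 * -(1 / 2) + -(1 / 2) * ‖a‖ ^ 2 := by ring
  have h2 := Real.add_one_le_exp (‖a‖ ^ 2 * (1 / 2))
  have h3 : Real.exp (‖a‖ ^ 2 * (1 / 2)) * Real.exp (‖a‖ ^ 2 * -(1 / 2)) = 1 := by
    rw [← Real.exp_add]; simp
  rw [h1, Real.exp_add, ← mul_assoc]
  refine mul_le_mul_of_nonneg_right ?_ (Real.exp_nonneg _)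
  have h4 : 0 < Real.exp (‖a‖ ^ 2 * -(1 / 2)) := Real.exp_pos _
  calc (1 + ‖a‖ ^ 2) * Real.exp (‖a‖ ^ 2 * -(1 / 2))
      ≤ (2 * Real.exp (‖a‖ ^ 2 * (1 / 2))) * Real.exp (‖a‖ ^ 2 * -(1 / 2)) := by
        refine mul_le_mul_of_nonneg_right ?_ h4.le
        linarith only [h2]
    _ = 2 := by rw [mul_assoc, h3, mul_one]

theorem sph_gauss_two : Integrable fun a : ℂ => ‖a‖ ^ 2 * Real.exp (-‖a‖ ^ 2) := by
  refine sph_gauss_one.mono' (by fun_prop) (Eventually.of_forall fun a => ?_)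
  rw [Real.norm_of_nonneg (by positivity)]
  have h := Real.exp_pos (-‖a‖ ^ 2)
  nlinarith only [h]

theorem sph_gauss_two_val : ∫ a : ℂ, ‖a‖ ^ 2 * Real.exp (-‖a‖ ^ 2) = Real.pi := by
  have h := Complex.integral_rpow_mul_exp_neg_rpow (p := 2) (q := 2) (by norm_num) (by norm_num)
  have h2 : ((2 : ℝ) + 2) / 2 = ((1 : ℕ) : ℝ) + 1 := by norm_num
  rw [h2, Real.Gamma_nat_eq_factorial] at h
  simp only [Real.rpow_two] at h
  rw [h]
  norm_num



/-- the model integrand on `|b| ≤ |a|` -/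
noncomputable def sphH (σ : ℝ) (p : ℂ × ℂ) : ℝ :=
  Real.exp (-‖p.1‖ ^ 2) * Real.exp (-(1 + σ / ‖p.1‖ ^ 2) * ‖p.2‖ ^ 2)

theorem sphH_nonneg (σ : ℝ) (p : ℂ × ℂ) : 0 ≤ sphH σ p := by
  unfold sphH; positivity

theorem measurable_sphH (σ : ℝ) : Measurable (sphH σ) := by
  unfold sphH
  fun_prop

theorem sph_gauss_prod : Integrable fun p : ℂ × ℂ =>
    Real.exp (-‖p.1‖ ^ 2) * Real.exp (-‖p.2‖ ^ 2) := by
  have h : Integrable fun a : ℂ => Real.exp (-‖a‖ ^ 2) := by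
    simpa using sph_gauss_int (W := ℂ) one_pos
  exact h.mul_prod h

theorem integrable_sphH {σ : ℝ} (hσ : 0 ≤ σ) : Integrable (sphH σ) := by
  refine sph_gauss_prod.mono' (measurable_sphH σ).aestronglyMeasurable
    (Eventually.of_forall fun p => ?_)
  rw [Real.norm_of_nonneg (sphH_nonneg σ p), sphH]
  refine mul_le_mul_of_nonneg_left (Real.exp_le_exp.2 ?_) (Real.exp_nonneg _)
  have h : 0 ≤ σ / ‖p.1‖ ^ 2 * ‖p.2‖ ^ 2 := by positivity
  linarith only [h]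

theorem sph_ae_ne_zero : ∀ᵐ a : ℂ, a ≠ 0 := by
  rw [ae_iff]
  simp

theorem integral_sphH_le {σ : ℝ} (hσ : 0 ≤ σ) :
    ∫ p, sphH σ p ≤ Real.pi * (∫ a : ℂ, (1 + ‖a‖ ^ 2) * Real.exp (-‖a‖ ^ 2)) / (1 + σ) := by
  have h1 : ∫ p, sphH σ p = ∫ a : ℂ, ∫ b : ℂ, sphH σ (a, b) := integral_prod _ (integrable_sphH hσ)
  have h2 : ∀ a : ℂ, ∫ b : ℂ, sphH σ (a, b) =
      Real.exp (-‖a‖ ^ 2) * (Real.pi / (1 + σ / ‖a‖ ^ 2)) := by
    intro a
    simp only [sphH]
    rw [integral_const_mul, sph_gauss_val (by positivity)]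
  rw [h1, mul_div_right_comm, ← integral_const_mul]
  refine integral_mono_of_nonneg (Eventually.of_forall fun a => ?_) (sph_gauss_one.const_mul _) ?_
  · exact integral_nonneg fun b => sphH_nonneg _ _
  · filter_upwards [sph_ae_ne_zero] with a ha
    have ha : 0 < ‖a‖ ^ 2 := by positivity
    simp only [h2]
    rw [mul_comm (Real.exp _), ← mul_assoc]
    refine mul_le_mul_of_nonneg_right ?_ (Real.exp_nonneg _)
    rw [div_mul_eq_mul_div, div_le_div_iff₀ (by positivity) (by positivity)]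
    have h3 : 0 ≤ σ / ‖a‖ ^ 2 := by positivity
    have h4 : σ / ‖a‖ ^ 2 * ‖a‖ ^ 2 = σ := div_mul_cancel₀ _ ha.ne'
    rw [mul_assoc]
    refine mul_le_mul_of_nonneg_left ?_ Real.pi_pos.le
    nlinarith only [h3, h4, ha]

theorem sph_ratio {A B : ℝ} (hA : 0 ≤ A) (hB : 0 ≤ B) (h : B ≤ A) :
    B / A ≤ 4 * A * B / (A + B) ^ 2 := by
  rcases hA.eq_or_lt with h0 | h0
  · have hB0 : B = 0 := le_antisymm (h0 ▸ h) hB
    rw [hB0]; simp
  · rw [div_le_div_iff₀ h0 (by positivity)]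
    have h1 : (A + B) ^ 2 ≤ (2 * A) ^ 2 := pow_le_pow_left₀ (by positivity) (by linarith only [h]) 2
    nlinarith only [mul_le_mul_of_nonneg_left h1 hB]

theorem sph_ratio_exp {A B σ : ℝ} (hσ : 0 ≤ σ) (hA : 0 ≤ A) (hB : 0 ≤ B) (h : B ≤ A) :
    Real.exp (-(A + B)) * Real.exp (-σ * (4 * A * B / (A + B) ^ 2)) ≤
      Real.exp (-A) * Real.exp (-(1 + σ / A) * B) := by
  rw [← Real.exp_add, ← Real.exp_add]
  refine Real.exp_le_exp.2 ?_
  have h1 := mul_le_mul_of_nonneg_left (sph_ratio hA hB h) hσ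
  have h2 : σ / A * B = σ * (B / A) := by ring
  linarith only [h1, h2]

theorem sph_pt {A B σ : ℝ} (hσ : 0 ≤ σ) (hA : 0 ≤ A) (hB : 0 ≤ B) :
    Real.exp (-(A + B)) * Real.exp (-σ * (4 * A * B / (A + B) ^ 2)) ≤
      Real.exp (-A) * Real.exp (-(1 + σ / A) * B) + Real.exp (-B) * Real.exp (-(1 + σ / B) * A) := by
  rcases le_total B A with h | h
  · refine (sph_ratio_exp hσ hA hB h).trans (le_add_of_nonneg_right (by positivity))
  · have h1 := sph_ratio_exp hσ hB hA h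
    rw [add_comm B A, mul_right_comm 4 B A] at h1
    exact h1.trans (le_add_of_nonneg_left (by positivity))

/-- the bound for the model integral -/
theorem sph_core_bound : ∃ C : ℝ, 0 ≤ C ∧ ∀ σ : ℝ, 0 ≤ σ →
    ∫ v : V4, Real.exp (-‖v‖ ^ 2) * Real.exp (-σ * (4 * ‖va v‖ ^ 2 * ‖vb v‖ ^ 2 / ‖v‖ ^ 4)) ≤
      C / (1 + σ) := by
  set D := ∫ a : ℂ, (1 + ‖a‖ ^ 2) * Real.exp (-‖a‖ ^ 2) with hD
  have hD0 : 0 ≤ D := integral_nonneg fun a => by positivity
  refine ⟨2 * (Real.pi * D), by positivity, fun σ hσ => ?_⟩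
  rw [sph_integral]
  have hsw : Integrable fun p : ℂ × ℂ => sphH σ p.swap := (integrable_sphH hσ).swap
  have key : ∫ p : ℂ × ℂ, Real.exp (-‖sphMk p‖ ^ 2) * Real.exp (-σ * (4 * ‖va (sphMk p)‖ ^ 2 *
      ‖vb (sphMk p)‖ ^ 2 / ‖sphMk p‖ ^ 4)) ≤ ∫ p : ℂ × ℂ, (sphH σ p + sphH σ p.swap) := by
    refine integral_mono_of_nonneg (Eventually.of_forall fun p => by positivity)
      ((integrable_sphH hσ).add hsw) (Eventually.of_forall fun p => ?_)
    have h4 : ‖sphMk p‖ ^ 4 = (‖p.1‖ ^ 2 + ‖p.2‖ ^ 2) ^ 2 := by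
      rw [← norm_sphMk]; ring
    simp only [va_sphMk, vb_sphMk]
    rw [h4, norm_sphMk]
    exact sph_pt hσ (sq_nonneg _) (sq_nonneg _)
  refine key.trans ?_
  rw [integral_add (integrable_sphH hσ) hsw]
  have h5 : ∫ p : ℂ × ℂ, sphH σ p.swap = ∫ p, sphH σ p := integral_prod_swap (sphH σ)
  have h6 := integral_sphH_le hσ
  rw [h5, mul_div_assoc]
  linarith only [h6]


theorem sph_unit (U : SU2) : ∑ B, rotm U B 2 ^ 2 = 1 := by
  have h := rotm_orth U 2 2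
  rw [if_pos rfl] at h
  rw [← h]
  exact Finset.sum_congr rfl fun B _ => by rw [sq]

theorem sph_cs (U : SU2) (x : X3) (j : Fin 9) :
    (act U⁻¹ x (j, 2)) ^ 2 ≤ ∑ A, x (j, A) ^ 2 := by
  rw [act_inv_two]
  have h := Finset.sum_mul_sq_le_sq_mul_sq Finset.univ (fun B => rotm U B 2) fun B => x (j, B)
  rwa [sph_unit, one_mul] at h

theorem sph_rot (x : X3) (i : Fin 9) (hi : 0 < ∑ A, x (i, A) ^ 2) : ∃ U0 : SU2, ∀ v : V4, v ≠ 0 →
    (act (U0 * gU v)⁻¹ x (i, 2)) ^ 2 =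
      (∑ A, x (i, A) ^ 2) * ((‖va v‖ ^ 2 - ‖vb v‖ ^ 2) / ‖v‖ ^ 2) ^ 2 := by
  set P := ∑ A, x (i, A) ^ 2 with hP
  have hs : Real.sqrt P ^ 2 = P := Real.sq_sqrt hi.le
  have hs0 : Real.sqrt P ≠ 0 := (Real.sqrt_pos.2 hi).ne'
  obtain ⟨U0, hU0⟩ := exists_rot (fun B => x (i, B) / Real.sqrt P) (by
    simp only [div_pow]
    rw [← Finset.sum_div, ← hP, hs, div_self hi.ne'])
  refine ⟨U0, fun v hv => ?_⟩
  have h1 : act (U0 * gU v)⁻¹ x (i, 2) = Real.sqrt P * rotm (gU v) 2 2 := by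
    rw [act_inv_two]
    have h2 : ∀ B, rotm (U0 * gU v) B 2 * x (i, B) =
        Real.sqrt P * ∑ C, (rotm U0 B 2 * rotm U0 B C) * rotm (gU v) C 2 := by
      intro B
      have h3 : x (i, B) = Real.sqrt P * rotm U0 B 2 := by
        rw [hU0]; field_simp
      rw [rotm_mul, h3, Finset.sum_mul, Finset.mul_sum]
      exact Finset.sum_congr rfl fun C _ => by ring
    simp only [h2]
    rw [← Finset.mul_sum, Finset.sum_comm]
    congr 1
    have h4 : ∀ C, ∑ B, (rotm U0 B 2 * rotm U0 B C) * rotm (gU v) C 2 =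
        if 2 = C then rotm (gU v) C 2 else 0 := by
      intro C
      rw [← Finset.sum_mul, rotm_orth, ite_mul, one_mul, zero_mul]
    simp only [h4]
    rw [Finset.sum_ite_eq, if_pos (Finset.mem_univ _)]
  rw [h1, rotm_gU_22 v hv, mul_pow, hs]

theorem sph_perp_nonneg (y : X3) : 0 ≤ Fk.perp2 y := by
  unfold Fk.perp2; positivity

theorem sph_perp_ge (x : X3) (i j : Fin 9) (hij : (i = 7 ∧ j = 8) ∨ (i = 8 ∧ j = 7)) (W : SU2)
    {κ : ℝ} (h : (act W⁻¹ x (i, 2)) ^ 2 = (∑ A, x (i, A) ^ 2) * κ) :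
    (∑ A, x (i, A) ^ 2) * (1 - κ) ≤ Fk.perp2 (act W⁻¹ x) := by
  have h1 : phsq x = (∑ A, x (i, A) ^ 2) + ∑ A, x (j, A) ^ 2 := by
    unfold phsq
    rw [Finset.sum_add_distrib]
    rcases hij with ⟨rfl, rfl⟩ | ⟨rfl, rfl⟩
    · rfl
    · rw [add_comm]
  have h2 : Fk.r3 (act W⁻¹ x) = (act W⁻¹ x (i, 2)) ^ 2 + (act W⁻¹ x (j, 2)) ^ 2 := by
    unfold Fk.r3
    rcases hij with ⟨rfl, rfl⟩ | ⟨rfl, rfl⟩
    · rfl
    · rw [add_comm]
  have h3 := phsq_eq (act W⁻¹ x)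
  rw [phsq_act, h1, h2, h] at h3
  have h4 := sph_cs W x j
  linarith only [h3, h4]

theorem sph_alg {v : V4} (hv : v ≠ 0) :
    1 - ((‖va v‖ ^ 2 - ‖vb v‖ ^ 2) / ‖v‖ ^ 2) ^ 2 = 4 * ‖va v‖ ^ 2 * ‖vb v‖ ^ 2 / ‖v‖ ^ 4 := by
  have h : ‖v‖ ^ 2 ≠ 0 := by positivity
  have h4 : ‖v‖ ^ 4 = (‖v‖ ^ 2) ^ 2 := by ring
  rw [h4]
  rw [norm_sq_eq] at h ⊢
  field_simp
  ring

theorem sph_bound_aux {C : ℝ} (hC : ∀ σ : ℝ, 0 ≤ σ →
    ∫ v : V4, Real.exp (-‖v‖ ^ 2) * Real.exp (-σ * (4 * ‖va v‖ ^ 2 * ‖vb v‖ ^ 2 / ‖v‖ ^ 4)) ≤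
      C / (1 + σ)) {s : ℝ} (hs : 0 < s) (x : X3) (i j : Fin 9)
    (hij : (i = 7 ∧ j = 8) ∨ (i = 8 ∧ j = 7)) :
    ∫ v : V4, Real.exp (-‖v‖ ^ 2) * Real.exp (-s * Fk.perp2 (act (gU v)⁻¹ x)) ≤
      C / (1 + s * ∑ A, x (i, A) ^ 2) := by
  set P := ∑ A, x (i, A) ^ 2 with hP
  have hP0 : 0 ≤ P := Finset.sum_nonneg fun A _ => sq_nonneg _
  have hint : ∀ σ : ℝ, 0 ≤ σ → Integrable fun v : V4 => Real.exp (-‖v‖ ^ 2) *
      Real.exp (-σ * (4 * ‖va v‖ ^ 2 * ‖vb v‖ ^ 2 / ‖v‖ ^ 4)) := by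
    intro σ hσ
    have hva := sph_continuous_va.measurable
    have hvb := sph_continuous_vb.measurable
    refine integrable_gauss4.mono' (by fun_prop) (Eventually.of_forall fun v => ?_)
    rw [Real.norm_of_nonneg (by positivity)]
    refine mul_le_of_le_one_right (Real.exp_nonneg _) (Real.exp_le_one_iff.2 ?_)
    have : 0 ≤ σ * (4 * ‖va v‖ ^ 2 * ‖vb v‖ ^ 2 / ‖v‖ ^ 4) := by positivity
    linarith only [this]
  rcases hP0.eq_or_lt with h0 | h0
  · rw [← h0, mul_zero]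
    refine le_trans ?_ (hC 0 le_rfl)
    refine integral_mono_of_nonneg (Eventually.of_forall fun v => by positivity) (hint 0 le_rfl)
      (Eventually.of_forall fun v => ?_)
    refine mul_le_mul_of_nonneg_left (Real.exp_le_exp.2 ?_) (Real.exp_nonneg _)
    have h1 := mul_nonneg hs.le (sph_perp_nonneg (act (gU v)⁻¹ x))
    linarith only [h1]
  · obtain ⟨U0, hU0⟩ := sph_rot x i h0
    obtain ⟨L, hL⟩ := gU_left U0
    have h1 := L.measurePreserving.integral_comp L.toHomeomorph.measurableEmbedding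
      (fun v : V4 => Real.exp (-‖v‖ ^ 2) * Real.exp (-s * Fk.perp2 (act (gU v)⁻¹ x)))
    rw [← h1]
    refine le_trans ?_ (hC (s * P) (by positivity))
    refine integral_mono_of_nonneg (Eventually.of_forall fun v => by positivity)
      (hint (s * P) (by positivity)) ?_
    filter_upwards [(show ∀ᵐ v : V4, v ≠ 0 by rw [ae_iff]; simp)] with v hv
    rw [hL v hv, L.norm_map]
    refine mul_le_mul_of_nonneg_left (Real.exp_le_exp.2 ?_) (Real.exp_nonneg _)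
    have h2 := sph_perp_ge x i j hij (U0 * gU v) (hU0 v hv)
    rw [sph_alg hv, ← hP] at h2
    have h3 := mul_le_mul_of_nonneg_left h2 hs.le
    linarith only [h3]

theorem sph_bound : ∃ C : ℝ, 0 ≤ C ∧ ∀ s : ℝ, 0 < s → ∀ x : X3,
    ∫ v : V4, Real.exp (-‖v‖ ^ 2) * Real.exp (-s * Fk.perp2 (act (gU v)⁻¹ x)) ≤
      C / (1 + s * phsq x) := by
  obtain ⟨C, hC0, hC⟩ := sph_core_bound
  refine ⟨2 * C, by positivity, fun s hs x => ?_⟩
  have h1 : phsq x = (∑ A, x (7, A) ^ 2) + ∑ A, x (8, A) ^ 2 := by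
    unfold phsq
    rw [Finset.sum_add_distrib]
  have key : ∀ P Q : ℝ, 0 ≤ P → 0 ≤ Q → Q ≤ P → C / (1 + s * P) ≤ 2 * C / (1 + s * (P + Q)) := by
    intro P Q hP hQ hPQ
    rw [div_le_div_iff₀ (by positivity) (by positivity)]
    have h2 : 1 + s * (P + Q) ≤ 2 * (1 + s * P) := by
      have := mul_le_mul_of_nonneg_left hPQ hs.le
      linarith only [this]
    have h3 := mul_le_mul_of_nonneg_left h2 hC0
    linarith only [h3]
  have h7 : 0 ≤ ∑ A, x (7, A) ^ 2 := Finset.sum_nonneg fun A _ => sq_nonneg _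
  have h8 : 0 ≤ ∑ A, x (8, A) ^ 2 := Finset.sum_nonneg fun A _ => sq_nonneg _
  rw [h1]
  rcases le_total (∑ A, x (8, A) ^ 2) (∑ A, x (7, A) ^ 2) with h | h
  · exact (sph_bound_aux hC hs x 7 8 (Or.inl ⟨rfl, rfl⟩)).trans (key _ _ h7 h8 h)
  · rw [add_comm (∑ A, x (7, A) ^ 2)]
    exact (sph_bound_aux hC hs x 8 7 (Or.inr ⟨rfl, rfl⟩)).trans (key _ _ h8 h7 h)

theorem sph_limit0 {r : ℝ} (hr : 0 < r) {f : V4 → ℂ} (hf : ∀ v, v ≠ 0 → ContinuousAt f v)
    (hb : ∃ C, ∀ v, ‖f v‖ ≤ C) :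
    Tendsto (fun t : ℝ => ∫ v : V4, ((Real.exp (-‖v‖ ^ 2) *
      Real.exp (-t * (4 * ‖va v‖ ^ 2 * ‖vb v‖ ^ 2 / ‖v‖ ^ 4 * r)) : ℝ) : ℂ) * f v) atTop (𝓝 0) := by
  have _ := hf
  obtain ⟨C, hC0, hC⟩ := sph_core_bound
  obtain ⟨M, hM⟩ := hb
  have hM0 : 0 ≤ M := (norm_nonneg _).trans (hM 0)
  have hlim : Tendsto (fun t : ℝ => M * (C / (1 + t * r))) atTop (𝓝 0) := by
    rw [← mul_zero M]
    refine Tendsto.const_mul M (Tendsto.div_atTop tendsto_const_nhds ?_)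
    exact tendsto_atTop_add_const_left _ _ (tendsto_id.atTop_mul_const hr)
  refine squeeze_zero_norm' ?_ hlim
  filter_upwards [eventually_ge_atTop 0] with t ht
  refine (norm_integral_le_integral_norm _).trans ?_
  have h1 := hC (t * r) (by positivity)
  have hva := sph_continuous_va.measurable
  have hvb := sph_continuous_vb.measurable
  refine le_trans ?_ (mul_le_mul_of_nonneg_left h1 hM0)
  rw [← integral_const_mul]
  refine integral_mono_of_nonneg (Eventually.of_forall fun v => norm_nonneg _) ?_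
    (Eventually.of_forall fun v => ?_)
  · refine Integrable.const_mul (integrable_gauss4.mono' (by fun_prop)
      (Eventually.of_forall fun v => ?_)) M
    rw [Real.norm_of_nonneg (by positivity)]
    refine mul_le_of_le_one_right (Real.exp_nonneg _) (Real.exp_le_one_iff.2 ?_)
    have : 0 ≤ t * r * (4 * ‖va v‖ ^ 2 * ‖vb v‖ ^ 2 / ‖v‖ ^ 4) := by positivity
    linarith only [this]
  · simp only [norm_mul, Complex.norm_real]
    rw [Real.norm_of_nonneg (Real.exp_nonneg _), Real.norm_of_nonneg (Real.exp_nonneg _), mul_comm]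
    have h2 : -t * (4 * ‖va v‖ ^ 2 * ‖vb v‖ ^ 2 / ‖v‖ ^ 4 * r) =
        -(t * r) * (4 * ‖va v‖ ^ 2 * ‖vb v‖ ^ 2 / ‖v‖ ^ 4) := by ring
    rw [h2]
    exact mul_le_mul_of_nonneg_right (hM v) (by positivity)


/-! ### the concentration lemma -/

/-- the half weight -/
noncomputable def sphW (v : V4) : ℝ :=
  if ‖vb v‖ < ‖va v‖ then 1 else if ‖vb v‖ = ‖va v‖ then 1 / 2 else 0

theorem measurable_sphW : Measurable sphW :=
  Measurable.ite (measurableSet_lt sph_continuous_vb.norm.measurable sph_continuous_va.norm.measurable)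
    measurable_const (Measurable.ite (measurableSet_eq_fun sph_continuous_vb.norm.measurable
      sph_continuous_va.norm.measurable) measurable_const measurable_const)

theorem sphW_add {v w : V4} (h1 : ‖va w‖ = ‖vb v‖) (h2 : ‖vb w‖ = ‖va v‖) :
    sphW v + sphW w = 1 := by
  unfold sphW
  rw [h1, h2]
  rcases lt_trichotomy ‖vb v‖ ‖va v‖ with h | h | h
  · rw [if_pos h, if_neg h.not_gt, if_neg h.ne', add_zero]
  · rw [if_neg h.not_lt, if_pos h, if_neg h.not_gt, if_pos h.symm]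
    norm_num
  · rw [if_neg h.not_gt, if_neg h.ne', if_pos h, zero_add]

theorem sphW_nonneg (v : V4) : 0 ≤ sphW v := by
  unfold sphW
  split_ifs <;> norm_num

theorem sphW_le_one (v : V4) : sphW v ≤ 1 := by
  unfold sphW
  split_ifs <;> norm_num

/-- the concentrating kernel -/
noncomputable def sphG (r t : ℝ) (v : V4) : ℝ := Real.exp (-‖v‖ ^ 2) *
  (t * Real.exp (-t * (4 * ‖va v‖ ^ 2 * ‖vb v‖ ^ 2 / ‖v‖ ^ 4 * r)))

theorem measurable_sphG (r t : ℝ) : Measurable (sphG r t) := by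
  have hva := sph_continuous_va.measurable
  have hvb := sph_continuous_vb.measurable
  unfold sphG
  fun_prop

theorem sphG_nonneg {r t : ℝ} (ht : 0 ≤ t) (v : V4) : 0 ≤ sphG r t v := by
  unfold sphG; positivity

theorem sphG_le {r t : ℝ} (hr : 0 ≤ r) (ht : 0 ≤ t) (v : V4) :
    sphG r t v ≤ t * Real.exp (-‖v‖ ^ 2) := by
  unfold sphG
  rw [mul_comm t (Real.exp (-‖v‖ ^ 2))]
  refine mul_le_mul_of_nonneg_left ?_ (Real.exp_nonneg _)
  refine mul_le_of_le_one_right ht (Real.exp_le_one_iff.2 ?_)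
  have : 0 ≤ t * (4 * ‖va v‖ ^ 2 * ‖vb v‖ ^ 2 / ‖v‖ ^ 4 * r) := by positivity
  linarith only [this]

theorem sph_int_mul {r t : ℝ} (hr : 0 ≤ r) (ht : 0 ≤ t) {f : V4 → ℂ} (hf : Measurable f) {M : ℝ}
    (hM : ∀ v, ‖f v‖ ≤ M) {w : V4 → ℝ} (hw : Measurable w) (hw0 : ∀ v, 0 ≤ w v)
    (hw1 : ∀ v, w v ≤ 1) : Integrable fun v => ((w v * sphG r t v : ℝ) : ℂ) * f v := by
  have hM0 : 0 ≤ M := (norm_nonneg _).trans (hM 0)
  refine (integrable_gauss4.const_mul (t * M)).mono'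
    ((Complex.measurable_ofReal.comp (hw.mul (measurable_sphG r t))).mul hf).aestronglyMeasurable
    (Eventually.of_forall fun v => ?_)
  rw [norm_mul, Complex.norm_real, Real.norm_of_nonneg (mul_nonneg (hw0 v) (sphG_nonneg ht v))]
  have h1 : w v * sphG r t v ≤ 1 * (t * Real.exp (-‖v‖ ^ 2)) :=
    mul_le_mul (hw1 v) (sphG_le hr ht v) (sphG_nonneg ht v) zero_le_one
  calc w v * sphG r t v * ‖f v‖ ≤ (1 * (t * Real.exp (-‖v‖ ^ 2))) * M :=
        mul_le_mul h1 (hM v) (norm_nonneg _) (by positivity)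
    _ = t * M * Real.exp (-‖v‖ ^ 2) := by ring

theorem sph_half {r t : ℝ} (hr : 0 ≤ r) (ht : 0 ≤ t) {f : V4 → ℂ} (hf : Measurable f) {M : ℝ}
    (hM : ∀ v, ‖f v‖ ≤ M) (R : V4 ≃ₗᵢ[ℝ] V4) (ha : ∀ v, ‖va (R v)‖ = ‖vb v‖)
    (hb : ∀ v, ‖vb (R v)‖ = ‖va v‖) (hR : ∀ v, f (R v) = f v) :
    ∫ v, ((sphG r t v : ℝ) : ℂ) * f v = 2 * ∫ v, ((sphW v * sphG r t v : ℝ) : ℂ) * f v := by
  have h1 : ∀ v, ((sphG r t v : ℝ) : ℂ) * f v = ((sphW v * sphG r t v : ℝ) : ℂ) * f v +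
      ((sphW (R v) * sphG r t v : ℝ) : ℂ) * f v := by
    intro v
    rw [← add_mul, ← Complex.ofReal_add, ← add_mul, sphW_add (ha v) (hb v), one_mul]
  have h2 := R.measurePreserving.integral_comp R.toHomeomorph.measurableEmbedding
    (fun v => ((sphW v * sphG r t v : ℝ) : ℂ) * f v)
  have h3 : ∀ v, sphG r t (R v) = sphG r t v := by
    intro v
    unfold sphG
    rw [ha, hb, R.norm_map, mul_right_comm 4]
  simp only [h3, hR] at h2
  simp only [h1]
  rw [integral_add (sph_int_mul hr ht hf hM measurable_sphW sphW_nonneg sphW_le_one)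
    (sph_int_mul (w := fun v => sphW (R v)) hr ht hf hM
      (measurable_sphW.comp R.continuous.measurable) (fun v => sphW_nonneg _)
      fun v => sphW_le_one _)]
  rw [show (∫ v, ((sphW (R v) * sphG r t v : ℝ) : ℂ) * f v) =
    ∫ v, ((sphW v * sphG r t v : ℝ) : ℂ) * f v from h2, two_mul]

/-- the rescaled point -/
noncomputable def sphP (t : ℝ) (p : ℂ × ℂ) : V4 := sphMk (p.1, (‖p.1‖ / Real.sqrt t) • p.2)

theorem sph_cov {Φ : V4 → ℂ} (hΦ : Integrable Φ) {t : ℝ} (ht : 0 < t)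
    (hK : Integrable fun p : ℂ × ℂ => ((‖p.1‖ ^ 2 / t : ℝ) : ℂ) * Φ (sphP t p)) :
    ∫ v, Φ v = ∫ p : ℂ × ℂ, ((‖p.1‖ ^ 2 / t : ℝ) : ℂ) * Φ (sphP t p) := by
  have e1 : ∫ p : ℂ × ℂ, Φ (sphMk p) = ∫ a : ℂ, ∫ b : ℂ, Φ (sphMk (a, b)) :=
    integral_prod _ (sph_integrable.2 hΦ)
  have e2 : ∫ p : ℂ × ℂ, ((‖p.1‖ ^ 2 / t : ℝ) : ℂ) * Φ (sphP t p) =
      ∫ a : ℂ, ∫ b : ℂ, ((‖a‖ ^ 2 / t : ℝ) : ℂ) * Φ (sphP t (a, b)) := integral_prod _ hK
  rw [sph_integral, e1, e2]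
  refine integral_congr_ae ?_
  filter_upwards [sph_ae_ne_zero] with a ha
  have ha : 0 < ‖a‖ := norm_pos_iff.2 ha
  have h1 := Measure.integral_comp_smul (volume : Measure ℂ) (fun b => Φ (sphMk (a, b)))
    (‖a‖ / Real.sqrt t)
  simp only [sphP]
  rw [integral_const_mul, h1, Complex.finrank_real_complex, div_pow, Real.sq_sqrt ht.le,
    abs_of_nonneg (by positivity), Complex.real_smul, ← mul_assoc, ← Complex.ofReal_mul,
    mul_inv_cancel₀ (by positivity), Complex.ofReal_one, one_mul]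

theorem sph_dom {r t : ℝ} (hr : 0 < r) (ht : 0 < t) {f : V4 → ℂ} {M : ℝ}
    (hM : ∀ v, ‖f v‖ ≤ M) (p : ℂ × ℂ) :
    ‖((‖p.1‖ ^ 2 / t : ℝ) : ℂ) * (((sphW (sphP t p) * sphG r t (sphP t p) : ℝ) : ℂ) *
      f (sphP t p))‖ ≤ M * (‖p.1‖ ^ 2 * Real.exp (-‖p.1‖ ^ 2) * Real.exp (-r * ‖p.2‖ ^ 2)) := by
  have hM0 : 0 ≤ M := (norm_nonneg _).trans (hM 0)
  have hw : 0 ≤ sphW (sphP t p) * sphG r t (sphP t p) :=
    mul_nonneg (sphW_nonneg _) (sphG_nonneg ht.le _)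
  rw [norm_mul, norm_mul, Complex.norm_real, Complex.norm_real, Real.norm_of_nonneg (by positivity),
    Real.norm_of_nonneg hw]
  rcases eq_or_ne p.1 0 with h0 | h0
  · rw [h0]; simp
  have ha : 0 < ‖p.1‖ ^ 2 := by positivity
  have hB : ‖(‖p.1‖ / Real.sqrt t) • p.2‖ ^ 2 = ‖p.1‖ ^ 2 * (‖p.2‖ ^ 2 / t) := by
    rw [norm_smul, Real.norm_of_nonneg (by positivity), mul_pow, div_pow, Real.sq_sqrt ht.le]
    ring
  have key : sphW (sphP t p) * sphG r t (sphP t p) ≤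
      t * (Real.exp (-‖p.1‖ ^ 2) * Real.exp (-r * ‖p.2‖ ^ 2)) := by
    by_cases hle : ‖vb (sphP t p)‖ ≤ ‖va (sphP t p)‖
    · have h4 : ‖sphP t p‖ ^ 4 = (‖p.1‖ ^ 2 + ‖p.1‖ ^ 2 * (‖p.2‖ ^ 2 / t)) ^ 2 := by
        rw [show ‖sphP t p‖ ^ 4 = (‖sphP t p‖ ^ 2) ^ 2 by ring, sphP, norm_sphMk, hB]
      have h5 := sph_ratio_exp (A := ‖p.1‖ ^ 2) (B := ‖p.1‖ ^ 2 * (‖p.2‖ ^ 2 / t))
        (σ := t * r) (by positivity) ha.le (by positivity) (by
          rw [← hB]; exact pow_le_pow_left₀ (norm_nonneg _) hle 2)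
      have h6 : -(1 + t * r / ‖p.1‖ ^ 2) * (‖p.1‖ ^ 2 * (‖p.2‖ ^ 2 / t)) =
          -(‖p.1‖ ^ 2 * (‖p.2‖ ^ 2 / t)) + -r * ‖p.2‖ ^ 2 := by
        field_simp
        ring
      have h7 : sphG r t (sphP t p) = t * (Real.exp (-(‖p.1‖ ^ 2 + ‖p.1‖ ^ 2 * (‖p.2‖ ^ 2 / t))) *
          Real.exp (-(t * r) * (4 * ‖p.1‖ ^ 2 * (‖p.1‖ ^ 2 * (‖p.2‖ ^ 2 / t)) /
            (‖p.1‖ ^ 2 + ‖p.1‖ ^ 2 * (‖p.2‖ ^ 2 / t)) ^ 2))) := by
        unfold sphG
        rw [h4]
        simp only [sphP]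
        rw [norm_sphMk, va_sphMk, vb_sphMk, hB, mul_left_comm]
        congr 3
        ring
      calc sphW (sphP t p) * sphG r t (sphP t p) ≤ 1 * sphG r t (sphP t p) :=
            mul_le_mul_of_nonneg_right (sphW_le_one _) (sphG_nonneg ht.le _)
        _ = sphG r t (sphP t p) := one_mul _
        _ ≤ t * (Real.exp (-‖p.1‖ ^ 2) *
              Real.exp (-(1 + t * r / ‖p.1‖ ^ 2) * (‖p.1‖ ^ 2 * (‖p.2‖ ^ 2 / t)))) := by
            rw [h7]
            exact mul_le_mul_of_nonneg_left h5 ht.le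
        _ ≤ t * (Real.exp (-‖p.1‖ ^ 2) * Real.exp (-r * ‖p.2‖ ^ 2)) := by
            rw [h6]
            refine mul_le_mul_of_nonneg_left (mul_le_mul_of_nonneg_left (Real.exp_le_exp.2 ?_)
              (Real.exp_nonneg _)) ht.le
            have : 0 ≤ ‖p.1‖ ^ 2 * (‖p.2‖ ^ 2 / t) := by positivity
            linarith only [this]
    · have h8 : sphW (sphP t p) = 0 := by
        unfold sphW
        rw [if_neg fun h => hle h.le, if_neg fun h => hle h.le]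
      rw [h8, zero_mul]
      positivity
  calc ‖p.1‖ ^ 2 / t * (sphW (sphP t p) * sphG r t (sphP t p) * ‖f (sphP t p)‖)
      ≤ ‖p.1‖ ^ 2 / t * (t * (Real.exp (-‖p.1‖ ^ 2) * Real.exp (-r * ‖p.2‖ ^ 2)) * M) := by
        refine mul_le_mul_of_nonneg_left ?_ (by positivity)
        exact mul_le_mul key (hM _) (norm_nonneg _) (by positivity)
    _ = M * (‖p.1‖ ^ 2 * Real.exp (-‖p.1‖ ^ 2) * Real.exp (-r * ‖p.2‖ ^ 2)) := by
        field_simp

theorem continuous_sphP (t : ℝ) : Continuous (sphP t) := by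
  unfold sphP
  exact sphMk.continuous.comp (continuous_fst.prodMk
    ((continuous_fst.norm.div_const _).smul continuous_snd))

theorem sph_lim_pt {r : ℝ} {f : V4 → ℂ} {f0 : ℂ} {p : ℂ × ℂ} (hp : p.1 ≠ 0)
    (hf : ContinuousAt f (sphMk (p.1, 0))) (hf0 : f (sphMk (p.1, 0)) = f0) :
    Tendsto (fun t : ℝ => ((‖p.1‖ ^ 2 / t : ℝ) : ℂ) * (((sphW (sphP t p) * sphG r t (sphP t p) : ℝ) :
      ℂ) * f (sphP t p))) atTop
      (𝓝 (((‖p.1‖ ^ 2 * Real.exp (-‖p.1‖ ^ 2) * Real.exp (-(4 * r) * ‖p.2‖ ^ 2) : ℝ) : ℂ) * f0)) := by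
  have ha : 0 < ‖p.1‖ := norm_pos_iff.2 hp
  -- the point converges
  have hP : Tendsto (fun t : ℝ => sphP t p) atTop (𝓝 (sphMk (p.1, 0))) := by
    have h1 : Tendsto (fun t : ℝ => (p.1, (‖p.1‖ / Real.sqrt t) • p.2)) atTop (𝓝 (p.1, (0 : ℂ))) := by
      refine tendsto_const_nhds.prodMk_nhds ?_
      rw [← zero_smul ℝ p.2]
      exact (Tendsto.div_atTop tendsto_const_nhds Real.tendsto_sqrt_atTop).smul_const _
    exact (sphMk.continuous.tendsto _).comp h1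
  have hfP : Tendsto (fun t : ℝ => f (sphP t p)) atTop (𝓝 f0) := hf0 ▸ hf.tendsto.comp hP
  have hn : Tendsto (fun t : ℝ => ‖sphP t p‖ ^ 2) atTop (𝓝 (‖p.1‖ ^ 2)) := by
    have h1 := (hP.norm).pow 2
    rwa [norm_sphMk, norm_zero, zero_pow two_ne_zero, add_zero] at h1
  have hvb : Tendsto (fun t : ℝ => ‖vb (sphP t p)‖) atTop (𝓝 0) := by
    have h1 := ((sph_continuous_vb.tendsto _).comp hP).norm
    rwa [vb_sphMk, norm_zero] at h1
  have hreal : Tendsto (fun t : ℝ => ‖p.1‖ ^ 2 * Real.exp (-‖sphP t p‖ ^ 2) *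
      Real.exp (-(4 * ‖p.1‖ ^ 2 * (‖p.1‖ ^ 2 * ‖p.2‖ ^ 2) / (‖sphP t p‖ ^ 2) ^ 2 * r))) atTop
      (𝓝 (‖p.1‖ ^ 2 * Real.exp (-‖p.1‖ ^ 2) * Real.exp (-(4 * r) * ‖p.2‖ ^ 2))) := by
    have h2 : -(4 * r) * ‖p.2‖ ^ 2 =
        -(4 * ‖p.1‖ ^ 2 * (‖p.1‖ ^ 2 * ‖p.2‖ ^ 2) / (‖p.1‖ ^ 2) ^ 2 * r) := by
      field_simp
    rw [h2]
    refine (tendsto_const_nhds.mul ((Real.continuous_exp.tendsto _).comp hn.neg)).mul
      ((Real.continuous_exp.tendsto _).comp ?_)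
    exact ((tendsto_const_nhds.div (hn.pow 2) (by positivity)).mul_const r).neg
  have hc := ((Complex.continuous_ofReal.tendsto _).comp hreal).mul hfP
  refine hc.congr' ?_
  filter_upwards [eventually_gt_atTop 0, hvb.eventually (gt_mem_nhds ha)] with t ht hlt
  have hW : sphW (sphP t p) = 1 := by
    unfold sphW
    rw [if_pos (by simpa only [sphP, va_sphMk] using hlt)]
  have hB : t * ‖vb (sphP t p)‖ ^ 2 = ‖p.1‖ ^ 2 * ‖p.2‖ ^ 2 := by
    simp only [sphP, vb_sphMk]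
    rw [norm_smul, Real.norm_of_nonneg (by positivity), mul_pow, div_pow, Real.sq_sqrt ht.le]
    field_simp
  have hva : va (sphP t p) = p.1 := rfl
  simp only [Function.comp_apply]
  rw [← mul_assoc ((‖p.1‖ ^ 2 / t : ℝ) : ℂ), ← Complex.ofReal_mul, hW, one_mul, ← hB]
  congr 2
  unfold sphG
  rw [hva]
  have h5 : -t * (4 * ‖p.1‖ ^ 2 * ‖vb (sphP t p)‖ ^ 2 / ‖sphP t p‖ ^ 4 * r) =
      -(4 * ‖p.1‖ ^ 2 * (t * ‖vb (sphP t p)‖ ^ 2) / (‖sphP t p‖ ^ 2) ^ 2 * r) := by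
    ring
  rw [h5]
  field_simp

/-- the concentration lemma used in the limit `t → ∞` -/
theorem sph_limit {r : ℝ} (hr : 0 < r) {f : V4 → ℂ} (hf : ∀ v, v ≠ 0 → ContinuousAt f v)
    (hb : ∃ C, ∀ v, ‖f v‖ ≤ C) (f0 : ℂ) (hT : ∀ v, v ≠ 0 → vb v = 0 → f v = f0)
    (hW : ∀ R : V4 ≃ₗᵢ[ℝ] V4, (∀ v, v ≠ 0 → gU (R v) = gU v * Wel) → ∀ v, v ≠ 0 → f (R v) = f v) :
    Tendsto (fun t : ℝ => ∫ v : V4, ((Real.exp (-‖v‖ ^ 2) *
      (t * Real.exp (-t * (4 * ‖va v‖ ^ 2 * ‖vb v‖ ^ 2 / ‖v‖ ^ 4 * r))) : ℝ) : ℂ) * f v) atTop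
      (𝓝 (((Real.pi ^ 2 / (2 * r) : ℝ) : ℂ) * f0)) := by
  classical
  obtain ⟨M, hM⟩ := hb
  have hM0 : 0 ≤ M := (norm_nonneg _).trans (hM 0)
  obtain ⟨R, hR1, hRa, hRb⟩ := gU_right
  -- a measurable version of `f`
  set g : V4 → ℂ := ({0}ᶜ : Set V4).piecewise f (fun _ => 0) with hg
  have hgf : ∀ v, v ≠ 0 → g v = f v := fun v hv => Set.piecewise_eq_of_mem _ _ _ hv
  have hg0 : g 0 = 0 := Set.piecewise_eq_of_notMem _ _ _ (by simp)
  have hgm : Measurable g := by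
    refine ContinuousOn.measurable_piecewise ?_ continuousOn_const (measurableSet_singleton 0).compl
    exact fun v hv => (hf v hv).continuousWithinAt
  have hgM : ∀ v, ‖g v‖ ≤ M := by
    intro v
    rcases eq_or_ne v 0 with rfl | hv
    · rw [hg0, norm_zero]; exact hM0
    · rw [hgf v hv]; exact hM v
  have hgR : ∀ v, g (R v) = g v := by
    intro v
    rcases eq_or_ne v 0 with rfl | hv
    · rw [map_zero]
    · rw [hgf v hv, hgf (R v) (by simpa using hv), hW R hR1 v hv]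
  have hgc : ∀ v, v ≠ 0 → ContinuousAt g v := by
    intro v hv
    refine (hf v hv).congr ?_
    filter_upwards [isOpen_ne.mem_nhds hv] with w hw using (hgf w hw).symm
  have hd : Integrable fun p : ℂ × ℂ =>
      M * (‖p.1‖ ^ 2 * Real.exp (-‖p.1‖ ^ 2) * Real.exp (-r * ‖p.2‖ ^ 2)) :=
    (sph_gauss_two.mul_prod (sph_gauss_int hr)).const_mul M
  have hmeas : ∀ t : ℝ, AEStronglyMeasurable (fun p : ℂ × ℂ => ((‖p.1‖ ^ 2 / t : ℝ) : ℂ) *
      (((sphW (sphP t p) * sphG r t (sphP t p) : ℝ) : ℂ) * g (sphP t p))) volume := by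
    intro t
    have h1 : Measurable fun p : ℂ × ℂ => ((‖p.1‖ ^ 2 / t : ℝ) : ℂ) := by fun_prop
    have h2 : Measurable fun v : V4 => (((sphW v * sphG r t v : ℝ) : ℂ) * g v) :=
      (Complex.measurable_ofReal.comp (measurable_sphW.mul (measurable_sphG r t))).mul hgm
    exact (h1.mul (h2.comp (continuous_sphP t).measurable)).aestronglyMeasurable
  have hlim : Tendsto (fun t : ℝ => ∫ p : ℂ × ℂ, ((‖p.1‖ ^ 2 / t : ℝ) : ℂ) *
      (((sphW (sphP t p) * sphG r t (sphP t p) : ℝ) : ℂ) * g (sphP t p))) atTop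
      (𝓝 (∫ p : ℂ × ℂ, ((‖p.1‖ ^ 2 * Real.exp (-‖p.1‖ ^ 2) *
        Real.exp (-(4 * r) * ‖p.2‖ ^ 2) : ℝ) : ℂ) * f0)) := by
    refine tendsto_integral_filter_of_dominated_convergence _ (Eventually.of_forall hmeas) ?_ hd ?_
    · filter_upwards [eventually_gt_atTop 0] with t ht
      exact Eventually.of_forall fun p => sph_dom hr ht hgM p
    · have h3 : ∀ᵐ p : ℂ × ℂ, p.1 ≠ 0 := by
        have h4 : ∀ᵐ p : ℂ × ℂ, p.1 ∈ ({0}ᶜ : Set ℂ) :=
          Measure.quasiMeasurePreserving_fst.ae (sph_ae_ne_zero)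
        exact h4
      filter_upwards [h3] with p hp
      have hne : sphMk (p.1, 0) ≠ 0 := by
        intro h
        apply hp
        have h5 := norm_sphMk (p.1, 0)
        rw [h] at h5
        simpa using h5.symm
      exact sph_lim_pt hp (hgc _ hne) (by rw [hgf _ hne]; exact hT _ hne rfl)
  have hval : ∫ p : ℂ × ℂ, ((‖p.1‖ ^ 2 * Real.exp (-‖p.1‖ ^ 2) *
        Real.exp (-(4 * r) * ‖p.2‖ ^ 2) : ℝ) : ℂ) * f0 =
      ((Real.pi ^ 2 / (4 * r) : ℝ) : ℂ) * f0 := by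
    rw [integral_mul_const, integral_complex_ofReal]
    congr 2
    have h6 := integral_prod_mul (μ := (volume : Measure ℂ)) (ν := (volume : Measure ℂ))
      (fun a : ℂ => ‖a‖ ^ 2 * Real.exp (-‖a‖ ^ 2)) (fun c : ℂ => Real.exp (-(4 * r) * ‖c‖ ^ 2))
    rw [sph_gauss_two_val, sph_gauss_val (by positivity)] at h6
    rw [Measure.volume_eq_prod, h6]
    ring
  rw [hval] at hlim
  have hlim2 := hlim.const_mul 2
  have hfin : (2 : ℂ) * (((Real.pi ^ 2 / (4 * r) : ℝ) : ℂ) * f0) =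
      ((Real.pi ^ 2 / (2 * r) : ℝ) : ℂ) * f0 := by
    rw [← mul_assoc, ← Complex.ofReal_ofNat, ← Complex.ofReal_mul]
    congr 2
    field_simp
    norm_num
  rw [hfin] at hlim2
  refine hlim2.congr' ?_
  filter_upwards [eventually_gt_atTop 0] with t ht
  have e1 : ∫ v : V4, ((Real.exp (-‖v‖ ^ 2) *
      (t * Real.exp (-t * (4 * ‖va v‖ ^ 2 * ‖vb v‖ ^ 2 / ‖v‖ ^ 4 * r))) : ℝ) : ℂ) * f v =
      ∫ v : V4, ((sphG r t v : ℝ) : ℂ) * g v := by
    refine integral_congr_ae ?_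
    filter_upwards [(show ∀ᵐ v : V4, v ≠ 0 by rw [ae_iff]; simp)] with v hv
    rw [hgf v hv]
    rfl
  rw [e1, sph_half hr.le ht.le hgm hgM R hRa hRb hgR, sph_cov
    (sph_int_mul hr.le ht.le hgm hgM measurable_sphW sphW_nonneg sphW_le_one) ht
    (hd.mono' (hmeas t) (Eventually.of_forall fun p => sph_dom hr ht hgM p))]

end Vale.Agent.P353.Ex
end

section

/-! Task EX-22: adapted frames for the cross product.

From `t_swap`, `t_cyc`, `t_norm` (polarised): `a×(a×b) = (a·b) a - |a|² b`, and for orthonormal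
`a, b` and `c ⟂ a, b, a×b`: `a×(b×c) = -b×(a×c)`, which is orthogonal to everything before.
Given `e_0, e_1` orthonormal: `e_2 = e_0×e_1`, choose a unit vector `e_3 ⟂ e_0,e_1,e_2`,
`e_4 = e_0×e_3`, `e_5 = e_1×e_3`, `e_6 = e_0×e_5`. -/

open MeasureTheory Filter Topology
open scoped ContDiff ComplexConjugate
open Matrix

namespace Vale.Agent.P353.Ex

/-- the cross product with structure constants `t` -/
private def pfCr (t : Fin 7 → Fin 7 → Fin 7 → ℝ) (x y : Fin 7 → ℝ) : Fin 7 → ℝ :=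
  fun k => ∑ i, ∑ j, t k i j * x i * y j

private lemma pfCr_add (t : Fin 7 → Fin 7 → Fin 7 → ℝ) (x y z : Fin 7 → ℝ) :
    pfCr t x (y + z) = pfCr t x y + pfCr t x z := by
  funext k
  simp only [pfCr, Pi.add_apply, mul_add, Finset.sum_add_distrib]

private lemma pfCr_add_left (t : Fin 7 → Fin 7 → Fin 7 → ℝ) (x y z : Fin 7 → ℝ) :
    pfCr t (x + y) z = pfCr t x z + pfCr t y z := by
  funext k
  simp only [pfCr, Pi.add_apply, mul_add, add_mul, Finset.sum_add_distrib]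

private lemma pfCr_smul (t : Fin 7 → Fin 7 → Fin 7 → ℝ) (x y : Fin 7 → ℝ) (r : ℝ) :
    pfCr t x (r • y) = r • pfCr t x y := by
  funext k
  simp only [pfCr, Pi.smul_apply, smul_eq_mul, Finset.mul_sum]
  exact Finset.sum_congr rfl fun i _ => Finset.sum_congr rfl fun j _ => by ring

private lemma pfCr_neg (t : Fin 7 → Fin 7 → Fin 7 → ℝ) (x y : Fin 7 → ℝ) :
    pfCr t x (-y) = - pfCr t x y := by
  have := pfCr_smul t x y (-1)
  simpa using this

private lemma pfCr_swap {t : Fin 7 → Fin 7 → Fin 7 → ℝ} (t_swap : ∀ k i j, t k i j = - t k j i)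
    (x y : Fin 7 → ℝ) : pfCr t x y = - pfCr t y x := by
  funext k
  simp only [pfCr, Pi.neg_apply, ← Finset.sum_neg_distrib]
  rw [Finset.sum_comm]
  refine Finset.sum_congr rfl fun i _ => Finset.sum_congr rfl fun j _ => ?_
  rw [t_swap k j i]; ring

private lemma pfCr_cyc {t : Fin 7 → Fin 7 → Fin 7 → ℝ} (t_cyc : ∀ k i j, t k i j = t i j k)
    (x y z : Fin 7 → ℝ) : z ⬝ᵥ pfCr t x y = x ⬝ᵥ pfCr t y z := by
  simp only [dotProduct, pfCr, Finset.mul_sum]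
  rw [Finset.sum_comm]
  refine Finset.sum_congr rfl fun i _ => ?_
  rw [Finset.sum_comm]
  refine Finset.sum_congr rfl fun j _ => Finset.sum_congr rfl fun k _ => ?_
  rw [t_cyc k i j]; ring

private lemma pfCr_self {t : Fin 7 → Fin 7 → Fin 7 → ℝ} (t_swap : ∀ k i j, t k i j = - t k j i)
    (x : Fin 7 → ℝ) : pfCr t x x = 0 := by
  have h := pfCr_swap t_swap x x
  exact self_eq_neg.mp h

private lemma pfCr_norm {t : Fin 7 → Fin 7 → Fin 7 → ℝ}
    (t_norm : ∀ x y : Fin 7 → ℝ, ∑ k, (∑ i, ∑ j, t k i j * x i * y j) ^ 2 =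
      (∑ i, x i ^ 2) * (∑ i, y i ^ 2) - (∑ i, x i * y i) ^ 2) (x y : Fin 7 → ℝ) :
    pfCr t x y ⬝ᵥ pfCr t x y = (x ⬝ᵥ x) * (y ⬝ᵥ y) - (x ⬝ᵥ y) ^ 2 := by
  have h := t_norm x y
  simp only [dotProduct, pfCr, ← pow_two]
  exact h

private lemma pfCr_polar {t : Fin 7 → Fin 7 → Fin 7 → ℝ}
    (t_norm : ∀ x y : Fin 7 → ℝ, ∑ k, (∑ i, ∑ j, t k i j * x i * y j) ^ 2 =
      (∑ i, x i ^ 2) * (∑ i, y i ^ 2) - (∑ i, x i * y i) ^ 2) (x y z : Fin 7 → ℝ) :
    pfCr t x y ⬝ᵥ pfCr t x z = (x ⬝ᵥ x) * (y ⬝ᵥ z) - (x ⬝ᵥ y) * (x ⬝ᵥ z) := by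
  have h1 := pfCr_norm t_norm x (y + z)
  have h2 := pfCr_norm t_norm x y
  have h3 := pfCr_norm t_norm x z
  rw [pfCr_add] at h1
  simp only [add_dotProduct, dotProduct_add] at h1
  rw [dotProduct_comm (pfCr t x z) (pfCr t x y), dotProduct_comm z y] at h1
  linear_combination h1 / 2 - h2 / 2 - h3 / 2

private lemma pfCr_skew {t : Fin 7 → Fin 7 → Fin 7 → ℝ} (t_swap : ∀ k i j, t k i j = - t k j i)
    (t_cyc : ∀ k i j, t k i j = t i j k) (x y z : Fin 7 → ℝ) :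
    pfCr t x y ⬝ᵥ z = - (y ⬝ᵥ pfCr t x z) := by
  rw [dotProduct_comm, pfCr_cyc t_cyc, pfCr_cyc t_cyc, pfCr_swap t_swap z x, dotProduct_neg]

private lemma pfCr_cr {t : Fin 7 → Fin 7 → Fin 7 → ℝ} (t_swap : ∀ k i j, t k i j = - t k j i)
    (t_cyc : ∀ k i j, t k i j = t i j k)
    (t_norm : ∀ x y : Fin 7 → ℝ, ∑ k, (∑ i, ∑ j, t k i j * x i * y j) ^ 2 =
      (∑ i, x i ^ 2) * (∑ i, y i ^ 2) - (∑ i, x i * y i) ^ 2) (x y : Fin 7 → ℝ) :
    pfCr t x (pfCr t x y) = (x ⬝ᵥ y) • x - (x ⬝ᵥ x) • y := by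
  refine dotProduct_eq _ _ fun z => ?_
  rw [pfCr_skew t_swap t_cyc, pfCr_polar t_norm, sub_dotProduct, smul_dotProduct,
    smul_dotProduct, smul_eq_mul, smul_eq_mul]
  ring

private lemma pfCr_cr2 {t : Fin 7 → Fin 7 → Fin 7 → ℝ} (t_swap : ∀ k i j, t k i j = - t k j i)
    (t_cyc : ∀ k i j, t k i j = t i j k)
    (t_norm : ∀ x y : Fin 7 → ℝ, ∑ k, (∑ i, ∑ j, t k i j * x i * y j) ^ 2 =
      (∑ i, x i ^ 2) * (∑ i, y i ^ 2) - (∑ i, x i * y i) ^ 2) (a b c : Fin 7 → ℝ)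
    (hab : a ⬝ᵥ b = 0) (hac : a ⬝ᵥ c = 0) (hbc : b ⬝ᵥ c = 0) :
    pfCr t a (pfCr t b c) = - pfCr t b (pfCr t a c) := by
  have h1 := pfCr_cr t_swap t_cyc t_norm (a + b) c
  have h2 := pfCr_cr t_swap t_cyc t_norm a c
  have h3 := pfCr_cr t_swap t_cyc t_norm b c
  simp only [pfCr_add_left, pfCr_add, add_dotProduct, dotProduct_add, hab, hac, hbc,
    dotProduct_comm b a, add_zero, zero_add, zero_smul, zero_sub, h2, h3, add_smul] at h1
  funext k
  have h4 := congrFun h1 k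
  simp only [Pi.add_apply, Pi.neg_apply] at h4 ⊢
  linarith only [h4]

private lemma pf_unit (u v w : Fin 7 → ℝ) :
    ∃ x : Fin 7 → ℝ, x ⬝ᵥ x = 1 ∧ u ⬝ᵥ x = 0 ∧ v ⬝ᵥ x = 0 ∧ w ⬝ᵥ x = 0 := by
  have hk : LinearMap.ker (Matrix.mulVecLin (Matrix.of ![u, v, w])) ≠ ⊥ := by
    apply LinearMap.ker_ne_bot_of_finrank_lt
    simp
  obtain ⟨y, hy, hy0⟩ := (Submodule.ne_bot_iff _).1 hk
  rw [LinearMap.mem_ker, Matrix.mulVecLin_apply] at hy
  have h0 : u ⬝ᵥ y = 0 := by simpa [Matrix.mulVec] using congrFun hy 0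
  have h1 : v ⬝ᵥ y = 0 := by simpa [Matrix.mulVec] using congrFun hy 1
  have h2 : w ⬝ᵥ y = 0 := by simpa [Matrix.mulVec] using congrFun hy 2
  have hpos : 0 < y ⬝ᵥ y := by
    have hnn : 0 ≤ y ⬝ᵥ y := Finset.sum_nonneg fun i _ => mul_self_nonneg _
    rcases hnn.lt_or_eq with h | h
    · exact h
    · exact absurd (dotProduct_self_eq_zero.1 h.symm) hy0
  refine ⟨(Real.sqrt (y ⬝ᵥ y))⁻¹ • y, ?_, ?_, ?_, ?_⟩
  · rw [smul_dotProduct, dotProduct_smul, smul_eq_mul, smul_eq_mul]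
    have hs : Real.sqrt (y ⬝ᵥ y) * Real.sqrt (y ⬝ᵥ y) = y ⬝ᵥ y := Real.mul_self_sqrt hpos.le
    have hs0 : Real.sqrt (y ⬝ᵥ y) ≠ 0 := (Real.sqrt_pos.2 hpos).ne'
    rw [← mul_assoc]
    field_simp
    rw [pow_two, hs]
  · rw [dotProduct_smul, h0, smul_zero]
  · rw [dotProduct_smul, h1, smul_zero]
  · rw [dotProduct_smul, h2, smul_zero]


private lemma pf_dot_smul_unit {y : Fin 7 → ℝ} (hy : y ≠ 0) :
    ∃ (x : Fin 7 → ℝ) (p : ℝ), x ⬝ᵥ x = 1 ∧ y = p • x ∧ ∃ r : ℝ, x = r • y := by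
  have hpos : 0 < y ⬝ᵥ y := by
    have hnn : 0 ≤ y ⬝ᵥ y := Finset.sum_nonneg fun i _ => mul_self_nonneg _
    rcases hnn.lt_or_eq with h | h
    · exact h
    · exact absurd (dotProduct_self_eq_zero.1 h.symm) hy
  have hs : Real.sqrt (y ⬝ᵥ y) * Real.sqrt (y ⬝ᵥ y) = y ⬝ᵥ y := Real.mul_self_sqrt hpos.le
  have hs0 : Real.sqrt (y ⬝ᵥ y) ≠ 0 := (Real.sqrt_pos.2 hpos).ne'
  refine ⟨(Real.sqrt (y ⬝ᵥ y))⁻¹ • y, Real.sqrt (y ⬝ᵥ y), ?_, ?_, _, rfl⟩
  · rw [smul_dotProduct, dotProduct_smul, smul_eq_mul, smul_eq_mul, ← mul_assoc]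
    field_simp
    rw [pow_two, hs]
  · rw [smul_smul, mul_inv_cancel₀ hs0, one_smul]

private lemma pf_start (a b : Fin 7 → ℝ) (hab : a ⬝ᵥ b = 0) :
    ∃ (x y : Fin 7 → ℝ) (p q : ℝ), x ⬝ᵥ x = 1 ∧ y ⬝ᵥ y = 1 ∧ x ⬝ᵥ y = 0 ∧
      a = p • x ∧ b = q • y := by
  obtain ⟨x, p, hx, hp, hxb⟩ : ∃ (x : Fin 7 → ℝ) (p : ℝ), x ⬝ᵥ x = 1 ∧ a = p • x ∧
      x ⬝ᵥ b = 0 := by
    by_cases ha : a = 0
    · obtain ⟨x, hx, h1, _, _⟩ := pf_unit b b b
      exact ⟨x, 0, hx, by rw [ha, zero_smul], by rw [dotProduct_comm]; exact h1⟩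
    · obtain ⟨x, p, hx, hp, r, hr⟩ := pf_dot_smul_unit ha
      exact ⟨x, p, hx, hp, by rw [hr, smul_dotProduct, hab, smul_zero]⟩
  by_cases hb : b = 0
  · obtain ⟨y, hy, h1, _, _⟩ := pf_unit x x x
    exact ⟨x, y, p, 0, hx, hy, h1, hp, by rw [hb, zero_smul]⟩
  · obtain ⟨y, q, hy, hq, r, hr⟩ := pf_dot_smul_unit hb
    exact ⟨x, y, p, q, hx, hy, by rw [hr, dotProduct_smul, hxb, smul_zero], hp, hq⟩

theorem exists_frame (t : Fin 7 → Fin 7 → Fin 7 → ℝ) (t_swap : ∀ k i j, t k i j = - t k j i)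
    (t_cyc : ∀ k i j, t k i j = t i j k)
    (t_norm : ∀ x y : Fin 7 → ℝ, ∑ k, (∑ i, ∑ j, t k i j * x i * y j) ^ 2 =
      (∑ i, x i ^ 2) * (∑ i, y i ^ 2) - (∑ i, x i * y i) ^ 2)
    (a b : Fin 7 → ℝ) (hab : ∑ i, a i * b i = 0) :
    ∃ (O : Matrix (Fin 7) (Fin 7) ℝ) (p q : ℝ), O * O.transpose = 1 ∧
      (∀ i, ∑ l, O i l * a l = if i = 0 then p else 0) ∧
      (∀ i, ∑ l, O i l * b l = if i = 1 then q else 0) ∧
      (∀ k j, ∑ a, ∑ b, ∑ c, O k a * O 0 b * O j c * t a b c = L1 k j) ∧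
      (∀ k j, ∑ a, ∑ b, ∑ c, O k a * O 1 b * O j c * t a b c = L2 k j) := by
  obtain ⟨e0, e1, p, q, h00, h11, h01, ha, hb⟩ := pf_start a b hab
  have nrm := pfCr_norm t_norm
  have pol := pfCr_polar t_norm
  have skw := pfCr_skew t_swap t_cyc
  have crcr := pfCr_cr t_swap t_cyc t_norm
  obtain ⟨e2, he2⟩ : ∃ e2, e2 = pfCr t e0 e1 := ⟨_, rfl⟩
  have h22 : e2 ⬝ᵥ e2 = 1 := by rw [he2, nrm, h00, h11, h01]; norm_num
  have self0 : pfCr t e0 e0 = 0 := pfCr_self t_swap e0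
  have self1 : pfCr t e1 e1 = 0 := pfCr_self t_swap e1
  have h02 : e0 ⬝ᵥ e2 = 0 := by
    rw [he2, dotProduct_comm, skw, self0, dotProduct_zero, neg_zero]
  have h12 : e1 ⬝ᵥ e2 = 0 := by
    rw [he2, pfCr_cyc t_cyc, self1, dotProduct_zero]
  obtain ⟨e3, h33, h03, h13, h23⟩ := pf_unit e0 e1 e2
  obtain ⟨e4, he4⟩ : ∃ e4, e4 = pfCr t e0 e3 := ⟨_, rfl⟩
  obtain ⟨e5, he5⟩ : ∃ e5, e5 = pfCr t e1 e3 := ⟨_, rfl⟩
  obtain ⟨e6, he6⟩ : ∃ e6, e6 = pfCr t e0 e5 := ⟨_, rfl⟩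
  have h44 : e4 ⬝ᵥ e4 = 1 := by rw [he4, nrm, h00, h33, h03]; norm_num
  have h55 : e5 ⬝ᵥ e5 = 1 := by rw [he5, nrm, h11, h33, h13]; norm_num
  have h34 : e3 ⬝ᵥ e4 = 0 := by
    rw [he4, pfCr_cyc t_cyc, pfCr_self t_swap, dotProduct_zero]
  have h35 : e3 ⬝ᵥ e5 = 0 := by
    rw [he5, pfCr_cyc t_cyc, pfCr_self t_swap, dotProduct_zero]
  have h04 : e0 ⬝ᵥ e4 = 0 := by
    rw [he4, dotProduct_comm, skw, self0, dotProduct_zero, neg_zero]
  have h15 : e1 ⬝ᵥ e5 = 0 := by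
    rw [he5, dotProduct_comm, skw, self1, dotProduct_zero, neg_zero]
  have h14 : e1 ⬝ᵥ e4 = 0 := by
    rw [he4, dotProduct_comm, skw, ← he2, dotProduct_comm, h23, neg_zero]
  have h24 : e2 ⬝ᵥ e4 = 0 := by
    rw [he4, he2, pol, h13, h01, h03]; norm_num
  have h05 : e0 ⬝ᵥ e5 = 0 := by
    rw [he5, dotProduct_comm, skw, pfCr_swap t_swap e1 e0, ← he2, dotProduct_neg,
      dotProduct_comm, h23]; norm_num
  have h25 : e2 ⬝ᵥ e5 = 0 := by
    rw [he5, he2, pfCr_swap t_swap e0 e1, neg_dotProduct, pol, h03, h13]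
    rw [dotProduct_comm e1 e0, h01]; norm_num
  have h45 : e4 ⬝ᵥ e5 = 0 := by
    rw [he4, he5, pfCr_swap t_swap e0 e3, pfCr_swap t_swap e1 e3, neg_dotProduct,
      dotProduct_neg, pol, h01, dotProduct_comm e3 e0, h03]; norm_num
  have h66 : e6 ⬝ᵥ e6 = 1 := by rw [he6, nrm, h00, h55, h05]; norm_num
  have h06 : e0 ⬝ᵥ e6 = 0 := by
    rw [he6, dotProduct_comm, skw, self0, dotProduct_zero, neg_zero]
  have h56 : e5 ⬝ᵥ e6 = 0 := by
    rw [he6, pfCr_cyc t_cyc, pfCr_self t_swap, dotProduct_zero]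
  have h16 : e1 ⬝ᵥ e6 = 0 := by
    rw [he6, dotProduct_comm, skw, ← he2, dotProduct_comm, h25, neg_zero]
  have h26 : e2 ⬝ᵥ e6 = 0 := by
    rw [he6, he2, pol, h15, h01, h05]; norm_num
  have h36 : e3 ⬝ᵥ e6 = 0 := by
    rw [he6, dotProduct_comm, skw, ← he4, dotProduct_comm, h45, neg_zero]
  have h46 : e4 ⬝ᵥ e6 = 0 := by
    rw [he6, he4, pol, h35, h03, h05]; norm_num
  -- products
  have c02 : pfCr t e0 e2 = - e1 := by
    rw [he2, crcr, h01, h00, zero_smul, one_smul, zero_sub]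
  have c04 : pfCr t e0 e4 = - e3 := by
    rw [he4, crcr, h03, h00, zero_smul, one_smul, zero_sub]
  have c06 : pfCr t e0 e6 = - e5 := by
    rw [he6, crcr, h05, h00, zero_smul, one_smul, zero_sub]
  have c10 : pfCr t e1 e0 = - e2 := by rw [he2, pfCr_swap t_swap]
  have c12 : pfCr t e1 e2 = e0 := by
    rw [he2, pfCr_swap t_swap e0 e1, pfCr_neg, crcr, dotProduct_comm, h01, h11, zero_smul,
      one_smul, zero_sub, neg_neg]
  have c15 : pfCr t e1 e5 = - e3 := by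
    rw [he5, crcr, h13, h11, zero_smul, one_smul, zero_sub]
  have c14 : pfCr t e1 e4 = - e6 := by
    have h := pfCr_cr2 t_swap t_cyc t_norm e0 e1 e3 h01 h03 h13
    rw [← he5, ← he6, ← he4] at h
    rw [h, neg_neg]
  have c16 : pfCr t e1 e6 = e4 := by
    have h := pfCr_cr2 t_swap t_cyc t_norm e0 e1 e5 h01 h05 h15
    rw [← he6, c15, pfCr_neg, ← he4, neg_inj] at h
    exact h.symm
  obtain ⟨e, he⟩ : ∃ e : Fin 7 → Fin 7 → ℝ, e = ![e0, e1, e2, e3, e4, e5, e6] := ⟨_, rfl⟩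
  have E0 : e 0 = e0 := by rw [he]; rfl
  have E1 : e 1 = e1 := by rw [he]; rfl
  have E2 : e 2 = e2 := by rw [he]; rfl
  have E3 : e 3 = e3 := by rw [he]; rfl
  have E4 : e 4 = e4 := by rw [he]; rfl
  have E5 : e 5 = e5 := by rw [he]; rfl
  have E6 : e 6 = e6 := by rw [he]; rfl
  have gle : ∀ i j : Fin 7, i < j → e i ⬝ᵥ e j = 0 := by
    intro i j hij
    fin_cases i <;> fin_cases j <;> first
      | exact absurd hij (by decide)
      | (simp only [Fin.zero_eta, Fin.mk_one, Fin.reduceFinMk, E0, E1, E2, E3, E4, E5, E6]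
         assumption)
  have gd : ∀ i : Fin 7, e i ⬝ᵥ e i = 1 := by
    intro i
    fin_cases i <;>
      (simp only [Fin.zero_eta, Fin.mk_one, Fin.reduceFinMk, E0, E1, E2, E3, E4, E5, E6]
       assumption)
  have gram : ∀ i j : Fin 7, e i ⬝ᵥ e j = if i = j then 1 else 0 := by
    intro i j
    rcases lt_trichotomy i j with h | h | h
    · rw [gle i j h, if_neg h.ne]
    · rw [h, gd, if_pos rfl]
    · rw [dotProduct_comm, gle j i h, if_neg h.ne']
  have key : ∀ i k j : Fin 7, ∑ a, ∑ b, ∑ c, e k a * e i b * e j c * t a b c =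
      e k ⬝ᵥ pfCr t (e i) (e j) := by
    intro i k j
    simp only [dotProduct, pfCr, Finset.mul_sum]
    refine Finset.sum_congr rfl fun x _ => Finset.sum_congr rfl fun y _ =>
      Finset.sum_congr rfl fun z _ => by ring
  refine ⟨Matrix.of e, p, q, ?_, ?_, ?_, ?_, ?_⟩
  · ext i j
    rw [Matrix.mul_apply, Matrix.one_apply]
    exact gram i j
  · intro i
    have h : ∑ l, Matrix.of e i l * a l = p * (e i ⬝ᵥ e 0) := by
      rw [ha, E0, ← smul_eq_mul, ← dotProduct_smul]; rfl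
    rw [h, gram]
    split_ifs <;> simp
  · intro i
    have h : ∑ l, Matrix.of e i l * b l = q * (e i ⬝ᵥ e 1) := by
      rw [hb, E1, ← smul_eq_mul, ← dotProduct_smul]; rfl
    rw [h, gram]
    split_ifs <;> simp
  · intro k j
    refine (key 0 k j).trans ?_
    rw [E0]
    have hc : ∃ v : ℝ, ∃ m : Fin 7, pfCr t e0 (e j) = v • e m ∧
        ∀ k, v * (if k = m then 1 else 0) = L1 k j := by
      fin_cases j
      · exact ⟨0, 0, by simpa [E0] using self0, by simp [L1, Fin.forall_fin_succ]⟩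
      · exact ⟨1, 2, by simp [E1, E2, he2], by simp [L1, Fin.forall_fin_succ]⟩
      · exact ⟨-1, 1, by simpa [E1, E2] using c02, by simp [L1, Fin.forall_fin_succ]⟩
      · exact ⟨1, 4, by simp [E3, E4, he4], by simp [L1, Fin.forall_fin_succ]⟩
      · exact ⟨-1, 3, by simpa [E3, E4] using c04, by simp [L1, Fin.forall_fin_succ]⟩
      · exact ⟨1, 6, by simp [E5, E6, he6], by simp [L1, Fin.forall_fin_succ]⟩
      · exact ⟨-1, 5, by simpa [E5, E6] using c06, by simp [L1, Fin.forall_fin_succ]⟩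
    obtain ⟨v, m, hv, hm⟩ := hc
    rw [hv, dotProduct_smul, gram, smul_eq_mul, hm]
  · intro k j
    refine (key 1 k j).trans ?_
    rw [E1]
    have hc : ∃ v : ℝ, ∃ m : Fin 7, pfCr t e1 (e j) = v • e m ∧
        ∀ k, v * (if k = m then 1 else 0) = L2 k j := by
      fin_cases j
      · exact ⟨-1, 2, by simpa [E0, E2] using c10, by simp [L2, Fin.forall_fin_succ]⟩
      · exact ⟨0, 1, by simpa [E1] using self1, by simp [L2, Fin.forall_fin_succ]⟩
      · exact ⟨1, 0, by simpa [E0, E2] using c12, by simp [L2, Fin.forall_fin_succ]⟩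
      · exact ⟨1, 5, by simp [E3, E5, he5], by simp [L2, Fin.forall_fin_succ]⟩
      · exact ⟨-1, 6, by simpa [E4, E6] using c14, by simp [L2, Fin.forall_fin_succ]⟩
      · exact ⟨-1, 3, by simpa [E3, E5] using c15, by simp [L2, Fin.forall_fin_succ]⟩
      · exact ⟨1, 4, by simpa [E4, E6] using c16, by simp [L2, Fin.forall_fin_succ]⟩
    obtain ⟨v, m, hv, hm⟩ := hc
    rw [hv, dotProduct_smul, gram, smul_eq_mul, hm]

end Vale.Agent.P353.Ex
end

section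

/-! # Mollification on `X3` -/

open MeasureTheory Filter Topology
open scoped ContDiff

namespace Vale.Agent.P353.EsaMoll

section moll

variable {E : Type*} [NormedAddCommGroup E] [NormedSpace ℝ E]

/-- the convolution `(ρ * f)(x) = ∫ ρ(x - t) f(t) dt` -/
noncomputable def mo (ρ : X3 → ℝ) (f : X3 → E) (x : X3) : E := ∫ t, ρ (x - t) • f t

lemma mo_eq (ρ : X3 → ℝ) (f : X3 → E) :
    mo ρ f = MeasureTheory.convolution f ρ (ContinuousLinearMap.lsmul ℝ ℝ).flip volume := rfl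

lemma mo_int {ρ : X3 → ℝ} (hρ : Continuous ρ) (hc : HasCompactSupport ρ) {f : X3 → E}
    (hf : LocallyIntegrable f (volume : Measure X3)) (x : X3) :
    Integrable (fun t => ρ (x - t) • f t) :=
  hc.convolutionExists_right (ContinuousLinearMap.lsmul ℝ ℝ).flip hf hρ x

lemma contDiff_mo [CompleteSpace E] {ρ : X3 → ℝ} (hρ : ContDiff ℝ ∞ ρ) (hc : HasCompactSupport ρ) {f : X3 → E}
    (hf : LocallyIntegrable f (volume : Measure X3)) : ContDiff ℝ ∞ (mo ρ f) :=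
  hc.contDiff_convolution_right (ContinuousLinearMap.lsmul ℝ ℝ).flip hf hρ

lemma fderiv_mo [CompleteSpace E] {ρ : X3 → ℝ} (hρ : ContDiff ℝ ∞ ρ) (hc : HasCompactSupport ρ) {f : X3 → E}
    (hf : LocallyIntegrable f (volume : Measure X3)) (x e : X3) :
    fderiv ℝ (mo ρ f) x e = mo (fun y => fderiv ℝ ρ y e) f x := by
  have h1 : ContDiff ℝ 1 ρ := hρ.of_le (by simp)
  have h := hc.hasFDerivAt_convolution_right (ContinuousLinearMap.lsmul ℝ ℝ).flip hf h1 x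
  rw [mo_eq, h.fderiv, convolution_precompR_apply _ hf (hc.fderiv ℝ) (h1.continuous_fderiv (by simp))]
  rfl

/-- pointwise Jensen inequality -/
lemma mo_sq_le {ρ : X3 → ℝ} (hρ : Continuous ρ) (hc : HasCompactSupport ρ) (h0 : ∀ x, 0 ≤ ρ x)
    (h1 : ∫ x, ρ x = 1) {g : X3 → ℝ} (hg : MemLp g 2 (volume : Measure X3)) (x : X3) :
    mo ρ g x ^ 2 ≤ mo ρ (fun t => g t ^ 2) x := by
  have hg1 : LocallyIntegrable g (volume : Measure X3) := hg.locallyIntegrable (by norm_num)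
  have hg2 : Integrable (fun t => g t ^ 2) := hg.integrable_sq
  have i0 : Integrable (fun t => ρ (x - t)) :=
    (hρ.integrable_of_hasCompactSupport hc).comp_sub_left x
  have i1 : Integrable (fun t => ρ (x - t) * g t) := mo_int hρ hc hg1 x
  have i2 : Integrable (fun t => ρ (x - t) * g t ^ 2) := mo_int hρ hc hg2.locallyIntegrable x
  set c := mo ρ g x with hcdef
  have e1 : ∫ t, ρ (x - t) * g t = c := rfl
  have e2 : ∫ t, ρ (x - t) * g t ^ 2 = mo ρ (fun t => g t ^ 2) x := rfl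
  have e0 : ∫ t, ρ (x - t) = 1 := by rw [integral_sub_left_eq_self (μ := volume) ρ x, h1]
  have hpos : 0 ≤ ∫ t, ρ (x - t) * (g t - c) ^ 2 :=
    integral_nonneg fun t => mul_nonneg (h0 _) (sq_nonneg _)
  have hexp : ∫ t, ρ (x - t) * (g t - c) ^ 2 =
      (∫ t, ρ (x - t) * g t ^ 2) - 2 * c * (∫ t, ρ (x - t) * g t) + c ^ 2 * ∫ t, ρ (x - t) := by
    have i3 : Integrable (fun t => ρ (x - t) * g t ^ 2 - 2 * c * (ρ (x - t) * g t)) :=
      i2.sub (i1.const_mul _)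
    rw [← integral_const_mul, ← integral_const_mul, ← integral_sub i2 (i1.const_mul _),
      ← integral_add i3 (i0.const_mul _)]
    refine integral_congr_ae (Filter.Eventually.of_forall fun t => ?_)
    simp only
    ring
  rw [hexp, e0, e1, e2] at hpos
  nlinarith

lemma integral_mo {ρ : X3 → ℝ} (hρ : Continuous ρ) (hc : HasCompactSupport ρ)
    {g : X3 → ℝ} (hg : Integrable g (volume : Measure X3)) :
    Integrable (mo ρ g) ∧ ∫ x, mo ρ g x = (∫ x, ρ x) * ∫ x, g x := by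
  have hi := hρ.integrable_of_hasCompactSupport hc (μ := (volume : Measure X3))
  constructor
  · exact hg.integrable_convolution (ContinuousLinearMap.lsmul ℝ ℝ).flip hi
  · have := integral_convolution (ContinuousLinearMap.lsmul ℝ ℝ).flip hg hi (μ := (volume : Measure X3))
      (ν := (volume : Measure X3))
    rw [mo_eq, this]
    simp

/-- `‖ρ * g‖ ≤ ‖g‖` in `L²` (real valued functions) -/
lemma mo_L2 {ρ : X3 → ℝ} (hρ : ContDiff ℝ ∞ ρ) (hc : HasCompactSupport ρ) (h0 : ∀ x, 0 ≤ ρ x)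
    (h1 : ∫ x, ρ x = 1) {g : X3 → ℝ} (hg : MemLp g 2 (volume : Measure X3)) :
    Integrable (fun x => mo ρ g x ^ 2) ∧ ∫ x, mo ρ g x ^ 2 ≤ ∫ x, g x ^ 2 := by
  have hg1 : LocallyIntegrable g (volume : Measure X3) := hg.locallyIntegrable (by norm_num)
  obtain ⟨j1, j2⟩ := integral_mo hρ.continuous hc hg.integrable_sq
  have i1 : Integrable (fun x => mo ρ g x ^ 2) := by
    refine j1.mono' ((contDiff_mo hρ hc hg1).continuous.pow 2).aestronglyMeasurable
      (Filter.Eventually.of_forall fun x => ?_)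
    rw [Real.norm_of_nonneg (sq_nonneg _)]
    exact mo_sq_le hρ.continuous hc h0 h1 hg x
  refine ⟨i1, ?_⟩
  refine (integral_mono i1 j1 fun x => mo_sq_le hρ.continuous hc h0 h1 hg x).trans ?_
  rw [j2, h1, one_mul]

lemma norm_mo_le {ρ : X3 → ℝ} (h0 : ∀ x, 0 ≤ ρ x) (f : X3 → E) (x : X3) :
    ‖mo ρ f x‖ ≤ mo ρ (fun t => ‖f t‖) x := by
  refine (norm_integral_le_integral_norm _).trans (le_of_eq ?_)
  refine integral_congr_ae (Filter.Eventually.of_forall fun t => ?_)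
  simp only [norm_smul, smul_eq_mul, Real.norm_of_nonneg (h0 _)]

lemma mo_norm_nonneg {ρ : X3 → ℝ} (h0 : ∀ x, 0 ≤ ρ x) (f : X3 → E) (x : X3) :
    0 ≤ mo ρ (fun t => ‖f t‖) x := (norm_nonneg _).trans (norm_mo_le h0 f x)

/-- `‖ρ * f‖ ≤ ‖f‖` in `L²` -/
lemma mo_L2' [CompleteSpace E] {ρ : X3 → ℝ} (hρ : ContDiff ℝ ∞ ρ) (hc : HasCompactSupport ρ) (h0 : ∀ x, 0 ≤ ρ x)
    (h1 : ∫ x, ρ x = 1) {f : X3 → E} (hf : MemLp f 2 (volume : Measure X3)) :
    MemLp (mo ρ f) 2 (volume : Measure X3) ∧ ∫ x, ‖mo ρ f x‖ ^ 2 ≤ ∫ x, ‖f x‖ ^ 2 := by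
  have hf1 : LocallyIntegrable f (volume : Measure X3) := hf.locallyIntegrable (by norm_num)
  obtain ⟨j1, j2⟩ := mo_L2 hρ hc h0 h1 hf.norm
  have hm : AEStronglyMeasurable (mo ρ f) (volume : Measure X3) :=
    (contDiff_mo hρ hc hf1).continuous.aestronglyMeasurable
  have hb : ∀ x, ‖mo ρ f x‖ ^ 2 ≤ mo ρ (fun t => ‖f t‖) x ^ 2 := fun x =>
    pow_le_pow_left₀ (norm_nonneg _) (norm_mo_le h0 f x) 2
  have i1 : Integrable (fun x => ‖mo ρ f x‖ ^ 2) := by
    refine j1.mono' (hm.norm.pow 2) (Filter.Eventually.of_forall fun x => ?_)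
    rw [Real.norm_of_nonneg (sq_nonneg _)]
    exact hb x
  exact ⟨(memLp_two_iff_integrable_sq_norm hm).mpr i1, (integral_mono i1 j1 hb).trans j2⟩

/-! a standard sequence of mollifiers -/

/-- mollifier supported in the ball of radius `2/(n+1)` -/
noncomputable def bmp (n : ℕ) : ContDiffBump (0 : X3) :=
  ⟨1 / ((n : ℝ) + 1), 2 / ((n : ℝ) + 1), by positivity, by gcongr; norm_num⟩

/-- the mollifier -/
noncomputable def mol (n : ℕ) : X3 → ℝ := (bmp n).normed volume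

lemma mol_smooth (n : ℕ) : ContDiff ℝ ∞ (mol n) := (bmp n).contDiff_normed

lemma mol_cs (n : ℕ) : HasCompactSupport (mol n) := (bmp n).hasCompactSupport_normed

lemma mol_nonneg (n : ℕ) (x : X3) : 0 ≤ mol n x := (bmp n).nonneg_normed x

lemma mol_integral (n : ℕ) : ∫ x, mol n x = 1 := (bmp n).integral_normed

lemma mol_zero {n : ℕ} {x : X3} (hx : 2 / ((n : ℝ) + 1) ≤ ‖x‖) : mol n x = 0 := by
  have h : x ∉ Function.support (mol n) := by
    rw [mol, ContDiffBump.support_normed_eq, Metric.mem_ball, dist_zero_right, not_lt]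
    exact hx
  simpa using h

lemma mo_tendsto [CompleteSpace E] {f : X3 → E} (hf : LocallyIntegrable f (volume : Measure X3)) :
    ∀ᵐ x, Tendsto (fun n => mo (mol n) f x) atTop (𝓝 (f x)) := by
  have h1 : Tendsto (fun n => (bmp n).rOut) atTop (𝓝 0) := by
    have := (tendsto_one_div_add_atTop_nhds_zero_nat (𝕜 := ℝ)).const_mul 2
    rw [mul_zero] at this
    refine this.congr fun n => ?_
    show 2 * (1 / ((n : ℝ) + 1)) = 2 / ((n : ℝ) + 1)
    ring
  have h2 : ∀ᶠ n in atTop, (bmp n).rOut ≤ 2 * (bmp n).rIn := by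
    refine Filter.Eventually.of_forall fun n => ?_
    show 2 / ((n : ℝ) + 1) ≤ 2 * (1 / ((n : ℝ) + 1))
    rw [mul_one_div]
  have h3 := ContDiffBump.ae_convolution_tendsto_right_of_locallyIntegrable (μ := (volume : Measure X3))
    h1 h2 hf
  filter_upwards [h3] with x hx
  refine hx.congr fun n => ?_
  rw [mo_eq, convolution_flip]
  rfl

/-- Fatou -/
lemma fatou_le {f : ℕ → X3 → ℝ} {g : X3 → ℝ} {M : ℝ} (hf : ∀ n, Integrable (f n))
    (h0 : ∀ n x, 0 ≤ f n x) (hM : ∀ᶠ n in atTop, ∫ x, f n x ≤ M)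
    (hg : ∀ᵐ x, Tendsto (fun n => f n x) atTop (𝓝 (g x))) : ∫ x, g x ≤ M := by
  have hM0 : 0 ≤ M := by
    obtain ⟨n, hn⟩ := hM.exists
    exact (integral_nonneg (h0 n)).trans hn
  have hg0 : 0 ≤ᵐ[volume] g := by
    filter_upwards [hg] with x hx
    exact ge_of_tendsto' hx fun n => h0 n x
  have hgm : AEStronglyMeasurable g (volume : Measure X3) :=
    aestronglyMeasurable_of_tendsto_ae _ (fun n => (hf n).aestronglyMeasurable) hg
  rw [integral_eq_lintegral_of_nonneg_ae hg0 hgm]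
  refine ENNReal.toReal_le_of_le_ofReal hM0 ?_
  have h1 : ∫⁻ x, ENNReal.ofReal (g x) = ∫⁻ x, liminf (fun n => ENNReal.ofReal (f n x)) atTop := by
    refine lintegral_congr_ae ?_
    filter_upwards [hg] with x hx
    exact ((ENNReal.continuous_ofReal.tendsto _).comp hx).liminf_eq.symm
  rw [h1]
  refine (lintegral_liminf_le' fun n => (hf n).aestronglyMeasurable.aemeasurable.ennreal_ofReal).trans ?_
  have h2 : ∀ᶠ n in atTop, ∫⁻ x, ENNReal.ofReal (f n x) ≤ ENNReal.ofReal M := by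
    filter_upwards [hM] with n hn
    rw [← ofReal_integral_eq_lintegral_ofReal (hf n) (Filter.Eventually.of_forall (h0 n))]
    exact ENNReal.ofReal_le_ofReal hn
  refine (Filter.liminf_le_limsup ?_ ?_).trans (Filter.limsup_le_of_le ?_ h2)
  all_goals isBoundedDefault

end moll

end Vale.Agent.P353.EsaMoll
end

section

/-! # P353, uniqueness for `N = 2`: B10 and Theorem B -/

open MeasureTheory Filter Topology
open scoped ContDiff

namespace Vale.Agent.P353.U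

variable {F : Type*} [NormedAddCommGroup F] [InnerProductSpace ℂ F]

/-! ### the supercharge is linear and preserves test functions -/

section Lin

variable (S : Setup F)

theorem thb_Qm_add (m : ℝ) (β : Fin 16) {u v : X3 → F} (hu : Setup.Tst u) (hv : Setup.Tst v)
    (x : X3) : S.Qm m β (fun y => u y + v y) x = S.Qm m β u x + S.Qm m β v x := by
  have h1 : ∀ i A, pd i A (fun y => u y + v y) x = pd i A u x + pd i A v x := fun i A =>
    pd_add (hu.diff x) (hv.diff x)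
  simp only [Setup.Qm, Setup.Q, h1, map_add, Finset.sum_add_distrib, smul_add]
  abel

theorem thb_Qm_smul (m : ℝ) (β : Fin 16) (a : ℂ) {u : X3 → F} (hu : Setup.Tst u)
    (x : X3) : S.Qm m β (fun y => a • u y) x = a • S.Qm m β u x := by
  have h1 : ∀ i A, pd i A (fun y => a • u y) x = a • pd i A u x := fun i A => by
    have := pd_clm (i := i) (A := A) (a • (1 : F →L[ℂ] F)) (hu.diff x)
    simpa using this
  simp only [Setup.Qm, Setup.Q, h1, map_smul, smul_add, Finset.smul_sum, smul_comm _ a]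

theorem thb_smul_tst (a : ℂ) {u : X3 → F} (hu : Setup.Tst u) : Setup.Tst (fun y => a • u y) := by
  have := Setup.Tst.clm (T := fun _ : X3 => a • (1 : F →L[ℂ] F)) contDiff_const hu
  simpa using this

theorem thb_comb_tst (a : Fin 3 → ℂ) {u : Fin 3 → X3 → F} (hu : ∀ j, Setup.Tst (u j)) :
    Setup.Tst (fun y => ∑ j, a j • u j y) := by
  simp only [Fin.sum_univ_three]
  exact ((thb_smul_tst _ (hu 0)).add (thb_smul_tst _ (hu 1))).add (thb_smul_tst _ (hu 2))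

theorem thb_Qm_comb (m : ℝ) (β : Fin 16) (a : Fin 3 → ℂ) {u : Fin 3 → X3 → F}
    (hu : ∀ j, Setup.Tst (u j)) (x : X3) :
    S.Qm m β (fun y => ∑ j, a j • u j y) x = ∑ j, a j • S.Qm m β (u j) x := by
  have h0 := thb_smul_tst (a 0) (hu 0)
  have h1 := thb_smul_tst (a 1) (hu 1)
  have h2 := thb_smul_tst (a 2) (hu 2)
  have e1 := thb_Qm_add S m β (h0.add h1) h2 x
  have e2 := thb_Qm_add S m β h0 h1 x
  simp only [Fin.sum_univ_three]
  rw [e1, e2, thb_Qm_smul S m β _ (hu 0), thb_Qm_smul S m β _ (hu 1), thb_Qm_smul S m β _ (hu 2)]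

theorem thb_contDiff_MM (β : Fin 16) : ContDiff ℝ ∞ (S.MM β) := by
  unfold Setup.MM
  refine ContDiff.sum fun i _ => ContDiff.sum fun A _ => ?_
  exact (Setup.contDiff_ofReal (contDiff_const.mul (Setup.contDiff_coord _))).smul contDiff_const

theorem thb_Qm_tst (m : ℝ) (β : Fin 16) {u : X3 → F} (hu : Setup.Tst u) :
    Setup.Tst (S.Qm m β u) := by
  have h1 : Setup.Tst (fun x => ((m : ℂ) • S.MM β x) (u x)) :=
    Setup.Tst.clm ((thb_contDiff_MM S β).const_smul (m : ℂ)) hu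
  have h2 := (hu.Q S β).add h1
  exact h2

theorem thb_MM_bound (β : Fin 16) : ∃ C : ℝ, 0 ≤ C ∧ ∀ x v, ‖S.MM β x v‖ ≤ C * (‖x‖ * ‖v‖) := by
  refine ⟨∑ i, ∑ A, 2 * ‖S.vec (S.g i * S.Gam) A β‖, by positivity, fun x v => ?_⟩
  have haw : ∀ i, |aw i| ≤ 2 := by
    intro i
    unfold aw
    split <;> norm_num
  have h1 : ∀ i A, ‖((aw i * x (i, A) : ℝ) : ℂ) • (S.vec (S.g i * S.Gam) A β v)‖ ≤
      2 * ‖S.vec (S.g i * S.Gam) A β‖ * (‖x‖ * ‖v‖) := by
    intro i A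
    rw [norm_smul, Complex.norm_real, Real.norm_eq_abs, abs_mul]
    have h2 : |x (i, A)| ≤ ‖x‖ := by
      have := PiLp.norm_apply_le x (i, A)
      rwa [Real.norm_eq_abs] at this
    calc |aw i| * |x (i, A)| * ‖S.vec (S.g i * S.Gam) A β v‖ ≤
        2 * ‖x‖ * (‖S.vec (S.g i * S.Gam) A β‖ * ‖v‖) := by
          gcongr
          · exact haw i
          · exact ContinuousLinearMap.le_opNorm _ _
      _ = _ := by ring
  unfold Setup.MM
  simp only [_root_.sum_apply, _root_.smul_apply]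
  refine (norm_sum_le _ _).trans ?_
  rw [Finset.sum_mul]
  refine Finset.sum_le_sum fun i _ => ?_
  refine (norm_sum_le _ _).trans ?_
  rw [Finset.sum_mul]
  exact Finset.sum_le_sum fun A _ => h1 i A

theorem thb_MM_nsq : ∃ C : ℝ, 0 ≤ C ∧ ∀ u : X3 → F, Setup.Tst u →
    ∑ β, nsq (fun x => S.MM β x (u x)) ≤ C * ∫ x, ‖x‖ ^ 2 * ‖u x‖ ^ 2 := by
  choose C hC hC' using fun β => thb_MM_bound S β
  refine ⟨∑ β, C β ^ 2, by positivity, fun u hu => ?_⟩
  rw [Finset.sum_mul]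
  refine Finset.sum_le_sum fun β _ => ?_
  rw [nsq, ← integral_const_mul]
  refine integral_mono_of_nonneg (Filter.Eventually.of_forall fun x => by positivity)
    ((hu.mul_norm_sq_int (continuous_norm.pow 2)).const_mul _)
    (Filter.Eventually.of_forall fun x => ?_)
  have := pow_le_pow_left₀ (norm_nonneg _) (hC' β x (u x)) 2
  simp only
  calc ‖S.MM β x (u x)‖ ^ 2 ≤ (C β * (‖x‖ * ‖u x‖)) ^ 2 := this
    _ = _ := by ring

theorem thb_Qm_shift (μ ν : ℝ) (β : Fin 16) (u : X3 → F) (x : X3) :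
    S.Qm ν β u x = S.Qm μ β u x + ((ν - μ : ℝ) : ℂ) • S.MM β x (u x) := by
  unfold Setup.Qm
  push_cast
  module

theorem thb_nsq_smul (a : ℂ) (f : X3 → F) : nsq (fun x => a • f x) = ‖a‖ ^ 2 * nsq f := by
  rw [nsq, nsq, ← integral_const_mul]
  refine integral_congr_ae (Filter.Eventually.of_forall fun x => ?_)
  simp only [norm_smul, mul_pow]

theorem thb_Qm_nsq_shift {C : ℝ} (hC : ∀ u : X3 → F, Setup.Tst u →
    ∑ β, nsq (fun x => S.MM β x (u x)) ≤ C * ∫ x, ‖x‖ ^ 2 * ‖u x‖ ^ 2) (μ ν : ℝ) {u : X3 → F}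
    (hu : Setup.Tst u) : ∑ β, nsq (S.Qm ν β u) ≤ 2 * ∑ β, nsq (S.Qm μ β u) +
      2 * (ν - μ) ^ 2 * (C * ∫ x, ‖x‖ ^ 2 * ‖u x‖ ^ 2) := by
  have h1 : ∀ β, nsq (S.Qm ν β u) ≤ 2 * nsq (S.Qm μ β u) +
      2 * ((ν - μ) ^ 2 * nsq (fun x => S.MM β x (u x))) := by
    intro β
    have hM : Setup.Tst (fun x => S.MM β x (u x)) := hu.clm (thb_contDiff_MM S β)
    have h2 := nsq_add_le (thb_Qm_tst S μ β hu).memLp
      (thb_smul_tst ((ν - μ : ℝ) : ℂ) hM).memLp
    rw [thb_nsq_smul, Complex.norm_real, Real.norm_eq_abs, sq_abs] at h2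
    have h3 : S.Qm ν β u = fun x => S.Qm μ β u x + ((ν - μ : ℝ) : ℂ) • S.MM β x (u x) :=
      funext fun x => thb_Qm_shift S μ ν β u x
    rw [h3]
    exact h2
  calc ∑ β, nsq (S.Qm ν β u) ≤ ∑ β, (2 * nsq (S.Qm μ β u) +
      2 * ((ν - μ) ^ 2 * nsq (fun x => S.MM β x (u x)))) := Finset.sum_le_sum fun β _ => h1 β
    _ = 2 * ∑ β, nsq (S.Qm μ β u) +
      2 * (ν - μ) ^ 2 * ∑ β, nsq (fun x => S.MM β x (u x)) := by
        rw [Finset.sum_add_distrib, ← Finset.mul_sum, ← Finset.mul_sum, ← Finset.mul_sum]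
        ring
    _ ≤ _ := by
        gcongr
        exact hC u hu

end Lin

/-! ### `L²` norms of linear combinations -/

theorem thb_nsq_comb (f : Fin 3 → X3 → F) (hf : ∀ j, MemLp (f j) 2 (volume : Measure X3))
    (a : Fin 3 → ℂ) : nsq (fun x => ∑ j, a j • f j x) = ‖∑ j, a j • (hf j).toLp (f j)‖ ^ 2 := by
  have hm : MemLp (fun x => ∑ j, a j • f j x) 2 (volume : Measure X3) := by
    simp only [Fin.sum_univ_three]
    exact (((hf 0).const_smul (a 0)).add ((hf 1).const_smul (a 1))).add ((hf 2).const_smul (a 2))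
  have h1 : ‖hm.toLp _‖ ^ 2 = nsq (fun x => ∑ j, a j • f j x) := by
    rw [norm_toLp, Real.sq_sqrt (nsq_nonneg _)]
  have h2 : hm.toLp _ = ∑ j, a j • (hf j).toLp (f j) := by
    rw [Fin.sum_univ_three, ← MemLp.toLp_const_smul, ← MemLp.toLp_const_smul,
      ← MemLp.toLp_const_smul, ← MemLp.toLp_add, ← MemLp.toLp_add]
    apply MemLp.toLp_congr
    refine Filter.Eventually.of_forall fun x => ?_
    simp [Fin.sum_univ_three]
  rw [← h1, h2]

theorem thb_norm_comb_le {H : Type*} [NormedAddCommGroup H] [NormedSpace ℂ H] (a : Fin 3 → ℂ)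
    (g : Fin 3 → H) {η : ℝ} (hg : ∀ j, ‖g j‖ ≤ η) : ‖∑ j, a j • g j‖ ≤ 3 * (‖a‖ * η) := by
  have h1 : ∀ j, ‖a j • g j‖ ≤ ‖a‖ * η := by
    intro j
    rw [norm_smul]
    exact mul_le_mul (norm_le_pi_norm a j) (hg j) (norm_nonneg _) (norm_nonneg _)
  refine (norm_sum_le _ _).trans ?_
  calc ∑ j, ‖a j • g j‖ ≤ ∑ _j : Fin 3, ‖a‖ * η := Finset.sum_le_sum fun j _ => h1 j
    _ = 3 * (‖a‖ * η) := by simp

/-- a linearly independent family is bounded below -/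
theorem thb_lower {H : Type*} [NormedAddCommGroup H] [NormedSpace ℂ H] (g : Fin 3 → H)
    (hg : ∀ a : Fin 3 → ℂ, a ≠ 0 → ∑ j, a j • g j ≠ 0) :
    ∃ K : ℝ, 0 < K ∧ ∀ a : Fin 3 → ℂ, ‖a‖ ≤ K * ‖∑ j, a j • g j‖ := by
  set T : (Fin 3 → ℂ) →ₗ[ℂ] H := Fintype.linearCombination ℂ g with hT
  have hTa : ∀ a, T a = ∑ j, a j • g j := fun a => Fintype.linearCombination_apply ℂ g a
  have hker : LinearMap.ker T = ⊥ := by
    rw [LinearMap.ker_eq_bot']
    intro a ha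
    by_contra h0
    exact hg a h0 (by rw [← hTa, ha])
  obtain ⟨K, hK, hK'⟩ := T.exists_antilipschitzWith hker
  refine ⟨K, by exact_mod_cast hK, fun a => ?_⟩
  have h1 := hK'.le_mul_dist a 0
  rw [map_zero, dist_zero_right, dist_zero_right, hTa] at h1
  exact h1

/-! ### second moments -/

theorem thb_second {u : ℕ → X3 → F} {Ψ : X3 → F} (h : L2t u Ψ) (hu : ∀ n, Setup.Tst (u n)) {K : ℝ}
    (hK : ∀ n, ∫ x, ‖x‖ ^ 2 * ‖u n x‖ ^ 2 ≤ K) : Integrable (fun x => ‖x‖ ^ 2 * ‖Ψ x‖ ^ 2) := by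
  have hmeas : AEStronglyMeasurable (fun x => ‖x‖ ^ 2 * ‖Ψ x‖ ^ 2) (volume : Measure X3) :=
    (continuous_norm.pow 2).aestronglyMeasurable.mul (h.mem'.1.norm.pow 2)
  have key : ∀ R : ℝ, 0 ≤ R → nsq (fun x => ((min ‖x‖ R : ℝ) : ℂ) • Ψ x) ≤ K := by
    intro R hR
    have hA : Continuous (fun x : X3 => ((min ‖x‖ R : ℝ) : ℂ) • (1 : F →L[ℂ] F)) :=
      (Complex.continuous_ofReal.comp (continuous_norm.min continuous_const)).smul
        continuous_const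
    have hAb : ∀ x : X3, ‖((min ‖x‖ R : ℝ) : ℂ) • (1 : F →L[ℂ] F)‖ ≤ R := by
      intro x
      rw [norm_smul, Complex.norm_real, Real.norm_eq_abs,
        abs_of_nonneg (le_min (norm_nonneg _) hR)]
      calc min ‖x‖ R * ‖(1 : F →L[ℂ] F)‖ ≤ R * 1 := by
            gcongr
            · exact min_le_right _ _
            · exact ContinuousLinearMap.norm_id_le
        _ = R := mul_one R
    have h1 := (h.op hA hAb).lim_nsq
    have h2 : Tendsto (fun n => nsq (fun x => ((min ‖x‖ R : ℝ) : ℂ) • u n x)) atTop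
        (𝓝 (nsq (fun x => ((min ‖x‖ R : ℝ) : ℂ) • Ψ x))) := by
      simpa using h1
    refine le_of_tendsto' h2 ?_
    · intro n
      refine le_trans ?_ (hK n)
      rw [nsq]
      refine integral_mono_of_nonneg (Filter.Eventually.of_forall fun x => by positivity)
        ((hu n).mul_norm_sq_int (continuous_norm.pow 2))
        (Filter.Eventually.of_forall fun x => ?_)
      simp only [norm_smul, Complex.norm_real, Real.norm_eq_abs, mul_pow, sq_abs]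
      gcongr
      exact min_le_left _ _
  refine ⟨hmeas, ?_⟩
  have hlim : Tendsto (fun n : ℕ => ∫⁻ x : X3, ENNReal.ofReal ((min ‖x‖ n) ^ 2 * ‖Ψ x‖ ^ 2)) atTop
      (𝓝 (∫⁻ x : X3, ENNReal.ofReal (‖x‖ ^ 2 * ‖Ψ x‖ ^ 2))) := by
    refine lintegral_tendsto_of_tendsto_of_monotone ?_ ?_ ?_
    · intro n
      have : AEStronglyMeasurable (fun x : X3 => (min ‖x‖ (n : ℝ)) ^ 2 * ‖Ψ x‖ ^ 2)
          (volume : Measure X3) :=
        ((continuous_norm.min continuous_const).pow 2).aestronglyMeasurable.mul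
          (h.mem'.1.norm.pow 2)
      exact this.aemeasurable.ennreal_ofReal
    · refine Filter.Eventually.of_forall fun x => ?_
      intro a b hab
      simp only
      gcongr
    · refine Filter.Eventually.of_forall fun x => ?_
      refine tendsto_const_nhds.congr' ?_
      obtain ⟨N, hN⟩ := exists_nat_ge ‖x‖
      filter_upwards [eventually_ge_atTop N] with n hn
      have : ‖x‖ ≤ n := hN.trans (by exact_mod_cast hn)
      rw [min_eq_left this]
  have hle : ∀ n : ℕ, ∫⁻ x : X3, ENNReal.ofReal ((min ‖x‖ n) ^ 2 * ‖Ψ x‖ ^ 2) ≤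
      ENNReal.ofReal K := by
    intro n
    have h1 := key n (Nat.cast_nonneg n)
    have hAm : MemLp (fun x => ((min ‖x‖ (n : ℝ) : ℝ) : ℂ) • Ψ x) 2 (volume : Measure X3) := by
      have hA : Continuous (fun x : X3 => ((min ‖x‖ (n : ℝ) : ℝ) : ℂ) • (1 : F →L[ℂ] F)) :=
        (Complex.continuous_ofReal.comp (continuous_norm.min continuous_const)).smul
          continuous_const
      have hAb : ∀ x : X3, ‖((min ‖x‖ (n : ℝ) : ℝ) : ℂ) • (1 : F →L[ℂ] F)‖ ≤ n := by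
        intro x
        rw [norm_smul, Complex.norm_real, Real.norm_eq_abs,
          abs_of_nonneg (le_min (norm_nonneg _) (Nat.cast_nonneg n))]
        calc min ‖x‖ (n : ℝ) * ‖(1 : F →L[ℂ] F)‖ ≤ n * 1 := by
              gcongr
              · exact min_le_right _ _
              · exact ContinuousLinearMap.norm_id_le
          _ = n := mul_one _
      have := memLp_op hA hAb h.mem'
      simpa using this
    have h2 := memLp_norm_sq_int hAm
    have h3 : ∀ x : X3, ‖((min ‖x‖ (n : ℝ) : ℝ) : ℂ) • Ψ x‖ ^ 2 =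
        (min ‖x‖ n) ^ 2 * ‖Ψ x‖ ^ 2 := by
      intro x
      rw [norm_smul, Complex.norm_real, Real.norm_eq_abs, mul_pow, sq_abs]
    simp only [h3] at h2
    rw [← ofReal_integral_eq_lintegral_ofReal h2 (Filter.Eventually.of_forall fun x => by
      positivity)]
    apply ENNReal.ofReal_le_ofReal
    refine le_trans (le_of_eq ?_) h1
    rw [nsq]
    exact integral_congr_ae (Filter.Eventually.of_forall fun x => (h3 x).symm)
  have hfin : ∫⁻ x : X3, ENNReal.ofReal (‖x‖ ^ 2 * ‖Ψ x‖ ^ 2) ≤ ENNReal.ofReal K :=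
    le_of_tendsto' hlim hle
  rw [hasFiniteIntegral_iff_ofReal (Filter.Eventually.of_forall fun x => by positivity)]
  exact hfin.trans_lt ENNReal.ofReal_lt_top

/-! ### B10 -/

section B10

variable (S : Setup F)

/-- zero modes are approximated by invariant test functions -/
theorem thb_approx (h0 : CoerStmt S) (h6 : WEStmt S) (h8 : InvLemStmt S) {m : ℝ} (hm : 0 < m)
    {Ψ : X3 → F} (hΨ : S.Em m Ψ) {ε : ℝ} (hε : 0 < ε) :
    ∃ u, S.Inv u ∧ nsq (fun x => u x - Ψ x) ≤ ε ∧ ∀ β, nsq (S.Qm m β u) ≤ ε := by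
  obtain ⟨hmem, hG, hJ, hQ⟩ := hΨ
  -- weak eigenfunction with eigenvalue `0`
  have hE : S.wE m 0 Ψ := by
    intro ζ hζ
    have h1 : ∀ β, ∫ x, inner ℂ (S.Qm m β (S.Qm m β ζ) x) (Ψ x) = 0 := by
      intro β
      rw [hQ β _ (thb_Qm_tst S m β hζ)]
      simp
    simp only [sum_inner]
    rw [integral_finsetSum]
    · simp [h1]
    · intro β _
      exact integrable_inner_memLp (thb_Qm_tst S m β (thb_Qm_tst S m β hζ)).memLp hmem
  obtain ⟨Φ, hStr, -, hΦ⟩ := h6 m 0 hm Ψ hmem hE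
  rw [zero_mul] at hΦ
  obtain ⟨u, hu, huΨ, huQ⟩ := hStr
  -- second moments
  obtain ⟨c, C, hc, hC, hco⟩ := h0 m m hm
  have hbd : ∃ B, ∀ n, C * nsq (u n) + ∑ β, nsq (S.Qm m β (u n)) ≤ B := by
    have h1 : Tendsto (fun n => C * nsq (u n) + ∑ β, nsq (S.Qm m β (u n))) atTop
        (𝓝 (C * nsq Ψ + ∑ β, nsq (Φ β))) :=
      (huΨ.lim_nsq.const_mul C).add (tendsto_finsetSum _ fun β _ => (huQ β).lim_nsq)
    obtain ⟨B, hB⟩ := h1.bddAbove_range
    exact ⟨B, fun n => hB ⟨n, rfl⟩⟩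
  obtain ⟨B, hB⟩ := hbd
  have hsec : Integrable (fun x => ‖x‖ ^ 2 * ‖Ψ x‖ ^ 2) := by
    refine thb_second huΨ hu (K := B / c) fun n => ?_
    have h1 := hco m le_rfl le_rfl (u n) (hu n)
    have h2 : 0 ≤ ∑ i, ∑ A, nsq (pd i A (u n)) :=
      Finset.sum_nonneg fun i _ => Finset.sum_nonneg fun A _ => nsq_nonneg _
    rw [le_div_iff₀ hc]
    have h3 := hB n
    have h4 : 0 ≤ c * ∑ i, ∑ A, nsq (pd i A (u n)) := mul_nonneg hc.le h2
    rw [mul_add] at h1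
    linarith
  set M2 : ℝ := ∫ x, ‖x‖ ^ 2 * ‖Ψ x‖ ^ 2 with hM2
  have hM20 : 0 ≤ M2 := integral_nonneg fun x => by positivity
  obtain ⟨C', hC'⟩ := h8 m Ψ (fun _ _ => 0) hmem (fun _ => MemLp.zero) hQ hsec
  set R : ℝ := max 1 (32 * |C'| * M2 / ε) with hR
  have hR1 : 1 ≤ R := le_max_left _ _
  have hR2 : 32 * |C'| * M2 ≤ ε * R := by
    have := le_max_right 1 (32 * |C'| * M2 / ε)
    rw [← hR, div_le_iff₀ hε] at this
    linarith
  have hR0 : 0 < R := by linarith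
  have hR3 : R ≤ R ^ 2 := by nlinarith
  -- the tail
  have htail0 : 0 ≤ ∫ x, (if R / 4 ≤ ‖x‖ then ‖Ψ x‖ ^ 2 else 0) := integral_nonneg fun x => by
    simp only [Pi.zero_apply]; split <;> positivity
  have htail : (∫ x, (if R / 4 ≤ ‖x‖ then ‖Ψ x‖ ^ 2 else 0)) ≤ 16 / R ^ 2 * M2 := by
    rw [hM2, ← integral_const_mul]
    refine integral_mono_of_nonneg (Filter.Eventually.of_forall fun x => by
      simp only [Pi.zero_apply]; split <;> positivity) (hsec.const_mul _)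
      (Filter.Eventually.of_forall fun x => ?_)
    simp only
    split
    · rename_i hx
      have h1 : R ^ 2 ≤ 16 * ‖x‖ ^ 2 := by nlinarith
      calc ‖Ψ x‖ ^ 2 = 1 * ‖Ψ x‖ ^ 2 := (one_mul _).symm
        _ ≤ (16 / R ^ 2 * ‖x‖ ^ 2) * ‖Ψ x‖ ^ 2 := by
            gcongr
            rw [div_mul_eq_mul_div, le_div_iff₀ (by positivity), one_mul]
            exact h1
        _ = _ := by ring
    · positivity
  have htail2 : |C'| * (∫ x, (if R / 4 ≤ ‖x‖ then ‖Ψ x‖ ^ 2 else 0)) ≤ ε / 2 := by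
    calc |C'| * (∫ x, (if R / 4 ≤ ‖x‖ then ‖Ψ x‖ ^ 2 else 0)) ≤
        |C'| * (16 / R ^ 2 * M2) := by gcongr
      _ = (16 * |C'| * M2) / R ^ 2 := by ring
      _ ≤ ε / 2 := by
          rw [div_le_iff₀ (by positivity)]
          nlinarith [mul_le_mul_of_nonneg_left hR3 hε.le]
  obtain ⟨v, hv, -, hvG, hvJ, hv1, hv2⟩ := hC' R hR1 (ε / 2) (by linarith)
  refine ⟨v, ⟨hv, hvG hG, hvJ hJ⟩, ?_, fun β => ?_⟩
  · have h1 := mul_le_mul_of_nonneg_right (le_abs_self C') htail0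
    linarith
  · have h1 := hv2 β
    have h2 : (∫ x : X3, (if R / 4 ≤ ‖x‖ then ‖((0 : F))‖ ^ 2 else 0)) = 0 := by
      simp
    rw [h2, mul_zero, add_zero] at h1
    simp only [sub_zero] at h1
    have h3 : C' / R ^ 2 * (∫ x, (if R / 4 ≤ ‖x‖ then ‖Ψ x‖ ^ 2 else 0)) ≤
        |C'| * (∫ x, (if R / 4 ≤ ‖x‖ then ‖Ψ x‖ ^ 2 else 0)) := by
      refine mul_le_mul_of_nonneg_right ?_ htail0
      refine (div_le_div_of_nonneg_right (le_abs_self C') (by positivity)).trans ?_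
      exact div_le_self (abs_nonneg _) (one_le_pow₀ hR1)
    linarith

theorem dimLow (h0 : CoerStmt S) (h6 : WEStmt S) (h8 : InvLemStmt S) : DimLowStmt S := by
  intro m hm hD c hc
  obtain ⟨Ψ, hΨ, hind⟩ := hD
  obtain ⟨K, hK, hlow⟩ := thb_lower (fun j => (hΨ j).1.toLp (Ψ j)) (by
    intro a ha h
    have h1 := hind a ha
    rw [thb_nsq_comb Ψ (fun j => (hΨ j).1) a, h] at h1
    simp at h1)
  -- choice of the accuracy
  obtain ⟨η, hη, hη1, hη2⟩ : ∃ η : ℝ, 0 < η ∧ 3 * η ≤ 1 / (2 * K) ∧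
      144 * η ^ 2 < c * (1 / (2 * K)) ^ 2 := by
    have hk : 0 < 1 / (2 * K) := by positivity
    refine ⟨min 1 c * (1 / (2 * K)) / 13, by positivity, ?_, ?_⟩
    · have : min 1 c ≤ 1 := min_le_left _ _
      have h2 := mul_le_mul_of_nonneg_right this hk.le
      linarith
    · have h1 : min 1 c ≤ 1 := min_le_left _ _
      have h2 : min 1 c ≤ c := min_le_right _ _
      have h3 : 0 < min 1 c := lt_min one_pos hc
      have h4 : (min 1 c) ^ 2 ≤ c := by nlinarith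
      have h5 : 0 < (1 / (2 * K)) ^ 2 := by positivity
      have h6 := mul_le_mul_of_nonneg_right h4 h5.le
      have h7 : 0 < c * (1 / (2 * K)) ^ 2 := by positivity
      calc 144 * (min 1 c * (1 / (2 * K)) / 13) ^ 2 =
          144 / 169 * ((min 1 c) ^ 2 * (1 / (2 * K)) ^ 2) := by ring
        _ < _ := by linarith
  choose u hu hu1 hu2 using fun j => thb_approx S h0 h6 h8 hm (hΨ j) (ε := η ^ 2) (by positivity)
  have hut : ∀ j, Setup.Tst (u j) := fun j => (hu j).1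
  refine ⟨u, hu, fun a ha => ?_⟩
  have ha0 : 0 < ‖a‖ := norm_pos_iff.2 ha
  -- lower bound
  have hdiff : ∀ j, ‖(hut j).memLp.toLp (u j) - (hΨ j).1.toLp (Ψ j)‖ ≤ η := by
    intro j
    rw [← MemLp.toLp_sub, norm_toLp]
    refine Real.sqrt_le_iff.2 ⟨hη.le, ?_⟩
    exact hu1 j
  have hL : ‖a‖ * (1 / (2 * K)) ≤ ‖∑ j, a j • (hut j).memLp.toLp (u j)‖ := by
    have h1 := thb_norm_comb_le a
      (fun j => (hut j).memLp.toLp (u j) - (hΨ j).1.toLp (Ψ j)) hdiff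
    have h2 : ∑ j, a j • (hΨ j).1.toLp (Ψ j) = ∑ j, a j • (hut j).memLp.toLp (u j) -
        ∑ j, a j • ((hut j).memLp.toLp (u j) - (hΨ j).1.toLp (Ψ j)) := by
      rw [← Finset.sum_sub_distrib]
      refine Finset.sum_congr rfl fun j _ => ?_
      rw [smul_sub]
      abel
    have h3 := hlow a
    have h4 : ‖∑ j, a j • (hΨ j).1.toLp (Ψ j)‖ ≤ ‖∑ j, a j • (hut j).memLp.toLp (u j)‖ +
        3 * (‖a‖ * η) := by
      rw [h2]
      exact (norm_sub_le _ _).trans (by linarith)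
    have h5 : ‖a‖ / K ≤ ‖∑ j, a j • (hΨ j).1.toLp (Ψ j)‖ := by
      rw [div_le_iff₀ hK]
      linarith
    have h6 : ‖a‖ / K = ‖a‖ * (1 / (2 * K)) + ‖a‖ * (1 / (2 * K)) := by
      field_simp
      norm_num
    have h7 := mul_le_mul_of_nonneg_left hη1 ha0.le
    linarith
  -- upper bound
  have hU : ∀ β, nsq (S.Qm m β (fun x => ∑ j, a j • u j x)) ≤ (3 * (‖a‖ * η)) ^ 2 := by
    intro β
    have h1 : S.Qm m β (fun x => ∑ j, a j • u j x) = fun x => ∑ j, a j • S.Qm m β (u j) x :=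
      funext fun x => thb_Qm_comb S m β a hut x
    have hq : ∀ j, MemLp (S.Qm m β (u j)) 2 (volume : Measure X3) := fun j =>
      (thb_Qm_tst S m β (hut j)).memLp
    rw [h1, thb_nsq_comb _ hq a]
    refine pow_le_pow_left₀ (norm_nonneg _) ?_ 2
    refine thb_norm_comb_le a _ fun j => ?_
    rw [norm_toLp]
    exact Real.sqrt_le_iff.2 ⟨hη.le, hu2 j β⟩
  calc ∑ β, nsq (S.Qm m β (fun x => ∑ j, a j • u j x)) ≤
      ∑ _β : Fin 16, (3 * (‖a‖ * η)) ^ 2 := Finset.sum_le_sum fun β _ => hU β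
    _ = ‖a‖ ^ 2 * (144 * η ^ 2) := by
        simp only [Finset.sum_const, Finset.card_univ, Fintype.card_fin, nsmul_eq_mul]
        push_cast
        ring
    _ < ‖a‖ ^ 2 * (c * (1 / (2 * K)) ^ 2) := by gcongr
    _ = c * (‖a‖ * (1 / (2 * K))) ^ 2 := by ring
    _ ≤ c * nsq (fun x => ∑ j, a j • u j x) := by
        rw [thb_nsq_comb u (fun j => (hut j).memLp) a]
        gcongr

end B10

/-! ### Theorem B -/

section TB

variable (S : Setup F)

theorem thb_step (h0 : CoerStmt S) {a b : ℝ} (ha : 0 < a) : ∃ δ : ℝ, 0 < δ ∧ ∀ μ ν : ℝ,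
    a ≤ μ → μ ≤ b → a ≤ ν → ν ≤ b → |ν - μ| ≤ δ → S.Low μ a → S.Low ν (8 * ν) := by
  obtain ⟨c, C, hc, hC, hco⟩ := h0 a b ha
  obtain ⟨C1, hC1, hC1'⟩ := thb_MM_nsq S
  set D : ℝ := C1 / c * (C + a) with hD
  have hD0 : 0 ≤ D := by positivity
  refine ⟨√(3 * a / (D + 1)), Real.sqrt_pos.2 (by positivity), ?_⟩
  intro μ ν hμa hμb hνa hνb hδ hlow
  obtain ⟨u, hu, hlow⟩ := hlow
  refine ⟨u, hu, fun x hx => ?_⟩
  have h1 := hlow x hx
  set v : X3 → F := fun y => ∑ j, x j • u j y with hv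
  have hvt : Setup.Tst v := thb_comb_tst x fun j => (hu j).1
  set A : ℝ := ∑ β, nsq (S.Qm μ β v) with hA
  have hA0 : 0 ≤ A := Finset.sum_nonneg fun β _ => nsq_nonneg _
  set s : ℝ := ∫ y, ‖y‖ ^ 2 * ‖v y‖ ^ 2 with hs
  have hs0 : 0 ≤ s := integral_nonneg fun y => by positivity
  have hN : 0 < nsq v := by
    by_contra h
    have h2 : nsq v = 0 := le_antisymm (not_lt.1 h) (nsq_nonneg _)
    rw [h2, mul_zero] at h1
    linarith
  have h2 := hco μ hμa hμb v hvt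
  have h3 : 0 ≤ ∑ i, ∑ A, nsq (pd i A v) :=
    Finset.sum_nonneg fun i _ => Finset.sum_nonneg fun A _ => nsq_nonneg _
  have h4 : c * s ≤ (C + a) * nsq v := by
    rw [mul_add] at h2
    have := mul_nonneg hc.le h3
    linarith
  have h5 := thb_Qm_nsq_shift S hC1' μ ν hvt
  have h6 : C1 * s ≤ D * nsq v := by
    have h7 : s ≤ (C + a) * nsq v / c := by
      rw [le_div_iff₀ hc]
      linarith
    calc C1 * s ≤ C1 * ((C + a) * nsq v / c) := by gcongr
      _ = D * nsq v := by rw [hD]; ring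
  have h7 : (ν - μ) ^ 2 ≤ 3 * a / (D + 1) := by
    rw [← sq_abs]
    calc |ν - μ| ^ 2 ≤ (√(3 * a / (D + 1))) ^ 2 := by gcongr
      _ = _ := Real.sq_sqrt (by positivity)
  have h8 : 2 * (ν - μ) ^ 2 * (C1 * s) ≤ 6 * a * nsq v := by
    calc 2 * (ν - μ) ^ 2 * (C1 * s) ≤ 2 * (3 * a / (D + 1)) * (D * nsq v) := by gcongr
      _ = 6 * a * nsq v * (D / (D + 1)) := by ring
      _ ≤ 6 * a * nsq v * 1 := by
          gcongr
          rw [div_le_one (by positivity)]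
          linarith
      _ = _ := mul_one _
  have h9 : 8 * a * nsq v ≤ 8 * ν * nsq v := by gcongr
  linarith

theorem thmB (h9 : LowDimStmt S) (h10 : DimLowStmt S) (h0 : CoerStmt S) : ThmBStmt S := by
  intro m hm hlow m' hm' c hc
  set a : ℝ := min m m' with ha
  set b : ℝ := max m m' with hb
  have ha0 : 0 < a := lt_min hm hm'
  obtain ⟨δ, hδ, hstep⟩ := thb_step S h0 (b := b) ha0
  have hD0 : S.Dim3 m := h9 m hm hlow
  obtain ⟨N, hN⟩ := exists_nat_gt (|m' - m| / δ)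
  have hN0 : 0 < (N : ℝ) := lt_of_le_of_lt (by positivity) hN
  have hstepN : |(m' - m) / N| ≤ δ := by
    rw [abs_div, abs_of_pos hN0, div_le_iff₀ hN0]
    rw [div_lt_iff₀ hδ] at hN
    linarith
  have hpos : ∀ k : ℕ, k ≤ N → a ≤ m + k * ((m' - m) / N) ∧ m + k * ((m' - m) / N) ≤ b := by
    intro k hk
    have hkN : (k : ℝ) / N ≤ 1 := (div_le_one hN0).2 (by exact_mod_cast hk)
    have hk0 : 0 ≤ (k : ℝ) / N := by positivity
    have e : m + k * ((m' - m) / N) = (1 - (k : ℝ) / N) * m + (k : ℝ) / N * m' := by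
      field_simp
      ring
    rw [e]
    have h1 : a ≤ m := min_le_left _ _
    have h2 : a ≤ m' := min_le_right _ _
    have h3 : m ≤ b := le_max_left _ _
    have h4 : m' ≤ b := le_max_right _ _
    have h5 : 0 ≤ 1 - (k : ℝ) / N := by linarith
    constructor
    · nlinarith [mul_le_mul_of_nonneg_left h1 h5, mul_le_mul_of_nonneg_left h2 hk0]
    · nlinarith [mul_le_mul_of_nonneg_left h3 h5, mul_le_mul_of_nonneg_left h4 hk0]
  have hmain : ∀ k : ℕ, k ≤ N → S.Dim3 (m + k * ((m' - m) / N)) := by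
    intro k
    induction k with
    | zero => intro _; simpa using hD0
    | succ k ih =>
      intro hk
      have hk' : k ≤ N := by omega
      obtain ⟨p1, p2⟩ := hpos k hk'
      obtain ⟨q1, q2⟩ := hpos (k + 1) hk
      have hL := h10 _ (lt_of_lt_of_le ha0 p1) (ih hk') a ha0
      refine h9 _ (lt_of_lt_of_le ha0 q1) (hstep _ _ p1 p2 q1 q2 ?_ hL)
      have e : m + ((k + 1 : ℕ) : ℝ) * ((m' - m) / N) - (m + k * ((m' - m) / N)) =
          (m' - m) / N := by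
        push_cast
        ring
      rw [e]
      exact hstepN
  have hfin := hmain N le_rfl
  have e : m + (N : ℝ) * ((m' - m) / N) = m' := by
    field_simp
    ring
  rw [e] at hfin
  exact h10 m' hm' hfin c hc

end TB

end Vale.Agent.P353.U
end

section

/-! # P353, uniqueness for `N = 2`: decomposition near the cone of commuting configurations -/

open MeasureTheory Filter Topology Finset

namespace Vale.Agent.P353

namespace U

/-- Lagrange identity -/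
theorem dec_lagrange (a b : Fin 3 → ℝ) :
    ∑ A, (∑ B, ∑ C, (eps A B C : ℝ) * a B * b C) ^ 2 =
      (∑ A, a A ^ 2) * (∑ A, b A ^ 2) - (∑ A, a A * b A) ^ 2 := by
  have e012 : eps 0 1 2 = 1 := by decide
  have e021 : eps 0 2 1 = -1 := by decide
  have e102 : eps 1 0 2 = -1 := by decide
  have e120 : eps 1 2 0 = 1 := by decide
  have e201 : eps 2 0 1 = 1 := by decide
  have e210 : eps 2 1 0 = -1 := by decide
  have z1 : ∀ A B, eps A A B = 0 := by decide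
  have z2 : ∀ A B, eps A B A = 0 := by decide
  have z3 : ∀ A B, eps B A A = 0 := by decide
  simp only [Fin.sum_univ_three, e012, e021, e102, e120, e201, e210, z1, z2, z3]
  push_cast
  ring

section
variable (X : Fin 9 → Fin 3 → ℝ)

/-- maximiser of the quadratic form on the sphere -/
theorem dec_max : ∃ n : Fin 3 → ℝ, ∑ A, n A ^ 2 = 1 ∧
    ∀ v : Fin 3 → ℝ, ∑ A, v A ^ 2 = 1 →
      ∑ i, (∑ A, X i A * v A) ^ 2 ≤ ∑ i, (∑ A, X i A * n A) ^ 2 := by
  have hK : IsCompact {v : Fin 3 → ℝ | ∑ A, v A ^ 2 = 1} := by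
    refine Metric.isCompact_of_isClosed_isBounded (isClosed_eq (by fun_prop) continuous_const) ?_
    refine (Metric.isBounded_closedBall (x := (0 : Fin 3 → ℝ)) (r := 1)).subset fun v hv => ?_
    rw [mem_closedBall_zero_iff, pi_norm_le_iff_of_nonneg zero_le_one]
    intro A
    have h1 : v A ^ 2 ≤ 1 := by
      rw [← show ∑ A, v A ^ 2 = 1 from hv]
      exact Finset.single_le_sum (f := fun A => v A ^ 2) (fun i _ => sq_nonneg _) (mem_univ A)
    rw [Real.norm_eq_abs]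
    exact abs_le_one_iff_mul_self_le_one.2 (by nlinarith)
  have hne : ({v : Fin 3 → ℝ | ∑ A, v A ^ 2 = 1}).Nonempty := by
    refine ⟨Pi.single 0 1, ?_⟩
    simp [Fin.sum_univ_three]
  obtain ⟨n, hn, hmax⟩ := hK.exists_isMaxOn hne
    (f := fun v : Fin 3 → ℝ => ∑ i, (∑ A, X i A * v A) ^ 2) (by fun_prop)
  exact ⟨n, hn, fun v hv => hmax hv⟩

/-- homogeneous form of maximality -/
theorem dec_max_hom {n : Fin 3 → ℝ} (hmax : ∀ v : Fin 3 → ℝ, ∑ A, v A ^ 2 = 1 →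
      ∑ i, (∑ A, X i A * v A) ^ 2 ≤ ∑ i, (∑ A, X i A * n A) ^ 2) (v : Fin 3 → ℝ) :
    ∑ i, (∑ A, X i A * v A) ^ 2 ≤ (∑ i, (∑ A, X i A * n A) ^ 2) * ∑ A, v A ^ 2 := by
  have hq : 0 ≤ ∑ A, v A ^ 2 := Finset.sum_nonneg fun _ _ => sq_nonneg _
  rcases hq.eq_or_lt with h0 | h0
  · have hv : ∀ A, v A = 0 := by
      intro A
      have := (Finset.sum_eq_zero_iff_of_nonneg fun i _ => sq_nonneg (v i)).1 h0.symm A (mem_univ A)
      exact pow_eq_zero_iff two_ne_zero |>.1 this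
    simp [hv]
  · obtain ⟨s, hs⟩ : ∃ s, s = Real.sqrt (∑ A, v A ^ 2) := ⟨_, rfl⟩
    have hs0 : 0 < s := hs ▸ Real.sqrt_pos.2 h0
    have hs2 : s ^ 2 = ∑ A, v A ^ 2 := by rw [hs, Real.sq_sqrt hq]
    have h1 := hmax (fun A => s⁻¹ * v A) (by
      simp only [mul_pow, ← Finset.mul_sum]
      rw [← hs2, ← mul_pow, inv_mul_cancel₀ hs0.ne', one_pow])
    have h2 : ∑ i, (∑ A, X i A * (s⁻¹ * v A)) ^ 2 = (s⁻¹) ^ 2 * ∑ i, (∑ A, X i A * v A) ^ 2 := by
      rw [Finset.mul_sum]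
      refine Finset.sum_congr rfl fun i _ => ?_
      rw [← mul_pow, Finset.mul_sum]
      congr 1
      exact Finset.sum_congr rfl fun A _ => by ring
    rw [h2] at h1
    rw [← hs2]
    have h3 : (s⁻¹) ^ 2 * s ^ 2 = 1 := by rw [← mul_pow, inv_mul_cancel₀ hs0.ne', one_pow]
    calc ∑ i, (∑ A, X i A * v A) ^ 2 = ((s⁻¹) ^ 2 * ∑ i, (∑ A, X i A * v A) ^ 2) * s ^ 2 := by
          rw [mul_right_comm, h3, one_mul]
      _ ≤ _ := mul_le_mul_of_nonneg_right h1 (sq_nonneg s)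

/-- the maximiser is an eigenvector of the Gram matrix -/
theorem dec_eigen {n : Fin 3 → ℝ} (hn : ∑ A, n A ^ 2 = 1)
    (hmax : ∀ v : Fin 3 → ℝ, ∑ A, v A ^ 2 = 1 →
      ∑ i, (∑ A, X i A * v A) ^ 2 ≤ ∑ i, (∑ A, X i A * n A) ^ 2) (A : Fin 3) :
    ∑ i, (∑ B, X i B * n B) * X i A = (∑ i, (∑ B, X i B * n B) ^ 2) * n A := by
  obtain ⟨y, hy⟩ : ∃ y : Fin 9 → ℝ, y = fun i => ∑ B, X i B * n B := ⟨_, rfl⟩
  obtain ⟨lam, hlam⟩ : ∃ lam, lam = ∑ i, y i ^ 2 := ⟨_, rfl⟩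
  obtain ⟨w, hw⟩ : ∃ w : Fin 3 → ℝ, w = fun A => ∑ i, y i * X i A - lam * n A := ⟨_, rfl⟩
  have hl0 : 0 ≤ lam := hlam ▸ Finset.sum_nonneg fun _ _ => sq_nonneg _
  obtain ⟨t, ht⟩ : ∃ t, t = 1 / (lam + 1) := ⟨_, rfl⟩
  have ht0 : 0 < t := by rw [ht]; positivity
  have htl : t * lam ≤ 1 := by
    rw [ht, one_div, inv_mul_le_iff₀ (by linarith)]
    linarith
  have hmax' : ∀ v : Fin 3 → ℝ, ∑ i, (∑ A, X i A * v A) ^ 2 ≤ lam * ∑ A, v A ^ 2 := by
    intro v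
    have := dec_max_hom X hmax v
    rw [hlam, hy]
    exact this
  have h1 := hmax' (fun A => n A + t * w A)
  obtain ⟨b, hb⟩ : ∃ b : Fin 9 → ℝ, b = fun i => ∑ A, X i A * w A := ⟨_, rfl⟩
  have e1 : ∑ i, (∑ A, X i A * (n A + t * w A)) ^ 2 =
      lam + 2 * t * ∑ i, y i * b i + t ^ 2 * ∑ i, b i ^ 2 := by
    rw [hlam, Finset.mul_sum, Finset.mul_sum, ← Finset.sum_add_distrib, ← Finset.sum_add_distrib]
    refine Finset.sum_congr rfl fun i _ => ?_
    have : ∑ A, X i A * (n A + t * w A) = y i + t * b i := by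
      rw [hy, hb]
      simp only [mul_add, Finset.sum_add_distrib, Finset.mul_sum]
      congr 1
      exact Finset.sum_congr rfl fun A _ => by ring
    rw [this]
    ring
  have e2 : ∑ A, (n A + t * w A) ^ 2 = 1 + 2 * t * ∑ A, n A * w A + t ^ 2 * ∑ A, w A ^ 2 := by
    rw [← hn, Finset.mul_sum, Finset.mul_sum, ← Finset.sum_add_distrib, ← Finset.sum_add_distrib]
    exact Finset.sum_congr rfl fun i _ => by ring
  have e3 : ∑ i, y i * b i - lam * ∑ A, n A * w A = ∑ A, w A ^ 2 := by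
    have h4 : ∑ i, y i * b i = ∑ A, (∑ i, y i * X i A) * w A := by
      rw [hb]
      simp only [Finset.mul_sum, Finset.sum_mul]
      rw [Finset.sum_comm]
      exact Finset.sum_congr rfl fun A _ => Finset.sum_congr rfl fun i _ => by ring
    rw [h4, Finset.mul_sum, ← Finset.sum_sub_distrib]
    refine Finset.sum_congr rfl fun A _ => ?_
    have : w A = ∑ i, y i * X i A - lam * n A := by rw [hw]
    rw [pow_two]
    nth_rewrite 3 [this]
    ring
  rw [e1, e2] at h1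
  have hb0 : 0 ≤ ∑ i, b i ^ 2 := Finset.sum_nonneg fun _ _ => sq_nonneg _
  have hw0 : 0 ≤ ∑ A, w A ^ 2 := Finset.sum_nonneg fun _ _ => sq_nonneg _
  have h5 : 2 * t * (∑ A, w A ^ 2) + t ^ 2 * (∑ i, b i ^ 2) ≤ t ^ 2 * (lam * ∑ A, w A ^ 2) := by
    rw [← e3]
    rw [← e3] at h1
    nlinarith [h1]
  have h6 : t * (2 * ∑ A, w A ^ 2) ≤ t * ((t * lam) * ∑ A, w A ^ 2) := by
    nlinarith [mul_nonneg (sq_nonneg t) hb0]
  have h7 : 2 * ∑ A, w A ^ 2 ≤ (t * lam) * ∑ A, w A ^ 2 := le_of_mul_le_mul_left h6 ht0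
  have h8 : (t * lam) * ∑ A, w A ^ 2 ≤ 1 * ∑ A, w A ^ 2 := mul_le_mul_of_nonneg_right htl hw0
  have h9 : ∑ A, w A ^ 2 = 0 := le_antisymm (by linarith) hw0
  have h10 := (Finset.sum_eq_zero_iff_of_nonneg fun i _ => sq_nonneg (w i)).1 h9 A (mem_univ A)
  have h11 : w A = 0 := pow_eq_zero_iff two_ne_zero |>.1 h10
  have h12 : w A = ∑ i, y i * X i A - lam * n A := by rw [hw]
  rw [h11] at h12
  rw [hlam, hy] at h12
  linarith

/-- Cauchy–Schwarz for the remainders -/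
theorem dec_cs (Z : Fin 9 → Fin 3 → ℝ) : ∑ i, ∑ j, (∑ A, Z i A * Z j A) ^ 2 ≤
    (∑ i, ∑ A, Z i A ^ 2) ^ 2 := by
  rw [pow_two, Finset.sum_mul_sum]
  refine Finset.sum_le_sum fun i _ => Finset.sum_le_sum fun j _ => ?_
  exact Finset.sum_mul_sq_le_sq_mul_sq _ _ _

/-- the algebraic decomposition -/
theorem dec_alg : ∃ (n : Fin 3 → ℝ) (y : Fin 9 → ℝ) (Z : Fin 9 → Fin 3 → ℝ),
    ∑ A, n A ^ 2 = 1 ∧ (∀ i A, X i A = y i * n A + Z i A) ∧ (∀ i, ∑ A, Z i A * n A = 0) ∧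
    (∀ A, ∑ i, y i * Z i A = 0) ∧ ∑ i, ∑ A, X i A ^ 2 ≤ 3 * ∑ i, y i ^ 2 ∧
    2 * (∑ i, y i ^ 2) * (∑ i, ∑ A, Z i A ^ 2) ≤
      ∑ i, ∑ j, ((∑ A, X i A ^ 2) * (∑ A, X j A ^ 2) - (∑ A, X i A * X j A) ^ 2) := by
  obtain ⟨n, hn, hmax⟩ := dec_max X
  obtain ⟨y, hy⟩ : ∃ y : Fin 9 → ℝ, y = fun i => ∑ B, X i B * n B := ⟨_, rfl⟩
  obtain ⟨Z, hZ⟩ : ∃ Z : Fin 9 → Fin 3 → ℝ, Z = fun i A => X i A - y i * n A := ⟨_, rfl⟩
  have hX : ∀ i A, X i A = y i * n A + Z i A := fun i A => by rw [hZ]; ring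
  have hZn : ∀ i, ∑ A, Z i A * n A = 0 := by
    intro i
    have h1 : ∑ A, Z i A * n A = y i - y i * ∑ A, n A ^ 2 := by
      have h2 : y i = ∑ B, X i B * n B := by rw [hy]
      conv_rhs => rw [Finset.mul_sum]; enter [1]; rw [h2]
      rw [← Finset.sum_sub_distrib]
      refine Finset.sum_congr rfl fun A _ => ?_
      rw [hX i A]
      ring
    rw [h1, hn]
    ring
  have hyZ : ∀ A, ∑ i, y i * Z i A = 0 := by
    intro A
    have h1 := dec_eigen X hn hmax A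
    have h2 : ∑ i, y i * Z i A = ∑ i, y i * X i A - (∑ i, y i ^ 2) * n A := by
      rw [Finset.sum_mul, ← Finset.sum_sub_distrib]
      refine Finset.sum_congr rfl fun i _ => ?_
      rw [hX i A]
      ring
    rw [h2, hy]
    linarith
  have hlam : ∑ i, (∑ A, X i A * n A) ^ 2 = ∑ i, y i ^ 2 := by rw [hy]
  refine ⟨n, y, Z, hn, hX, hZn, hyZ, ?_, ?_⟩
  · have h1 : ∀ A : Fin 3, ∑ i, X i A ^ 2 ≤ ∑ i, y i ^ 2 := by
      intro A
      have h2 := hmax (Pi.single A 1) (by simp [Pi.single_apply])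
      rw [hlam] at h2
      simpa [Pi.single_apply] using h2
    rw [Finset.sum_comm]
    have h3 := Finset.sum_le_sum fun (A : Fin 3) (_ : A ∈ univ) => h1 A
    refine h3.trans (le_of_eq ?_)
    simp
  · have e1 : ∀ i, ∑ A, X i A ^ 2 = y i ^ 2 + ∑ A, Z i A ^ 2 := by
      intro i
      have h1 : ∑ A, X i A ^ 2 = y i ^ 2 * ∑ A, n A ^ 2 + 2 * y i * ∑ A, Z i A * n A +
          ∑ A, Z i A ^ 2 := by
        rw [Finset.mul_sum, Finset.mul_sum, ← Finset.sum_add_distrib, ← Finset.sum_add_distrib]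
        exact Finset.sum_congr rfl fun A _ => by rw [hX i A]; ring
      rw [h1, hn, hZn]
      ring
    have e2 : ∀ i j, ∑ A, X i A * X j A = y i * y j + ∑ A, Z i A * Z j A := by
      intro i j
      have h1 : ∑ A, X i A * X j A = y i * y j * ∑ A, n A ^ 2 + y i * ∑ A, Z j A * n A +
          y j * ∑ A, Z i A * n A + ∑ A, Z i A * Z j A := by
        rw [Finset.mul_sum, Finset.mul_sum, Finset.mul_sum, ← Finset.sum_add_distrib,
          ← Finset.sum_add_distrib, ← Finset.sum_add_distrib]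
        exact Finset.sum_congr rfl fun A _ => by rw [hX i A, hX j A]; ring
      rw [h1, hn, hZn, hZn]
      ring
    have e3 : ∑ i, ∑ j, y i * y j * ∑ A, Z i A * Z j A = 0 := by
      have h1 : ∑ i, ∑ j, y i * y j * ∑ A, Z i A * Z j A =
          ∑ A, (∑ i, y i * Z i A) * (∑ j, y j * Z j A) := by
        calc ∑ i, ∑ j, y i * y j * ∑ A, Z i A * Z j A
            = ∑ i, ∑ j, ∑ A, (y i * Z i A) * (y j * Z j A) := by
              refine Finset.sum_congr rfl fun i _ => Finset.sum_congr rfl fun j _ => ?_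
              rw [Finset.mul_sum]
              exact Finset.sum_congr rfl fun A _ => by ring
          _ = ∑ i, ∑ A, ∑ j, (y i * Z i A) * (y j * Z j A) :=
              Finset.sum_congr rfl fun i _ => Finset.sum_comm
          _ = ∑ A, ∑ i, ∑ j, (y i * Z i A) * (y j * Z j A) := Finset.sum_comm
          _ = ∑ A, (∑ i, y i * Z i A) * (∑ j, y j * Z j A) :=
              Finset.sum_congr rfl fun A _ => (Finset.sum_mul_sum _ _ _ _).symm
      rw [h1]
      simp [hyZ]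
    have e4 : ∑ i, ∑ j, ((∑ A, X i A ^ 2) * (∑ A, X j A ^ 2) - (∑ A, X i A * X j A) ^ 2) =
        2 * (∑ i, y i ^ 2) * (∑ i, ∑ A, Z i A ^ 2) + ((∑ i, ∑ A, Z i A ^ 2) ^ 2 -
          ∑ i, ∑ j, (∑ A, Z i A * Z j A) ^ 2) := by
      have h1 : ∀ i j, (∑ A, X i A ^ 2) * (∑ A, X j A ^ 2) - (∑ A, X i A * X j A) ^ 2 =
          y i ^ 2 * (∑ A, Z j A ^ 2) + (∑ A, Z i A ^ 2) * y j ^ 2 +
            (∑ A, Z i A ^ 2) * (∑ A, Z j A ^ 2) - 2 * (y i * y j * ∑ A, Z i A * Z j A) -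
            (∑ A, Z i A * Z j A) ^ 2 := by
        intro i j
        rw [e1, e1, e2]
        ring
      simp only [h1, Finset.sum_sub_distrib, Finset.sum_add_distrib, ← Finset.mul_sum,
        ← Finset.sum_mul, e3]
      ring
    rw [e4]
    have := dec_cs Z
    linarith

end

theorem dec {F : Type*} [NormedAddCommGroup F] [InnerProductSpace ℂ F] (S : Setup F) :
    DecStmt S := by
  intro x hx
  obtain ⟨n, y, Z, hn, hX, hZn, hyZ, h1, h2⟩ := dec_alg fun i A => x (i, A)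
  have hxn : ‖x‖ ^ 2 = ∑ i, ∑ A, x (i, A) ^ 2 := by
    rw [EuclideanSpace.norm_sq_eq, Fintype.sum_prod_type]
    simp
  refine ⟨n, y, WithLp.toLp 2 fun p => Z p.1 p.2, hn, ?_, hZn, hyZ, ?_, ?_⟩
  · ext p
    exact hX p.1 p.2
  · rw [hxn]
    unfold ry
    rw [Real.sq_sqrt (Finset.sum_nonneg fun _ _ => sq_nonneg _)]
    exact h1
  · have hzn : ‖(WithLp.toLp 2 fun p => Z p.1 p.2 : X3)‖ ^ 2 = ∑ i, ∑ A, Z i A ^ 2 := by
      rw [EuclideanSpace.norm_sq_eq, Fintype.sum_prod_type]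
      simp
    have hV : S.V x = S.κ ^ 2 / 4 * ∑ i, ∑ j, ((∑ A, x (i, A) ^ 2) * (∑ A, x (j, A) ^ 2) -
        (∑ A, x (i, A) * x (j, A)) ^ 2) := by
      unfold Setup.V Setup.FF
      have e : ∀ i j, ∑ A, (S.κ * ∑ B, ∑ C, (eps A B C : ℝ) * x (i, B) * x (j, C)) ^ 2 =
          S.κ ^ 2 * ((∑ A, x (i, A) ^ 2) * (∑ A, x (j, A) ^ 2) -
            (∑ A, x (i, A) * x (j, A)) ^ 2) := by
        intro i j
        rw [← dec_lagrange (fun A => x (i, A)) (fun A => x (j, A)), Finset.mul_sum]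
        exact Finset.sum_congr rfl fun A _ => by rw [mul_pow]
      calc (1 / 4 : ℝ) * ∑ A, ∑ i, ∑ j, (S.κ * ∑ B, ∑ C, (eps A B C : ℝ) * x (i, B) *
            x (j, C)) ^ 2 = (1 / 4 : ℝ) * ∑ i, ∑ j, ∑ A, (S.κ * ∑ B, ∑ C, (eps A B C : ℝ) *
              x (i, B) * x (j, C)) ^ 2 := by
            congr 1
            rw [Finset.sum_comm]
            exact Finset.sum_congr rfl fun i _ => Finset.sum_comm
        _ = _ := by
            simp only [e, ← Finset.mul_sum]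
            ring
    rw [hzn, hxn, hV]
    have hk : 0 ≤ S.κ ^ 2 := sq_nonneg _
    have hz0 : 0 ≤ ∑ i, ∑ A, Z i A ^ 2 :=
      Finset.sum_nonneg fun _ _ => Finset.sum_nonneg fun _ _ => sq_nonneg _
    have h3 := mul_le_mul_of_nonneg_left h2 hk
    have h4 := mul_le_mul_of_nonneg_left (mul_le_mul_of_nonneg_left h1 hz0) hk
    linarith

end U

end Vale.Agent.P353
end

section

open Matrix

namespace Vale.Agent.P353

variable {F : Type*} [NormedAddCommGroup F] [InnerProductSpace ℂ F]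

namespace Setup

variable (S : Setup F)

/-! ### Clifford relations applied to vectors -/

lemma vec_anti_app (N M : Matrix (Fin 16) (Fin 16) ℂ) (A B : Fin 3) (β δ : Fin 16) (w : F) :
    S.vec N A β (S.vec M B δ w) = (if A = B then ((N * Mᵀ) β δ) • w else 0)
      - S.vec M B δ (S.vec N A β w) := by
  have h := congrArg (fun T : F →L[ℂ] F => T w) (S.toCS.vec_anti N M A B β δ)
  simp only [_root_.add_apply, mul_apply_eq_comp] at h
  rw [eq_sub_iff_add_eq, h]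
  by_cases hAB : A = B
  · simp only [if_pos hAB, _root_.smul_apply, one_apply_eq_self]
  · simp only [if_neg hAB, _root_.zero_apply]

lemma th_eq_vec (A : Fin 3) (β : Fin 16) (w : F) : S.th β A w = S.vec 1 A β w := by
  rw [S.toCS.vec_one]

lemma vec_apply (N : Matrix (Fin 16) (Fin 16) ℂ) (A : Fin 3) (β : Fin 16) (w : F) :
    S.vec N A β w = ∑ γ, N β γ • S.th γ A w := by
  simp only [CS.vec, _root_.sum_apply, _root_.smul_apply]

lemma bil_apply (N : Matrix (Fin 16) (Fin 16) ℂ) (A B : Fin 3) (w : F) :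
    S.bil N A B w = ∑ α, S.th α A (S.vec N B α w) := by
  simp only [CS.bil, _root_.sum_apply, mul_apply_eq_comp]

/-- `∑_β (Nθ^A)_β (Mθ^B)_β = θ^A Nᵀ M θ^B` on vectors -/
lemma sum_vec_vec (N M : Matrix (Fin 16) (Fin 16) ℂ) (A B : Fin 3) (w : F) :
    ∑ β, S.vec N A β (S.vec M B β w) = S.bil (Nᵀ * M) A B w := by
  have h := congrArg (fun T : F →L[ℂ] F => T w) (S.toCS.sum_vec_mul_vec N M A B)
  simp only [_root_.sum_apply, mul_apply_eq_comp] at h
  exact h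

lemma bil_swap_app (N : Matrix (Fin 16) (Fin 16) ℂ) (A B : Fin 3) (w : F) :
    S.bil N A B w = (if A = B then N.trace • w else 0) - S.bil Nᵀ B A w := by
  have h := congrArg (fun T : F →L[ℂ] F => T w) (S.toCS.bil_swap N A B)
  simp only [_root_.sub_apply] at h
  rw [h]
  by_cases hAB : A = B
  · simp only [if_pos hAB, _root_.smul_apply, one_apply_eq_self]
  · simp only [if_neg hAB, _root_.zero_apply]

lemma bil_add_app (N M : Matrix (Fin 16) (Fin 16) ℂ) (A B : Fin 3) (w : F) :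
    S.bil (N + M) A B w = S.bil N A B w + S.bil M A B w := by
  rw [S.toCS.bil_add, _root_.add_apply]

lemma bil_sub_app (N M : Matrix (Fin 16) (Fin 16) ℂ) (A B : Fin 3) (w : F) :
    S.bil (N - M) A B w = S.bil N A B w - S.bil M A B w := by
  rw [S.toCS.bil_sub, _root_.sub_apply]

lemma bil_neg_app (N : Matrix (Fin 16) (Fin 16) ℂ) (A B : Fin 3) (w : F) :
    S.bil (-N) A B w = -S.bil N A B w := by
  rw [S.toCS.bil_neg, _root_.neg_apply]

lemma bil_smul_app (c : ℂ) (N : Matrix (Fin 16) (Fin 16) ℂ) (A B : Fin 3) (w : F) :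
    S.bil (c • N) A B w = c • S.bil N A B w := by
  rw [S.toCS.bil_smul, _root_.smul_apply]

lemma bil_one_app (A : Fin 3) (w : F) : S.bil 1 A A w = (8 : ℂ) • w := by
  have h := congrArg (fun T : F →L[ℂ] F => T w) (S.toCS.th_sq_sum A)
  simp only [_root_.sum_apply, mul_apply_eq_comp, _root_.smul_apply, one_apply_eq_self] at h
  rw [bil_apply, ← h]
  refine Finset.sum_congr rfl fun α _ => ?_
  rw [th_eq_vec S A α (S.th α A w), th_eq_vec, th_eq_vec]

/-! ### the vacuum condition -/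

/-- `γ^E` -/
noncomputable def gE (E : Fin 9 → ℝ) : Matrix (Fin 16) (Fin 16) ℂ := ∑ i, (E i : ℂ) • S.g i

lemma gE_symm (E : Fin 9 → ℝ) : (S.gE E)ᵀ = S.gE E := by
  simp only [gE, Matrix.transpose_sum, Matrix.transpose_smul, S.g_symm]

lemma gE_im (E : Fin 9 → ℝ) (α β : Fin 16) : (S.gE E α β).im = 0 := by
  simp only [gE, Matrix.sum_apply, Matrix.smul_apply, smul_eq_mul, Complex.im_sum]
  refine Finset.sum_eq_zero fun i _ => ?_
  rw [Complex.mul_im, S.g_real]; simp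

lemma gE_sq (E : Fin 9 → ℝ) (hE : ∑ i, E i ^ 2 = 1) : S.gE E * S.gE E = 1 := by
  have h1 : S.gE E * S.gE E = ∑ i, ∑ j, ((E i : ℂ) * (E j : ℂ)) • (S.g i * S.g j) := by
    simp only [gE, Finset.sum_mul, Finset.mul_sum, smul_mul_smul_comm]
    rw [Finset.sum_comm]
  have h2 : S.gE E * S.gE E = ∑ i, ∑ j, ((E i : ℂ) * (E j : ℂ)) • (S.g j * S.g i) := by
    rw [h1, Finset.sum_comm]
    refine Finset.sum_congr rfl fun i _ => Finset.sum_congr rfl fun j _ => ?_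
    rw [mul_comm]
  have h3 : (2 : ℂ) • (S.gE E * S.gE E) = (2 : ℂ) • 1 := by
    rw [two_smul]
    nth_rewrite 1 [h1]
    rw [h2, ← Finset.sum_add_distrib]
    simp only [← Finset.sum_add_distrib, ← smul_add, S.g_anti]
    have : ∀ i, ∑ j, ((E i : ℂ) * (E j : ℂ)) • (if i = j then (2 : Matrix (Fin 16) (Fin 16) ℂ) else 0)
        = ((E i : ℂ) ^ 2) • (2 : Matrix (Fin 16) (Fin 16) ℂ) := by
      intro i
      simp only [smul_ite, smul_zero, Finset.sum_ite_eq, Finset.mem_univ, if_true, sq]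
    simp only [this, ← Finset.sum_smul]
    have hE' : ∑ i, (E i : ℂ) ^ 2 = 1 := by exact_mod_cast hE
    rw [hE', one_smul, two_smul]
    norm_num
  have h4 := congrArg (fun M => (1 / 2 : ℂ) • M) h3
  simpa [smul_smul] using h4

lemma real_mul {N M : Matrix (Fin 16) (Fin 16) ℂ} (hN : ∀ α β, (N α β).im = 0)
    (hM : ∀ α β, (M α β).im = 0) : ∀ α β, ((N * M) α β).im = 0 := fun α β =>
  mul_im_zero hN hM α β

/-- the vacuum condition in the standard frame -/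
def Vac (E : Fin 9 → ℝ) (v : F) : Prop :=
  ∀ α, S.th α 0 v = (-Complex.I) • S.vec (S.gE E) 1 α v

variable {S} {E : Fin 9 → ℝ} {v : F}

lemma Vac.vec0 (h : S.Vac E v) (N : Matrix (Fin 16) (Fin 16) ℂ) (α : Fin 16) :
    S.vec N 0 α v = (-Complex.I) • S.vec (N * S.gE E) 1 α v := by
  rw [vec_apply]
  simp only [h _]
  have h2 := congrArg (fun T : F →L[ℂ] F => T v) (S.toCS.vec_mul N (S.gE E) 1 α)
  simp only [_root_.sum_apply, _root_.smul_apply] at h2
  rw [h2, Finset.smul_sum]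
  refine Finset.sum_congr rfl fun γ _ => ?_
  rw [smul_comm]

lemma Vac.vec1 (h : S.Vac E v) (hE : ∑ i, E i ^ 2 = 1) (N : Matrix (Fin 16) (Fin 16) ℂ)
    (α : Fin 16) : S.vec N 1 α v = Complex.I • S.vec (N * S.gE E) 0 α v := by
  rw [h.vec0, mul_assoc, S.gE_sq E hE, mul_one, smul_smul]
  have : Complex.I * -Complex.I = 1 := by
    have := Complex.I_mul_I
    linear_combination -this
  rw [this, one_smul]

/-- cyclicity: for `Z` anticommuting with species `0` -/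
lemma Vac.cyc (h : S.Vac E v) (hE : ∑ i, E i ^ 2 = 1) (Z : F → F)
    (hZadd : ∀ a b, Z (a + b) = Z a + Z b) (hZsmul : ∀ (c : ℂ) a, Z (c • a) = c • Z a)
    (hZ : ∀ α w, Z (S.th α 0 w) = -S.th α 0 (Z w))
    (N : Matrix (Fin 16) (Fin 16) ℂ) (hN : ∀ α β, (N α β).im = 0) (δ : Fin 16) :
    inner ℂ v (Z (S.vec N 1 δ v)) = inner ℂ v (S.vec N 1 δ (Z v)) := by
  have hZv : ∀ (P : Matrix (Fin 16) (Fin 16) ℂ) w, Z (S.vec P 0 δ w) = -S.vec P 0 δ (Z w) := by
    intro P w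
    let ZL : F →ₗ[ℂ] F := ⟨⟨Z, hZadd⟩, hZsmul⟩
    have : Z (S.vec P 0 δ w) = ZL (S.vec P 0 δ w) := rfl
    rw [this, vec_apply, map_sum, vec_apply, ← Finset.sum_neg_distrib]
    refine Finset.sum_congr rfl fun γ _ => ?_
    rw [map_smul]
    have h3 : ZL (S.th γ 0 w) = -S.th γ 0 (Z w) := hZ γ w
    rw [h3, smul_neg]
  have hP : ∀ α β, ((N * S.gE E) α β).im = 0 := real_mul hN (S.gE_im E)
  rw [h.vec1 hE, hZsmul, hZv, inner_smul_right, inner_neg_right,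
    ← S.vec_symm (N * S.gE E) hP 0 δ v (Z v), h.vec0, mul_assoc, S.gE_sq E hE, mul_one,
    inner_smul_left, S.vec_symm N hN]
  simp only [map_neg, Complex.conj_I, neg_neg]
  have := Complex.I_mul_I
  linear_combination (-inner ℂ v ((S.vec N 1 δ) (Z v))) * this

variable (S) in
/-- operators commuting with species `0` and `1` -/
def Comm01 (Y : F →L[ℂ] F) : Prop :=
  ∀ α w, Y (S.th α 0 w) = S.th α 0 (Y w) ∧ Y (S.th α 1 w) = S.th α 1 (Y w)

lemma Comm01.vec1 {Y : F →L[ℂ] F} (hY : S.Comm01 Y) (N : Matrix (Fin 16) (Fin 16) ℂ) (β : Fin 16)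
    (w : F) : Y (S.vec N 1 β w) = S.vec N 1 β (Y w) := by
  rw [vec_apply, map_sum, vec_apply]
  refine Finset.sum_congr rfl fun γ _ => ?_
  rw [map_smul, (hY γ w).2]

/-- two-point function -/
lemma Vac.two_pt (h : S.Vac E v) (hE : ∑ i, E i ^ 2 = 1) {Y : F →L[ℂ] F} (hY : S.Comm01 Y)
    (N M : Matrix (Fin 16) (Fin 16) ℂ) (hM : ∀ α β, (M α β).im = 0) (α β : Fin 16) :
    inner ℂ v (Y (S.vec N 1 α (S.vec M 1 β v))) = (1 / 2) * (N * Mᵀ) α β * inner ℂ v (Y v) := by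
  have h1 : inner ℂ v (Y (S.vec N 1 α (S.vec M 1 β v))) =
      inner ℂ v (S.vec M 1 β (Y (S.vec N 1 α v))) := by
    refine h.cyc hE (fun w => Y (S.vec N 1 α w)) (fun a b => by rw [map_add, map_add])
      (fun c a => by rw [map_smul, map_smul]) ?_ M hM β
    intro γ w
    have := S.vec_anti_app N 1 1 0 α γ w
    simp only [← th_eq_vec, show ¬((1 : Fin 3) = 0) by decide, if_false, zero_sub] at this
    simp only [this, map_neg, (hY γ _).1]
  have h2 : S.vec M 1 β (Y (S.vec N 1 α v)) = Y (S.vec M 1 β (S.vec N 1 α v)) :=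
    (hY.vec1 M β _).symm
  have h3 := S.vec_anti_app N M 1 1 α β v
  simp only [if_true] at h3
  have h4 : inner ℂ v (Y (S.vec N 1 α (S.vec M 1 β v))) + inner ℂ v (Y (S.vec M 1 β
      (S.vec N 1 α v))) = (N * Mᵀ) α β * inner ℂ v (Y v) := by
    rw [h3, map_sub, map_smul, inner_sub_right, inner_smul_right]; ring
  rw [h1, h2] at *
  linear_combination (1 / 2) * h4

lemma Vac.bil11 (h : S.Vac E v) (hE : ∑ i, E i ^ 2 = 1) {Y : F →L[ℂ] F} (hY : S.Comm01 Y)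
    (N : Matrix (Fin 16) (Fin 16) ℂ) (hN : ∀ α β, (N α β).im = 0) :
    inner ℂ v (Y (S.bil N 1 1 v)) = (1 / 2) * N.trace * inner ℂ v (Y v) := by
  rw [bil_apply, map_sum, inner_sum]
  have : ∀ α, inner ℂ v (Y (S.th α 1 (S.vec N 1 α v))) =
      (1 / 2) * (N α α) * inner ℂ v (Y v) := by
    intro α
    rw [th_eq_vec, h.two_pt hE hY 1 N hN, one_mul, Matrix.transpose_apply]
  simp only [this, Matrix.trace, Matrix.diag, Finset.mul_sum, Finset.sum_mul]

lemma comm_one : S.Comm01 (ContinuousLinearMap.id ℂ F) := fun _ _ => ⟨rfl, rfl⟩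

/-- species `2` vectors anticommute with the others -/
lemma vec2_anti (N M : Matrix (Fin 16) (Fin 16) ℂ) (A : Fin 3) (hA : A ≠ 2) (β δ : Fin 16) (w : F) :
    S.vec N 2 β (S.vec M A δ w) = -S.vec M A δ (S.vec N 2 β w) := by
  have := S.vec_anti_app N M 2 A β δ w
  simpa [Ne.symm hA] using this

lemma comm_vec22 (N M : Matrix (Fin 16) (Fin 16) ℂ) (β δ : Fin 16) :
    S.Comm01 ((S.vec N 2 β).comp (S.vec M 2 δ)) := by
  intro α w
  simp only [ContinuousLinearMap.comp_apply, th_eq_vec]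
  constructor
  · rw [vec2_anti M 1 0 (by decide), map_neg, vec2_anti N 1 0 (by decide), neg_neg]
  · rw [vec2_anti M 1 1 (by decide), map_neg, vec2_anti N 1 1 (by decide), neg_neg]

lemma comm_bil22 (N : Matrix (Fin 16) (Fin 16) ℂ) : S.Comm01 (S.bil N 2 2) := by
  intro α w
  simp only [bil_apply, map_sum]
  have h : ∀ β, S.th β 2 (S.vec N 2 β (S.th α 0 w)) = S.th α 0 (S.th β 2 (S.vec N 2 β w)) ∧
      S.th β 2 (S.vec N 2 β (S.th α 1 w)) = S.th α 1 (S.th β 2 (S.vec N 2 β w)) := by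
    intro β
    have := comm_vec22 (S := S) 1 N β β α w
    simpa only [ContinuousLinearMap.comp_apply, ← th_eq_vec] using this
  exact ⟨Finset.sum_congr rfl fun β _ => (h β).1, Finset.sum_congr rfl fun β _ => (h β).2⟩

/-- commutator with a quadratic operator of species `1` -/
lemma vec_bil_comm (N M : Matrix (Fin 16) (Fin 16) ℂ) (hM : Mᵀ = -M) (β : Fin 16) (w : F) :
    S.vec N 1 β (S.bil M 1 1 w) = S.bil M 1 1 (S.vec N 1 β w) + (2 : ℂ) • S.vec (N * M) 1 β w := by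
  have h1 : ∀ δ, S.vec N 1 β (S.th δ 1 (S.vec M 1 δ w)) = N β δ • S.vec M 1 δ w -
      (N * Mᵀ) β δ • S.th δ 1 w + S.th δ 1 (S.vec M 1 δ (S.vec N 1 β w)) := by
    intro δ
    have e1 := S.vec_anti_app N 1 1 1 β δ (S.vec M 1 δ w)
    have e2 := S.vec_anti_app N M 1 1 β δ w
    simp only [if_true, Matrix.transpose_one, mul_one, ← th_eq_vec] at e1 e2
    rw [e1, e2, map_sub, map_smul]
    abel
  rw [bil_apply, map_sum, Finset.sum_congr rfl fun δ _ => h1 δ, Finset.sum_add_distrib,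
    Finset.sum_sub_distrib, ← bil_apply]
  have h2 : ∑ δ, N β δ • S.vec M 1 δ w = S.vec (N * M) 1 β w := by
    have h := congrArg (fun T : F →L[ℂ] F => T w) (S.toCS.vec_mul N M 1 β)
    simp only [_root_.sum_apply, _root_.smul_apply] at h
    exact h.symm
  have h3 : ∑ δ, (N * Mᵀ) β δ • S.th δ 1 w = -S.vec (N * M) 1 β w := by
    rw [← vec_apply, hM, mul_neg, S.toCS.vec_neg, _root_.neg_apply]
  rw [h2, h3, two_smul]
  abel

lemma bil11_th0 (M : Matrix (Fin 16) (Fin 16) ℂ) (α : Fin 16) (w : F) :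
    S.bil M 1 1 (S.th α 0 w) = S.th α 0 (S.bil M 1 1 w) := by
  rw [bil_apply, bil_apply, map_sum]
  refine Finset.sum_congr rfl fun β _ => ?_
  have e1 := S.vec_anti_app M 1 1 0 β α w
  have e2 := S.vec_anti_app 1 1 1 0 β α (S.vec M 1 β w)
  simp only [show ¬((1 : Fin 3) = 0) by decide, if_false, zero_sub, ← th_eq_vec] at e1 e2
  rw [e1, map_neg, e2, neg_neg]

/-- the four-point function -/
lemma Vac.four_pt (h : S.Vac E v) (hE : ∑ i, E i ^ 2 = 1) (M N : Matrix (Fin 16) (Fin 16) ℂ)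
    (hMr : ∀ α β, (M α β).im = 0) (hNr : ∀ α β, (N α β).im = 0) (hM : Mᵀ = -M) (hN : Nᵀ = -N) :
    inner ℂ v (S.bil M 1 1 (S.bil N 1 1 v)) = (1 / 2) * (N * M).trace * inner ℂ v v := by
  have h1 : inner ℂ v (S.bil M 1 1 (S.bil N 1 1 v)) =
      ∑ γ, inner ℂ v (S.bil M 1 1 (S.th γ 1 (S.vec N 1 γ v))) := by
    rw [S.bil_apply N, map_sum, inner_sum]
  have h2 : ∀ γ, inner ℂ v (S.bil M 1 1 (S.th γ 1 (S.vec N 1 γ v))) =
      inner ℂ v (S.bil M 1 1 (S.vec N 1 γ (S.th γ 1 v))) +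
        2 * inner ℂ v (S.vec (N * M) 1 γ (S.th γ 1 v)) := by
    intro γ
    rw [h.cyc hE (fun w => S.bil M 1 1 (S.th γ 1 w)) (fun a b => by rw [map_add, map_add])
      (fun c a => by rw [map_smul, map_smul]) ?_ N hNr γ, vec_bil_comm N M hM, inner_add_right,
      inner_smul_right]
    intro α w
    have e1 := S.vec_anti_app 1 1 1 0 γ α w
    simp only [show ¬((1 : Fin 3) = 0) by decide, if_false, zero_sub, ← th_eq_vec] at e1
    simp only [e1, map_neg, bil11_th0]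
  have h3 : ∑ γ, inner ℂ v (S.bil M 1 1 (S.vec N 1 γ (S.th γ 1 v))) =
      -inner ℂ v (S.bil M 1 1 (S.bil N 1 1 v)) := by
    have : ∑ γ, S.vec N 1 γ (S.th γ 1 v) = -S.bil N 1 1 v := by
      simp only [th_eq_vec]
      rw [sum_vec_vec, hN, mul_one, bil_neg_app]
    rw [← inner_sum, ← map_sum, this, map_neg, inner_neg_right]
  have h4 : ∑ γ, inner ℂ v (S.vec (N * M) 1 γ (S.th γ 1 v)) =
      (1 / 2) * (N * M).trace * inner ℂ v v := by
    have h5 := h.bil11 hE comm_one (N * M)ᵀ (fun α β => real_mul hNr hMr β α)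
    simp only [ContinuousLinearMap.id_apply, Matrix.trace_transpose] at h5
    rw [← h5, ← inner_sum]
    simp only [th_eq_vec]
    rw [sum_vec_vec, mul_one]
  rw [Finset.sum_congr rfl fun γ _ => h2 γ, Finset.sum_add_distrib, h3, ← Finset.mul_sum, h4] at h1
  linear_combination (1 / 2) * h1

lemma Vac.bil00 (h : S.Vac E v) (N : Matrix (Fin 16) (Fin 16) ℂ) (hN : Nᵀ = -N) :
    S.bil N 0 0 v = -S.bil (S.gE E * N * S.gE E) 1 1 v := by
  rw [bil_apply]
  have h1 : ∀ α, S.th α 0 (S.vec N 0 α v) = S.vec (N * S.gE E) 1 α (S.vec (S.gE E) 1 α v) := by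
    intro α
    have e1 := S.vec_anti_app 1 (N * S.gE E) 0 1 α α v
    simp only [show ¬((0 : Fin 3) = 1) by decide, if_false, zero_sub, ← th_eq_vec] at e1
    rw [h.vec0, map_smul, e1, h α, map_smul, smul_neg, smul_smul]
    have : -Complex.I * -Complex.I = -1 := by
      have := Complex.I_mul_I
      linear_combination this
    rw [this, neg_smul, one_smul, neg_neg]
  rw [Finset.sum_congr rfl fun α _ => h1 α, sum_vec_vec, Matrix.transpose_mul, hN, S.gE_symm,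
    mul_neg, neg_mul, bil_neg_app]

end Setup
end Vale.Agent.P353
end

section

open Matrix

namespace Vale.Agent.P353

variable {F : Type*} [NormedAddCommGroup F] [InnerProductSpace ℂ F]

namespace Setup

variable {S : Setup F} {E : Fin 9 → ℝ} {v : F}

variable (S) in
/-- one-species rotation generator -/
noncomputable def sp (A : Fin 3) (k l : Fin 9) (w : F) : F :=
  (-Complex.I / 4) • S.bil (S.g2 k l) A A w

variable (S) in
/-- `D_{kl} = γ^{kl} - γ^E γ^{kl} γ^E` -/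
noncomputable def DD (E : Fin 9 → ℝ) (k l : Fin 9) : Matrix (Fin 16) (Fin 16) ℂ :=
  S.g2 k l - S.gE E * S.g2 k l * S.gE E

lemma DD_transpose (k l : Fin 9) : (S.DD E k l)ᵀ = -S.DD E k l := by
  simp only [DD, Matrix.transpose_sub, Matrix.transpose_mul, S.g2_transpose, S.gE_symm]
  noncomm_ring

lemma DD_im (k l : Fin 9) (α β : Fin 16) : (S.DD E k l α β).im = 0 := by
  have h1 := real_mul (real_mul (S.gE_im E) (S.g2_im k l)) (S.gE_im E) α β
  rw [DD, Matrix.sub_apply, Complex.sub_im, S.g2_im, h1, sub_zero]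

lemma DD_trace (k l : Fin 9) (hE : ∑ i, E i ^ 2 = 1) : (S.DD E k l).trace = 0 := by
  rw [DD, Matrix.trace_sub, Matrix.trace_mul_comm, ← mul_assoc, S.gE_sq E hE, one_mul, sub_self]

lemma sum_trace_DD (hE : ∑ i, E i ^ 2 = 1) :
    ∑ k, ∑ l, (S.DD E k l * S.DD E k l).trace = -1024 := by
  have h1 : ∀ k l, (S.DD E k l * S.DD E k l).trace = 2 * (S.g2 k l * S.g2 k l).trace -
      2 * (S.gE E * (S.g2 k l * S.gE E * S.g2 k l)).trace := by
    intro k l
    have e1 : S.DD E k l * S.DD E k l = S.g2 k l * S.g2 k l -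
        S.g2 k l * S.gE E * S.g2 k l * S.gE E - S.gE E * (S.g2 k l * S.gE E * S.g2 k l) +
        S.gE E * (S.g2 k l * (S.gE E * S.gE E) * S.g2 k l * S.gE E) := by
      rw [DD]; noncomm_ring
    rw [e1, S.gE_sq E hE, mul_one, Matrix.trace_add, Matrix.trace_sub, Matrix.trace_sub,
      Matrix.trace_mul_comm (S.gE E) (S.g2 k l * S.g2 k l * S.gE E), mul_assoc _ (S.gE E) (S.gE E),
      S.gE_sq E hE, mul_one, Matrix.trace_mul_comm (S.g2 k l * S.gE E * S.g2 k l) (S.gE E)]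
    ring
  have h2 : ∑ k, ∑ l, S.g2 k l * S.gE E * S.g2 k l = (-40 : ℂ) • S.gE E := by
    have h3 : ∀ k l, S.g2 k l * S.gE E * S.g2 k l =
        ∑ i, (E i : ℂ) • (S.g2 k l * S.g i * S.g2 k l) := by
      intro k l
      simp only [gE, Finset.mul_sum, Finset.sum_mul, mul_smul_comm, smul_mul_assoc]
    simp only [h3]
    have s1 : ∀ k, ∑ l, ∑ i, (E i : ℂ) • (S.g2 k l * S.g i * S.g2 k l) =
        ∑ i, ∑ l, (E i : ℂ) • (S.g2 k l * S.g i * S.g2 k l) := fun k => Finset.sum_comm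
    simp only [s1]
    rw [Finset.sum_comm]
    simp only [← Finset.smul_sum, S.toCS.sum_g2_g_g2]
    simp only [gE, Finset.smul_sum]
    refine Finset.sum_congr rfl fun i _ => ?_
    rw [smul_comm]
  simp only [h1, Finset.sum_sub_distrib, ← Finset.mul_sum]
  rw [S.toCS.sum_trace_g2_sq]
  simp only [← Matrix.trace_sum, ← Finset.mul_sum]
  rw [h2, mul_smul_comm, S.gE_sq E hE, Matrix.trace_smul, Matrix.trace_one]
  norm_num

lemma Skl_app (k l : Fin 9) (w : F) : S.Skl k l w = S.sp 0 k l w + S.sp 1 k l w + S.sp 2 k l w := by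
  simp only [Skl, sp, CS.tot, Fin.sum_univ_three, _root_.smul_apply, _root_.add_apply, smul_add]

variable (S) in
/-- the perpendicular part -/
noncomputable def bb' (E : Fin 9 → ℝ) (v : F) (k l : Fin 9) : F :=
  (-Complex.I / 4) • S.bil (S.DD E k l) 1 1 v

lemma Vac.Skl_eq (h : S.Vac E v) (k l : Fin 9) :
    S.Skl k l v = S.sp 2 k l v + S.bb' E v k l := by
  rw [Skl_app, sp, sp, bb', h.bil00 _ (S.g2_transpose k l), DD, bil_sub_app]
  module

lemma conj_I4 : (starRingEnd ℂ) (-Complex.I / 4) = Complex.I / 4 := by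
  have h4 : (starRingEnd ℂ) 4 = 4 := by norm_num [Complex.ext_iff]
  simp [map_div₀, h4]

/-- cross terms vanish -/
lemma Vac.cross (h : S.Vac E v) (hE : ∑ i, E i ^ 2 = 1) (P : Matrix (Fin 16) (Fin 16) ℂ)
    (k l : Fin 9) : inner ℂ v (S.bil P 2 2 (S.bb' E v k l)) = 0 := by
  rw [bb', map_smul, inner_smul_right, h.bil11 hE (comm_bil22 P) _ (DD_im k l), DD_trace k l hE]
  ring

lemma sp_adj (A : Fin 3) (k l : Fin 9) (x y : F) : inner ℂ (S.sp A k l x) y =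
    inner ℂ x (S.sp A k l y) := by
  rw [sp, sp, inner_smul_left, inner_smul_right, S.bil_adj _ (S.g2_im k l), S.g2_transpose,
    bil_neg_app, inner_neg_right, conj_I4]
  ring

lemma Vac.cross' (h : S.Vac E v) (hE : ∑ i, E i ^ 2 = 1) (i j k l : Fin 9) :
    inner ℂ (S.sp 2 i j v) (S.bb' E v k l) = 0 := by
  rw [sp_adj, sp, inner_smul_right, h.cross hE, mul_zero]

lemma Vac.sum_b (h : S.Vac E v) (hE : ∑ i, E i ^ 2 = 1) :
    ∑ k, ∑ l, inner ℂ (S.bb' E v k l) (S.bb' E v k l) = 32 * inner ℂ v v := by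
  have h1 : ∀ k l, inner ℂ (S.bb' E v k l) (S.bb' E v k l) =
      (-1 / 32) * (S.DD E k l * S.DD E k l).trace * inner ℂ v v := by
    intro k l
    rw [bb', inner_smul_left, inner_smul_right, S.bil_adj _ (DD_im k l), DD_transpose,
      bil_neg_app, inner_neg_right, h.four_pt hE _ _ (DD_im k l) (DD_im k l) (DD_transpose k l)
      (DD_transpose k l), conj_I4]
    have := Complex.I_mul_I
    linear_combination (1/32 * (S.DD E k l * S.DD E k l).trace * inner ℂ v v) * this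
  simp only [h1, ← Finset.sum_mul, ← Finset.mul_sum, sum_trace_DD hE]
  ring

lemma sum_a : ∑ k, ∑ l, inner ℂ (S.sp 2 k l v) (S.sp 2 k l v) = 36 * inner ℂ v v := by
  have h1 : ∀ k l, inner ℂ (S.sp 2 k l v) (S.sp 2 k l v) =
      (-1 / 16) * inner ℂ v (S.bil (S.g2 k l) 2 2 (S.bil (S.g2 k l) 2 2 v)) := by
    intro k l
    rw [sp_adj, sp, sp, map_smul, smul_smul, inner_smul_right]
    have := Complex.I_mul_I
    linear_combination (1/16 * inner ℂ v (S.bil (S.g2 k l) 2 2 (S.bil (S.g2 k l) 2 2 v))) * this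
  have h2 := congrArg (fun T : F →L[ℂ] F => T v) (S.toCS.casimir_one S.g_real 2)
  simp only [_root_.sum_apply, mul_apply_eq_comp, _root_.smul_apply, one_apply_eq_self] at h2
  simp only [h1, ← Finset.mul_sum, ← inner_sum, h2]
  rw [inner_smul_right]; ring

lemma Vac.sum_Skl (h : S.Vac E v) (hE : ∑ i, E i ^ 2 = 1) :
    ∑ k, ∑ l, inner ℂ (S.Skl k l v) (S.Skl k l v) = 68 * inner ℂ v v := by
  have h1 : ∀ k l, inner ℂ (S.Skl k l v) (S.Skl k l v) =
      inner ℂ (S.sp 2 k l v) (S.sp 2 k l v) + inner ℂ (S.bb' E v k l) (S.bb' E v k l) := by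
    intro k l
    rw [h.Skl_eq, inner_add_left, inner_add_right, inner_add_right, h.cross' hE,
      ← inner_conj_symm (S.bb' E v k l) (S.sp 2 k l v), h.cross' hE, map_zero]
    ring
  simp only [h1, Finset.sum_add_distrib, sum_a, h.sum_b hE]
  ring

end Setup
end Vale.Agent.P353
end
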