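import Mathlib
import Vale.Agent.P353.BdU.B1

set_option linter.all false

section

open MeasureTheory Filter Topology
open scoped ContDiff

namespace Vale.Agent.P353

variable {F : Type*} [NormedAddCommGroup F] [InnerProductSpace ℂ F]

lemma hasDerivAt_mul_op {a b : ℝ → F →L[ℂ] F} {a' b' : F →L[ℂ] F} {s : ℝ}
    (ha : HasDerivAt a a' s) (hb : HasDerivAt b b' s) :
    HasDerivAt (fun s => a s * b s) (a s * b' + a' * b s) s := by
  have hB : IsBoundedBilinearMap ℝ (fun p : (F →L[ℂ] F) × (F →L[ℂ] F) => p.1 * p.2) := by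
    refine ⟨fun a b c => by rw [add_mul], fun c a b => by rw [smul_mul_assoc],
      fun a b c => by rw [mul_add], fun c a b => by rw [mul_smul_comm], ?_⟩
    exact ⟨1, one_pos, fun x y => by rw [one_mul]; exact norm_mul_le x y⟩
  have h1 := hB.hasFDerivAt (a s, b s)
  have h2 := ha.prodMk hb
  have h3 := h1.comp_hasDerivAt s h2
  exact h3

lemma hasDerivAt_conj_zero {a X Y : ℝ → F →L[ℂ] F}
    {X' : F →L[ℂ] F} {s : ℝ} (T : F →L[ℂ] F) (ha : HasDerivAt a (T * a s) s)
    (hX : HasDerivAt X X' s)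
    (hY : HasDerivAt Y (-(T * Y s)) s) (hc : T * a s = a s * T) (hX' : X' = X s * T - T * X s) :
    HasDerivAt (fun s => a s * X s * Y s) 0 s := by
  have h := hasDerivAt_mul_op (hasDerivAt_mul_op ha hX) hY
  refine h.congr_deriv ?_
  rw [hc, hX']
  noncomm_ring

namespace Setup

variable [CompleteSpace F] (S : Setup F)

/-- `s_t = exp (i t S_{kl})` -/
noncomputable def st (k l : Fin 9) (t : ℝ) : F →L[ℂ] F :=
  NormedSpace.exp ((t : ℂ) • (Complex.I • S.Skl k l))

lemma hasDerivAt_st (k l : Fin 9) (t : ℝ) :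
    HasDerivAt (S.st k l) ((Complex.I • S.Skl k l) * S.st k l t) t := by
  have h1 := hasDerivAt_exp_smul_const' (𝕂 := ℂ) (Complex.I • S.Skl k l) (t : ℂ)
  have h2 : HasDerivAt (fun s : ℝ => (s : ℂ)) 1 t := Complex.ofRealCLM.hasDerivAt
  have h3 := HasDerivAt.scomp t h1 h2
  rw [one_smul] at h3
  exact h3

lemma st_zero (k l : Fin 9) : S.st k l 0 = 1 := by
  simp [st]

lemma st_add (k l : Fin 9) (s t : ℝ) : S.st k l (s + t) = S.st k l s * S.st k l t := by
  unfold st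
  let _ : NormedAlgebra ℚ (F →L[ℂ] F) := NormedAlgebra.restrictScalars ℚ ℂ _
  rw [← NormedSpace.exp_add_of_commute, ← add_smul]
  · push_cast; rfl
  · exact ((Commute.refl _).smul_left _).smul_right _

lemma st_neg_mul (k l : Fin 9) (t : ℝ) : S.st k l (-t) * S.st k l t = 1 := by
  rw [← st_add, neg_add_cancel, st_zero]

lemma st_mul_neg (k l : Fin 9) (t : ℝ) : S.st k l t * S.st k l (-t) = 1 := by
  rw [← st_add, add_neg_cancel, st_zero]

lemma st_comm (k l : Fin 9) (t : ℝ) : S.Skl k l * S.st k l t = S.st k l t * S.Skl k l := by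
  have h : Commute (S.Skl k l) (NormedSpace.exp ((t : ℂ) • (Complex.I • S.Skl k l))) := by
    apply Commute.exp_right
    exact ((Commute.refl _).smul_right _).smul_right _
  exact h

lemma hasDerivAt_st_neg (k l : Fin 9) (t : ℝ) :
    HasDerivAt (fun s => S.st k l (-s)) (-((Complex.I • S.Skl k l) * S.st k l (-t))) t := by
  have h := HasDerivAt.scomp t (S.hasDerivAt_st k l (-t)) (hasDerivAt_neg t)
  rw [neg_one_smul] at h
  exact h

lemma st_inner (k l : Fin 9) (t : ℝ) (v w : F) :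
    inner ℂ (S.st k l t v) (S.st k l t w) = inner ℂ v w := by
  have hd : ∀ v : F, ∀ s : ℝ, HasDerivAt (fun s => S.st k l s v)
      (((Complex.I • S.Skl k l) * S.st k l s) v) s := by
    intro v s
    have h := S.hasDerivAt_st k l s
    exact ((ContinuousLinearMap.apply ℂ F v).restrictScalars ℝ).hasFDerivAt.comp_hasDerivAt s h
  have hi : ∀ s, HasDerivAt (fun s => inner ℂ (S.st k l s v) (S.st k l s w)) 0 s := by
    intro s
    have h := (hd v s).inner ℂ (hd w s)
    have e : inner ℂ (S.st k l s v) (((Complex.I • S.Skl k l) * S.st k l s) w) +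
        inner ℂ (((Complex.I • S.Skl k l) * S.st k l s) v) (S.st k l s w) = 0 := by
      simp only [mul_apply_eq_comp, _root_.smul_apply, inner_smul_left, inner_smul_right,
        Complex.conj_I, S.Skl_symm]
      ring
    rw [e] at h
    exact h
  have hc := is_const_of_deriv_eq_zero (f := fun s => inner ℂ (S.st k l s v) (S.st k l s w))
    (fun s => (hi s).differentiableAt) (fun s => (hi s).deriv) t 0
  simpa [st_zero] using hc

lemma st_adj (k l : Fin 9) (t : ℝ) (v w : F) :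
    inner ℂ (S.st k l t v) w = inner ℂ v (S.st k l (-t) w) := by
  have h := S.st_inner k l t v (S.st k l (-t) w)
  have e : S.st k l t (S.st k l (-t) w) = w := by
    have := congrArg (fun T : F →L[ℂ] F => T w) (S.st_mul_neg k l t)
    simpa [mul_apply_eq_comp] using this
  rw [e] at h
  exact h

lemma st_norm (k l : Fin 9) (t : ℝ) (v : F) : ‖S.st k l t v‖ = ‖v‖ := by
  have h := S.st_inner k l t v v
  rw [inner_self_eq_norm_sq_to_K, inner_self_eq_norm_sq_to_K] at h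
  have h2 : ‖S.st k l t v‖ ^ 2 = ‖v‖ ^ 2 := by exact_mod_cast h
  exact (sq_eq_sq₀ (norm_nonneg _) (norm_nonneg _)).mp h2

/-- the spinor rotation matrix -/
noncomputable def gt (k l : Fin 9) (t : ℝ) : Matrix (Fin 16) (Fin 16) ℂ :=
  (Real.cos (t / 2) : ℂ) • 1 + (Real.sin (t / 2) : ℂ) • S.g2 k l

omit [CompleteSpace F] in
lemma g2_eq_mul {k l : Fin 9} (h : k ≠ l) : S.g2 k l = S.g k * S.g l := by
  rw [S.g2_eq, if_neg h, zero_smul, sub_zero]

omit [CompleteSpace F] in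
lemma g2_sq {k l : Fin 9} (h : k ≠ l) : S.g2 k l * S.g2 k l = -1 := by
  rw [S.g2_eq_mul h]
  have : S.g k * S.g l * (S.g k * S.g l) = S.g k * (S.g l * S.g k) * S.g l := by noncomm_ring
  rw [this, S.g_swap_ne (Ne.symm h)]
  have : S.g k * -(S.g k * S.g l) * S.g l = -((S.g k * S.g k) * (S.g l * S.g l)) := by noncomm_ring
  rw [this, S.g_sq, S.g_sq, mul_one]

omit [CompleteSpace F] in
lemma hasDerivAt_vec_gt {k l : Fin 9} (h : k ≠ l) (P : Matrix (Fin 16) (Fin 16) ℂ) (A : Fin 3)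
    (b : Fin 16) (t : ℝ) : HasDerivAt (fun s => S.vec (P * S.gt k l s) A b)
      ((1 / 2 : ℂ) • S.vec (P * S.gt k l t * S.g2 k l) A b) t := by
  have e : (fun s => S.vec (P * S.gt k l s) A b) = fun s =>
      Real.cos (s / 2) • S.vec P A b + Real.sin (s / 2) • S.vec (P * S.g2 k l) A b := by
    ext1 s
    simp only [gt, mul_add, Matrix.mul_smul, mul_one, S.vec_add, S.vec_smul]
    rw [Complex.coe_smul, Complex.coe_smul]
  have e2 : (1 / 2 : ℂ) • S.vec (P * S.gt k l t * S.g2 k l) A b =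
      (-Real.sin (t / 2) * (1 / 2)) • S.vec P A b +
        (Real.cos (t / 2) * (1 / 2)) • S.vec (P * S.g2 k l) A b := by
    have : P * S.gt k l t * S.g2 k l = (Real.cos (t / 2) : ℂ) • (P * S.g2 k l) +
        (-Real.sin (t / 2) : ℂ) • P := by
      simp only [gt, mul_add, add_mul, Matrix.mul_smul, Matrix.smul_mul, mul_one]
      rw [mul_assoc, S.g2_sq h]
      simp
    rw [this, S.vec_add, S.vec_smul, S.vec_smul, smul_add, smul_smul, smul_smul]
    simp only [← Complex.coe_smul]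
    push_cast
    rw [add_comm]
    congr 2 <;> ring
  rw [e, e2]
  have h1 : HasDerivAt (fun s : ℝ => s / 2) (1 / 2) t := (hasDerivAt_id t).div_const 2
  exact (h1.cos.smul_const (S.vec P A b)).add (h1.sin.smul_const (S.vec (P * S.g2 k l) A b))

/-- `(P θ)_b s_t = s_t (P g_t θ)_b` -/
lemma vec_mul_st {k l : Fin 9} (h : k ≠ l) (P : Matrix (Fin 16) (Fin 16) ℂ) (A : Fin 3)
    (b : Fin 16) (t : ℝ) :
    S.vec P A b * S.st k l t = S.st k l t * S.vec (P * S.gt k l t) A b := by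
  have hφ : ∀ s, HasDerivAt (fun s => S.st k l s * S.vec (P * S.gt k l s) A b * S.st k l (-s))
      0 s := by
    intro s
    refine hasDerivAt_conj_zero (Complex.I • S.Skl k l) (S.hasDerivAt_st k l s)
      (S.hasDerivAt_vec_gt h P A b s) (S.hasDerivAt_st_neg k l s) ?_ ?_
    · rw [smul_mul_assoc, mul_smul_comm, S.st_comm]
    · have hc := S.vec_comm_Sk (P * S.gt k l s) A b k l
      have hS : S.Sk k l = S.Skl k l := rfl
      rw [hS] at hc
      rw [smul_mul_assoc, mul_smul_comm, ← smul_sub, hc, smul_smul]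
      have e3 : Complex.I * (-Complex.I / 2) = 1 / 2 := by
        have := Complex.I_mul_I
        linear_combination (-1 / 2) * this
      rw [e3]
  have hconst := is_const_of_deriv_eq_zero (fun s => (hφ s).differentiableAt)
    (fun s => (hφ s).deriv) t 0
  simp only [neg_zero, st_zero, mul_one, one_mul] at hconst
  have hg0 : S.gt k l 0 = 1 := by
    simp only [gt, zero_div, Real.cos_zero, Real.sin_zero, Complex.ofReal_one,
      Complex.ofReal_zero, one_smul, zero_smul, add_zero]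
  rw [hg0, mul_one] at hconst
  calc S.vec P A b * S.st k l t = S.st k l t * S.vec (P * S.gt k l t) A b * S.st k l (-t) *
        S.st k l t := by rw [hconst]
    _ = S.st k l t * S.vec (P * S.gt k l t) A b := by
        rw [mul_assoc, S.st_neg_mul, mul_one]

end Setup

end Vale.Agent.P353
end

section

open MeasureTheory Filter Topology
open scoped ContDiff

namespace Vale.Agent.P353

variable {F : Type*} [NormedAddCommGroup F] [InnerProductSpace ℂ F]

/-! ### structure constants of `su(2)` -/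

lemma two_anticomm (X Y : Matrix (Fin 2) (Fin 2) ℂ) (hX : X.trace = 0) (hY : Y.trace = 0) :
    X * Y + Y * X = (X * Y).trace • (1 : Matrix (Fin 2) (Fin 2) ℂ) := by
  rw [Matrix.trace_fin_two] at hX hY
  have hX' : X 1 1 = - X 0 0 := by linear_combination hX
  have hY' : Y 1 1 = - Y 0 0 := by linear_combination hY
  ext i j
  fin_cases i <;> fin_cases j <;>
    simp [Matrix.mul_apply, Fin.sum_univ_two, Matrix.trace_fin_two, hX', hY'] <;> ring

variable (M : Model 2 3 F)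

lemma T_anti (A B : Fin 3) : M.T A * M.T B + M.T B * M.T A =
    (if A = B then (1 : ℂ) else 0) • (1 : Matrix (Fin 2) (Fin 2) ℂ) := by
  rw [two_anticomm _ _ (M.T_traceless A) (M.T_traceless B), M.T_orthonormal]

lemma T_sq (A : Fin 3) : M.T A * M.T A = (1 / 2 : ℂ) • (1 : Matrix (Fin 2) (Fin 2) ℂ) := by
  have h := T_anti M A A
  rw [if_pos rfl, one_smul, ← two_smul ℂ] at h
  rw [← h, smul_smul]
  norm_num

lemma T_swap {A B : Fin 3} (h : A ≠ B) : M.T A * M.T B = -(M.T B * M.T A) := by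
  have h1 := T_anti M A B
  rw [if_neg h, zero_smul] at h1
  exact eq_neg_of_add_eq_zero_left h1

lemma f_trace (A B C : Fin 3) : ((M.T A * M.T B - M.T B * M.T A) * M.T C).trace =
    Complex.I * (M.f A B C : ℂ) := by
  rw [M.T_comm, Finset.sum_mul, Matrix.trace_sum]
  simp only [Matrix.smul_mul, Matrix.trace_smul, M.T_orthonormal, smul_eq_mul, mul_ite, mul_one,
    mul_zero, Finset.sum_ite_eq', Finset.mem_univ, if_true]

lemma f_swap (A B C : Fin 3) : M.f A B C = - M.f B A C := by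
  have h1 := f_trace M A B C
  have h2 := f_trace M B A C
  have h3 : ((M.T A * M.T B - M.T B * M.T A) * M.T C).trace =
      -((M.T B * M.T A - M.T A * M.T B) * M.T C).trace := by
    rw [← Matrix.trace_neg, ← Matrix.neg_mul, neg_sub]
  rw [h1, h2] at h3
  have h4 : Complex.I * ((M.f A B C : ℂ) + (M.f B A C : ℂ)) = 0 := by linear_combination h3
  have h5 : ((M.f A B C : ℂ) + (M.f B A C : ℂ)) = 0 := by
    rcases mul_eq_zero.mp h4 with h | h
    · exact absurd h Complex.I_ne_zero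
    · exact h
  have h6 : M.f A B C + M.f B A C = 0 := by exact_mod_cast h5
  linarith

lemma f_cyc (A B C : Fin 3) : M.f A B C = M.f B C A := by
  have h1 := f_trace M A B C
  have h2 := f_trace M B C A
  have h3 : ((M.T A * M.T B - M.T B * M.T A) * M.T C).trace =
      ((M.T B * M.T C - M.T C * M.T B) * M.T A).trace := by
    rw [Matrix.sub_mul, Matrix.sub_mul, Matrix.trace_sub, Matrix.trace_sub]
    rw [Matrix.trace_mul_cycle (M.T A) (M.T B) (M.T C), Matrix.trace_mul_cycle (M.T B) (M.T C) (M.T A),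
      Matrix.trace_mul_cycle (M.T C) (M.T A) (M.T B), Matrix.trace_mul_cycle (M.T B) (M.T A) (M.T C)]
    rw [Matrix.trace_mul_cycle (M.T C) (M.T B) (M.T A), Matrix.trace_mul_cycle (M.T B) (M.T C) (M.T A)]
  rw [h1, h2] at h3
  have h4 : Complex.I * ((M.f A B C : ℂ) - (M.f B C A : ℂ)) = 0 := by linear_combination h3
  have h5 : ((M.f A B C : ℂ) - (M.f B C A : ℂ)) = 0 := by
    rcases mul_eq_zero.mp h4 with h | h
    · exact absurd h Complex.I_ne_zero
    · exact h
  have h6 : M.f A B C - M.f B C A = 0 := by exact_mod_cast h5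
  linarith

lemma f_eq_eps (A B C : Fin 3) : M.f A B C = M.f 0 1 2 * (eps A B C : ℝ) := by
  have s := f_swap M
  have c := f_cyc M
  have hz1 : ∀ A C, M.f A A C = 0 := fun A C => by linarith [s A A C]
  have hz2 : ∀ A B, M.f A B B = 0 := fun A B => by rw [c]; exact hz1 B A
  have hz3 : ∀ A B, M.f A B A = 0 := fun A B => by rw [c]; exact hz2 B A
  have h120 : M.f 1 2 0 = M.f 0 1 2 := (c 0 1 2).symm
  have h201 : M.f 2 0 1 = M.f 0 1 2 := by rw [c 2 0 1]
  have h102 : M.f 1 0 2 = -M.f 0 1 2 := s 1 0 2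
  have h021 : M.f 0 2 1 = -M.f 0 1 2 := by rw [s 0 2 1, h201]
  have h210 : M.f 2 1 0 = -M.f 0 1 2 := by rw [s 2 1 0, h120]
  fin_cases A <;> fin_cases B <;> fin_cases C <;>
    simp [hz1, hz2, hz3, h120, h201, h102, h021, h210, eps]

lemma f_sq : M.f 0 1 2 ^ 2 = 2 := by
  have h1 := M.T_comm 0 1
  have hne : (0 : Fin 3) ≠ 1 := by decide
  have h2 : M.T 0 * M.T 1 - M.T 1 * M.T 0 = (2 : ℂ) • (M.T 0 * M.T 1) := by
    rw [T_swap M hne, two_smul]; abel
  have h3 : ∑ C, (Complex.I * (M.f 0 1 C : ℂ)) • M.T C = (Complex.I * (M.f 0 1 2 : ℂ)) • M.T 2 := by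
    rw [Fin.sum_univ_three, f_eq_eps M 0 1 0, f_eq_eps M 0 1 1]
    simp [eps]
  rw [h2, h3] at h1
  have h4 := congrArg (fun X => (X * X).trace) h1
  simp only [smul_mul_smul_comm, Matrix.trace_smul, T_sq, Matrix.trace_one] at h4
  have h5 : M.T 0 * M.T 1 * (M.T 0 * M.T 1) = -((1 / 4 : ℂ) • (1 : Matrix (Fin 2) (Fin 2) ℂ)) := by
    calc M.T 0 * M.T 1 * (M.T 0 * M.T 1) = M.T 0 * (M.T 1 * M.T 0) * M.T 1 := by noncomm_ring
      _ = M.T 0 * (-(M.T 0 * M.T 1)) * M.T 1 := by rw [T_swap M hne.symm]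
      _ = -((M.T 0 * M.T 0) * (M.T 1 * M.T 1)) := by noncomm_ring
      _ = _ := by
        rw [T_sq, T_sq, smul_mul_smul_comm, one_mul]
        norm_num
  rw [h5, Matrix.trace_neg, Matrix.trace_smul, Matrix.trace_one] at h4
  simp only [Fintype.card_fin, smul_eq_mul] at h4
  have hI := Complex.I_mul_I
  have h6 : ((M.f 0 1 2 : ℂ)) ^ 2 = 2 := by
    push_cast at h4
    linear_combination h4 + (M.f 0 1 2 : ℂ) ^ 2 * hI
  exact_mod_cast h6

theorem f_eq : ∃ κ : ℝ, κ ^ 2 = 2 ∧ ∀ A B C, M.f A B C = κ * (eps A B C : ℝ) :=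
  ⟨M.f 0 1 2, f_sq M, f_eq_eps M⟩

/-! ### one-parameter subgroups of `SU(2)` -/

/-- `cos a + i √2 sin a T_C` -/
noncomputable def Us (C : Fin 3) (a : ℝ) : Matrix (Fin 2) (Fin 2) ℂ :=
  (Real.cos a : ℂ) • 1 + (Complex.I * (Real.sqrt 2 : ℂ) * (Real.sin a : ℂ)) • M.T C

lemma sqrt2_sq : ((Real.sqrt 2 : ℝ) : ℂ) * ((Real.sqrt 2 : ℝ) : ℂ) = 2 := by
  rw [← Complex.ofReal_mul, Real.mul_self_sqrt (by norm_num)]
  norm_num

lemma Us_mul (C : Fin 3) (a b : ℝ) : Us M C a * Us M C b = Us M C (a + b) := by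
  have hI := Complex.I_mul_I
  have h2 := sqrt2_sq
  simp only [Us, add_mul, mul_add, Matrix.smul_mul, Matrix.mul_smul, one_mul, mul_one, T_sq,
    Real.cos_add, Real.sin_add]
  have e : Complex.I * (Real.sqrt 2 : ℂ) * (Real.sin a : ℂ) *
      (Complex.I * (Real.sqrt 2 : ℂ) * (Real.sin b : ℂ)) = -2 * (Real.sin a : ℂ) * (Real.sin b : ℂ) := by
    linear_combination (Real.sin a : ℂ) * (Real.sin b : ℂ) * (Real.sqrt 2 : ℂ) *
      (Real.sqrt 2 : ℂ) * hI - (Real.sin a : ℂ) * (Real.sin b : ℂ) * h2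
  simp only [smul_smul]
  rw [show Complex.I * (Real.sqrt 2 : ℂ) * (Real.sin b : ℂ) *
      (Complex.I * (Real.sqrt 2 : ℂ) * (Real.sin a : ℂ) * (1 / 2)) =
      (Complex.I * (Real.sqrt 2 : ℂ) * (Real.sin a : ℂ) *
      (Complex.I * (Real.sqrt 2 : ℂ) * (Real.sin b : ℂ))) * (1 / 2) by ring, e]
  push_cast
  module

lemma Us_zero (C : Fin 3) : Us M C 0 = 1 := by
  simp [Us]

lemma Us_star (C : Fin 3) (a : ℝ) : (Us M C a).conjTranspose = Us M C (-a) := by
  simp only [Us, Matrix.conjTranspose_add, Matrix.conjTranspose_smul, Matrix.conjTranspose_one,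
    M.T_hermitian, Real.cos_neg, Real.sin_neg]
  congr 1
  · congr 1
    rw [RCLike.star_def, Complex.conj_ofReal]
  · congr 1
    simp only [RCLike.star_def, map_mul, Complex.conj_I, Complex.conj_ofReal]
    push_cast
    ring

lemma T_det (C : Fin 3) : (M.T C) 0 0 * (M.T C) 1 1 - (M.T C) 0 1 * (M.T C) 1 0 = -(1 / 2) := by
  have h1 := T_sq M C
  have h2 := M.T_traceless C
  rw [Matrix.trace_fin_two] at h2
  have h3 := congrFun (congrFun h1 0) 0
  simp only [Matrix.mul_apply, Fin.sum_univ_two, Matrix.smul_apply, Matrix.one_apply_eq,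
    smul_eq_mul, mul_one] at h3
  linear_combination (M.T C) 0 0 * h2 - h3

lemma Us_det (C : Fin 3) (a : ℝ) : (Us M C a).det = 1 := by
  have h1 := T_det M C
  have h2 := M.T_traceless C
  rw [Matrix.trace_fin_two] at h2
  rw [Matrix.det_fin_two]
  simp only [Us, Matrix.add_apply, Matrix.smul_apply, smul_eq_mul, Matrix.one_apply_eq]
  have h01 : (1 : Matrix (Fin 2) (Fin 2) ℂ) 0 1 = 0 := by simp
  have h10 : (1 : Matrix (Fin 2) (Fin 2) ℂ) 1 0 = 0 := by simp
  rw [h01, h10]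
  have hI := Complex.I_mul_I
  have hs := sqrt2_sq
  have hcs : (Real.cos a : ℂ) ^ 2 + (Real.sin a : ℂ) ^ 2 = 1 := by
    have := Real.sin_sq_add_cos_sq a
    rw [add_comm] at this
    exact_mod_cast this
  set z := Complex.I * (Real.sqrt 2 : ℂ) * (Real.sin a : ℂ) with hz
  have hz2 : z * z = -2 * (Real.sin a : ℂ) ^ 2 := by
    rw [hz]
    linear_combination (Real.sin a : ℂ) ^ 2 * (Real.sqrt 2 : ℂ) *
      (Real.sqrt 2 : ℂ) * hI - (Real.sin a : ℂ) ^ 2 * hs
  linear_combination hcs + (Real.cos a : ℂ) * z * h2 + z * z * h1 - (1 / 2) * hz2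

/-- the element of `SU(2)` -/
noncomputable def Wg (C : Fin 3) (a : ℝ) : Matrix.specialUnitaryGroup (Fin 2) ℂ :=
  ⟨Us M C a, by
    rw [Matrix.mem_specialUnitaryGroup_iff]
    refine ⟨?_, Us_det M C a⟩
    rw [Matrix.mem_unitaryGroup_iff, Matrix.star_eq_conjTranspose, Us_star, Us_mul, add_neg_cancel,
      Us_zero]⟩

lemma Wg_mul (C : Fin 3) (a b : ℝ) : Wg M C a * Wg M C b = Wg M C (a + b) :=
  Subtype.ext (Us_mul M C a b)

lemma Wg_zero (C : Fin 3) : Wg M C 0 = 1 := Subtype.ext (Us_zero M C)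

lemma conj_T (C A : Fin 3) (a : ℝ) : Us M C a * M.T A * (Us M C a).conjTranspose =
    (Real.cos (2 * a) : ℂ) • M.T A - ((Real.sqrt 2 / 2 * Real.sin (2 * a) : ℝ) : ℂ) •
      (∑ B, (M.f C A B : ℂ) • M.T B) +
      ((1 - Real.cos (2 * a) : ℝ) : ℂ) • (if A = C then M.T C else 0) := by
  rw [Us_star]
  have hI := Complex.I_mul_I
  have hs := sqrt2_sq
  have hcomm : M.T C * M.T A - M.T A * M.T C = Complex.I • ∑ B, (M.f C A B : ℂ) • M.T B := by
    rw [M.T_comm, Finset.smul_sum]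
    simp only [smul_smul]
  have hcos : (Real.cos (2 * a) : ℂ) = (Real.cos a : ℂ) ^ 2 - (Real.sin a : ℂ) ^ 2 := by
    rw [Real.cos_two_mul']; push_cast; ring
  have hcs : (Real.cos a : ℂ) ^ 2 + (Real.sin a : ℂ) ^ 2 = 1 := by
    have := Real.sin_sq_add_cos_sq a
    rw [add_comm] at this
    exact_mod_cast this
  have hsin : (Real.sin (2 * a) : ℂ) = 2 * (Real.sin a : ℂ) * (Real.cos a : ℂ) := by
    rw [Real.sin_two_mul]; push_cast; ring
  have e1 : Us M C a * M.T A * Us M C (-a) = ((Real.cos a : ℂ) ^ 2) • M.T A +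
      ((Real.cos a : ℂ) * (Complex.I * (Real.sqrt 2 : ℂ) * (Real.sin a : ℂ))) •
        (M.T C * M.T A - M.T A * M.T C) + (2 * (Real.sin a : ℂ) ^ 2) • (M.T C * M.T A * M.T C) := by
    simp only [Us, add_mul, mul_add, Matrix.smul_mul, Matrix.mul_smul, one_mul, mul_one,
      Real.cos_neg, Real.sin_neg, smul_smul, smul_sub]
    have hz : Complex.I * (Real.sqrt 2 : ℂ) * ((-Real.sin a : ℝ) : ℂ) *
        (Complex.I * (Real.sqrt 2 : ℂ) * (Real.sin a : ℂ)) = 2 * (Real.sin a : ℂ) ^ 2 := by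
      push_cast
      linear_combination -(Complex.sin a) ^ 2 * (Real.sqrt 2 : ℂ) *
        (Real.sqrt 2 : ℂ) * hI + (Complex.sin a) ^ 2 * hs
    rw [hz]
    push_cast
    module
  rw [e1, hcomm, smul_smul]
  have e2 : (Real.cos a : ℂ) * (Complex.I * (Real.sqrt 2 : ℂ) * (Real.sin a : ℂ)) * Complex.I =
      -((Real.sqrt 2 / 2 * Real.sin (2 * a) : ℝ) : ℂ) := by
    rw [Complex.ofReal_mul, hsin]
    push_cast
    linear_combination (Complex.cos a) * (Real.sqrt 2 : ℂ) * (Complex.sin a) * hI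
  rw [e2]
  by_cases h : A = C
  · subst h
    rw [if_pos rfl]
    have e3 : M.T A * M.T A * M.T A = (1 / 2 : ℂ) • M.T A := by
      rw [T_sq, Matrix.smul_mul, one_mul]
    rw [e3, smul_smul]
    have e4 : ((1 - Real.cos (2 * a) : ℝ) : ℂ) = 1 - (Real.cos (2 * a) : ℂ) := by push_cast; ring
    rw [e4, hcos]
    have e5 : (Real.cos a : ℂ) ^ 2 + 2 * (Real.sin a : ℂ) ^ 2 * (1 / 2) =
        (Real.cos a : ℂ) ^ 2 - (Real.sin a : ℂ) ^ 2 +
        (1 - ((Real.cos a : ℂ) ^ 2 - (Real.sin a : ℂ) ^ 2)) := by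
      linear_combination hcs
    linear_combination (norm := module) e5 • M.T A
  · rw [if_neg h]
    have e3 : M.T C * M.T A * M.T C = -((1 / 2 : ℂ) • M.T A) := by
      rw [mul_assoc, T_swap M h, mul_neg, ← mul_assoc, T_sq, Matrix.smul_mul, one_mul]
    rw [e3, hcos]
    module

/-- matrix elements of the adjoint action of `Wg` -/
noncomputable def aco (C B A : Fin 3) (a : ℝ) : ℝ :=
  Real.cos (2 * a) * (if A = B then 1 else 0) - Real.sqrt 2 / 2 * Real.sin (2 * a) * M.f C A B +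
    (1 - Real.cos (2 * a)) * (if A = C ∧ B = C then 1 else 0)

lemma adCoeff_Wg (C B A : Fin 3) (a : ℝ) : adCoeff M.T (Wg M C a) B A = aco M C B A a := by
  have h1 : ((Wg M C a : Matrix.specialUnitaryGroup (Fin 2) ℂ) : Matrix (Fin 2) (Fin 2) ℂ) =
      Us M C a := rfl
  rw [adCoeff, h1, conj_T]
  have h2 : (M.T B * ((Real.cos (2 * a) : ℂ) • M.T A -
      ((Real.sqrt 2 / 2 * Real.sin (2 * a) : ℝ) : ℂ) • (∑ B, (M.f C A B : ℂ) • M.T B) +
      ((1 - Real.cos (2 * a) : ℝ) : ℂ) • (if A = C then M.T C else 0))).trace =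
      ((aco M C B A a : ℝ) : ℂ) := by
    have t1 : ∀ D, (M.T B * M.T D).trace = if B = D then 1 else 0 := M.T_orthonormal B
    simp only [mul_add, mul_sub, Matrix.mul_smul, Finset.mul_sum, Matrix.trace_add,
      Matrix.trace_sub, Matrix.trace_smul, Matrix.trace_sum, t1, smul_eq_mul, mul_ite, mul_one,
      mul_zero, Finset.sum_ite_eq, Finset.mem_univ, if_true]
    have t2 : (if A = C then M.T B * M.T C else 0).trace = if A = C ∧ B = C then 1 else 0 := by
      by_cases h : A = C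
      · simp only [h, if_true, true_and, t1]
      · simp [h]
    rw [aco, t2]
    have t3 : (if B = A then (Real.cos (2 * a) : ℂ) else 0) =
        (Real.cos (2 * a) : ℂ) * ((if A = B then (1 : ℝ) else 0 : ℝ) : ℂ) := by
      by_cases h : A = B
      · simp [h]
      · simp [h, Ne.symm h]
    have t4 : (if A = C ∧ B = C then (1 : ℂ) else 0) =
        ((if A = C ∧ B = C then (1 : ℝ) else 0 : ℝ) : ℂ) := by
      by_cases h : A = C ∧ B = C <;> simp [h]
    rw [t3, t4]
    push_cast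
    ring
  rw [h2, Complex.ofReal_re]

/-! ### the action on the Fock space -/

section Fock

/-- the generator `Z_C = (1/2) f_{CDE} θ_{αD} θ_{αE}` -/
noncomputable def Zg (C : Fin 3) : F →L[ℂ] F :=
  (1 / 2 : ℂ) • ∑ α, ∑ D, ∑ E, (M.f C D E : ℂ) • (M.θ α D * M.θ α E)

lemma Zg_comm (C : Fin 3) (α : Fin 16) (A : Fin 3) :
    Zg M C * M.θ α A - M.θ α A * Zg M C = -∑ B, (M.f C A B : ℂ) • M.θ α B := by
  have h1 : ∀ β D E, M.θ β D * M.θ β E * M.θ α A - M.θ α A * (M.θ β D * M.θ β E) =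
      (if β = α ∧ E = A then M.θ β D else 0) - (if α = β ∧ A = D then M.θ β E else 0) := by
    intro β D E
    have e1 := M.θ_anticomm β E α A
    have e2 := M.θ_anticomm α A β D
    have e3 : M.θ β D * M.θ β E * M.θ α A - M.θ α A * (M.θ β D * M.θ β E) =
        M.θ β D * (M.θ β E * M.θ α A + M.θ α A * M.θ β E) -
        (M.θ α A * M.θ β D + M.θ β D * M.θ α A) * M.θ β E := by noncomm_ring
    rw [e3, e1, e2]
    simp only [mul_ite, ite_mul, mul_one, one_mul, mul_zero, zero_mul]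
  have h2 : Zg M C * M.θ α A - M.θ α A * Zg M C = (1 / 2 : ℂ) • ∑ β, ∑ D, ∑ E, (M.f C D E : ℂ) •
      ((if β = α ∧ E = A then M.θ β D else 0) - (if α = β ∧ A = D then M.θ β E else 0)) := by
    simp only [← h1, Zg, smul_mul_assoc, mul_smul_comm, Finset.sum_mul, Finset.mul_sum,
      ← smul_sub, ← Finset.sum_sub_distrib]
  rw [h2]
  have h3 : ∀ β, ∑ D, ∑ E, (M.f C D E : ℂ) •
      ((if β = α ∧ E = A then M.θ β D else 0) - (if α = β ∧ A = D then M.θ β E else 0)) =
      if β = α then -((2 : ℂ) • ∑ B, (M.f C A B : ℂ) • M.θ α B) else 0 := by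
    intro β
    by_cases hb : β = α
    · subst hb
      simp only [true_and, if_true, smul_sub, Finset.sum_sub_distrib, smul_ite, smul_zero,
        Finset.sum_ite_eq', Finset.mem_univ]
      have a1 : ∑ D, ∑ E, (if A = D then (M.f C D E : ℂ) • M.θ β E else 0) =
          ∑ E, (M.f C A E : ℂ) • M.θ β E := by
        rw [Finset.sum_comm]
        refine Finset.sum_congr rfl fun E _ => ?_
        simp
      rw [a1]
      have a2 : ∑ D, (M.f C D A : ℂ) • M.θ β D = -∑ D, (M.f C A D : ℂ) • M.θ β D := by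
        rw [← Finset.sum_neg_distrib]
        refine Finset.sum_congr rfl fun D _ => ?_
        have : M.f C D A = - M.f C A D := by
          rw [f_cyc M C D A, f_cyc M C A D, f_swap M D A C]
        rw [this]
        push_cast
        rw [neg_smul]
      rw [a2, two_smul]
      abel
    · have hb' : ¬ α = β := fun h => hb h.symm
      simp [hb, hb']
  simp only [h3, Finset.sum_ite_eq', Finset.mem_univ, if_true]
  rw [smul_neg, smul_smul]
  norm_num

variable [CompleteSpace F]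

/-- `exp (√2 a Z_C)` -/
noncomputable def Eg (C : Fin 3) (a : ℝ) : F →L[ℂ] F :=
  NormedSpace.exp ((a : ℂ) • ((Real.sqrt 2 : ℂ) • Zg M C))

lemma hasDerivAt_Eg (C : Fin 3) (a : ℝ) :
    HasDerivAt (Eg M C) (((Real.sqrt 2 : ℂ) • Zg M C) * Eg M C a) a := by
  have h1 := hasDerivAt_exp_smul_const' (𝕂 := ℂ) ((Real.sqrt 2 : ℂ) • Zg M C) (a : ℂ)
  have h2 : HasDerivAt (fun s : ℝ => (s : ℂ)) 1 a := Complex.ofRealCLM.hasDerivAt
  have h3 := HasDerivAt.scomp a h1 h2
  rw [one_smul] at h3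
  exact h3

lemma Eg_zero (C : Fin 3) : Eg M C 0 = 1 := by
  simp [Eg]

lemma Eg_add (C : Fin 3) (s t : ℝ) : Eg M C (s + t) = Eg M C s * Eg M C t := by
  unfold Eg
  let _ : NormedAlgebra ℚ (F →L[ℂ] F) := NormedAlgebra.restrictScalars ℚ ℂ _
  rw [← NormedSpace.exp_add_of_commute, ← add_smul]
  · push_cast; rfl
  · exact ((Commute.refl _).smul_left _).smul_right _

lemma Eg_comm (C : Fin 3) (a : ℝ) : ((Real.sqrt 2 : ℂ) • Zg M C) * Eg M C a =
    Eg M C a * ((Real.sqrt 2 : ℂ) • Zg M C) := by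
  have h : Commute ((Real.sqrt 2 : ℂ) • Zg M C)
      (NormedSpace.exp ((a : ℂ) • ((Real.sqrt 2 : ℂ) • Zg M C))) := by
    apply Commute.exp_right
    exact (Commute.refl _).smul_right _
  exact h

lemma hasDerivAt_Eg_neg (C : Fin 3) (a : ℝ) :
    HasDerivAt (fun s => Eg M C (-s)) (-(((Real.sqrt 2 : ℂ) • Zg M C) * Eg M C (-a))) a := by
  have h := HasDerivAt.scomp a (hasDerivAt_Eg M C (-a)) (hasDerivAt_neg a)
  rw [neg_one_smul] at h
  exact h

/-- rotated generator -/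
noncomputable def Xg (C : Fin 3) (α : Fin 16) (A : Fin 3) (a : ℝ) : F →L[ℂ] F :=
  ∑ B, ((aco M C B A a : ℝ) : ℂ) • M.θ α B

omit [CompleteSpace F] in
lemma ff_contr (C A D : Fin 3) : ∑ B, M.f C A B * M.f C B D =
    -2 * ((if A = D then 1 else 0) - (if A = C ∧ D = C then 1 else 0)) := by
  have h2 := f_sq M
  have e := f_eq_eps M
  have h : ∀ C A D : Fin 3, ∑ B, eps C A B * eps C B D =
      -((if A = D then 1 else 0) - (if A = C ∧ D = C then 1 else 0)) := by decide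
  have h' : ∑ B, M.f C A B * M.f C B D = M.f 0 1 2 ^ 2 * ((∑ B, eps C A B * eps C B D : ℤ) : ℝ) := by
    push_cast
    rw [Finset.mul_sum]
    refine Finset.sum_congr rfl fun B _ => ?_
    rw [e C A B, e C B D]
    ring
  rw [h', h, h2]
  push_cast
  ring

omit [CompleteSpace F] in
lemma hasDerivAt_aco (C B A : Fin 3) (a : ℝ) : HasDerivAt (aco M C B A)
    (-(Real.sqrt 2 * ∑ D, aco M C D A a * M.f C D B)) a := by
  have h1 : HasDerivAt (fun s : ℝ => 2 * s) 2 a := by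
    simpa using (hasDerivAt_id a).const_mul 2
  have h2 : HasDerivAt (aco M C B A) ((-Real.sin (2 * a) * 2) * (if A = B then 1 else 0) -
      Real.sqrt 2 / 2 * (Real.cos (2 * a) * 2) * M.f C A B +
      (0 - (-Real.sin (2 * a) * 2)) * (if A = C ∧ B = C then 1 else 0)) a := by
    unfold aco
    exact (((h1.cos).mul_const _).sub (((h1.sin).const_mul _).mul_const _)).add
      (((hasDerivAt_const a (1 : ℝ)).sub h1.cos).mul_const _)
  refine h2.congr_deriv ?_
  have h3 : ∑ D, aco M C D A a * M.f C D B = Real.cos (2 * a) * M.f C A B -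
      Real.sqrt 2 / 2 * Real.sin (2 * a) * ∑ D, M.f C A D * M.f C D B := by
    simp only [aco, add_mul, sub_mul, Finset.sum_add_distrib, Finset.sum_sub_distrib]
    have b1 : ∑ D, Real.cos (2 * a) * (if A = D then 1 else 0) * M.f C D B =
        Real.cos (2 * a) * M.f C A B := by
      rw [Finset.sum_eq_single A]
      · simp
      · intro D _ hD; simp [Ne.symm hD]
      · intro h; exact absurd (Finset.mem_univ _) h
    have b2 : ∑ D, (1 * (if A = C ∧ D = C then (1 : ℝ) else 0) * M.f C D B -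
        Real.cos (2 * a) * (if A = C ∧ D = C then 1 else 0) * M.f C D B) = 0 := by
      refine Finset.sum_eq_zero fun D _ => ?_
      by_cases h : A = C ∧ D = C
      · have : M.f C D B = 0 := by
          rw [h.2]
          have := f_swap M C C B
          linarith
        rw [this]; ring
      · simp [h]
    have b3 : ∑ D, Real.sqrt 2 / 2 * Real.sin (2 * a) * M.f C A D * M.f C D B =
        Real.sqrt 2 / 2 * Real.sin (2 * a) * ∑ D, M.f C A D * M.f C D B := by
      rw [Finset.mul_sum]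
      refine Finset.sum_congr rfl fun D _ => ?_
      ring
    simp only [Finset.sum_sub_distrib] at b2
    rw [b1, b3]
    linarith [b2]
  rw [h3, ff_contr]
  have hs : Real.sqrt 2 * Real.sqrt 2 = 2 := Real.mul_self_sqrt (by norm_num)
  linear_combination (Real.sin (2 * a)) * ((if A = B then (1 : ℝ) else 0) -
    (if A = C ∧ B = C then 1 else 0)) * hs

lemma Xg_Eg (C : Fin 3) (α : Fin 16) (A : Fin 3) (a : ℝ) :
    Eg M C (-a) * Xg M C α A a * Eg M C a = M.θ α A := by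
  have hX : ∀ s, HasDerivAt (Xg M C α A) (Xg M C α A s * (-((Real.sqrt 2 : ℂ) • Zg M C)) -
      (-((Real.sqrt 2 : ℂ) • Zg M C)) * Xg M C α A s) s := by
    intro s
    have h1 : HasDerivAt (Xg M C α A) (∑ B, (-(Real.sqrt 2 * ∑ D, aco M C D A s * M.f C D B)) •
        M.θ α B) s := by
      have e : Xg M C α A = fun a => ∑ B, (aco M C B A a) • M.θ α B := by
        ext1 a
        simp only [Xg, Complex.coe_smul]
      rw [e]
      exact HasDerivAt.fun_sum fun B _ => (hasDerivAt_aco M C B A s).smul_const (M.θ α B)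
    refine h1.congr_deriv ?_
    have h2 : Xg M C α A s * (-((Real.sqrt 2 : ℂ) • Zg M C)) -
        (-((Real.sqrt 2 : ℂ) • Zg M C)) * Xg M C α A s =
        (Real.sqrt 2 : ℂ) • ∑ D, ((aco M C D A s : ℝ) : ℂ) • (Zg M C * M.θ α D - M.θ α D * Zg M C) := by
      simp only [Xg, mul_neg, neg_mul, Finset.sum_mul, Finset.mul_sum,
        smul_mul_assoc, mul_smul_comm, smul_sub, Finset.sum_sub_distrib, Finset.smul_sum]
      simp only [smul_neg, Finset.sum_neg_distrib, sub_neg_eq_add]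
      rw [neg_add_eq_sub]
      congr 1
      refine Finset.sum_congr rfl fun D _ => ?_
      rw [smul_comm]
    rw [h2]
    simp only [Zg_comm, smul_neg, Finset.sum_neg_distrib, Finset.smul_sum, smul_smul]
    rw [Finset.sum_comm, ← Finset.sum_neg_distrib]
    refine Finset.sum_congr rfl fun B _ => ?_
    rw [← Finset.sum_smul, ← neg_smul, ← Complex.coe_smul]
    congr 1
    push_cast
    rw [Finset.mul_sum]
  have hφ : ∀ s, HasDerivAt (fun s => Eg M C (-s) * Xg M C α A s * Eg M C s) 0 s := by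
    intro s
    refine hasDerivAt_conj_zero (-((Real.sqrt 2 : ℂ) • Zg M C)) ?_ (hX s) ?_ ?_ rfl
    · have := hasDerivAt_Eg_neg M C s
      rwa [← neg_mul] at this
    · have := hasDerivAt_Eg M C s
      rwa [neg_mul, neg_neg]
    · rw [neg_mul, mul_neg, Eg_comm]
  have hconst := is_const_of_deriv_eq_zero (fun s => (hφ s).differentiableAt)
    (fun s => (hφ s).deriv) a 0
  simp only [neg_zero, Eg_zero, mul_one, one_mul] at hconst
  rw [hconst]
  have h0 : ∀ B, aco M C B A 0 = if A = B then 1 else 0 := by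
    intro B; simp [aco]
  simp only [Xg, h0]
  rw [Finset.sum_eq_single A]
  · simp
  · intro B _ hB; simp [Ne.symm hB]
  · intro h; exact absurd (Finset.mem_univ _) h

lemma Eg_neg_mul (C : Fin 3) (a : ℝ) : Eg M C (-a) * Eg M C a = 1 := by
  rw [← Eg_add, neg_add_cancel, Eg_zero]

lemma Eg_mul_neg (C : Fin 3) (a : ℝ) : Eg M C a * Eg M C (-a) = 1 := by
  rw [← Eg_add, add_neg_cancel, Eg_zero]

omit [CompleteSpace F] in
/-- Schur's lemma -/
lemma schur [FiniteDimensional ℂ F] (K : F →L[ℂ] F) (hK : ∀ α A, K * M.θ α A = M.θ α A * K) :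
    ∃ μ : ℂ, K = μ • (1 : F →L[ℂ] F) := by
  have : Nontrivial F := by
    obtain ⟨v, hv⟩ := M.nontrivial
    exact ⟨v, 0, hv⟩
  obtain ⟨μ, hμ⟩ := Module.End.exists_eigenvalue (K : F →ₗ[ℂ] F)
  refine ⟨μ, ?_⟩
  have hinv : ∀ α A, ∀ v ∈ Module.End.eigenspace (K : F →ₗ[ℂ] F) μ,
      M.θ α A v ∈ Module.End.eigenspace (K : F →ₗ[ℂ] F) μ := by
    intro α A v hv
    rw [Module.End.mem_eigenspace_iff] at hv ⊢
    have h1 := congrArg (fun T : F →L[ℂ] F => T v) (hK α A)
    simp only [mul_apply_eq_comp] at h1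
    have hv' : K v = μ • v := hv
    change K (M.θ α A v) = μ • M.θ α A v
    rw [h1, hv', map_smul]
  rcases M.θ_irreducible _ hinv with h | h
  · exact absurd h hμ
  · ext v
    have hv : v ∈ Module.End.eigenspace (K : F →ₗ[ℂ] F) μ := by rw [h]; trivial
    rw [Module.End.mem_eigenspace_iff] at hv
    exact hv

omit [CompleteSpace F] in
lemma S_mul_theta (C : Fin 3) (a : ℝ) (α : Fin 16) (A : Fin 3) :
    M.S (Wg M C a) * M.θ α A = Xg M C α A a * M.S (Wg M C a) := by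
  rw [M.S_rotates]
  simp only [Xg, adCoeff_Wg, Finset.sum_mul, smul_mul_assoc]

lemma exists_lambda [FiniteDimensional ℂ F] (C : Fin 3) (a : ℝ) :
    ∃ μ : ℂ, M.S (Wg M C a) = μ • Eg M C a := by
  obtain ⟨μ, hμ⟩ := schur M (Eg M C (-a) * M.S (Wg M C a)) (by
    intro α A
    rw [mul_assoc, S_mul_theta, ← mul_assoc]
    have h := Xg_Eg M C α A a
    have h2 : Eg M C (-a) * Xg M C α A a = M.θ α A * Eg M C (-a) := by
      calc Eg M C (-a) * Xg M C α A a = Eg M C (-a) * Xg M C α A a * (Eg M C a * Eg M C (-a)) := by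
            rw [Eg_mul_neg, mul_one]
        _ = (Eg M C (-a) * Xg M C α A a * Eg M C a) * Eg M C (-a) := by
            simp only [mul_assoc]
        _ = _ := by rw [h]
    rw [h2, mul_assoc])
  refine ⟨μ, ?_⟩
  calc M.S (Wg M C a) = (Eg M C a * Eg M C (-a)) * M.S (Wg M C a) := by
        rw [Eg_mul_neg, one_mul]
    _ = Eg M C a * (Eg M C (-a) * M.S (Wg M C a)) := by rw [mul_assoc]
    _ = μ • Eg M C a := by rw [hμ, mul_smul_comm, mul_one]

lemma Eg_ne_zero [Nontrivial F] (C : Fin 3) (a : ℝ) : Eg M C a ≠ 0 := by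
  intro h
  have h1 := Eg_neg_mul M C a
  rw [h, mul_zero] at h1
  obtain ⟨v, hv⟩ := exists_ne (0 : F)
  have h2 := congrArg (fun T : F →L[ℂ] F => T v) h1
  simp only [_root_.zero_apply, one_apply_eq_self] at h2
  exact hv h2.symm

/-- an operator that anticommutes with the generator -/
lemma Eg_anti (C : Fin 3) (K : F →L[ℂ] F) (hK : K * Zg M C = -(Zg M C * K)) (a : ℝ) :
    K * Eg M C a = Eg M C (-a) * K := by
  have hφ : ∀ s, HasDerivAt (fun s => Eg M C s * (K * Eg M C s)) 0 s := by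
    intro s
    have h1 := hasDerivAt_Eg M C s
    have h2 : HasDerivAt (fun s => K * Eg M C s) (K * (((Real.sqrt 2 : ℂ) • Zg M C) * Eg M C s)) s := by
      have := hasDerivAt_mul_op (hasDerivAt_const s K) h1
      simpa using this
    have h3 := hasDerivAt_mul_op h1 h2
    refine h3.congr_deriv ?_
    have e1 : K * ((Real.sqrt 2 : ℂ) • Zg M C) = -(((Real.sqrt 2 : ℂ) • Zg M C) * K) := by
      rw [mul_smul_comm, hK, smul_neg, smul_mul_assoc]
    have e2 : Eg M C s * (K * (((Real.sqrt 2 : ℂ) • Zg M C) * Eg M C s)) =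
        -((Eg M C s * ((Real.sqrt 2 : ℂ) • Zg M C)) * (K * Eg M C s)) := by
      rw [← mul_assoc K, e1]
      noncomm_ring
    rw [e2, ← Eg_comm]
    abel
  have hconst := is_const_of_deriv_eq_zero (fun s => (hφ s).differentiableAt)
    (fun s => (hφ s).deriv) a 0
  simp only [Eg_zero, mul_one, one_mul] at hconst
  calc K * Eg M C a = (Eg M C (-a) * Eg M C a) * (K * Eg M C a) := by rw [Eg_neg_mul, one_mul]
    _ = Eg M C (-a) * (Eg M C a * (K * Eg M C a)) := by rw [mul_assoc]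
    _ = _ := by rw [hconst]

omit [CompleteSpace F] in
lemma S_Zg_anti {C A : Fin 3} (h : A ≠ C) :
    M.S (Wg M A (Real.pi / 2)) * Zg M C = -(Zg M C * M.S (Wg M A (Real.pi / 2))) := by
  have ha : ∀ D B, aco M A B D (Real.pi / 2) = if D = B then (if D = A then 1 else -1) else 0 := by
    intro D B
    have : 2 * (Real.pi / 2) = Real.pi := by ring
    rw [aco, this, Real.cos_pi, Real.sin_pi]
    by_cases h1 : D = B
    · subst h1
      by_cases h2 : D = A
      · simp [h2]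
      · simp [h2]
    · have : ¬ (D = A ∧ B = A) := fun h => h1 (h.1.trans h.2.symm)
      simp [h1, this]
  have hθ : ∀ α D, M.S (Wg M A (Real.pi / 2)) * M.θ α D =
      (if D = A then (1 : ℂ) else -1) • (M.θ α D * M.S (Wg M A (Real.pi / 2))) := by
    intro α D
    rw [M.S_rotates]
    simp only [adCoeff_Wg, ha]
    rw [Finset.sum_eq_single D]
    · by_cases h2 : D = A <;> simp [h2]
    · intro B _ hB; simp [Ne.symm hB]
    · intro h; exact absurd (Finset.mem_univ _) h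
  have hθθ : ∀ α D E, M.S (Wg M A (Real.pi / 2)) * (M.θ α D * M.θ α E) =
      ((if D = A then (1 : ℂ) else -1) * (if E = A then (1 : ℂ) else -1)) •
        ((M.θ α D * M.θ α E) * M.S (Wg M A (Real.pi / 2))) := by
    intro α D E
    rw [← mul_assoc, hθ, smul_mul_assoc, mul_assoc, hθ, mul_smul_comm, smul_smul, mul_assoc]
  have hf : ∀ D E, (M.f C D E : ℂ) * ((if D = A then (1 : ℂ) else -1) * (if E = A then (1 : ℂ) else -1)) =
      -(M.f C D E : ℂ) := by
    intro D E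
    rw [f_eq_eps M C D E]
    have hz : ∀ C A D E : Fin 3, A ≠ C → eps C D E * ((if D = A then 1 else -1) *
        (if E = A then 1 else -1)) = -eps C D E := by decide
    have h1 := hz C A D E h
    have h2 : ((eps C D E : ℤ) : ℂ) * ((if D = A then (1 : ℂ) else -1) * (if E = A then (1 : ℂ) else -1)) =
        -((eps C D E : ℤ) : ℂ) := by exact_mod_cast h1
    push_cast
    linear_combination (M.f 0 1 2 : ℂ) * h2
  simp only [Zg, mul_smul_comm, smul_mul_assoc, Finset.mul_sum, Finset.sum_mul, hθθ, smul_smul, hf]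
  simp only [neg_smul, Finset.sum_neg_distrib, smul_neg]

omit [CompleteSpace F] in
lemma U0_conj {C A : Fin 3} (h : A ≠ C) (a : ℝ) :
    Wg M A (Real.pi / 2) * Wg M C a = Wg M C (-a) * Wg M A (Real.pi / 2) := by
  apply Subtype.ext
  change Us M A (Real.pi / 2) * Us M C a = Us M C (-a) * Us M A (Real.pi / 2)
  simp only [Us, Real.cos_pi_div_two, Real.sin_pi_div_two, Real.cos_neg, Real.sin_neg, add_mul,
    mul_add, Matrix.smul_mul, Matrix.mul_smul, one_mul, mul_one, T_swap M h, smul_neg]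
  push_cast
  module

theorem S_Wg [FiniteDimensional ℂ F] (C : Fin 3) (a : ℝ) : M.S (Wg M C a) = Eg M C a := by
  have hnt : Nontrivial F := by
    obtain ⟨v, hv⟩ := M.nontrivial
    exact ⟨v, 0, hv⟩
  choose lam hlam using fun a => exists_lambda M C a
  have hcancel : ∀ (x y : ℂ) (b : ℝ), x • Eg M C b = y • Eg M C b → x = y := by
    intro x y b hxy
    have h1 : (x - y) • Eg M C b = 0 := by rw [sub_smul, hxy, sub_self]
    rcases smul_eq_zero.mp h1 with h | h
    · exact sub_eq_zero.mp h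
    · exact absurd h (Eg_ne_zero M C b)
  have hmul : ∀ a b, lam (a + b) = lam a * lam b := by
    intro a b
    apply hcancel _ _ (a + b)
    rw [← hlam, ← Wg_mul, map_mul, hlam, hlam, smul_mul_smul_comm, ← Eg_add]
  have h0 : lam 0 = 1 := by
    apply hcancel _ _ 0
    rw [← hlam, Wg_zero, map_one, Eg_zero, one_smul]
  obtain ⟨A, hA⟩ : ∃ A : Fin 3, A ≠ C := exists_ne C
  have hsym : ∀ a, lam a = lam (-a) := by
    intro a
    have h1 : M.S (Wg M A (Real.pi / 2)) * M.S (Wg M C a) =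
        M.S (Wg M C (-a)) * M.S (Wg M A (Real.pi / 2)) := by
      rw [← map_mul, U0_conj M hA, map_mul]
    rw [hlam a, hlam (-a), mul_smul_comm, smul_mul_assoc,
      Eg_anti M C _ (S_Zg_anti M hA)] at h1
    -- cancel the invertible operator on the right
    have h2 : M.S (Wg M A (Real.pi / 2)) * M.S (Wg M A (-(Real.pi / 2))) = 1 := by
      rw [← map_mul, Wg_mul, add_neg_cancel, Wg_zero, map_one]
    have h3 := congrArg (fun T => T * M.S (Wg M A (-(Real.pi / 2)))) h1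
    simp only [smul_mul_assoc, mul_assoc, h2, mul_one] at h3
    exact hcancel _ _ _ h3
  have hsq : ∀ a, lam a * lam a = 1 := by
    intro a
    nth_rewrite 2 [hsym a]
    rw [← hmul, add_neg_cancel, h0]
  have h1 : lam a = 1 := by
    have := hmul (a / 2) (a / 2)
    rw [add_halves] at this
    rw [this, hsq]
  rw [hlam, h1, one_smul]

end Fock

/-! ### the Gauss law -/

/-- the tangent vector of the gauge orbit -/
noncomputable def orb (C : Fin 3) (x : Cfg 3) : Cfg 3 :=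
  WithLp.toLp 2 fun p => ∑ A, M.f C A p.2 * x (p.1, A)

noncomputable def orb2 (C : Fin 3) (x : Cfg 3) : Cfg 3 :=
  WithLp.toLp 2 fun p => if p.2 = C then x (p.1, C) else 0

lemma act_Wg (C : Fin 3) (a : ℝ) (x : Cfg 3) : M.act (Wg M C a) x =
    Real.cos (2 * a) • x - (Real.sqrt 2 / 2 * Real.sin (2 * a)) • orb M C x +
      (1 - Real.cos (2 * a)) • orb2 C x := by
  ext ⟨i, B⟩
  simp only [Model.act, orb, orb2, adCoeff_Wg, aco, WithLp.ofLp_add, WithLp.ofLp_sub,
    WithLp.ofLp_smul, Pi.add_apply, Pi.sub_apply, Pi.smul_apply, smul_eq_mul, add_mul, sub_mul,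
    Finset.sum_add_distrib, Finset.sum_sub_distrib]
  have b1 : ∑ A, Real.cos (2 * a) * (if A = B then 1 else 0) * x (i, A) =
      Real.cos (2 * a) * x (i, B) := by
    rw [Finset.sum_eq_single B]
    · simp
    · intro D _ hD; simp [hD]
    · intro h; exact absurd (Finset.mem_univ _) h
  have b2 : ∀ c : ℝ, ∑ A, c * (if A = C ∧ B = C then 1 else 0) * x (i, A) =
      c * (if B = C then x (i, C) else 0) := by
    intro c
    rw [Finset.sum_eq_single C]
    · by_cases h : B = C <;> simp [h]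
    · intro D _ hD; simp [hD]
    · intro h; exact absurd (Finset.mem_univ _) h
  have b3 : ∑ A, Real.sqrt 2 / 2 * Real.sin (2 * a) * M.f C A B * x (i, A) =
      Real.sqrt 2 / 2 * Real.sin (2 * a) * ∑ A, M.f C A B * x (i, A) := by
    rw [Finset.mul_sum]
    refine Finset.sum_congr rfl fun D _ => ?_
    ring
  rw [b1, b2, b2, b3]

theorem gauss_law [FiniteDimensional ℂ F] (u : Cfg 3 → F) (hu : M.IsCore u)
    (C : Fin 3) (x : Cfg 3) :
    ∑ A, ∑ B, ∑ i, ((M.f C A B * x (i, A) : ℝ) : ℂ) • pd i B u x +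
      ∑ A, ∑ B, ∑ α, ((M.f C A B / 2 : ℝ) : ℂ) • M.θ α A (M.θ α B (u x)) = 0 := by
  have : CompleteSpace F := FiniteDimensional.complete ℂ F
  obtain ⟨hsm, -, hinv⟩ := hu
  have hud : HasFDerivAt u (fderiv ℝ u x) x := (hsm.differentiable (by simp) x).hasFDerivAt
  -- left side derivative
  have h1 : HasDerivAt (fun a : ℝ => 2 * a) 2 0 := by
    simpa using (hasDerivAt_id (0 : ℝ)).const_mul 2
  have hact : HasDerivAt (fun a => M.act (Wg M C a) x) (-(Real.sqrt 2) • orb M C x) 0 := by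
    have e : (fun a => M.act (Wg M C a) x) = fun a => Real.cos (2 * a) • x -
        (Real.sqrt 2 / 2 * Real.sin (2 * a)) • orb M C x + (1 - Real.cos (2 * a)) • orb2 C x := by
      funext a; exact act_Wg M C a x
    rw [e]
    have h2 := (((h1.cos).smul_const x).sub ((h1.sin.const_mul (Real.sqrt 2 / 2)).smul_const
      (orb M C x))).add (((hasDerivAt_const (0 : ℝ) (1 : ℝ)).sub h1.cos).smul_const (orb2 C x))
    refine h2.congr_deriv ?_
    simp
  have hx0 : M.act (Wg M C 0) x = x := by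
    rw [act_Wg]; simp
  have hL : HasDerivAt (fun a => u (M.act (Wg M C a) x))
      (fderiv ℝ u x (-(Real.sqrt 2) • orb M C x)) 0 := by
    have h2 : HasFDerivAt u (fderiv ℝ u x) (M.act (Wg M C 0) x) := by rw [hx0]; exact hud
    exact h2.comp_hasDerivAt (0 : ℝ) hact
  have hR : HasDerivAt (fun a => u (M.act (Wg M C a) x))
      (((Real.sqrt 2 : ℂ) • Zg M C) (u x)) 0 := by
    have e : (fun a => u (M.act (Wg M C a) x)) = fun a => Eg M C a (u x) := by
      funext a
      rw [hinv, S_Wg]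
    rw [e]
    have h2 := hasDerivAt_Eg M C 0
    rw [Eg_zero, mul_one] at h2
    exact ((ContinuousLinearMap.apply ℂ F (u x)).restrictScalars ℝ).hasFDerivAt.comp_hasDerivAt 0 h2
  have h3 := hL.unique hR
  have horb : orb M C x = ∑ i, ∑ B, (∑ A, M.f C A B * x (i, A)) •
      (EuclideanSpace.single (i, B) (1 : ℝ) : Cfg 3) := by
    ext ⟨i', B'⟩
    simp only [orb, WithLp.ofLp_sum, Finset.sum_apply, WithLp.ofLp_smul, Pi.smul_apply,
      PiLp.single_apply, Prod.mk.injEq, smul_eq_mul, mul_ite, mul_one, mul_zero]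
    symm
    rw [Finset.sum_eq_single i', Finset.sum_eq_single B']
    · simp
    · intro C _ hC; simp [Ne.symm hC]
    · intro h; exact absurd (Finset.mem_univ _) h
    · intro j _ hj
      refine Finset.sum_eq_zero fun C _ => ?_
      simp [Ne.symm hj]
    · intro h; exact absurd (Finset.mem_univ _) h
  have h4 : fderiv ℝ u x (orb M C x) =
      ∑ A, ∑ B, ∑ i, ((M.f C A B * x (i, A) : ℝ) : ℂ) • pd i B u x := by
    rw [horb]
    simp only [map_sum, map_smul, Finset.sum_smul, Complex.coe_smul]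
    calc _ = ∑ i, ∑ A, ∑ B, (M.f C A B * x (i, A)) • fderiv ℝ u x
          (EuclideanSpace.single (i, B) (1 : ℝ)) := by
          refine Finset.sum_congr rfl fun i _ => ?_
          rw [Finset.sum_comm]
      _ = ∑ A, ∑ i, ∑ B, (M.f C A B * x (i, A)) • fderiv ℝ u x
          (EuclideanSpace.single (i, B) (1 : ℝ)) := by rw [Finset.sum_comm]
      _ = _ := by
          refine Finset.sum_congr rfl fun A _ => ?_
          rw [Finset.sum_comm]
          rfl
  have h5 : Zg M C (u x) = ∑ A, ∑ B, ∑ α, ((M.f C A B / 2 : ℝ) : ℂ) • M.θ α A (M.θ α B (u x)) := by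
    simp only [Zg, _root_.smul_apply, _root_.sum_apply, mul_apply_eq_comp, Finset.smul_sum,
      smul_smul]
    calc _ = ∑ D, ∑ α, ∑ E, ((1 / 2 : ℂ) * (M.f C D E : ℂ)) • M.θ α D (M.θ α E (u x)) := by
          rw [Finset.sum_comm]
      _ = _ := by
          refine Finset.sum_congr rfl fun D _ => ?_
          rw [Finset.sum_comm]
          refine Finset.sum_congr rfl fun E _ => Finset.sum_congr rfl fun α _ => ?_
          congr 1
          push_cast
          ring
  rw [← h4, ← h5]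
  rw [map_smul, _root_.smul_apply, neg_smul, ← Complex.coe_smul] at h3
  have h6 : (Real.sqrt 2 : ℂ) • (fderiv ℝ u x (orb M C x) + Zg M C (u x)) = 0 := by
    rw [smul_add, ← h3]; abel
  rcases smul_eq_zero.mp h6 with h | h
  · exfalso
    have : (Real.sqrt 2 : ℝ) = 0 := by exact_mod_cast h
    have h7 : (0 : ℝ) < Real.sqrt 2 := Real.sqrt_pos.mpr (by norm_num)
    linarith
  · exact h

end Vale.Agent.P353
end

section

open Matrix

namespace Vale.Agent.P353

namespace CS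

variable {R : Type*} [Ring R] [Algebra ℂ R] (S : CS R)

/-- `F^A_{pq}` -/
noncomputable def FFc (κ : ℂ) (X : Fin 9 → Fin 3 → ℂ) (A : Fin 3) (p q : Fin 9) : ℂ :=
  κ * ∑ B, ∑ C, (eps A B C : ℂ) * X p B * X q C

/-- `W_β` -/
noncomputable def Wv (κ : ℂ) (X : Fin 9 → Fin 3 → ℂ) (β : Fin 16) : R :=
  (1 / 2 : ℂ) • ∑ A, ∑ p, ∑ q, FFc κ X A p q • S.vec (S.g2 p q) A β

lemma eps_sum0 (f : Fin 3 → Fin 3 → ℂ) :
    ∑ B, ∑ C, (eps 0 B C : ℂ) * f B C = f 1 2 - f 2 1 := by
  have h : eps 0 0 0 = 0 ∧ eps 0 0 1 = 0 ∧ eps 0 0 2 = 0 ∧ eps 0 1 0 = 0 ∧ eps 0 1 1 = 0 ∧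
      eps 0 1 2 = 1 ∧ eps 0 2 0 = 0 ∧ eps 0 2 1 = -1 ∧ eps 0 2 2 = 0 := by decide
  obtain ⟨h1, h2, h3, h4, h5, h6, h7, h8, h9⟩ := h
  simp only [Fin.sum_univ_three, h1, h2, h3, h4, h5, h6, h7, h8, h9]
  push_cast; ring

lemma eps_sum1 (f : Fin 3 → Fin 3 → ℂ) :
    ∑ B, ∑ C, (eps 1 B C : ℂ) * f B C = f 2 0 - f 0 2 := by
  have h : eps 1 0 0 = 0 ∧ eps 1 0 1 = 0 ∧ eps 1 0 2 = -1 ∧ eps 1 1 0 = 0 ∧ eps 1 1 1 = 0 ∧
      eps 1 1 2 = 0 ∧ eps 1 2 0 = 1 ∧ eps 1 2 1 = 0 ∧ eps 1 2 2 = 0 := by decide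
  obtain ⟨h1, h2, h3, h4, h5, h6, h7, h8, h9⟩ := h
  simp only [Fin.sum_univ_three, h1, h2, h3, h4, h5, h6, h7, h8, h9]
  push_cast; ring

lemma eps_sum2 (f : Fin 3 → Fin 3 → ℂ) :
    ∑ B, ∑ C, (eps 2 B C : ℂ) * f B C = f 0 1 - f 1 0 := by
  have h : eps 2 0 0 = 0 ∧ eps 2 0 1 = 1 ∧ eps 2 0 2 = 0 ∧ eps 2 1 0 = -1 ∧ eps 2 1 1 = 0 ∧
      eps 2 1 2 = 0 ∧ eps 2 2 0 = 0 ∧ eps 2 2 1 = 0 ∧ eps 2 2 2 = 0 := by decide
  obtain ⟨h1, h2, h3, h4, h5, h6, h7, h8, h9⟩ := h
  simp only [Fin.sum_univ_three, h1, h2, h3, h4, h5, h6, h7, h8, h9]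
  push_cast; ring

lemma FFc_0 (κ : ℂ) (X : Fin 9 → Fin 3 → ℂ) (p q : Fin 9) :
    FFc κ X 0 p q = κ * (X p 1 * X q 2 - X p 2 * X q 1) := by
  simp only [FFc, mul_assoc, eps_sum0]

lemma FFc_1 (κ : ℂ) (X : Fin 9 → Fin 3 → ℂ) (p q : Fin 9) :
    FFc κ X 1 p q = κ * (X p 2 * X q 0 - X p 0 * X q 2) := by
  simp only [FFc, mul_assoc, eps_sum1]

lemma FFc_2 (κ : ℂ) (X : Fin 9 → Fin 3 → ℂ) (p q : Fin 9) :
    FFc κ X 2 p q = κ * (X p 0 * X q 1 - X p 1 * X q 0) := by
  simp only [FFc, mul_assoc, eps_sum2]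

lemma FFc_antisymm (κ : ℂ) (X : Fin 9 → Fin 3 → ℂ) (A : Fin 3) (p q : Fin 9) :
    FFc κ X A p q = -FFc κ X A q p := by
  fin_cases A
  · simp only [Fin.zero_eta, FFc_0]; ring
  · simp only [Fin.mk_one, FFc_1]; ring
  · simp only [Fin.reduceFinMk, FFc_2]; ring

lemma FFc_cross (κ : ℂ) (X : Fin 9 → Fin 3 → ℂ) (A B : Fin 3) (j p q : Fin 9) :
    FFc κ X A p q * X j B + FFc κ X A q j * X p B + FFc κ X A j p * X q B =
      (if A = B then 1 else 0) * ∑ D, FFc κ X D p q * X j D := by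
  rw [Fin.sum_univ_three]
  fin_cases A <;> fin_cases B <;>
    simp only [Fin.zero_eta, Fin.mk_one, Fin.reduceFinMk, FFc_0, FFc_1, FFc_2, if_true,
      Fin.reduceEq, if_false] <;> ring

lemma FFc_dot (κ : ℂ) (X : Fin 9 → Fin 3 → ℂ) (p j : Fin 9) :
    ∑ D, FFc κ X D p j * X j D = 0 := by
  simp only [Fin.sum_univ_three, FFc_0, FFc_1, FFc_2]; ring

lemma FFc_dot' (κ : ℂ) (X : Fin 9 → Fin 3 → ℂ) (p j : Fin 9) :
    ∑ D, FFc κ X D j p * X j D = 0 := by
  simp only [Fin.sum_univ_three, FFc_0, FFc_1, FFc_2]; ring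

lemma sum_Wv_mul (κ : ℂ) (X : Fin 9 → Fin 3 → ℂ) (Y : Fin 16 → R) :
    ∑ β, S.Wv κ X β * Y β = (1 / 2 : ℂ) • ∑ A, ∑ p, ∑ q, FFc κ X A p q •
      ∑ β, S.vec (S.g2 p q) A β * Y β := by
  simp only [Wv, smul_mul_assoc, Finset.sum_mul, ← Finset.smul_sum]
  congr 1
  rw [Finset.sum_comm]
  refine Finset.sum_congr rfl fun A _ => ?_
  rw [Finset.sum_comm]
  refine Finset.sum_congr rfl fun p _ => ?_
  rw [Finset.sum_comm]
  refine Finset.sum_congr rfl fun q _ => ?_
  rw [Finset.smul_sum]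

lemma sum_mul_Wv (κ : ℂ) (X : Fin 9 → Fin 3 → ℂ) (Y : Fin 16 → R) :
    ∑ β, Y β * S.Wv κ X β = (1 / 2 : ℂ) • ∑ A, ∑ p, ∑ q, FFc κ X A p q •
      ∑ β, Y β * S.vec (S.g2 p q) A β := by
  simp only [Wv, mul_smul_comm, Finset.mul_sum, ← Finset.smul_sum]
  congr 1
  rw [Finset.sum_comm]
  refine Finset.sum_congr rfl fun A _ => ?_
  rw [Finset.sum_comm]
  refine Finset.sum_congr rfl fun p _ => ?_
  rw [Finset.sum_comm]
  refine Finset.sum_congr rfl fun q _ => ?_
  rw [Finset.smul_sum]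

/-- `𝔟 = i B·W` -/
noncomputable def bb (κ : ℂ) (X : Fin 9 → Fin 3 → ℂ) : R :=
  Complex.I • ∑ β, S.Bv X β * S.Wv κ X β

/-- `𝔢` -/
noncomputable def ee (κ : ℂ) (X : Fin 9 → Fin 3 → ℂ) : R :=
  Complex.I • ∑ A, ∑ j, ∑ B, ∑ p, (FFc κ X A p j * X j B) • S.bil (S.g p) B A

lemma bb_eq (κ : ℂ) (X : Fin 9 → Fin 3 → ℂ) :
    S.bb κ X = (Complex.I / 2) • ∑ A, ∑ p, ∑ q, ∑ j, ∑ B, (FFc κ X A p q * X j B) •
      S.bil (S.g j * S.g2 p q) B A := by
  rw [bb, sum_mul_Wv, smul_smul]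
  have : Complex.I * (1 / 2) = Complex.I / 2 := by ring
  rw [this]
  congr 1
  refine Finset.sum_congr rfl fun A _ => Finset.sum_congr rfl fun p _ =>
    Finset.sum_congr rfl fun q _ => ?_
  simp only [Bv, Finset.sum_mul, smul_mul_assoc]
  rw [Finset.sum_comm, Finset.smul_sum]
  refine Finset.sum_congr rfl fun j _ => ?_
  rw [Finset.sum_comm, Finset.smul_sum]
  refine Finset.sum_congr rfl fun B _ => ?_
  rw [← Finset.smul_sum, S.sum_vec_mul_vec, S.g_symm, smul_smul]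

lemma g2_mul_g (p q j : Fin 9) : S.g2 p q * S.g j = S.g j * S.g2 p q +
    (2:ℂ) • ((if q = j then (1:ℂ) else 0) • S.g p - (if p = j then (1:ℂ) else 0) • S.g q) := by
  rw [g2_eq, sub_mul, mul_sub, smul_mul_assoc, one_mul, mul_smul_comm, mul_one]
  have e1 : S.g p * S.g q * S.g j = S.g j * (S.g p * S.g q) +
    (2:ℂ) • ((if q = j then (1:ℂ) else 0) • S.g p - (if p = j then (1:ℂ) else 0) • S.g q) := by
    rw [mul_assoc, S.g_swap q j, mul_sub, ← mul_assoc, S.g_swap p j, sub_mul]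
    simp only [smul_mul_assoc, mul_smul_comm, one_mul, mul_one, mul_assoc]
    by_cases h : q = j <;> by_cases h' : p = j <;> simp [h, h'] <;> module
  rw [e1]
  abel

/-- contraction with the antisymmetric `F_{pq}` -/
lemma FF_contr (κ : ℂ) (X : Fin 9 → Fin 3 → ℂ) (c : ℂ) :
    ∑ A, ∑ p, ∑ q, ∑ j, ∑ B, (FFc κ X A p q * X j B) •
      (c • S.bil ((if q = j then (1:ℂ) else 0) • S.g p -
        (if p = j then (1:ℂ) else 0) • S.g q) B A) =
    (2 * c) • ∑ A, ∑ j, ∑ B, ∑ p, (FFc κ X A p j * X j B) • S.bil (S.g p) B A := by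
  have h1 : ∀ A, ∑ p, ∑ q, ∑ j, ∑ B, (FFc κ X A p q * X j B) •
      (c • S.bil ((if q = j then (1:ℂ) else 0) • S.g p -
        (if p = j then (1:ℂ) else 0) • S.g q) B A) =
      ∑ p, ∑ j, ∑ B, (FFc κ X A p j * X j B * c) • S.bil (S.g p) B A -
      ∑ j, ∑ q, ∑ B, (FFc κ X A j q * X j B * c) • S.bil (S.g q) B A := by
    intro A
    simp only [bil_sub, bil_smul, smul_sub, smul_smul, Finset.sum_sub_distrib]
    refine congrArg₂ HSub.hSub ?_ ?_
    · refine Finset.sum_congr rfl fun p _ => ?_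
      refine Finset.sum_congr rfl fun q _ => ?_
      rw [Finset.sum_comm]
      refine Finset.sum_congr rfl fun B _ => ?_
      simp
    · refine Finset.sum_congr rfl fun p _ => ?_
      refine Finset.sum_congr rfl fun q _ => ?_
      rw [Finset.sum_comm]
      refine Finset.sum_congr rfl fun B _ => ?_
      simp
  simp only [h1, Finset.sum_sub_distrib]
  have h2 : ∑ A, ∑ j, ∑ q, ∑ B, (FFc κ X A j q * X j B * c) • S.bil (S.g q) B A =
      - ∑ A, ∑ p, ∑ j, ∑ B, (FFc κ X A p j * X j B * c) • S.bil (S.g p) B A := by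
    rw [← Finset.sum_neg_distrib]
    refine Finset.sum_congr rfl fun A _ => ?_
    rw [Finset.sum_comm, ← Finset.sum_neg_distrib]
    refine Finset.sum_congr rfl fun p _ => ?_
    rw [← Finset.sum_neg_distrib]
    refine Finset.sum_congr rfl fun j _ => ?_
    rw [← Finset.sum_neg_distrib]
    refine Finset.sum_congr rfl fun B _ => ?_
    rw [FFc_antisymm κ X A j p]
    module
  rw [h2, sub_neg_eq_add, ← two_smul ℂ, mul_smul]
  refine congrArg (HSMul.hSMul _) ?_
  rw [Finset.smul_sum]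
  refine Finset.sum_congr rfl fun A _ => ?_
  rw [Finset.sum_comm, Finset.smul_sum]
  refine Finset.sum_congr rfl fun j _ => ?_
  rw [Finset.sum_comm, Finset.smul_sum]
  refine Finset.sum_congr rfl fun B _ => ?_
  rw [Finset.smul_sum]
  refine Finset.sum_congr rfl fun p _ => ?_
  rw [smul_smul]; congr 1; ring

/-- W-part for `M^{S1}` -/
lemma WS (κ : ℂ) (X : Fin 9 → Fin 3 → ℂ) :
    ∑ β, S.Wv κ X β * S.MS X β =
      -∑ β, S.MS X β * S.Wv κ X β - (2 : ℂ) • S.bb κ X - (5 : ℂ) • S.ee κ X := by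
  have h0 : ∀ A p q, ∑ β, S.vec (S.g2 p q) A β * S.MS X β =
      -∑ β, S.MS X β * S.vec (S.g2 p q) A β + (Complex.I / 2) •
      ∑ j, ∑ B, X j B • S.bil ((-4 : ℂ) • (S.g j * S.g2 p q) + (-10 : ℂ) •
        ((if q = j then (1:ℂ) else 0) • S.g p - (if p = j then (1:ℂ) else 0) • S.g q)) B A := by
    intro A p q
    have h1 : ∑ β, S.vec (S.g2 p q) A β * S.MS X β = ∑ j, ∑ l, ∑ B, X j B •
        ∑ β, S.vec (S.g2 p q) A β * (S.vec (S.g l) B β * S.Sk j l) := by
      simp only [MS, Finset.mul_sum, Finset.sum_mul, Finset.smul_sum, smul_mul_assoc,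
        mul_smul_comm]
      rw [Finset.sum_comm]
      refine Finset.sum_congr rfl fun j _ => ?_
      rw [Finset.sum_comm]
      refine Finset.sum_congr rfl fun l _ => ?_
      rw [Finset.sum_comm]
    have h2 : ∑ β, S.MS X β * S.vec (S.g2 p q) A β = ∑ j, ∑ l, ∑ B, X j B •
        ∑ β, (S.vec (S.g l) B β * S.Sk j l) * S.vec (S.g2 p q) A β := by
      simp only [MS, Finset.sum_mul, Finset.smul_sum, smul_mul_assoc]
      rw [Finset.sum_comm]
      refine Finset.sum_congr rfl fun j _ => ?_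
      rw [Finset.sum_comm]
      refine Finset.sum_congr rfl fun l _ => ?_
      rw [Finset.sum_comm]
    have h3 : ∀ l, (S.g2 p q * S.g l).trace = 0 := by
      intro l; rw [Matrix.trace_mul_comm, trace_g_g2]
    rw [h1, h2]
    simp only [S.F1S, smul_add, Finset.sum_add_distrib,
      S.g_symm, h3, ite_self, zero_smul, zero_sub, smul_neg, Finset.sum_neg_distrib]
    congr 1
    have e1 : ∀ j, ∑ l, S.g l * (S.g2 p q * S.g2 j l) =
        (-4 : ℂ) • (S.g j * S.g2 p q) + (-10 : ℂ) •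
        ((if q = j then (1:ℂ) else 0) • S.g p - (if p = j then (1:ℂ) else 0) • S.g q) := by
      intro j
      have e2 : ∀ l, S.g l * (S.g2 p q * S.g2 j l) = S.g l * (S.g2 p q * S.g j) * S.g l
          - (if j = l then (1:ℂ) else 0) • (S.g l * S.g2 p q) := by
        intro l
        rw [S.g2_eq j l, mul_sub, mul_sub, mul_smul_comm, mul_smul_comm, mul_one]
        simp only [mul_assoc]
      rw [Finset.sum_congr rfl fun l _ => e2 l, Finset.sum_sub_distrib]
      have e3 : ∑ l, S.g l * (S.g2 p q * S.g j) * S.g l = S.sand (S.g2 p q * S.g j) := rfl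
      have e4 : S.sand (S.g j * S.g2 p q) = (2 : ℂ) • (S.g2 p q * S.g j)
          - (5 : ℂ) • (S.g j * S.g2 p q) := by
        rw [sand_g_mul, sand_g2, mul_smul_comm]
      rw [e3, S.g2_mul_g, sand_add, e4, sand_smul, sand_sub, sand_smul, sand_smul, sand_g, sand_g,
        S.g2_mul_g]
      simp only [ite_smul, one_smul, zero_smul, Finset.sum_ite_eq, Finset.mem_univ, if_true]
      by_cases h : q = j <;> by_cases h' : p = j <;> simp only [h, h', if_true, if_false] <;>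
        module
    rw [Finset.smul_sum]
    refine Finset.sum_congr rfl fun j _ => ?_
    rw [Finset.sum_comm, Finset.smul_sum]
    refine Finset.sum_congr rfl fun B _ => ?_
    rw [← e1, S.bil_sum, Finset.smul_sum, Finset.smul_sum]
    refine Finset.sum_congr rfl fun l _ => ?_
    rw [smul_comm]
  rw [sum_Wv_mul, sum_mul_Wv, bb_eq, ee]
  simp only [h0, smul_add, Finset.sum_add_distrib, smul_neg, Finset.sum_neg_distrib]
  rw [sub_eq_add_neg, sub_eq_add_neg, add_assoc]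
  congr 1
  have h5 := S.FF_contr κ X (-10)
  have h6 : (1 / 2 : ℂ) • ∑ A, ∑ p, ∑ q, FFc κ X A p q • (Complex.I / 2) •
      ∑ j, ∑ B, X j B • S.bil ((-4 : ℂ) • (S.g j * S.g2 p q) + (-10 : ℂ) •
        ((if q = j then (1:ℂ) else 0) • S.g p - (if p = j then (1:ℂ) else 0) • S.g q)) B A =
      (Complex.I / 4) • ((-4 : ℂ) • ∑ A, ∑ p, ∑ q, ∑ j, ∑ B, (FFc κ X A p q * X j B) •
      S.bil (S.g j * S.g2 p q) B A + ∑ A, ∑ p, ∑ q, ∑ j, ∑ B, (FFc κ X A p q * X j B) •
      ((-10 : ℂ) • S.bil ((if q = j then (1:ℂ) else 0) • S.g p -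
        (if p = j then (1:ℂ) else 0) • S.g q) B A)) := by
    simp only [Finset.smul_sum, ← Finset.sum_add_distrib]
    refine Finset.sum_congr rfl fun A _ => Finset.sum_congr rfl fun p _ =>
      Finset.sum_congr rfl fun q _ => Finset.sum_congr rfl fun j _ =>
      Finset.sum_congr rfl fun B _ => ?_
    rw [bil_add, bil_smul, bil_smul]
    module
  rw [h6, h5]
  module

/-- W-part for `B` -/
lemma WB (κ : ℂ) (X : Fin 9 → Fin 3 → ℂ) :
    ∑ β, S.Wv κ X β * S.Bv X β = -∑ β, S.Bv X β * S.Wv κ X β := by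
  rw [sum_Wv_mul, sum_mul_Wv, ← smul_neg]
  congr 1
  rw [← Finset.sum_neg_distrib]
  refine Finset.sum_congr rfl fun A _ => ?_
  rw [← Finset.sum_neg_distrib]
  refine Finset.sum_congr rfl fun p _ => ?_
  rw [← Finset.sum_neg_distrib]
  refine Finset.sum_congr rfl fun q _ => ?_
  rw [← smul_neg]
  congr 1
  rw [eq_neg_iff_add_eq_zero, ← Finset.sum_add_distrib]
  have h : ∀ β, S.vec (S.g2 p q) A β * S.Bv X β + S.Bv X β * S.vec (S.g2 p q) A β =
      ∑ j, ∑ B, (if A = B then X j B * (S.g2 p q * S.g j) β β else 0) • (1 : R) := by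
    intro β
    simp only [Bv, Finset.sum_mul, Finset.mul_sum, smul_mul_assoc, mul_smul_comm]
    rw [← Finset.sum_add_distrib]
    refine Finset.sum_congr rfl fun j _ => ?_
    rw [← Finset.sum_add_distrib]
    refine Finset.sum_congr rfl fun B _ => ?_
    rw [← smul_add, S.vec_anti, S.g_symm]
    by_cases hB : A = B <;> simp [hB, smul_smul]
  rw [Finset.sum_congr rfl fun β _ => h β, Finset.sum_comm]
  refine Finset.sum_eq_zero fun j _ => ?_
  rw [Finset.sum_comm]
  refine Finset.sum_eq_zero fun B _ => ?_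
  rw [← Finset.sum_smul]
  by_cases hB : A = B
  · simp only [hB, if_true, ← Finset.mul_sum]
    have : ∑ i, (S.g2 p q * S.g j) i i = (S.g2 p q * S.g j).trace := rfl
    rw [this, Matrix.trace_mul_comm, trace_g_g2]
    simp
  · simp [hB]

/-- W-part for `MI` -/
lemma WI (κ : ℂ) (X : Fin 9 → Fin 3 → ℂ) :
    ∑ β, S.Wv κ X β * S.MI X β =
      -∑ β, S.MI X β * S.Wv κ X β + (8 : ℂ) • S.bb κ X := by
  have h0 : ∀ A p q, ∑ β, S.vec (S.g2 p q) A β * S.MI X β =
      -∑ β, S.MI X β * S.vec (S.g2 p q) A β + (8 * Complex.I) •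
      ∑ j, ∑ B, X j B • S.bil (S.g j * S.g2 p q) B A := by
    intro A p q
    have h1 : ∑ β, S.vec (S.g2 p q) A β * S.MI X β = ∑ k, ∑ l, ∑ j, ∑ B, X j B •
        ∑ β, S.vec (S.g2 p q) A β * (S.vec (S.g2 k l * S.g j) B β * S.Sk k l) := by
      simp only [MI, Finset.mul_sum, Finset.sum_mul, Finset.smul_sum, smul_mul_assoc,
        mul_smul_comm]
      rw [Finset.sum_comm]
      refine Finset.sum_congr rfl fun k _ => ?_
      rw [Finset.sum_comm]
      refine Finset.sum_congr rfl fun l _ => ?_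
      rw [Finset.sum_comm]
      refine Finset.sum_congr rfl fun j _ => ?_
      rw [Finset.sum_comm]
    have h2 : ∑ β, S.MI X β * S.vec (S.g2 p q) A β = ∑ k, ∑ l, ∑ j, ∑ B, X j B •
        ∑ β, (S.vec (S.g2 k l * S.g j) B β * S.Sk k l) * S.vec (S.g2 p q) A β := by
      simp only [MI, Finset.sum_mul, Finset.smul_sum, smul_mul_assoc]
      rw [Finset.sum_comm]
      refine Finset.sum_congr rfl fun k _ => ?_
      rw [Finset.sum_comm]
      refine Finset.sum_congr rfl fun l _ => ?_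
      rw [Finset.sum_comm]
      refine Finset.sum_congr rfl fun j _ => ?_
      rw [Finset.sum_comm]
    have ht : ∀ k l j, (S.g2 k l * S.g j)ᵀ = -(S.g j * S.g2 k l) := by
      intro k l j
      rw [Matrix.transpose_mul, g2_transpose, S.g_symm, mul_neg]
    have h3 : ∀ k l j, (S.g2 p q * -(S.g j * S.g2 k l)).trace = 0 := by
      intro k l j; rw [mul_neg, Matrix.trace_neg, ← mul_assoc, trace_g2_g_g2, neg_zero]
    rw [h1, h2]
    simp only [S.F1S, ht, h3, smul_add, Finset.sum_add_distrib,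
      ite_self, zero_smul, zero_sub, smul_neg, Finset.sum_neg_distrib]
    congr 1
    have e1 : ∀ j, ∑ k, ∑ l, -(S.g j * S.g2 k l) * (S.g2 p q * S.g2 k l) =
        (16 : ℂ) • (S.g j * S.g2 p q) := by
      intro j
      have e2 : ∀ k l, -(S.g j * S.g2 k l) * (S.g2 p q * S.g2 k l) =
          -(S.g j * (S.g2 k l * S.g2 p q * S.g2 k l)) := by
        intro k l; noncomm_ring
      simp only [e2, Finset.sum_neg_distrib, ← Finset.mul_sum]
      rw [sum_g2_g2_g2]
      simp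
    have e4 : ∑ k, ∑ l, ∑ j, ∑ B, X j B • (Complex.I / 2) •
        S.bil (-(S.g j * S.g2 k l) * (S.g2 p q * S.g2 k l)) B A =
        ∑ j, ∑ B, X j B • (Complex.I / 2) •
          S.bil (∑ k, ∑ l, -(S.g j * S.g2 k l) * (S.g2 p q * S.g2 k l)) B A := by
      have : ∀ k, ∑ l, ∑ j, ∑ B, X j B • (Complex.I / 2) •
        S.bil (-(S.g j * S.g2 k l) * (S.g2 p q * S.g2 k l)) B A = ∑ j, ∑ B, ∑ l, X j B •
        (Complex.I / 2) • S.bil (-(S.g j * S.g2 k l) * (S.g2 p q * S.g2 k l)) B A := by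
        intro k
        rw [Finset.sum_comm]
        refine Finset.sum_congr rfl fun j _ => ?_
        rw [Finset.sum_comm]
      simp only [this]
      rw [Finset.sum_comm]
      refine Finset.sum_congr rfl fun j _ => ?_
      rw [Finset.sum_comm]
      refine Finset.sum_congr rfl fun B _ => ?_
      simp only [S.bil_sum, Finset.smul_sum]
    rw [e4]
    simp only [e1, bil_smul, Finset.smul_sum]
    refine Finset.sum_congr rfl fun j _ => Finset.sum_congr rfl fun B _ => ?_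
    module
  rw [sum_Wv_mul, sum_mul_Wv, bb_eq]
  simp only [h0, smul_add, Finset.sum_add_distrib, smul_neg, Finset.sum_neg_distrib]
  congr 1
  simp only [Finset.smul_sum]
  refine Finset.sum_congr rfl fun A _ => Finset.sum_congr rfl fun p _ =>
    Finset.sum_congr rfl fun q _ => Finset.sum_congr rfl fun j _ =>
    Finset.sum_congr rfl fun B _ => ?_
  module

/-- `γ_{jpq}` -/
noncomputable def g3 (j p q : Fin 9) : Matrix (Fin 16) (Fin 16) ℂ :=
  S.g j * S.g2 p q + ((if q = j then (1:ℂ) else 0) • S.g p - (if p = j then (1:ℂ) else 0) • S.g q)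

lemma g3_cyc (j p q : Fin 9) : S.g3 j p q = S.g3 p q j := by
  have e1 : S.g j * (S.g p * S.g q) = (if j = p then (2:ℂ) else 0) • S.g q
      - (if j = q then (2:ℂ) else 0) • S.g p + S.g p * (S.g q * S.g j) := by
    rw [← mul_assoc, S.g_swap j p, sub_mul, smul_mul_assoc, one_mul, mul_assoc, S.g_swap j q,
      mul_sub, mul_smul_comm, mul_one]
    abel
  rw [g3, g3, g2_eq, g2_eq, mul_sub, mul_sub, e1, mul_smul_comm, mul_smul_comm, mul_one, mul_one]
  have a1 : (if q = j then (1:ℂ) else 0) = (if j = q then (1:ℂ) else 0) := by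
    simp only [eq_comm]
  have a2 : (if p = j then (1:ℂ) else 0) = (if j = p then (1:ℂ) else 0) := by
    simp only [eq_comm]
  have a3 : (if q = p then (1:ℂ) else 0) = (if p = q then (1:ℂ) else 0) := by
    simp only [eq_comm]
  have a4 : ∀ (P : Prop) [Decidable P], (if P then (2:ℂ) else 0) = 2 * (if P then (1:ℂ) else 0) := by
    intro P _; split_ifs <;> simp
  rw [a1, a2, a3, a4, a4]
  module

lemma cyc_sum (f : Fin 9 → Fin 9 → Fin 9 → R) :
    ∑ p, ∑ q, ∑ j, f p q j = ∑ p, ∑ q, ∑ j, f q j p := by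
  have h : ∀ q, ∑ p, ∑ j, f q j p = ∑ j, ∑ p, f q j p := fun q => Finset.sum_comm
  conv_rhs => rw [Finset.sum_comm]
  simp only [h]

lemma sum4_comm {ι : Type*} [Fintype ι] (f : Fin 9 → Fin 9 → Fin 9 → ι → R) :
    ∑ p, ∑ q, ∑ j, ∑ B, f p q j B = ∑ B, ∑ p, ∑ q, ∑ j, f p q j B := by
  have h1 : ∀ p q, ∑ j, ∑ B, f p q j B = ∑ B, ∑ j, f p q j B := fun p q => Finset.sum_comm
  have h2 : ∀ p, ∑ q, ∑ B, ∑ j, f p q j B = ∑ B, ∑ q, ∑ j, f p q j B := fun p => Finset.sum_comm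
  simp only [h1, h2]
  exact Finset.sum_comm

/-- (T) the three-dimensional identity -/
lemma bb_add_ee (κ : ℂ) (X : Fin 9 → Fin 3 → ℂ) :
    (3 : ℂ) • (S.bb κ X + S.ee κ X) = (Complex.I / 2) • ∑ A, ∑ p, ∑ q, ∑ j,
      (FFc κ X A p q * X j A) • S.tot (S.g j * S.g2 p q) := by
  have h1 : S.bb κ X + S.ee κ X = (Complex.I / 2) • ∑ A, ∑ p, ∑ q, ∑ j, ∑ B,
      (FFc κ X A p q * X j B) • S.bil (S.g3 j p q) B A := by
    have h2 := S.FF_contr κ X 1
    simp only [one_smul, mul_one] at h2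
    have h3 : S.ee κ X = (Complex.I / 2) • ∑ A, ∑ p, ∑ q, ∑ j, ∑ B, (FFc κ X A p q * X j B) •
      (S.bil ((if q = j then (1:ℂ) else 0) • S.g p -
        (if p = j then (1:ℂ) else 0) • S.g q) B A) := by
      rw [h2, ee, smul_smul]; congr 1; ring
    rw [h3, bb_eq, ← smul_add]
    refine congrArg (HSMul.hSMul _) ?_
    simp only [← Finset.sum_add_distrib]
    refine Finset.sum_congr rfl fun A _ => Finset.sum_congr rfl fun p _ =>
      Finset.sum_congr rfl fun q _ => Finset.sum_congr rfl fun j _ =>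
      Finset.sum_congr rfl fun B _ => ?_
    rw [g3, bil_add, smul_add]
  rw [h1, smul_comm]
  refine congrArg (HSMul.hSMul _) ?_
  -- reorganize
  have h4 : ∀ A B, ∑ p, ∑ q, ∑ j, (FFc κ X A p q * X j B) • S.bil (S.g3 j p q) B A =
      ∑ p, ∑ q, ∑ j, (FFc κ X A q j * X p B) • S.bil (S.g3 j p q) B A := by
    intro A B
    rw [cyc_sum]
    refine Finset.sum_congr rfl fun p _ => Finset.sum_congr rfl fun q _ =>
        Finset.sum_congr rfl fun j _ => ?_
    rw [S.g3_cyc j p q]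
  have h5 : ∀ A B, ∑ p, ∑ q, ∑ j, (FFc κ X A p q * X j B) • S.bil (S.g3 j p q) B A =
      ∑ p, ∑ q, ∑ j, (FFc κ X A j p * X q B) • S.bil (S.g3 j p q) B A := by
    intro A B
    rw [cyc_sum, cyc_sum]
    refine Finset.sum_congr rfl fun p _ => Finset.sum_congr rfl fun q _ =>
        Finset.sum_congr rfl fun j _ => ?_
    rw [S.g3_cyc q j p]
  have h6 : (3 : ℂ) • ∑ A, ∑ p, ∑ q, ∑ j, ∑ B,
      (FFc κ X A p q * X j B) • S.bil (S.g3 j p q) B A =
      ∑ A, ∑ B, ∑ p, ∑ q, ∑ j, ((if A = B then 1 else 0) * ∑ D, FFc κ X D p q * X j D) •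
        S.bil (S.g3 j p q) B A := by
    have e1 : ∑ A, ∑ p, ∑ q, ∑ j, ∑ B, (FFc κ X A p q * X j B) • S.bil (S.g3 j p q) B A =
        ∑ A, ∑ B, ∑ p, ∑ q, ∑ j, (FFc κ X A p q * X j B) • S.bil (S.g3 j p q) B A := by
      refine Finset.sum_congr rfl fun A _ => ?_
      rw [sum4_comm]
    rw [e1, Finset.smul_sum]
    refine Finset.sum_congr rfl fun A _ => ?_
    rw [Finset.smul_sum]
    refine Finset.sum_congr rfl fun B _ => ?_
    have e2 : (3 : ℂ) • ∑ p, ∑ q, ∑ j, (FFc κ X A p q * X j B) • S.bil (S.g3 j p q) B A =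
        ∑ p, ∑ q, ∑ j, (FFc κ X A p q * X j B) • S.bil (S.g3 j p q) B A +
        ∑ p, ∑ q, ∑ j, (FFc κ X A q j * X p B) • S.bil (S.g3 j p q) B A +
        ∑ p, ∑ q, ∑ j, (FFc κ X A j p * X q B) • S.bil (S.g3 j p q) B A := by
      rw [← h4, ← h5]; module
    rw [e2]
    simp only [← Finset.sum_add_distrib, ← add_smul, FFc_cross]
  rw [h6]
  have h7 : ∑ A, ∑ B, ∑ p, ∑ q, ∑ j, ((if A = B then 1 else 0) * ∑ D, FFc κ X D p q * X j D) •
        S.bil (S.g3 j p q) B A =
      ∑ p, ∑ q, ∑ j, (∑ D, FFc κ X D p q * X j D) • S.tot (S.g3 j p q) := by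
    have e1 : ∀ A, ∑ B, ∑ p, ∑ q, ∑ j,
        ((if A = B then 1 else 0) * ∑ D, FFc κ X D p q * X j D) • S.bil (S.g3 j p q) B A =
        ∑ p, ∑ q, ∑ j, (∑ D, FFc κ X D p q * X j D) • S.bil (S.g3 j p q) A A := by
      intro A
      rw [Finset.sum_eq_single A]
      · simp
      · intro B _ hB; simp [Ne.symm hB]
      · simp
    simp only [e1, tot, Finset.smul_sum]
    rw [sum4_comm]
  rw [h7]
  have h8 : ∀ p q, ∑ j, (∑ D, FFc κ X D p q * X j D) • S.tot (S.g3 j p q) =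
      ∑ j, (∑ D, FFc κ X D p q * X j D) • S.tot (S.g j * S.g2 p q) := by
    intro p q
    simp only [g3, tot_add, tot_sub, tot_smul, smul_add, smul_sub, Finset.sum_add_distrib,
      Finset.sum_sub_distrib]
    simp only [ite_smul, one_smul, zero_smul, smul_ite, smul_zero, Finset.sum_ite_eq,
      Finset.mem_univ, if_true, FFc_dot, FFc_dot', zero_smul, sub_zero, add_zero]
  have h9 : ∑ p, ∑ q, ∑ j, (∑ D, FFc κ X D p q * X j D) • S.tot (S.g3 j p q) =
      ∑ p, ∑ q, ∑ j, ∑ D, (FFc κ X D p q * X j D) • S.tot (S.g j * S.g2 p q) := by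
    refine Finset.sum_congr rfl fun p _ => Finset.sum_congr rfl fun q _ => ?_
    rw [h8]
    simp only [Finset.sum_smul]
  rw [h9, sum4_comm]

/-- W-part for `MG` -/
lemma WG (κ : ℂ) (X : Fin 9 → Fin 3 → ℂ) :
    ∑ β, S.Wv κ X β * S.MG X β =
      -∑ β, S.MG X β * S.Wv κ X β + (2 : ℂ) • S.bb κ X + S.ee κ X := by
  have h0 : ∀ A p q, ∑ β, S.vec (S.g2 p q) A β * S.MG X β =
      -∑ β, S.MG X β * S.vec (S.g2 p q) A β +
      Complex.I • ∑ j, X j A • S.tot (S.g j * S.g2 p q) -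
      Complex.I • ∑ j, ∑ B, X j B • S.bil (S.g2 p q * S.g j) B A := by
    intro A p q
    have h1 : ∑ β, S.vec (S.g2 p q) A β * S.MG X β =
        ∑ C, ∑ j, ∑ B, ∑ A', ((eps B A' C : ℂ) * X j B) •
        ∑ β, S.vec (S.g2 p q) A β * (S.vec (S.g j) A' β * S.sG C) := by
      simp only [MG, Finset.mul_sum, Finset.sum_mul, Finset.smul_sum, smul_mul_assoc,
        mul_smul_comm]
      rw [Finset.sum_comm]
      refine Finset.sum_congr rfl fun C _ => ?_
      rw [Finset.sum_comm]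
      refine Finset.sum_congr rfl fun j _ => ?_
      rw [Finset.sum_comm]
      refine Finset.sum_congr rfl fun B _ => ?_
      rw [Finset.sum_comm]
    have h2 : ∑ β, S.MG X β * S.vec (S.g2 p q) A β =
        ∑ C, ∑ j, ∑ B, ∑ A', ((eps B A' C : ℂ) * X j B) •
        ∑ β, (S.vec (S.g j) A' β * S.sG C) * S.vec (S.g2 p q) A β := by
      simp only [MG, Finset.sum_mul, Finset.smul_sum, smul_mul_assoc]
      rw [Finset.sum_comm]
      refine Finset.sum_congr rfl fun C _ => ?_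
      rw [Finset.sum_comm]
      refine Finset.sum_congr rfl fun j _ => ?_
      rw [Finset.sum_comm]
      refine Finset.sum_congr rfl fun B _ => ?_
      rw [Finset.sum_comm]
    have h3 : ∀ l, (S.g2 p q * S.g l).trace = 0 := by
      intro l; rw [Matrix.trace_mul_comm, trace_g_g2]
    rw [h1, h2]
    simp only [S.F1G, S.g_symm, h3, smul_add, Finset.sum_add_distrib,
      ite_self, zero_smul, zero_sub, smul_neg, Finset.sum_neg_distrib]
    rw [add_sub_assoc]
    refine congrArg (HAdd.hAdd _) ?_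
    have e1 : ∑ C, ∑ j, ∑ B, ∑ A', ((eps B A' C : ℂ) * X j B) •
      Complex.I • ∑ E, (eps C A E : ℂ) • S.bil (S.g j * S.g2 p q) A' E =
      Complex.I • ∑ j, ∑ B, ∑ A', ∑ E, (X j B * ∑ C, (eps B A' C : ℂ) * (eps C A E : ℂ)) •
        S.bil (S.g j * S.g2 p q) A' E := by
      rw [Finset.sum_comm, Finset.smul_sum]
      refine Finset.sum_congr rfl fun j _ => ?_
      rw [Finset.sum_comm, Finset.smul_sum]
      refine Finset.sum_congr rfl fun B _ => ?_
      rw [Finset.sum_comm, Finset.smul_sum]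
      refine Finset.sum_congr rfl fun A' _ => ?_
      simp only [Finset.smul_sum, Finset.mul_sum, Finset.sum_smul, smul_smul]
      rw [Finset.sum_comm]
      refine Finset.sum_congr rfl fun E _ => Finset.sum_congr rfl fun C _ => ?_
      congr 1; ring
    rw [e1]
    simp only [eps_contr, mul_sub, sub_smul, Finset.sum_sub_distrib, smul_sub]
    refine congrArg₂ HSub.hSub ?_ ?_
    · refine congrArg (HSMul.hSMul _) ?_
      refine Finset.sum_congr rfl fun j _ => ?_
      have : ∀ B A' E, (X j B * ((if B = A then 1 else 0) * (if A' = E then 1 else 0))) •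
          S.bil (S.g j * S.g2 p q) A' E = if B = A then (if A' = E then X j B •
          S.bil (S.g j * S.g2 p q) A' E else 0) else 0 := by
        intro B A' E; split_ifs <;> simp
      simp only [this, Finset.sum_ite_irrel, Finset.sum_const_zero, Finset.sum_ite_eq,
        Finset.sum_ite_eq', Finset.mem_univ, if_true, tot, Finset.smul_sum]
    · refine congrArg (HSMul.hSMul _) ?_
      refine Finset.sum_congr rfl fun j _ => Finset.sum_congr rfl fun B _ => ?_
      have : ∀ A' E, (X j B * ((if B = E then 1 else 0) * (if A' = A then 1 else 0))) •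
          S.bil (S.g j * S.g2 p q) A' E = if A' = A then (if B = E then X j B •
          S.bil (S.g j * S.g2 p q) A' E else 0) else 0 := by
        intro A' E; split_ifs <;> simp
      simp only [this, Finset.sum_ite_irrel, Finset.sum_const_zero, Finset.sum_ite_eq,
        Finset.sum_ite_eq', Finset.mem_univ, if_true]
      rw [S.bil_swap, Matrix.transpose_mul, g2_transpose, S.g_symm, trace_g_g2, neg_mul, bil_neg]
      simp
  have hb := S.bb_add_ee κ X
  have hb2 := S.FF_contr κ X 2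
  have h6 : ∑ β, S.Wv κ X β * S.MG X β = -∑ β, S.MG X β * S.Wv κ X β +
      (Complex.I / 2) • ∑ A, ∑ p, ∑ q, ∑ j, (FFc κ X A p q * X j A) • S.tot (S.g j * S.g2 p q)
      - (Complex.I / 2) • (∑ A, ∑ p, ∑ q, ∑ j, ∑ B, (FFc κ X A p q * X j B) •
          S.bil (S.g j * S.g2 p q) B A +
        ∑ A, ∑ p, ∑ q, ∑ j, ∑ B, (FFc κ X A p q * X j B) •
      ((2 : ℂ) • S.bil ((if q = j then (1:ℂ) else 0) • S.g p -
        (if p = j then (1:ℂ) else 0) • S.g q) B A)) := by
    rw [sum_Wv_mul, sum_mul_Wv]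
    simp only [h0, smul_add, smul_sub, Finset.sum_add_distrib, Finset.sum_sub_distrib, smul_neg,
      Finset.sum_neg_distrib]
    rw [sub_eq_add_neg, sub_eq_add_neg, add_assoc, add_assoc]
    refine congrArg (HAdd.hAdd _) ?_
    refine congrArg₂ HAdd.hAdd ?_ ?_
    · simp only [Finset.smul_sum]
      refine Finset.sum_congr rfl fun A _ => Finset.sum_congr rfl fun p _ =>
        Finset.sum_congr rfl fun q _ => Finset.sum_congr rfl fun j _ => ?_
      module
    · rw [← smul_add, ← neg_smul, ← neg_smul]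
      simp only [Finset.smul_sum, ← Finset.sum_add_distrib]
      refine Finset.sum_congr rfl fun A _ => Finset.sum_congr rfl fun p _ =>
        Finset.sum_congr rfl fun q _ => Finset.sum_congr rfl fun j _ =>
        Finset.sum_congr rfl fun B _ => ?_
      rw [S.g2_mul_g, bil_add, bil_smul]
      module
  rw [h6, ← hb, hb2]
  rw [bb_eq, ee]
  module

end CS
end Vale.Agent.P353
end

section

open Matrix

namespace Vale.Agent.P353

namespace CS

variable {R : Type*} [Ring R] [Algebra ℂ R] (S : CS R)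

/-- unit vector in direction `(i, A)` -/
def E1 (i : Fin 9) (A : Fin 3) (j : Fin 9) (B : Fin 3) : ℂ := if j = i ∧ B = A then 1 else 0

lemma E1_sum (i : Fin 9) (A : Fin 3) (j : Fin 9) {M : Type*} [AddCommGroup M] [Module ℂ M]
    (f : Fin 3 → M) : ∑ B, E1 i A j B • f B = if j = i then f A else 0 := by
  by_cases h : j = i <;> simp [E1, h]

lemma MS_E1 (i : Fin 9) (A : Fin 3) (β : Fin 16) :
    S.MS (E1 i A) β = ∑ l, S.vec (S.g l) A β * S.Sk i l := by
  simp only [MS, E1_sum, ite_mul, zero_mul, Finset.sum_ite_irrel, Finset.sum_const_zero,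
    Finset.sum_ite_eq', Finset.mem_univ, if_true]

lemma MI_E1 (i : Fin 9) (A : Fin 3) (β : Fin 16) :
    S.MI (E1 i A) β = ∑ k, ∑ l, S.vec (S.g2 k l * S.g i) A β * S.Sk k l := by
  simp only [MI, E1_sum, Finset.sum_ite_eq', Finset.mem_univ, if_true]

lemma Bv_E1 (i : Fin 9) (A : Fin 3) (β : Fin 16) :
    S.Bv (E1 i A) β = S.vec (S.g i) A β := by
  simp only [Bv, E1_sum, Finset.sum_ite_eq', Finset.mem_univ, if_true]

lemma MG_E1 (i : Fin 9) (A : Fin 3) (β : Fin 16) :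
    S.MG (E1 i A) β = ∑ C, (∑ A', (eps A A' C : ℂ) • S.vec (S.g i) A' β) * S.sG C := by
  have h : ∀ C j, ∑ B, ∑ A', ((eps B A' C : ℂ) * E1 i A j B) • S.vec (S.g j) A' β =
      if j = i then ∑ A', (eps A A' C : ℂ) • S.vec (S.g i) A' β else 0 := by
    intro C j
    have : ∀ B, ∑ A', ((eps B A' C : ℂ) * E1 i A j B) • S.vec (S.g j) A' β =
        E1 i A j B • ∑ A', (eps B A' C : ℂ) • S.vec (S.g j) A' β := by
      intro B
      rw [Finset.smul_sum]
      refine Finset.sum_congr rfl fun A' _ => ?_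
      rw [smul_smul, mul_comm]
    simp only [this]
    rw [E1_sum]
    by_cases hj : j = i
    · subst hj; rfl
    · simp [hj]
  simp only [MG, h, Finset.sum_ite_eq', Finset.mem_univ, if_true]

lemma DS : ∑ i, ∑ A, ∑ β, S.vec (S.g i) A β * S.MS (E1 i A) β =
    (4 * Complex.I) • ∑ k, ∑ l, S.Sk k l * S.Sk k l := by
  rw [Finset.smul_sum]
  refine Finset.sum_congr rfl fun i _ => ?_
  simp only [MS_E1, Finset.mul_sum]
  have h1 : ∑ A, ∑ β, ∑ l, S.vec (S.g i) A β * (S.vec (S.g l) A β * S.Sk i l) =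
      ∑ l, S.tot (S.g i * S.g l) * S.Sk i l := by
    have : ∀ A, ∑ β, ∑ l, S.vec (S.g i) A β * (S.vec (S.g l) A β * S.Sk i l) =
        ∑ l, S.bil (S.g i * S.g l) A A * S.Sk i l := by
      intro A
      rw [Finset.sum_comm]
      refine Finset.sum_congr rfl fun l _ => ?_
      simp only [← mul_assoc]
      rw [← Finset.sum_mul, S.sum_vec_mul_vec, S.g_symm]
    simp only [this]
    rw [Finset.sum_comm]
    refine Finset.sum_congr rfl fun l _ => ?_
    rw [← Finset.sum_mul]; rfl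
  rw [h1, Finset.smul_sum]
  refine Finset.sum_congr rfl fun l _ => ?_
  rw [tot_gg, add_mul, smul_mul_assoc, smul_mul_assoc, one_mul]
  by_cases h : i = l
  · subst h; simp [Sk_self]
  · simp [h]

lemma DI : ∑ i, ∑ A, ∑ β, S.vec (S.g i) A β * S.MI (E1 i A) β =
    (20 * Complex.I) • ∑ k, ∑ l, S.Sk k l * S.Sk k l := by
  have h1 : ∀ i A, ∑ β, S.vec (S.g i) A β * S.MI (E1 i A) β =
      ∑ k, ∑ l, S.bil (S.g i * S.g2 k l * S.g i) A A * S.Sk k l := by
    intro i A
    simp only [MI_E1, Finset.mul_sum]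
    rw [Finset.sum_comm]
    refine Finset.sum_congr rfl fun k _ => ?_
    rw [Finset.sum_comm]
    refine Finset.sum_congr rfl fun l _ => ?_
    simp only [← mul_assoc]
    rw [← Finset.sum_mul, S.sum_vec_mul_vec, S.g_symm, mul_assoc (S.g i)]
  have h2 : ∀ i, ∑ A, ∑ β, S.vec (S.g i) A β * S.MI (E1 i A) β =
      ∑ k, ∑ l, S.tot (S.g i * S.g2 k l * S.g i) * S.Sk k l := by
    intro i
    simp only [h1]
    rw [Finset.sum_comm]
    refine Finset.sum_congr rfl fun k _ => ?_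
    rw [Finset.sum_comm]
    refine Finset.sum_congr rfl fun l _ => ?_
    rw [← Finset.sum_mul]; rfl
  simp only [h2]
  rw [Finset.sum_comm, Finset.smul_sum]
  refine Finset.sum_congr rfl fun k _ => ?_
  rw [Finset.sum_comm, Finset.smul_sum]
  refine Finset.sum_congr rfl fun l _ => ?_
  rw [← Finset.sum_mul, ← S.tot_sum]
  have : ∑ i, S.g i * S.g2 k l * S.g i = S.sand (S.g2 k l) := rfl
  rw [this, sand_g2, tot_smul, tot_g2, smul_smul, smul_mul_assoc]
  congr 1; ring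

lemma DB : ∑ i, ∑ A, ∑ β, S.vec (S.g i) A β * S.Bv (E1 i A) β = (216 : ℂ) • (1 : R) := by
  have h : ∀ i, ∑ A, ∑ β, S.vec (S.g i) A β * S.Bv (E1 i A) β = (24 : ℂ) • (1 : R) := by
    intro i
    simp only [Bv_E1, S.sum_vec_mul_vec, S.g_symm, S.g_sq]
    exact S.tot_one
  simp only [h]
  rw [Finset.sum_const, Finset.card_univ, Fintype.card_fin, ← Nat.cast_smul_eq_nsmul ℂ, smul_smul]
  norm_num

lemma DG : ∑ i, ∑ A, ∑ β, S.vec (S.g i) A β * S.MG (E1 i A) β =
    (18 * Complex.I) • ∑ C, S.sG C * S.sG C := by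
  have h : ∀ i, ∑ A, ∑ β, S.vec (S.g i) A β * S.MG (E1 i A) β =
      (2 * Complex.I) • ∑ C, S.sG C * S.sG C := by
    intro i
    have h1 : ∀ A, ∑ β, S.vec (S.g i) A β * S.MG (E1 i A) β =
        ∑ C, (∑ A', (eps A A' C : ℂ) • S.bil 1 A A') * S.sG C := by
      intro A
      simp only [MG_E1, Finset.mul_sum]
      rw [Finset.sum_comm]
      refine Finset.sum_congr rfl fun C _ => ?_
      simp only [← mul_assoc]
      rw [← Finset.sum_mul]
      congr 1
      simp only [Finset.mul_sum, mul_smul_comm]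
      rw [Finset.sum_comm]
      refine Finset.sum_congr rfl fun A' _ => ?_
      rw [← Finset.smul_sum, S.sum_vec_mul_vec, S.g_symm, S.g_sq]
    simp only [h1]
    rw [Finset.sum_comm, Finset.smul_sum]
    refine Finset.sum_congr rfl fun C _ => ?_
    rw [← Finset.sum_mul, ← smul_mul_assoc]
    congr 1
    rw [sG, smul_smul]
    have : 2 * Complex.I * (-Complex.I / 2) = 1 := by
      have := Complex.I_mul_I
      linear_combination -this
    rw [this, one_smul]
    refine Finset.sum_congr rfl fun A _ => Finset.sum_congr rfl fun A' _ => ?_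
    rw [eps_cyc A A' C]
  simp only [h]
  rw [Finset.sum_const, Finset.card_univ, Fintype.card_fin, ← Nat.cast_smul_eq_nsmul ℂ, smul_smul]
  congr 1
  push_cast; ring

/-- (P2) total -/
lemma P2 (κ : ℂ) (X : Fin 9 → Fin 3 → ℂ) :
    (-Complex.I) • ∑ i, ∑ A, ∑ β, S.vec (S.g i) A β * S.Mv (E1 i A) β +
      ∑ β, S.Wv κ X β * S.Mv X β =
    ((2 : ℂ) • ∑ k, ∑ l, S.Sk k l * S.Sk k l + ∑ C, S.sG C * S.sG C - (88 : ℂ) • 1) +
    ∑ β, (-S.Mv X β + (56 / 81 * Complex.I) • S.Bv X β) * S.Wv κ X β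
    + ((-70 / 81 : ℂ) • ∑ k, ∑ l, S.Sk k l * S.Sk k l + (7 / 3 : ℂ) • ∑ C, S.sG C * S.sG C) := by
  have e1 : ∑ i, ∑ A, ∑ β, S.vec (S.g i) A β * S.Mv (E1 i A) β = (1 / 27 : ℂ) •
      (∑ i, ∑ A, ∑ β, S.vec (S.g i) A β * S.MS (E1 i A) β
      + (5 : ℂ) • ∑ i, ∑ A, ∑ β, S.vec (S.g i) A β * S.MG (E1 i A) β
      + (4 / 3 : ℂ) • ∑ i, ∑ A, ∑ β, S.vec (S.g i) A β * S.MI (E1 i A) β
      - (11 * Complex.I) • ∑ i, ∑ A, ∑ β, S.vec (S.g i) A β * S.Bv (E1 i A) β) := by
    simp only [Mv, mul_smul_comm, mul_add, mul_sub, Finset.smul_sum,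
      Finset.sum_add_distrib, Finset.sum_sub_distrib, smul_add, smul_sub]
  have e2 : ∑ β, S.Wv κ X β * S.Mv X β = (1 / 27 : ℂ) •
      (∑ β, S.Wv κ X β * S.MS X β
      + (5 : ℂ) • ∑ β, S.Wv κ X β * S.MG X β
      + (4 / 3 : ℂ) • ∑ β, S.Wv κ X β * S.MI X β
      - (11 * Complex.I) • ∑ β, S.Wv κ X β * S.Bv X β) := by
    simp only [Mv, mul_smul_comm, mul_add, mul_sub, Finset.smul_sum,
      Finset.sum_add_distrib, Finset.sum_sub_distrib, smul_add, smul_sub]
  have e3 : ∑ β, S.Mv X β * S.Wv κ X β = (1 / 27 : ℂ) •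
      (∑ β, S.MS X β * S.Wv κ X β
      + (5 : ℂ) • ∑ β, S.MG X β * S.Wv κ X β
      + (4 / 3 : ℂ) • ∑ β, S.MI X β * S.Wv κ X β
      - (11 * Complex.I) • ∑ β, S.Bv X β * S.Wv κ X β) := by
    simp only [Mv, smul_mul_assoc, add_mul, sub_mul, Finset.smul_sum,
      Finset.sum_add_distrib, Finset.sum_sub_distrib, smul_add, smul_sub]
  have e4 : ∑ β, (-S.Mv X β + (56 / 81 * Complex.I) • S.Bv X β) * S.Wv κ X β =
      -∑ β, S.Mv X β * S.Wv κ X β + (56 / 81 : ℂ) • S.bb κ X := by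
    simp only [add_mul, neg_mul, Finset.sum_add_distrib, Finset.sum_neg_distrib, bb,
      smul_mul_assoc, Finset.smul_sum, smul_smul]
  rw [e1, e2, e4, e3, DS, DG, DI, DB, WS, WG, WI, WB]
  have hI : (Complex.I) * Complex.I = -1 := Complex.I_mul_I
  generalize ∑ β, S.MS X β * S.Wv κ X β = a1
  generalize ∑ β, S.MG X β * S.Wv κ X β = a2
  generalize ∑ β, S.MI X β * S.Wv κ X β = a3
  generalize ∑ β, S.Bv X β * S.Wv κ X β = a4
  generalize ∑ k, ∑ l, S.Sk k l * S.Sk k l = a5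
  generalize ∑ C, S.sG C * S.sG C = a6
  generalize S.bb κ X = a7
  generalize S.ee κ X = a8
  have h5 : (-Complex.I) • (1 / 27 : ℂ) • ((4 * Complex.I) • a5 + (5:ℂ) • (18 * Complex.I) • a6
      + (4 / 3 : ℂ) • (20 * Complex.I) • a5 - (11 * Complex.I) • (216 : ℂ) • (1 : R)) =
      (92/81 : ℂ) • a5 + (10 / 3 : ℂ) • a6 - (88 : ℂ) • (1 : R) := by
    have c1 : (-Complex.I) • (1 / 27 : ℂ) • ((4 * Complex.I) • a5 + (5:ℂ) • (18 * Complex.I) • a6
      + (4 / 3 : ℂ) • (20 * Complex.I) • a5 - (11 * Complex.I) • (216 : ℂ) • (1 : R)) =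
      (-(Complex.I * Complex.I)) • ((92/81 : ℂ) • a5 + (10 / 3 : ℂ) • a6 - (88 : ℂ) • (1 : R)) := by
      module
    rw [c1, hI]; module
  rw [h5]
  module

/-- (P1) total -/
lemma P1 (X : Fin 9 → Fin 3 → ℂ) (i : Fin 9) (A : Fin 3) :
    ∑ β, S.vec (S.g i) A β * S.Mv X β =
      ∑ β, (-S.Mv X β + (56 / 81 * Complex.I) • S.Bv X β) * S.vec (S.g i) A β
      - (140 / 81 : ℂ) • ∑ j, X j A • S.Sk j i
      + (7 / 3 : ℂ) • ∑ B, ∑ C, ((eps C B A : ℂ) * X i B) • S.sG C := by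
  have e2 : ∑ β, S.vec (S.g i) A β * S.Mv X β = (1 / 27 : ℂ) •
      (∑ β, S.vec (S.g i) A β * S.MS X β
      + (5 : ℂ) • ∑ β, S.vec (S.g i) A β * S.MG X β
      + (4 / 3 : ℂ) • ∑ β, S.vec (S.g i) A β * S.MI X β
      - (11 * Complex.I) • ∑ β, S.vec (S.g i) A β * S.Bv X β) := by
    simp only [Mv, mul_smul_comm, mul_add, mul_sub, Finset.smul_sum,
      Finset.sum_add_distrib, Finset.sum_sub_distrib, smul_add, smul_sub]
  have e3 : ∑ β, S.Mv X β * S.vec (S.g i) A β = (1 / 27 : ℂ) •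
      (∑ β, S.MS X β * S.vec (S.g i) A β
      + (5 : ℂ) • ∑ β, S.MG X β * S.vec (S.g i) A β
      + (4 / 3 : ℂ) • ∑ β, S.MI X β * S.vec (S.g i) A β
      - (11 * Complex.I) • ∑ β, S.Bv X β * S.vec (S.g i) A β) := by
    simp only [Mv, smul_mul_assoc, add_mul, sub_mul, Finset.smul_sum,
      Finset.sum_add_distrib, Finset.sum_sub_distrib, smul_add, smul_sub]
  have e4 : ∑ β, (-S.Mv X β + (56 / 81 * Complex.I) • S.Bv X β) * S.vec (S.g i) A β =
      -∑ β, S.Mv X β * S.vec (S.g i) A β + (56 / 81 * Complex.I) •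
        ∑ β, S.Bv X β * S.vec (S.g i) A β := by
    simp only [add_mul, neg_mul, Finset.sum_add_distrib, Finset.sum_neg_distrib,
      smul_mul_assoc, Finset.smul_sum]
  rw [e2, e4, e3, P1S, P1G, P1I, P1B]
  module

lemma P2' (κ : ℂ) (X : Fin 9 → Fin 3 → ℂ) :
    (-Complex.I) • ∑ i, ∑ A, ∑ β, S.vec (S.g i) A β * S.Mv (E1 i A) β +
      ∑ β, S.Wv κ X β * S.Mv X β =
    ((2 : ℂ) • ∑ k, ∑ l, S.Sk k l * S.Sk k l + ∑ C, S.sG C * S.sG C - (88 : ℂ) • 1) +
    ∑ β, (-(S.Mv X β * S.Wv κ X β) + (56 / 81 * Complex.I) • (S.Bv X β * S.Wv κ X β))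
    + ((-70 / 81 : ℂ) • ∑ k, ∑ l, S.Sk k l * S.Sk k l + (7 / 3 : ℂ) • ∑ C, S.sG C * S.sG C) := by
  rw [P2]
  simp only [add_mul, neg_mul, smul_mul_assoc]

lemma P1' (X : Fin 9 → Fin 3 → ℂ) (i : Fin 9) (A : Fin 3) :
    ∑ β, S.vec (S.g i) A β * S.Mv X β =
      ∑ β, (-(S.Mv X β * S.vec (S.g i) A β) +
        (56 / 81 * Complex.I) • (S.Bv X β * S.vec (S.g i) A β))
      - (140 / 81 : ℂ) • ∑ j, X j A • S.Sk j i
      + (7 / 3 : ℂ) • ∑ B, ∑ C, ((eps C B A : ℂ) * X i B) • S.sG C := by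
  rw [P1]
  simp only [add_mul, neg_mul, smul_mul_assoc]

/-! ### the rotation identity -/

lemma sum_vec_anti (P N : Matrix (Fin 16) (Fin 16) ℂ) (A B : Fin 3) :
    ∑ β, S.vec P A β * S.vec N B β + ∑ β, S.vec N B β * S.vec P A β =
      (if A = B then (P * Nᵀ).trace else 0) • (1 : R) := by
  rw [← Finset.sum_add_distrib]
  simp only [vec_anti]
  by_cases h : A = B
  · simp [h, Matrix.trace, Finset.sum_smul]
  · simp [h]

/-- the multiplier for `J_{kl}` -/
noncomputable def MJv (k l : Fin 9) (X : Fin 9 → Fin 3 → ℂ) (β : Fin 16) : R :=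
  (9 : ℂ) • (∑ A, (X k A • S.vec (S.g l) A β - X l A • S.vec (S.g k) A β))
    + (2 : ℂ) • ∑ j, ∑ A, X j A • S.vec (S.g2 k l * S.g j) A β

lemma sum_mul_MJv (k l : Fin 9) (X : Fin 9 → Fin 3 → ℂ) (P : Matrix (Fin 16) (Fin 16) ℂ)
    (A : Fin 3) :
    ∑ β, S.vec P A β * S.MJv k l X β + ∑ β, S.MJv k l X β * S.vec P A β =
      (9 * (X k A * (P * S.g l).trace - X l A * (P * S.g k).trace) -
        2 * ∑ j, X j A * (P * S.g j * S.g2 k l).trace) • (1 : R) := by
  have h1 : ∑ β, S.vec P A β * S.MJv k l X β = (9 : ℂ) • ∑ B,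
      (X k B • ∑ β, S.vec P A β * S.vec (S.g l) B β -
        X l B • ∑ β, S.vec P A β * S.vec (S.g k) B β) +
      (2 : ℂ) • ∑ j, ∑ B, X j B • ∑ β, S.vec P A β * S.vec (S.g2 k l * S.g j) B β := by
    simp only [MJv, mul_add, mul_smul_comm, Finset.mul_sum, mul_sub, Finset.sum_add_distrib,
      ← Finset.smul_sum]
    congr 2
    · rw [Finset.sum_comm]
      refine Finset.sum_congr rfl fun B _ => ?_
      rw [Finset.sum_sub_distrib, Finset.smul_sum, Finset.smul_sum]
    · rw [Finset.sum_comm]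
      refine Finset.sum_congr rfl fun j _ => ?_
      rw [Finset.sum_comm]
      refine Finset.sum_congr rfl fun B _ => ?_
      rw [Finset.smul_sum]
  have h2 : ∑ β, S.MJv k l X β * S.vec P A β = (9 : ℂ) • ∑ B,
      (X k B • ∑ β, S.vec (S.g l) B β * S.vec P A β -
        X l B • ∑ β, S.vec (S.g k) B β * S.vec P A β) +
      (2 : ℂ) • ∑ j, ∑ B, X j B • ∑ β, S.vec (S.g2 k l * S.g j) B β * S.vec P A β := by
    simp only [MJv, add_mul, smul_mul_assoc, Finset.sum_mul, sub_mul, Finset.sum_add_distrib,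
      ← Finset.smul_sum]
    congr 2
    · rw [Finset.sum_comm]
      refine Finset.sum_congr rfl fun B _ => ?_
      rw [Finset.sum_sub_distrib, Finset.smul_sum, Finset.smul_sum]
    · rw [Finset.sum_comm]
      refine Finset.sum_congr rfl fun j _ => ?_
      rw [Finset.sum_comm]
      refine Finset.sum_congr rfl fun B _ => ?_
      rw [Finset.smul_sum]
  have ht : ∀ j, (P * (S.g2 k l * S.g j)ᵀ).trace = -(P * S.g j * S.g2 k l).trace := by
    intro j
    rw [Matrix.transpose_mul, g2_transpose, S.g_symm, mul_neg, mul_neg, Matrix.trace_neg,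
      ← mul_assoc]
  rw [h1, h2]
  have h3 : ∀ a b c d : R, ((9 : ℂ) • a + (2 : ℂ) • b) + ((9 : ℂ) • c + (2 : ℂ) • d) =
      (9 : ℂ) • (a + c) + (2 : ℂ) • (b + d) := by intros; module
  rw [h3]
  simp only [← Finset.sum_add_distrib]
  have h4 : ∀ B, X k B • ∑ β, S.vec P A β * S.vec (S.g l) B β -
        X l B • ∑ β, S.vec P A β * S.vec (S.g k) B β +
      (X k B • ∑ β, S.vec (S.g l) B β * S.vec P A β -
        X l B • ∑ β, S.vec (S.g k) B β * S.vec P A β) =
      if A = B then (X k A * (P * S.g l).trace - X l A * (P * S.g k).trace) • (1 : R) else 0 := by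
    intro B
    have : X k B • ∑ β, S.vec P A β * S.vec (S.g l) B β -
        X l B • ∑ β, S.vec P A β * S.vec (S.g k) B β +
      (X k B • ∑ β, S.vec (S.g l) B β * S.vec P A β -
        X l B • ∑ β, S.vec (S.g k) B β * S.vec P A β) =
        X k B • (∑ β, S.vec P A β * S.vec (S.g l) B β + ∑ β, S.vec (S.g l) B β * S.vec P A β) -
        X l B • (∑ β, S.vec P A β * S.vec (S.g k) B β + ∑ β, S.vec (S.g k) B β * S.vec P A β) := by
      module
    rw [this, sum_vec_anti, sum_vec_anti, S.g_symm, S.g_symm]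
    by_cases h : A = B
    · subst h; simp only [if_true]; module
    · simp [h]
  have h5 : ∀ j B, X j B • ∑ β, S.vec P A β * S.vec (S.g2 k l * S.g j) B β +
      X j B • ∑ β, S.vec (S.g2 k l * S.g j) B β * S.vec P A β =
      if A = B then (-(X j A * (P * S.g j * S.g2 k l).trace)) • (1 : R) else 0 := by
    intro j B
    rw [← smul_add, sum_vec_anti, ht]
    by_cases h : A = B
    · subst h; simp only [if_true]; module
    · simp [h]
  simp only [h4, h5, Finset.sum_ite_eq, Finset.mem_univ, if_true]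
  rw [← Finset.sum_smul, Finset.sum_neg_distrib]
  module

lemma PJ1 (k l : Fin 9) (X : Fin 9 → Fin 3 → ℂ) (i : Fin 9) (A : Fin 3) :
    ∑ β, S.vec (S.g i) A β * S.MJv k l X β =
      - ∑ β, S.MJv k l X β * S.vec (S.g i) A β +
      (112 * (X k A * (if i = l then 1 else 0) - X l A * (if i = k then 1 else 0))) • (1 : R) := by
  rw [eq_neg_add_iff_add_eq, add_comm, sum_mul_MJv]
  congr 1
  have h : ∀ j, X j A * (S.g i * S.g j * S.g2 k l).trace =
      (if j = k then (16 * X k A * (if i = l then 1 else 0)) else 0) -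
      (if j = l then (16 * X l A * (if i = k then 1 else 0)) else 0) := by
    intro j
    rw [S.trace_gg_g2]
    by_cases h1 : j = k
    · subst h1
      by_cases h2 : j = l
      · subst h2; simp
      · simp only [h2, if_true, if_false]; ring
    · by_cases h2 : j = l
      · subst h2; simp only [h1, if_true, if_false]; ring
      · simp [h1, h2]
  simp only [h, Finset.sum_sub_distrib, Finset.sum_ite_eq', Finset.mem_univ, if_true, trace_gg]
  have a4 : ∀ (P : Prop) [Decidable P], (if P then (16:ℂ) else 0) = 16 * (if P then (1:ℂ) else 0) := by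
    intro P _; split_ifs <;> simp
  rw [a4, a4]
  ring

lemma PJ2 (κ : ℂ) (k l : Fin 9) (hkl : k ≠ l) (X : Fin 9 → Fin 3 → ℂ) :
    (-Complex.I) • ∑ i, ∑ A, ∑ β, S.vec (S.g i) A β * S.MJv k l (E1 i A) β +
      ∑ β, S.Wv κ X β * S.MJv k l X β + ∑ β, S.MJv k l X β * S.Wv κ X β =
    (112 : ℂ) • S.Sk k l := by
  have h1 : ∑ β, S.Wv κ X β * S.MJv k l X β + ∑ β, S.MJv k l X β * S.Wv κ X β = 0 := by
    rw [sum_Wv_mul, sum_mul_Wv, ← smul_add]
    have a1 : ∀ p q j, (S.g2 p q * S.g j).trace = 0 := by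
      intro p q j; rw [Matrix.trace_mul_comm, trace_g_g2]
    have a2 : ∀ p q j, (S.g2 p q * S.g j * S.g2 k l).trace = 0 := by
      intro p q j; rw [trace_g2_g_g2]
    have a3 : ∀ p q A, ∑ β, S.vec (S.g2 p q) A β * S.MJv k l X β +
        ∑ β, S.MJv k l X β * S.vec (S.g2 p q) A β = 0 := by
      intro p q A
      rw [sum_mul_MJv]
      simp [a1, a2]
    have a4 : ∀ (f g : Fin 3 → Fin 9 → Fin 9 → R), ∑ A, ∑ p, ∑ q, FFc κ X A p q • f A p q +
        ∑ A, ∑ p, ∑ q, FFc κ X A p q • g A p q =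
        ∑ A, ∑ p, ∑ q, FFc κ X A p q • (f A p q + g A p q) := by
      intro f g
      simp only [← Finset.sum_add_distrib, ← smul_add]
    rw [a4]
    simp [a3]
  have h2 : ∀ i A β, S.MJv k l (E1 i A) β =
      (9 : ℂ) • ((if k = i then S.vec (S.g l) A β else 0) - (if l = i then S.vec (S.g k) A β else 0))
      + (2 : ℂ) • S.vec (S.g2 k l * S.g i) A β := by
    intro i A β
    simp only [MJv, E1_sum, Finset.sum_sub_distrib, Finset.sum_ite_eq', Finset.mem_univ, if_true]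
  have h3 : ∑ i, ∑ A, ∑ β, S.vec (S.g i) A β * S.MJv k l (E1 i A) β =
      (112 * Complex.I) • S.Sk k l := by
    have b1 : ∀ i, ∑ A, ∑ β, S.vec (S.g i) A β * S.MJv k l (E1 i A) β =
        (9 : ℂ) • ((if k = i then S.tot (S.g i * S.g l) else 0) -
          (if l = i then S.tot (S.g i * S.g k) else 0)) +
          (2 : ℂ) • S.tot (S.g i * S.g2 k l * S.g i) := by
      intro i
      simp only [h2, mul_add, mul_smul_comm, Finset.sum_add_distrib, mul_sub, mul_ite, mul_zero,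
        ← Finset.smul_sum, Finset.sum_sub_distrib, Finset.sum_ite_irrel, Finset.sum_const_zero,
        S.sum_vec_mul_vec, S.g_symm, tot, mul_assoc]
    simp only [b1, Finset.sum_add_distrib, ← Finset.smul_sum, Finset.sum_sub_distrib,
      Finset.sum_ite_eq, Finset.mem_univ, if_true]
    rw [← S.tot_sum]
    have : ∑ i, S.g i * S.g2 k l * S.g i = S.sand (S.g2 k l) := rfl
    rw [this, sand_g2, tot_smul, tot_gg, tot_gg, tot_g2, S.Sk_antisymm l k]
    simp only [hkl, Ne.symm hkl, if_false]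
    module
  rw [add_assoc, h1, h3, add_zero, smul_smul]
  congr 1
  linear_combination (-112) * Complex.I_mul_I

end CS
end Vale.Agent.P353
end

section

open MeasureTheory Filter Topology
open scoped ContDiff

namespace Vale.Agent.P353

namespace CS

variable {R : Type*} [Ring R] [Algebra ℂ R] (S : CS R)

lemma X_eq_sum (X : Fin 9 → Fin 3 → ℂ) : X = ∑ i, ∑ A, X i A • E1 i A := by
  funext j B
  simp only [Finset.sum_apply, Pi.smul_apply, E1, smul_eq_mul, mul_ite, mul_one, mul_zero]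
  have : ∀ i, ∑ A, (if j = i ∧ B = A then X i A else 0) = if j = i then X j B else 0 := by
    intro i
    by_cases h : j = i
    · subst h; simp
    · simp [h]
  simp [this]

/-- `Mv` as a linear map -/
noncomputable def MvL (β : Fin 16) : (Fin 9 → Fin 3 → ℂ) →ₗ[ℂ] R where
  toFun X := S.Mv X β
  map_add' X Y := by
    simp only [Mv, MS, MG, MI, Bv, Pi.add_apply, add_smul, mul_add, Finset.sum_add_distrib, add_mul,
      smul_add, smul_sub]
    abel
  map_smul' c X := by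
    have h1 : S.MS (c • X) β = c • S.MS X β := by
      simp only [MS, Pi.smul_apply, smul_eq_mul, mul_smul, ← Finset.smul_sum, smul_mul_assoc]
    have h2 : S.MG (c • X) β = c • S.MG X β := by
      simp only [MG, Pi.smul_apply, smul_eq_mul, mul_left_comm _ c, mul_smul c, ← Finset.smul_sum,
        smul_mul_assoc]
    have h3 : S.MI (c • X) β = c • S.MI X β := by
      simp only [MI, Pi.smul_apply, smul_eq_mul, mul_smul, ← Finset.smul_sum, smul_mul_assoc]
    have h4 : S.Bv (c • X) β = c • S.Bv X β := by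
      simp only [Bv, Pi.smul_apply, smul_eq_mul, mul_smul, ← Finset.smul_sum]
    simp only [Mv, h1, h2, h3, h4, RingHom.id_apply]
    module

lemma Mv_eq_sum (X : Fin 9 → Fin 3 → ℂ) (β : Fin 16) :
    S.Mv X β = ∑ i, ∑ A, X i A • S.Mv (E1 i A) β := by
  have h : S.MvL β X = ∑ i, ∑ A, X i A • S.MvL β (E1 i A) := by
    conv_lhs => rw [X_eq_sum X]
    simp only [map_sum, map_smul]
  exact h

/-- `MJv` as a linear map -/
noncomputable def MJvL (k l : Fin 9) (β : Fin 16) : (Fin 9 → Fin 3 → ℂ) →ₗ[ℂ] R where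
  toFun X := S.MJv k l X β
  map_add' X Y := by
    simp only [MJv, Pi.add_apply, add_smul, Finset.sum_add_distrib, Finset.sum_sub_distrib]
    module
  map_smul' c X := by
    simp only [MJv, Pi.smul_apply, smul_eq_mul, mul_smul, ← Finset.smul_sum, ← smul_sub,
      RingHom.id_apply]
    module

lemma MJv_eq_sum (k l : Fin 9) (X : Fin 9 → Fin 3 → ℂ) (β : Fin 16) :
    S.MJv k l X β = ∑ i, ∑ A, X i A • S.MJv k l (E1 i A) β := by
  have h : S.MJvL k l β X = ∑ i, ∑ A, X i A • S.MJvL k l β (E1 i A) := by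
    conv_lhs => rw [X_eq_sum X]
    simp only [map_sum, map_smul]
  exact h

end CS

variable {F : Type*} [NormedAddCommGroup F] [InnerProductSpace ℂ F]

/-- complexified coordinates -/
def Xc (x : X3) : Fin 9 → Fin 3 → ℂ := fun i A => (x (i, A) : ℂ)

/-- an operator-valued linear multiplier -/
lemma pd_lin (T : Fin 9 → Fin 3 → (F →L[ℂ] F)) (u : X3 → F) (x : X3)
    (hu : DifferentiableAt ℝ u x) (i : Fin 9) (A : Fin 3) :
    pd i A (fun y => (∑ j, ∑ B, Xc y j B • T j B) (u y)) x =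
      T i A (u x) + (∑ j, ∑ B, Xc x j B • T j B) (pd i A u x) := by
  have hd : ∀ p : Fin 9 × Fin 3, DifferentiableAt ℝ (fun y : X3 => y p) x := fun p =>
    (Setup.contDiff_coord p).differentiable (by simp) x
  have hfd : ∀ j B, fderiv ℝ (fun y : X3 => y (j, B)) x (EuclideanSpace.single (i, A) 1) =
      if j = i ∧ B = A then (1:ℝ) else 0 := by
    intro j B
    have hL : (fun y : X3 => y (j, B)) = (EuclideanSpace.proj (𝕜 := ℝ) (j, B) : X3 →L[ℝ] ℝ) := rfl
    rw [hL, ContinuousLinearMap.fderiv]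
    by_cases h : j = i ∧ B = A
    · simp [h]
    · have : ¬ ((j, B) : Fin 9 × Fin 3) = (i, A) := by
        intro h'; exact h (by simpa [Prod.ext_iff] using h')
      simp [h, this]
  have hT : ∀ j B, DifferentiableAt ℝ (fun y => T j B (u y)) x := fun j B =>
    ((T j B).restrictScalars ℝ).differentiableAt.comp x hu
  have h1 : (fun y => (∑ j, ∑ B, Xc y j B • T j B) (u y)) =
      fun y => ∑ j, ∑ B, ((y (j, B) : ℝ) : ℂ) • T j B (u y) := by
    funext y
    simp only [_root_.sum_apply, _root_.smul_apply, Xc]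
  have hs : ∀ j B, DifferentiableAt ℝ (fun y : X3 => ((y (j, B) : ℝ) : ℂ) • T j B (u y)) x := by
    intro j B
    exact (Complex.ofRealCLM.differentiableAt.comp x (hd (j, B))).smul (hT j B)
  rw [h1, pd_sum _ fun j _ => DifferentiableAt.fun_sum fun B _ => hs j B]
  have h2 : ∀ j, pd i A (fun y : X3 => ∑ B, ((y (j, B) : ℝ) : ℂ) • T j B (u y)) x =
      ∑ B, (((if j = i ∧ B = A then (1:ℝ) else 0 : ℝ) : ℂ) • T j B (u x) +
        Xc x j B • T j B (pd i A u x)) := by
    intro j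
    rw [pd_sum _ fun B _ => hs j B]
    refine Finset.sum_congr rfl fun B _ => ?_
    rw [pd_rsmul (hd (j, B)) (hT j B), hfd, pd_clm _ hu, Xc]
  simp only [h2, Finset.sum_add_distrib, _root_.sum_apply, _root_.smul_apply]
  congr 1
  have h3 : ∀ j, ∑ B, (((if j = i ∧ B = A then (1:ℝ) else 0 : ℝ) : ℂ) • T j B (u x)) =
      if j = i then T i A (u x) else 0 := by
    intro j
    by_cases h : j = i
    · subst h; simp
    · simp [h]
  rw [Finset.sum_congr rfl fun j _ => h3 j]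
  simp

/-! ### the algebraic identities applied to vectors -/

namespace CS

variable (S : CS (F →L[ℂ] F))

lemma P2_apply (κ : ℂ) (X : Fin 9 → Fin 3 → ℂ) (v : F) :
    (-Complex.I) • ∑ i, ∑ A, ∑ β, S.vec (S.g i) A β (S.Mv (E1 i A) β v) +
      ∑ β, S.Wv κ X β (S.Mv X β v) =
    ((2 : ℂ) • ∑ k, ∑ l, S.Sk k l (S.Sk k l v) + ∑ C, S.sG C (S.sG C v) - (88 : ℂ) • v) +
    ∑ β, (-S.Mv X β (S.Wv κ X β v) + (56 / 81 * Complex.I) • S.Bv X β (S.Wv κ X β v))
    + ((-70 / 81 : ℂ) • ∑ k, ∑ l, S.Sk k l (S.Sk k l v)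
      + (7 / 3 : ℂ) • ∑ C, S.sG C (S.sG C v)) := by
  have h := congrArg (fun T : F →L[ℂ] F => T v) (S.P2' κ X)
  simp only [_root_.add_apply, _root_.sub_apply, _root_.smul_apply, _root_.sum_apply,
    mul_apply_eq_comp, _root_.neg_apply, one_apply_eq_self] at h
  exact h

lemma P1_apply (X : Fin 9 → Fin 3 → ℂ) (i : Fin 9) (A : Fin 3) (v : F) :
    ∑ β, S.vec (S.g i) A β (S.Mv X β v) =
      ∑ β, (-S.Mv X β (S.vec (S.g i) A β v) + (56 / 81 * Complex.I) •
        S.Bv X β (S.vec (S.g i) A β v))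
      - (140 / 81 : ℂ) • ∑ j, X j A • S.Sk j i v
      + (7 / 3 : ℂ) • ∑ B, ∑ C, ((eps C B A : ℂ) * X i B) • S.sG C v := by
  have h := congrArg (fun T : F →L[ℂ] F => T v) (S.P1' X i A)
  simp only [_root_.add_apply, _root_.sub_apply, _root_.smul_apply, _root_.sum_apply,
    mul_apply_eq_comp, _root_.neg_apply] at h
  exact h

lemma PJ1_apply (k l : Fin 9) (X : Fin 9 → Fin 3 → ℂ) (i : Fin 9) (A : Fin 3) (v : F) :
    ∑ β, S.vec (S.g i) A β (S.MJv k l X β v) =
      - ∑ β, S.MJv k l X β (S.vec (S.g i) A β v) +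
      (112 * (X k A * (if i = l then 1 else 0) - X l A * (if i = k then 1 else 0))) • v := by
  have h := congrArg (fun T : F →L[ℂ] F => T v) (S.PJ1 k l X i A)
  simp only [_root_.add_apply, _root_.smul_apply, _root_.sum_apply,
    mul_apply_eq_comp, _root_.neg_apply, one_apply_eq_self] at h
  exact h

lemma PJ2_apply (κ : ℂ) (k l : Fin 9) (hkl : k ≠ l) (X : Fin 9 → Fin 3 → ℂ) (v : F) :
    (-Complex.I) • ∑ i, ∑ A, ∑ β, S.vec (S.g i) A β (S.MJv k l (E1 i A) β v) +
      ∑ β, S.Wv κ X β (S.MJv k l X β v) + ∑ β, S.MJv k l X β (S.Wv κ X β v) =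
    (112 : ℂ) • S.Sk k l v := by
  have h := congrArg (fun T : F →L[ℂ] F => T v) (S.PJ2 κ k l hkl X)
  simp only [_root_.add_apply, _root_.smul_apply, _root_.sum_apply,
    mul_apply_eq_comp] at h
  exact h

end CS

namespace Setup

variable (S : Setup F)

lemma FF_eq (A : Fin 3) (i j : Fin 9) (x : X3) :
    ((S.FF A i j x : ℝ) : ℂ) = CS.FFc (S.κ : ℂ) (Xc x) A i j := by
  simp only [FF, CS.FFc, Xc, Complex.ofReal_mul, Complex.ofReal_sum, Complex.ofReal_intCast]

lemma W_eqX (β : Fin 16) (x : X3) : S.W β x = S.toCS.Wv (S.κ : ℂ) (Xc x) β := by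
  ext v
  simp only [W, CS.Wv, FF_eq, _root_.sum_apply, _root_.smul_apply]

lemma B_eq (β : Fin 16) (x : X3) : S.B β x = S.toCS.Bv (Xc x) β := by
  ext v
  simp only [B, CS.Bv, Xc, _root_.sum_apply, _root_.smul_apply]

lemma Skl_eq (k l : Fin 9) : S.Skl k l = S.toCS.Sk k l := by
  ext v
  simp only [Skl, CS.Sk, _root_.smul_apply]

lemma cS_eq (C : Fin 3) : S.cS C = S.toCS.sG C := by
  ext v
  simp only [cS, CS.sG, _root_.sum_apply, _root_.smul_apply]

lemma Mult_eq (β : Fin 16) (x : X3) : S.Mult β x = S.toCS.Mv (Xc x) β := by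
  ext v
  simp only [Mult, CS.Mv, CS.MS, CS.MG, CS.MI, CS.Bv, B, Skl_eq, cS_eq, Xc, _root_.sum_apply,
    _root_.smul_apply, _root_.add_apply, _root_.sub_apply, mul_apply_eq_comp]

/-- the right multiplier `X_β = -M_β + (56 i/81) B_β` -/
noncomputable def Xop (β : Fin 16) (x : X3) : F →L[ℂ] F :=
  -S.Mult β x + (56 / 81 * Complex.I) • S.B β x

lemma sum3_smul (f : Fin 9 → Fin 3 → Fin 16 → F) : ∑ β, (-Complex.I) • ∑ i, ∑ A, f i A β =
    (-Complex.I) • ∑ i, ∑ A, ∑ β, f i A β := by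
  rw [← Finset.smul_sum, Finset.sum_comm]
  congr 1
  refine Finset.sum_congr rfl fun i _ => ?_
  rw [Finset.sum_comm]

lemma pd_Mult (u : X3 → F) (x : X3) (hu : DifferentiableAt ℝ u x) (β : Fin 16) (i : Fin 9)
    (A : Fin 3) : pd i A (fun y => S.Mult β y (u y)) x =
      S.toCS.Mv (CS.E1 i A) β (u x) + S.toCS.Mv (Xc x) β (pd i A u x) := by
  have hS : ∀ X : Fin 9 → Fin 3 → ℂ, ∀ v, S.toCS.Mv X β v =
      (∑ j, ∑ B, X j B • S.toCS.Mv (CS.E1 j B) β) v := by
    intro X v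
    have h := congrArg (fun T : F →L[ℂ] F => T v) (S.toCS.Mv_eq_sum X β)
    simp only [_root_.sum_apply, _root_.smul_apply] at h ⊢
    exact h
  have hM : (fun y => S.Mult β y (u y)) =
      fun y => (∑ j, ∑ B, Xc y j B • S.toCS.Mv (CS.E1 j B) β) (u y) := by
    funext y
    rw [Mult_eq, hS]
  rw [hM, pd_lin _ _ _ hu, ← hS]

lemma key_L (u : X3 → F) (x : X3) (hu : DifferentiableAt ℝ u x) :
    ∑ β, S.Q β (fun y => S.Mult β y (u y)) x =
      ((-Complex.I) • ∑ i, ∑ A, ∑ β, S.vec (S.g i) A β (S.toCS.Mv (CS.E1 i A) β (u x)) +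
        ∑ β, S.toCS.Wv (S.κ : ℂ) (Xc x) β (S.toCS.Mv (Xc x) β (u x))) +
      (-Complex.I) • ∑ i, ∑ A, ∑ β, S.vec (S.g i) A β (S.toCS.Mv (Xc x) β (pd i A u x)) := by
  have e0 : ∀ β, S.Q β (fun y => S.Mult β y (u y)) x = (-Complex.I) • ∑ i, ∑ A,
      S.vec (S.g i) A β (S.toCS.Mv (CS.E1 i A) β (u x)) +
      (-Complex.I) • ∑ i, ∑ A, S.vec (S.g i) A β (S.toCS.Mv (Xc x) β (pd i A u x)) +
      S.toCS.Wv (S.κ : ℂ) (Xc x) β (S.toCS.Mv (Xc x) β (u x)) := by
    intro β
    rw [Q]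
    simp only [S.pd_Mult u x hu]
    simp only [map_add, Finset.sum_add_distrib, smul_add, W_eqX, Mult_eq]
  rw [Finset.sum_congr rfl fun β _ => e0 β, Finset.sum_add_distrib, Finset.sum_add_distrib,
    sum3_smul, sum3_smul]
  exact add_right_comm _ _ _

lemma Xop_apply (β : Fin 16) (x : X3) (v : F) : S.Xop β x v =
    -S.toCS.Mv (Xc x) β v + (56 / 81 * Complex.I) • S.toCS.Bv (Xc x) β v := by
  rw [Xop, Mult_eq, B_eq, _root_.add_apply, _root_.neg_apply, _root_.smul_apply]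

lemma Q_eq (β : Fin 16) (u : X3 → F) (x : X3) : S.Q β u x =
    (-Complex.I) • ∑ i, ∑ A, S.vec (S.g i) A β (pd i A u x) +
      S.toCS.Wv (S.κ : ℂ) (Xc x) β (u x) := by
  rw [Q, W_eqX]

lemma clm_Q (T : F →L[ℂ] F) (β : Fin 16) (u : X3 → F) (x : X3) : T (S.Q β u x) =
    (-Complex.I) • ∑ i, ∑ A, T (S.vec (S.g i) A β (pd i A u x)) +
      T (S.toCS.Wv (S.κ : ℂ) (Xc x) β (u x)) := by
  rw [Q_eq, map_add, map_smul, map_sum]
  simp only [map_sum]

lemma key_X (u : X3 → F) (x : X3) :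
    ∑ β, S.Xop β x (S.Q β u x) =
      (∑ β, (-S.toCS.Mv (Xc x) β (S.toCS.Wv (S.κ : ℂ) (Xc x) β (u x)) +
        (56 / 81 * Complex.I) • S.toCS.Bv (Xc x) β (S.toCS.Wv (S.κ : ℂ) (Xc x) β (u x)))) +
      (-Complex.I) • ∑ i, ∑ A, ∑ β, (-S.toCS.Mv (Xc x) β (S.vec (S.g i) A β (pd i A u x)) +
        (56 / 81 * Complex.I) • S.toCS.Bv (Xc x) β (S.vec (S.g i) A β (pd i A u x))) := by
  have e0 : ∀ β, S.Xop β x (S.Q β u x) = (-Complex.I) • ∑ i, ∑ A,
      (-S.toCS.Mv (Xc x) β (S.vec (S.g i) A β (pd i A u x)) +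
        (56 / 81 * Complex.I) • S.toCS.Bv (Xc x) β (S.vec (S.g i) A β (pd i A u x))) +
      (-S.toCS.Mv (Xc x) β (S.toCS.Wv (S.κ : ℂ) (Xc x) β (u x)) +
        (56 / 81 * Complex.I) • S.toCS.Bv (Xc x) β (S.toCS.Wv (S.κ : ℂ) (Xc x) β (u x))) := by
    intro β
    rw [clm_Q]
    simp only [Xop_apply]
  rw [Finset.sum_congr rfl fun β _ => e0 β, Finset.sum_add_distrib, sum3_smul, add_comm]

lemma key_J (u : X3 → F) (x : X3) :
    ∑ k, ∑ l, S.Skl k l (S.J k l u x) = (∑ k, ∑ l, S.toCS.Sk k l (S.toCS.Sk k l (u x))) +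
      (-Complex.I) • ∑ i, ∑ A, (2 : ℂ) • ∑ j, Xc x j A • S.toCS.Sk j i (pd i A u x) := by
  have e0 : ∀ k l, S.Skl k l (S.J k l u x) = S.toCS.Sk k l (S.toCS.Sk k l (u x)) +
      (-Complex.I) • (∑ A, Xc x k A • S.toCS.Sk k l (pd l A u x) -
        ∑ A, Xc x l A • S.toCS.Sk k l (pd k A u x)) := by
    intro k l
    simp only [J, Skl_eq, map_add, map_smul, map_sum, map_sub, Finset.sum_sub_distrib, Xc]
    exact add_comm _ _
  simp only [e0, Finset.sum_add_distrib]
  congr 1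
  simp only [← Finset.smul_sum, Finset.sum_sub_distrib]
  congr 1
  have e1 : ∑ k, ∑ l, ∑ A, Xc x l A • S.toCS.Sk k l (pd k A u x) =
      -∑ k, ∑ l, ∑ A, Xc x k A • S.toCS.Sk k l (pd l A u x) := by
    rw [Finset.sum_comm, ← Finset.sum_neg_distrib]
    refine Finset.sum_congr rfl fun k _ => ?_
    rw [← Finset.sum_neg_distrib]
    refine Finset.sum_congr rfl fun l _ => ?_
    rw [← Finset.sum_neg_distrib]
    refine Finset.sum_congr rfl fun A _ => ?_
    rw [S.toCS.Sk_antisymm l k, _root_.neg_apply, smul_neg]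
  rw [e1, sub_neg_eq_add, ← two_smul ℂ]
  congr 1
  rw [Finset.sum_comm]
  refine Finset.sum_congr rfl fun l _ => ?_
  rw [Finset.sum_comm]

lemma key_G (u : X3 → F) (x : X3) :
    ∑ C, S.cS C (S.G C u x) = (∑ C, S.toCS.sG C (S.toCS.sG C (u x))) +
      (-Complex.I) • ∑ i, ∑ A, ∑ B, ∑ C, ((eps C B A : ℂ) * Xc x i B) • S.toCS.sG C
        (pd i A u x) := by
  have e0 : ∀ C, S.cS C (S.G C u x) = S.toCS.sG C (S.toCS.sG C (u x)) +
      (-Complex.I) • ∑ i, ∑ B, ∑ A, ((eps C B A : ℂ) * Xc x i B) •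
        S.toCS.sG C (pd i A u x) := by
    intro C
    simp only [G, cS_eq, map_add, map_smul, map_sum, Xc]
    exact add_comm _ _
  simp only [e0, Finset.sum_add_distrib]
  refine (add_right_inj _).mpr ?_
  rw [← Finset.smul_sum, Finset.sum_comm]
  refine congrArg (fun t => (-Complex.I) • t) ?_
  refine Finset.sum_congr rfl fun i _ => ?_
  rw [Finset.sum_comm]
  have : ∀ B, ∑ C, ∑ A, ((eps C B A : ℂ) * Xc x i B) • S.toCS.sG C (pd i A u x) =
      ∑ A, ∑ C, ((eps C B A : ℂ) * Xc x i B) • S.toCS.sG C (pd i A u x) := fun B =>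
    Finset.sum_comm
  simp only [this]
  rw [Finset.sum_comm]

lemma O1_apply (v : F) : S.O1 v = (2 : ℂ) • ∑ k, ∑ l, S.toCS.Sk k l (S.toCS.Sk k l v) +
      ∑ C, S.toCS.sG C (S.toCS.sG C v) - (88 : ℂ) • v := by
  simp only [O1, C2, CG, smul_smul, Skl_eq, cS_eq, _root_.add_apply, _root_.sub_apply,
    _root_.smul_apply, _root_.sum_apply, mul_apply_eq_comp, one_apply_eq_self]
  norm_num

/-- the key exact identity -/
theorem key_identity (u : X3 → F) (x : X3) (hu : DifferentiableAt ℝ u x) :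
    ∑ β, S.Q β (fun y => S.Mult β y (u y)) x =
      S.O1 (u x) + ∑ β, S.Xop β x (S.Q β u x)
        + (-70 / 81 : ℂ) • ∑ k, ∑ l, S.Skl k l (S.J k l u x)
        + (7 / 3 : ℂ) • ∑ C, S.cS C (S.G C u x) := by
  rw [S.key_L u x hu, S.key_X, S.key_J, S.key_G, CS.P2_apply, S.O1_apply]
  have h1 : ∑ i, ∑ A, ∑ β, S.vec (S.g i) A β (S.toCS.Mv (Xc x) β (pd i A u x)) =
      ∑ i, ∑ A, ∑ β, (-S.toCS.Mv (Xc x) β (S.vec (S.g i) A β (pd i A u x)) +
        (56 / 81 * Complex.I) • S.toCS.Bv (Xc x) β (S.vec (S.g i) A β (pd i A u x)))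
      + (-70 / 81 : ℂ) • ∑ i, ∑ A, (2 : ℂ) • ∑ j, Xc x j A • S.toCS.Sk j i (pd i A u x)
      + (7 / 3 : ℂ) • ∑ i, ∑ A, ∑ B, ∑ C, ((eps C B A : ℂ) * Xc x i B) • S.toCS.sG C
        (pd i A u x) := by
    rw [Finset.smul_sum, Finset.smul_sum, ← Finset.sum_add_distrib, ← Finset.sum_add_distrib]
    refine Finset.sum_congr rfl fun i _ => ?_
    rw [Finset.smul_sum, Finset.smul_sum, ← Finset.sum_add_distrib, ← Finset.sum_add_distrib]
    refine Finset.sum_congr rfl fun A _ => ?_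
    rw [CS.P1_apply]
    generalize ∑ β, (-S.toCS.Mv (Xc x) β (S.vec (S.g i) A β (pd i A u x)) +
        (56 / 81 * Complex.I) • S.toCS.Bv (Xc x) β (S.vec (S.g i) A β (pd i A u x))) = b1
    generalize ∑ j, Xc x j A • S.toCS.Sk j i (pd i A u x) = b2
    generalize ∑ B, ∑ C, ((eps C B A : ℂ) * Xc x i B) • S.toCS.sG C (pd i A u x) = b3
    module
  rw [h1]
  generalize ∑ i, ∑ A, ∑ β, (-S.toCS.Mv (Xc x) β (S.vec (S.g i) A β (pd i A u x)) +
        (56 / 81 * Complex.I) • S.toCS.Bv (Xc x) β (S.vec (S.g i) A β (pd i A u x))) = a1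
  generalize ∑ i, ∑ A, (2 : ℂ) • ∑ j, Xc x j A • S.toCS.Sk j i (pd i A u x) = a2
  generalize ∑ i, ∑ A, ∑ B, ∑ C, ((eps C B A : ℂ) * Xc x i B) • S.toCS.sG C
        (pd i A u x) = a3
  generalize ∑ β, (-S.toCS.Mv (Xc x) β (S.toCS.Wv (S.κ : ℂ) (Xc x) β (u x)) +
        (56 / 81 * Complex.I) • S.toCS.Bv (Xc x) β (S.toCS.Wv (S.κ : ℂ) (Xc x) β (u x))) = a4
  generalize ∑ k, ∑ l, S.toCS.Sk k l (S.toCS.Sk k l (u x)) = a5
  generalize ∑ C, S.toCS.sG C (S.toCS.sG C (u x)) = a6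
  module

/-- the multiplier for `J_{kl}` -/
noncomputable def MJ (k l : Fin 9) (β : Fin 16) (x : X3) : F →L[ℂ] F :=
  (9 : ℂ) • (∑ A, ((x (k, A) : ℂ) • S.vec (S.g l) A β - (x (l, A) : ℂ) • S.vec (S.g k) A β))
    + (2 : ℂ) • ∑ j, ∑ A, (x (j, A) : ℂ) • S.vec (S.g2 k l * S.g j) A β

lemma MJ_eq (k l : Fin 9) (β : Fin 16) (x : X3) : S.MJ k l β x = S.toCS.MJv k l (Xc x) β := by
  ext v
  simp only [MJ, CS.MJv, Xc, _root_.sum_apply, _root_.smul_apply, _root_.add_apply,
    _root_.sub_apply]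

lemma pd_MJ (k l : Fin 9) (u : X3 → F) (x : X3) (hu : DifferentiableAt ℝ u x) (β : Fin 16)
    (i : Fin 9) (A : Fin 3) : pd i A (fun y => S.MJ k l β y (u y)) x =
      S.toCS.MJv k l (CS.E1 i A) β (u x) + S.toCS.MJv k l (Xc x) β (pd i A u x) := by
  have hS : ∀ X : Fin 9 → Fin 3 → ℂ, ∀ v, S.toCS.MJv k l X β v =
      (∑ j, ∑ B, X j B • S.toCS.MJv k l (CS.E1 j B) β) v := by
    intro X v
    have h := congrArg (fun T : F →L[ℂ] F => T v) (S.toCS.MJv_eq_sum k l X β)
    simp only [_root_.sum_apply, _root_.smul_apply] at h ⊢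
    exact h
  have hM : (fun y => S.MJ k l β y (u y)) =
      fun y => (∑ j, ∑ B, Xc y j B • S.toCS.MJv k l (CS.E1 j B) β) (u y) := by
    funext y
    rw [MJ_eq, hS]
  rw [hM, pd_lin _ _ _ hu, ← hS]

lemma MJ_L (k l : Fin 9) (u : X3 → F) (x : X3) (hu : DifferentiableAt ℝ u x) :
    ∑ β, S.Q β (fun y => S.MJ k l β y (u y)) x =
      ((-Complex.I) • ∑ i, ∑ A, ∑ β, S.vec (S.g i) A β (S.toCS.MJv k l (CS.E1 i A) β (u x)) +
        ∑ β, S.toCS.Wv (S.κ : ℂ) (Xc x) β (S.toCS.MJv k l (Xc x) β (u x))) +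
      (-Complex.I) • ∑ i, ∑ A, ∑ β, S.vec (S.g i) A β (S.toCS.MJv k l (Xc x) β
        (pd i A u x)) := by
  have e0 : ∀ β, S.Q β (fun y => S.MJ k l β y (u y)) x = (-Complex.I) • ∑ i, ∑ A,
      S.vec (S.g i) A β (S.toCS.MJv k l (CS.E1 i A) β (u x)) +
      (-Complex.I) • ∑ i, ∑ A, S.vec (S.g i) A β (S.toCS.MJv k l (Xc x) β (pd i A u x)) +
      S.toCS.Wv (S.κ : ℂ) (Xc x) β (S.toCS.MJv k l (Xc x) β (u x)) := by
    intro β
    rw [Q]
    simp only [S.pd_MJ k l u x hu]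
    simp only [map_add, Finset.sum_add_distrib, smul_add, W_eqX, MJ_eq]
  rw [Finset.sum_congr rfl fun β _ => e0 β, Finset.sum_add_distrib, Finset.sum_add_distrib,
    sum3_smul, sum3_smul]
  exact add_right_comm _ _ _

lemma MJ_R (k l : Fin 9) (u : X3 → F) (x : X3) :
    ∑ β, S.MJ k l β x (S.Q β u x) =
      (∑ β, S.toCS.MJv k l (Xc x) β (S.toCS.Wv (S.κ : ℂ) (Xc x) β (u x))) +
      (-Complex.I) • ∑ i, ∑ A, ∑ β, S.toCS.MJv k l (Xc x) β (S.vec (S.g i) A β
        (pd i A u x)) := by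
  have e0 : ∀ β, S.MJ k l β x (S.Q β u x) = (-Complex.I) • ∑ i, ∑ A,
      S.toCS.MJv k l (Xc x) β (S.vec (S.g i) A β (pd i A u x)) +
      S.toCS.MJv k l (Xc x) β (S.toCS.Wv (S.κ : ℂ) (Xc x) β (u x)) := by
    intro β
    rw [clm_Q, MJ_eq]
  rw [Finset.sum_congr rfl fun β _ => e0 β, Finset.sum_add_distrib, sum3_smul, add_comm]

theorem J_exact (k l : Fin 9) (hkl : k ≠ l) (u : X3 → F) (x : X3)
    (hu : DifferentiableAt ℝ u x) :
    (112 : ℂ) • S.J k l u x = ∑ β, S.Q β (fun y => S.MJ k l β y (u y)) x +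
      ∑ β, S.MJ k l β x (S.Q β u x) := by
  rw [S.MJ_L k l u x hu, S.MJ_R]
  have h2 := S.toCS.PJ2_apply (S.κ : ℂ) k l hkl (Xc x) (u x)
  have h3 : ∑ i, ∑ A, ∑ β, S.vec (S.g i) A β (S.toCS.MJv k l (Xc x) β (pd i A u x)) =
      -∑ i, ∑ A, ∑ β, S.toCS.MJv k l (Xc x) β (S.vec (S.g i) A β (pd i A u x)) +
      (112 : ℂ) • ∑ A, (Xc x k A • pd l A u x - Xc x l A • pd k A u x) := by
    have e1 : ∀ i A, ∑ β, S.vec (S.g i) A β (S.toCS.MJv k l (Xc x) β (pd i A u x)) =
      - ∑ β, S.toCS.MJv k l (Xc x) β (S.vec (S.g i) A β (pd i A u x)) +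
      (112 * (Xc x k A * (if i = l then 1 else 0) - Xc x l A * (if i = k then 1 else 0))) •
        pd i A u x := fun i A => S.toCS.PJ1_apply k l (Xc x) i A (pd i A u x)
    simp only [e1, Finset.sum_add_distrib, Finset.sum_neg_distrib]
    congr 1
    rw [Finset.sum_comm, Finset.smul_sum]
    refine Finset.sum_congr rfl fun A _ => ?_
    have : ∀ i, (112 * (Xc x k A * (if i = l then 1 else 0) -
        Xc x l A * (if i = k then 1 else 0))) • pd i A u x =
        (if i = l then (112 * Xc x k A) • pd i A u x else 0) -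
        (if i = k then (112 * Xc x l A) • pd i A u x else 0) := by
      intro i
      by_cases h1 : i = l
      · subst h1; simp [Ne.symm hkl]
      · by_cases h2 : i = k
        · subst h2; simp [hkl]
        · simp [h1, h2]
    simp only [this, Finset.sum_sub_distrib, Finset.sum_ite_eq', Finset.mem_univ, if_true]
    module
  rw [h3]
  have h4 : (112 : ℂ) • S.J k l u x = (112 : ℂ) • S.toCS.Sk k l (u x) +
      (-Complex.I) • (112 : ℂ) • ∑ A, (Xc x k A • pd l A u x - Xc x l A • pd k A u x) := by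
    simp only [J, Skl_eq, Xc, smul_add]
    rw [smul_comm (112 : ℂ) (-Complex.I)]
    exact add_comm _ _
  rw [h4, ← h2]
  generalize (-Complex.I) • ∑ i, ∑ A, ∑ β, S.vec (S.g i) A β
    (S.toCS.MJv k l (CS.E1 i A) β (u x)) = a1
  generalize ∑ β, S.toCS.Wv (S.κ : ℂ) (Xc x) β (S.toCS.MJv k l (Xc x) β (u x)) = a2
  generalize ∑ β, S.toCS.MJv k l (Xc x) β (S.toCS.Wv (S.κ : ℂ) (Xc x) β (u x)) = a3
  generalize ∑ i, ∑ A, ∑ β, S.toCS.MJv k l (Xc x) β (S.vec (S.g i) A β (pd i A u x)) = a4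
  generalize ∑ A, (Xc x k A • pd l A u x - Xc x l A • pd k A u x) = a5
  module

end Setup
end Vale.Agent.P353
end
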