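import Mathlib
import Vale.Agent.P353.BdU.B4
import Vale.Agent.P353.BdU.B3
import Vale.Agent.P353.BdU.B5
import Vale.Agent.P353.BdU.B2

set_option linter.all false

section

/-! Task EX-15: integrability of the majorant.

With `R = sqrt (1 + |z|²)` one has `g |z|² ≥ R - 1` and `|w|⁴/16 ≥ |w|² - 4`, so the exponential is
at most `e⁴ e^{-R |w|²}`; one half of the exponent is used as a Gaussian in `w`, the other half
gives `∏ 2 (R w_j²)^{-13/28}` over the 14 coordinates of `w`.  The majorant is then a product of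
functions of one coordinate. -/

open MeasureTheory Filter Topology
open scoped ContDiff ComplexConjugate

namespace Vale.Agent.P353.Ex

open Fk

private theorem ig_abs : Integrable fun x : ℝ => |x| ^ (-(13 / 14) : ℝ) *
    Real.exp (-(1 / 2) * x ^ 2) := by
  have h0 : IntegrableOn (fun x : ℝ => x ^ (-(13 / 14) : ℝ) * Real.exp (-(1 / 2) * x ^ 2))
      (Set.Ioi 0) := integrableOn_rpow_mul_exp_neg_mul_sq (by norm_num) (by norm_num)
  have h1 : IntegrableOn (fun x : ℝ => |x| ^ (-(13 / 14) : ℝ) * Real.exp (-(1 / 2) * x ^ 2))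
      (Set.Ioi 0) := by
    refine h0.congr_fun (fun x hx => ?_) measurableSet_Ioi
    simp only [abs_of_pos (Set.mem_Ioi.1 hx)]
  rw [← integrableOn_univ, ← @Set.Iio_union_Ici _ _ (0 : ℝ), integrableOn_union,
    integrableOn_Ici_iff_integrableOn_Ioi]
  refine ⟨?_, h1⟩
  rw [← (Measure.measurePreserving_neg (volume : Measure ℝ)).integrableOn_comp_preimage
      (Homeomorph.neg ℝ).measurableEmbedding]
  simp only [Function.comp_def, neg_sq, Set.neg_preimage, Set.neg_Iio, neg_zero, abs_neg]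
  exact h1

private theorem ig_jap : Integrable fun x : ℝ => (1 + x ^ 2) ^ (-(5 / 8) : ℝ) := by
  have h := integrable_rpow_neg_one_add_norm_sq (E := ℝ) (μ := volume) (r := 5 / 4)
    (by simp; norm_num)
  refine h.congr (Eventually.of_forall fun x => ?_)
  simp only [Real.norm_eq_abs, sq_abs]
  norm_num

/-- The one-coordinate majorants. -/
private noncomputable def ff (s : ℝ) (p : Fin 9 × Fin 3) (y : ℝ) : ℝ :=
  if p.2 = 2 then (if p.1.1 < 7 then Real.exp (-(1 / 16) * y ^ 2) else (1 + y ^ 2) ^ (-(5 / 8) : ℝ))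
  else (if p.1.1 < 7 then |y| ^ (-(13 / 14) : ℝ) * Real.exp (-(1 / 2) * y ^ 2)
    else Real.exp (-s * y ^ 2))

private theorem ff_integrable {s : ℝ} (hs : 0 < s) (p : Fin 9 × Fin 3) :
    Integrable (ff s p) := by
  unfold ff
  split_ifs
  · exact integrable_exp_neg_mul_sq (by norm_num)
  · exact ig_jap
  · exact ig_abs
  · exact integrable_exp_neg_mul_sq hs

private theorem ff_prod_integrable {s : ℝ} (hs : 0 < s) :
    Integrable fun x : X3 => ∏ p, ff s p (x p) := by
  have h : Integrable fun x : Fin 9 × Fin 3 → ℝ => ∏ p, ff s p (x p) :=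
    Integrable.fintype_prod (μ := fun _ => volume) fun p => ff_integrable hs p
  exact (PiLp.volume_preserving_ofLp (Fin 9 × Fin 3)).integrable_comp_of_integrable h

/-- Value of the product. -/
private theorem ff_prod (s : ℝ) (x : X3) : ∏ p, ff s p (x p) =
    (∏ i : Fin 7, (|x (e9 i, 0)| ^ (-(13 / 14) : ℝ) * |x (e9 i, 1)| ^ (-(13 / 14) : ℝ))) *
      Real.exp (-(1 / 2) * wsq x) * Real.exp (-(1 / 16) * x3sq x) * Real.exp (-s * perp2 x) *
      ((1 + x (7, 2) ^ 2) ^ (-(5 / 8) : ℝ) * (1 + x (8, 2) ^ 2) ^ (-(5 / 8) : ℝ)) := by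
  have e1 : ∏ p, ff s p (x p) = ∏ i : Fin 9, ∏ A : Fin 3, ff s (i, A) (x (i, A)) :=
    Fintype.prod_prod_type _
  rw [e1, Fin.prod_univ_castSucc, Fin.prod_univ_castSucc]
  simp only [Fin.prod_univ_three]
  have e7 : (Fin.last 7).castSucc = (7 : Fin 9) := rfl
  have e8 : Fin.last 8 = (8 : Fin 9) := rfl
  rw [e7, e8]
  have h0 : ∀ (i : Fin 7), ff s (i.castSucc.castSucc, 0) = fun y =>
      |y| ^ (-(13 / 14) : ℝ) * Real.exp (-(1 / 2) * y ^ 2) := by
    intro i; funext y; unfold ff
    rw [if_neg (show ¬ ((0 : Fin 3) = 2) by decide), if_pos (by simp)]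
  have h1 : ∀ (i : Fin 7), ff s (i.castSucc.castSucc, 1) = fun y =>
      |y| ^ (-(13 / 14) : ℝ) * Real.exp (-(1 / 2) * y ^ 2) := by
    intro i; funext y; unfold ff
    rw [if_neg (show ¬ ((1 : Fin 3) = 2) by decide), if_pos (by simp)]
  have h2 : ∀ (i : Fin 7), ff s (i.castSucc.castSucc, 2) = fun y =>
      Real.exp (-(1 / 16) * y ^ 2) := by
    intro i; funext y; unfold ff
    rw [if_pos rfl, if_pos (by simp)]
  have g0 : ∀ i : Fin 9, 7 ≤ i.1 → ∀ A : Fin 3, A ≠ 2 →
      ff s (i, A) = fun y => Real.exp (-s * y ^ 2) := by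
    intro i hi A hA; funext y; unfold ff
    rw [if_neg hA, if_neg (by simpa using hi)]
  have g2 : ∀ i : Fin 9, 7 ≤ i.1 → ff s (i, 2) = fun y => (1 + y ^ 2) ^ (-(5 / 8) : ℝ) := by
    intro i hi; funext y; unfold ff
    rw [if_pos rfl, if_neg (by simpa using hi)]
  simp only [h0, h1, h2]
  rw [g0 7 (by decide) 0 (by decide), g0 7 (by decide) 1 (by decide), g2 7 (by decide),
    g0 8 (by decide) 0 (by decide), g0 8 (by decide) 1 (by decide), g2 8 (by decide)]
  have k1 : Real.exp (-(1 / 2) * wsq x) = ∏ i : Fin 7,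
      (Real.exp (-(1 / 2) * x (e9 i, 0) ^ 2) * Real.exp (-(1 / 2) * x (e9 i, 1) ^ 2)) := by
    unfold wsq
    rw [Finset.mul_sum, Real.exp_sum]
    refine Finset.prod_congr rfl fun i _ => ?_
    rw [← Real.exp_add]; congr 1; ring
  have k2 : Real.exp (-(1 / 16) * x3sq x) = ∏ i : Fin 7,
      Real.exp (-(1 / 16) * x (e9 i, 2) ^ 2) := by
    unfold x3sq
    rw [Finset.mul_sum, Real.exp_sum]
  have k3 : Real.exp (-s * perp2 x) = Real.exp (-s * x (7, 0) ^ 2) *
      Real.exp (-s * x (7, 1) ^ 2) * (Real.exp (-s * x (8, 0) ^ 2) *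
      Real.exp (-s * x (8, 1) ^ 2)) := by
    unfold perp2
    rw [← Real.exp_add, ← Real.exp_add, ← Real.exp_add]; congr 1; ring
  rw [k1, k2, k3]
  simp only [Finset.prod_mul_distrib]
  ring

private theorem exp_le_rpow {u : ℝ} (hu : 0 < u) :
    Real.exp (-(u / 2)) ≤ 2 * u ^ (-(13 / 28) : ℝ) := by
  have h1 : u ^ (13 / 28 : ℝ) ≤ 1 + u := by
    rcases le_total u 1 with h | h
    · have := Real.rpow_le_one hu.le h (by norm_num : (0 : ℝ) ≤ 13 / 28)
      linarith
    · have := Real.rpow_le_rpow_of_exponent_le h (by norm_num : (13 / 28 : ℝ) ≤ 1)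
      rw [Real.rpow_one] at this
      linarith
  have h2 : u / 2 + 1 ≤ Real.exp (u / 2) := Real.add_one_le_exp _
  have h3 : 0 < u ^ (13 / 28 : ℝ) := Real.rpow_pos_of_pos hu _
  rw [Real.exp_neg, Real.rpow_neg hu.le, ← div_eq_mul_inv, inv_eq_one_div,
    div_le_div_iff₀ (Real.exp_pos _) h3]
  linarith

private theorem exp_le_rpow' {R y : ℝ} (hR : 0 < R) (hy : y ≠ 0) :
    Real.exp (-(1 / 2) * R * y ^ 2) ≤ 2 * R ^ (-(13 / 28) : ℝ) * |y| ^ (-(13 / 14) : ℝ) := by
  have hy' : 0 < |y| := abs_pos.2 hy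
  have h := exp_le_rpow (u := R * |y| ^ 2) (by positivity)
  have e1 : (R * |y| ^ 2) ^ (-(13 / 28) : ℝ) = R ^ (-(13 / 28) : ℝ) * |y| ^ (-(13 / 14) : ℝ) := by
    rw [Real.mul_rpow hR.le (by positivity), ← Real.rpow_natCast |y| 2, ← Real.rpow_mul hy'.le]
    norm_num
  rw [e1, sq_abs] at h
  have e2 : -(1 / 2) * R * y ^ 2 = -(R * y ^ 2 / 2) := by ring
  rw [e2, mul_assoc]
  exact h

/-- The pointwise bound. -/
private theorem ig_bound (s : ℝ) {x : X3} (hx : ∀ p, x p ≠ 0) :
    (1 + ze x) ^ 4 * Real.exp (-s * perp2 x) * B0 x ≤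
      (16 * Real.exp 4 * 4 ^ 7) * ∏ p, ff s p (x p) := by
  rw [ff_prod]
  set P : ℝ := ∏ i : Fin 7, (|x (e9 i, 0)| ^ (-(13 / 14) : ℝ) * |x (e9 i, 1)| ^ (-(13 / 14) : ℝ))
    with hP
  have hP0 : 0 ≤ P := Finset.prod_nonneg fun i _ =>
    mul_nonneg (Real.rpow_nonneg (abs_nonneg _) _) (Real.rpow_nonneg (abs_nonneg _) _)
  have hr0 : 0 ≤ r3 x := by unfold r3; positivity
  have hw0 : 0 ≤ wsq x := Finset.sum_nonneg fun i _ => by positivity
  set R : ℝ := Real.sqrt (1 + r3 x) with hR
  have hR1 : 1 ≤ R := by rw [hR]; exact Real.one_le_sqrt.2 (by linarith)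
  have hR0 : 0 < R := by linarith
  have hRsq : R ^ 2 = 1 + r3 x := Real.sq_sqrt (by linarith)
  -- the exponent
  have hg : R - 1 ≤ gg x * r3 x := by
    have e1 : gg x = R⁻¹ := rfl
    have e2 : r3 x = R ^ 2 - 1 := by linarith
    rw [e1, e2]
    have e3 : R⁻¹ * (R ^ 2 - 1) = R - R⁻¹ := by field_simp
    rw [e3]
    have : R⁻¹ ≤ 1 := inv_le_one_of_one_le₀ hR1
    linarith
  have hB : B0 x ≤ Real.exp 4 * (Real.exp (-(1 / 2) * R * wsq x) * Real.exp (-(1 / 2) * wsq x) *
      Real.exp (-(1 / 16) * x3sq x)) := by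
    unfold B0
    rw [← Real.exp_add, ← Real.exp_add, ← Real.exp_add]
    refine Real.exp_le_exp.2 ?_
    have h1 := mul_le_mul_of_nonneg_right hg hw0
    have h2 : 0 ≤ (wsq x / 4 - 2) ^ 2 := sq_nonneg _
    have h3 := mul_le_mul_of_nonneg_right hR1 hw0
    nlinarith only [h1, h2, h3]
  -- the product bound
  have hE : Real.exp (-(1 / 2) * R * wsq x) ≤ 4 ^ 7 * R ^ (-(13 / 2) : ℝ) * P := by
    have e1 : Real.exp (-(1 / 2) * R * wsq x) = ∏ i : Fin 7,
        (Real.exp (-(1 / 2) * R * x (e9 i, 0) ^ 2) *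
          Real.exp (-(1 / 2) * R * x (e9 i, 1) ^ 2)) := by
      unfold wsq
      rw [Finset.mul_sum, Real.exp_sum]
      refine Finset.prod_congr rfl fun i _ => ?_
      rw [← Real.exp_add]; congr 1; ring
    have e2 : 4 ^ 7 * R ^ (-(13 / 2) : ℝ) * P = ∏ i : Fin 7,
        ((2 * R ^ (-(13 / 28) : ℝ) * |x (e9 i, 0)| ^ (-(13 / 14) : ℝ)) *
          (2 * R ^ (-(13 / 28) : ℝ) * |x (e9 i, 1)| ^ (-(13 / 14) : ℝ))) := by
      have e3 : ∀ i : Fin 7, (2 * R ^ (-(13 / 28) : ℝ) * |x (e9 i, 0)| ^ (-(13 / 14) : ℝ)) *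
          (2 * R ^ (-(13 / 28) : ℝ) * |x (e9 i, 1)| ^ (-(13 / 14) : ℝ)) =
          (4 * R ^ (-(13 / 14) : ℝ)) *
            (|x (e9 i, 0)| ^ (-(13 / 14) : ℝ) * |x (e9 i, 1)| ^ (-(13 / 14) : ℝ)) := by
        intro i
        have e4 : R ^ (-(13 / 14) : ℝ) = R ^ (-(13 / 28) : ℝ) * R ^ (-(13 / 28) : ℝ) := by
          rw [← Real.rpow_add hR0]; norm_num
        rw [e4]; ring
      simp only [e3]
      rw [Finset.prod_mul_distrib, Finset.prod_const, Finset.card_univ, Fintype.card_fin,
        mul_pow, ← Real.rpow_natCast (R ^ (-(13 / 14) : ℝ)) 7, ← Real.rpow_mul hR0.le]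
      norm_num [hP]
    rw [e1, e2]
    refine Finset.prod_le_prod (fun i _ => by positivity) fun i _ => ?_
    exact mul_le_mul (exp_le_rpow' hR0 (hx _)) (exp_le_rpow' hR0 (hx _)) (Real.exp_pos _).le
      (mul_nonneg (mul_nonneg zero_le_two (Real.rpow_nonneg hR0.le _))
        (Real.rpow_nonneg (abs_nonneg _) _))
  -- the factor of `z`
  have hz : (1 + ze x) ^ 4 ≤ 16 * R ^ 4 := by
    have h1 : ze x ≤ R := Real.sqrt_le_sqrt (by linarith)
    have h2 : 0 ≤ ze x := Real.sqrt_nonneg _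
    calc (1 + ze x) ^ 4 ≤ (2 * R) ^ 4 := pow_le_pow_left₀ (by linarith) (by linarith) 4
      _ = 16 * R ^ 4 := by ring
  have hJ : R ^ 4 * R ^ (-(13 / 2) : ℝ) ≤
      (1 + x (7, 2) ^ 2) ^ (-(5 / 8) : ℝ) * (1 + x (8, 2) ^ 2) ^ (-(5 / 8) : ℝ) := by
    have a0 : 0 < 1 + x (7, 2) ^ 2 := by positivity
    have b0 : 0 < 1 + x (8, 2) ^ 2 := by positivity
    have e1 : R ^ 4 * R ^ (-(13 / 2) : ℝ) = (R ^ 4) ^ (-(5 / 8) : ℝ) := by
      rw [← Real.rpow_natCast R 4, ← Real.rpow_add hR0, ← Real.rpow_mul hR0.le]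
      norm_num
    rw [e1, ← Real.mul_rpow a0.le b0.le]
    refine Real.rpow_le_rpow_of_nonpos (by positivity) ?_ (by norm_num)
    have e2 : R ^ 4 = (1 + r3 x) ^ 2 := by rw [← hRsq]; ring
    rw [e2]
    unfold r3
    nlinarith only [sq_nonneg (x (7, 2)), sq_nonneg (x (8, 2)),
      mul_nonneg (sq_nonneg (x (7, 2))) (sq_nonneg (x (8, 2))), sq_nonneg (x (7, 2) ^ 2),
      sq_nonneg (x (8, 2) ^ 2)]
  have hs0 : 0 < Real.exp (-s * perp2 x) := Real.exp_pos _
  have hk0 : 0 ≤ Real.exp (-(1 / 2) * wsq x) * Real.exp (-(1 / 16) * x3sq x) := by positivity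
  calc (1 + ze x) ^ 4 * Real.exp (-s * perp2 x) * B0 x
      ≤ (16 * R ^ 4) * Real.exp (-s * perp2 x) * (Real.exp 4 *
        ((4 ^ 7 * R ^ (-(13 / 2) : ℝ) * P) * Real.exp (-(1 / 2) * wsq x) *
          Real.exp (-(1 / 16) * x3sq x))) := by
        refine mul_le_mul (mul_le_mul_of_nonneg_right hz hs0.le) (hB.trans ?_)
          (Real.exp_pos _).le (by positivity)
        refine mul_le_mul_of_nonneg_left ?_ (Real.exp_pos _).le
        rw [mul_assoc, mul_assoc (4 ^ 7 * R ^ (-(13 / 2) : ℝ) * P)]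
        exact mul_le_mul_of_nonneg_right hE hk0
    _ = (16 * Real.exp 4 * 4 ^ 7) * (P * Real.exp (-(1 / 2) * wsq x) *
        Real.exp (-(1 / 16) * x3sq x) * Real.exp (-s * perp2 x) *
          (R ^ 4 * R ^ (-(13 / 2) : ℝ))) := by ring
    _ ≤ _ := by
        refine mul_le_mul_of_nonneg_left ?_ (by positivity)
        exact mul_le_mul_of_nonneg_left hJ (by positivity)

theorem integrable_J {s : ℝ} (hs : 0 < s) :
    Integrable fun x : X3 => (1 + ze x) ^ 4 * Real.exp (-s * perp2 x) * B0 x := by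
  have hc : Continuous fun x : X3 => (1 + ze x) ^ 4 * Real.exp (-s * perp2 x) * B0 x := by
    have hr : Continuous fun x : X3 => r3 x := by unfold r3; fun_prop
    have hw : Continuous fun x : X3 => wsq x := by unfold wsq; fun_prop
    have h3 : Continuous fun x : X3 => x3sq x := by unfold x3sq; fun_prop
    have hp : Continuous fun x : X3 => perp2 x := by unfold perp2; fun_prop
    have hg : Continuous fun x : X3 => gg x := by
      unfold gg
      refine Continuous.inv₀ (by fun_prop) fun x => ?_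
      have : 0 ≤ r3 x := by unfold r3; positivity
      exact (Real.sqrt_pos.2 (by linarith)).ne'
    unfold ze B0
    fun_prop
  have hne : ∀ᵐ x : X3, ∀ p, x p ≠ 0 := by
    rw [ae_all_iff]
    intro p
    exact (PiLp.volume_preserving_ofLp (Fin 9 × Fin 3)).quasiMeasurePreserving.ae
      (Measure.ae_eval_ne (μ := fun _ : Fin 9 × Fin 3 => (volume : Measure ℝ)) p 0)
  refine ((ff_prod_integrable hs).const_mul (16 * Real.exp 4 * 4 ^ 7)).mono'
    hc.aestronglyMeasurable ?_
  filter_upwards [hne] with x hx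
  have h0 : 0 ≤ (1 + ze x) ^ 4 * Real.exp (-s * perp2 x) * B0 x := by
    have : 0 ≤ ze x := Real.sqrt_nonneg _
    unfold B0
    positivity
  rw [Real.norm_eq_abs, abs_of_nonneg h0]
  exact ig_bound s hx

end Vale.Agent.P353.Ex
end

section

open MeasureTheory Filter Topology
open scoped ContDiff

namespace Vale.Agent.P353

variable {F : Type*} [NormedAddCommGroup F] [InnerProductSpace ℂ F]

namespace Setup

variable (S : Setup F)

/-- `X_A(x) = x_i^A γ^i` -/
noncomputable def XB (A : Fin 3) (x : X3) : Matrix (Fin 16) (Fin 16) ℂ :=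
  ∑ i, ((x (i, A) : ℝ) : ℂ) • S.g i

lemma gt_mul_g {k l : Fin 9} (h : k ≠ l) (t : ℝ) (i : Fin 9) :
    S.gt k l t * S.g i = S.g i * S.gt k l t +
      (2 * Real.sin (t / 2) : ℂ) • ((if i = l then S.g k else 0) - (if i = k then S.g l else 0)) := by
  have h' : ¬ l = k := fun e => h e.symm
  rw [gt, S.g2_eq_mul h]
  by_cases h1 : i = k
  · subst h1
    simp only [if_neg h, if_true, zero_sub]
    have e1 : S.g i * S.g l * S.g i = - S.g l := by
      rw [mul_assoc, S.g_swap_ne h', mul_neg, ← mul_assoc, S.g_sq, one_mul]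
    have e2 : S.g i * (S.g i * S.g l) = S.g l := by
      rw [← mul_assoc, S.g_sq, one_mul]
    simp only [add_mul, mul_add, Matrix.smul_mul, Matrix.mul_smul, one_mul, mul_one, e1, e2]
    module
  · by_cases h2 : i = l
    · subst h2
      simp only [if_neg h', if_true, sub_zero]
      have e1 : S.g k * S.g i * S.g i = S.g k := by
        rw [mul_assoc, S.g_sq, mul_one]
      have e2 : S.g i * (S.g k * S.g i) = - S.g k := by
        rw [S.g_swap_ne h, mul_neg, ← mul_assoc, S.g_sq, one_mul]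
      simp only [add_mul, mul_add, Matrix.smul_mul, Matrix.mul_smul, one_mul, mul_one, e1, e2]
      module
    · simp only [if_neg h1, if_neg h2, sub_zero, smul_zero, add_zero]
      have e1 : S.g k * S.g l * S.g i = S.g i * (S.g k * S.g l) := by
        have a1 : S.g l * S.g i = -(S.g i * S.g l) := S.g_swap_ne (fun e => h2 e.symm)
        have a2 : S.g k * S.g i = -(S.g i * S.g k) := S.g_swap_ne (fun e => h1 e.symm)
        rw [mul_assoc, a1, mul_neg, ← mul_assoc, a2, neg_mul, neg_neg, mul_assoc]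
      simp only [add_mul, mul_add, Matrix.smul_mul, Matrix.mul_smul, one_mul, mul_one, e1]

lemma XB_RR {k l : Fin 9} (h : k ≠ l) (t : ℝ) (A : Fin 3) (y : X3) :
    S.XB A (RR k l t y) * S.gt k l t = S.gt k l t * S.XB A y := by
  have h' : ¬ l = k := fun e => h e.symm
  have e1 : S.gt k l t * S.XB A y = S.XB A y * S.gt k l t + (2 * Real.sin (t / 2) : ℂ) •
      (((y (l, A) : ℝ) : ℂ) • S.g k - ((y (k, A) : ℝ) : ℂ) • S.g l) := by
    have : ∀ i, S.gt k l t * (((y (i, A) : ℝ) : ℂ) • S.g i) =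
        ((y (i, A) : ℝ) : ℂ) • (S.g i * S.gt k l t) + ((2 * Real.sin (t / 2) : ℂ) •
        ((if i = l then ((y (i, A) : ℝ) : ℂ) • S.g k else 0) -
          (if i = k then ((y (i, A) : ℝ) : ℂ) • S.g l else 0))) := by
      intro i
      rw [Matrix.mul_smul, S.gt_mul_g h, smul_add, smul_comm, smul_sub]
      congr 3 <;> split_ifs <;> simp
    simp only [XB, Finset.mul_sum, this, Finset.sum_add_distrib, Finset.sum_mul, Matrix.smul_mul,
      ← Finset.smul_sum, Finset.sum_sub_distrib]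
    simp
  have e2 : S.XB A (RR k l t y) = S.XB A y +
      (((Real.cos t - 1) * y (k, A) + Real.sin t * y (l, A) : ℝ) : ℂ) • S.g k +
      (((Real.cos t - 1) * y (l, A) - Real.sin t * y (k, A) : ℝ) : ℂ) • S.g l := by
    have : ∀ i, (((RR k l t y) (i, A) : ℝ) : ℂ) • S.g i = ((y (i, A) : ℝ) : ℂ) • S.g i +
        (if i = k then (((Real.cos t - 1) * y (k, A) + Real.sin t * y (l, A) : ℝ) : ℂ) • S.g k
          else 0) +
        (if i = l then (((Real.cos t - 1) * y (l, A) - Real.sin t * y (k, A) : ℝ) : ℂ) • S.g l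
          else 0) := by
      intro i
      rw [RR_apply]
      by_cases h1 : i = k
      · subst h1
        simp only [if_true, if_neg h, ← add_smul, add_zero]
        congr 1
        push_cast
        ring
      · by_cases h2 : i = l
        · subst h2
          simp only [if_true, if_neg h', ← add_smul, add_zero]
          congr 1
          push_cast
          ring
        · simp only [if_neg h1, if_neg h2]
          simp
    simp only [XB, this, Finset.sum_add_distrib]
    simp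
  rw [e1, e2]
  simp only [add_mul]
  have m1 : S.g k * S.gt k l t = (Real.cos (t / 2) : ℂ) • S.g k + (Real.sin (t / 2) : ℂ) • S.g l := by
    rw [gt, S.g2_eq_mul h, mul_add, Matrix.mul_smul, Matrix.mul_smul, mul_one, ← mul_assoc,
      S.g_sq, one_mul]
  have m2 : S.g l * S.gt k l t = (Real.cos (t / 2) : ℂ) • S.g l - (Real.sin (t / 2) : ℂ) • S.g k := by
    rw [gt, S.g2_eq_mul h, mul_add, Matrix.mul_smul, Matrix.mul_smul, mul_one, S.g_swap_ne h,
      mul_neg, ← mul_assoc, S.g_sq, one_mul, smul_neg]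
    rfl
  simp only [Matrix.smul_mul, m1, m2]
  have hc : (Real.cos t : ℂ) - 1 = -2 * (Real.sin (t / 2) : ℂ) ^ 2 := by
    have : Real.cos t = 1 - 2 * Real.sin (t / 2) ^ 2 := by
      have h1 := Real.cos_two_mul (t / 2)
      have h2 := Real.sin_sq_add_cos_sq (t / 2)
      rw [show 2 * (t / 2) = t by ring] at h1
      linarith
    rw [this]; push_cast; ring
  have hs : (Real.sin t : ℂ) = 2 * (Real.sin (t / 2) : ℂ) * (Real.cos (t / 2) : ℂ) := by
    have h1 := Real.sin_two_mul (t / 2)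
    rw [show 2 * (t / 2) = t by ring] at h1
    rw [h1]; push_cast; ring
  have hsc : (Real.sin (t / 2) : ℂ) ^ 2 + (Real.cos (t / 2) : ℂ) ^ 2 = 1 := by
    have := Real.sin_sq_add_cos_sq (t / 2)
    exact_mod_cast this
  rw [add_assoc]
  congr 1
  simp only [smul_add, smul_sub, smul_smul]
  push_cast
  push_cast at hc hs hsc
  rw [hc, hs]
  have c1 : (-2 * Complex.sin (t / 2) ^ 2 * ((y (k, A) : ℝ) : ℂ) +
      2 * Complex.sin (t / 2) * Complex.cos (t / 2) * ((y (l, A) : ℝ) : ℂ)) * Complex.cos (t / 2) -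
      (-2 * Complex.sin (t / 2) ^ 2 * ((y (l, A) : ℝ) : ℂ) -
      2 * Complex.sin (t / 2) * Complex.cos (t / 2) * ((y (k, A) : ℝ) : ℂ)) * Complex.sin (t / 2) =
      2 * Complex.sin (t / 2) * ((y (l, A) : ℝ) : ℂ) := by
    linear_combination 2 * Complex.sin (t / 2) * ((y (l, A) : ℝ) : ℂ) * hsc
  have c2 : (-2 * Complex.sin (t / 2) ^ 2 * ((y (k, A) : ℝ) : ℂ) +
      2 * Complex.sin (t / 2) * Complex.cos (t / 2) * ((y (l, A) : ℝ) : ℂ)) * Complex.sin (t / 2) +
      (-2 * Complex.sin (t / 2) ^ 2 * ((y (l, A) : ℝ) : ℂ) -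
      2 * Complex.sin (t / 2) * Complex.cos (t / 2) * ((y (k, A) : ℝ) : ℂ)) * Complex.cos (t / 2) =
      -(2 * Complex.sin (t / 2) * ((y (k, A) : ℝ) : ℂ)) := by
    linear_combination -2 * Complex.sin (t / 2) * ((y (k, A) : ℝ) : ℂ) * hsc
  linear_combination (norm := module) c1 • S.g k + c2 • S.g l

lemma NA_eq_XB (A : Fin 3) (x : X3) :
    S.NA A x = (S.κ / 2 : ℂ) • ∑ B, ∑ C, (eps A B C : ℂ) • (S.XB B x * S.XB C x) := by
  have h1 : ∀ i j, ((S.FF A i j x : ℝ) : ℂ) • S.g2 i j =
      ((S.FF A i j x : ℝ) : ℂ) • (S.g i * S.g j) := by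
    intro i j
    rw [S.g2_eq]
    by_cases h : i = j
    · subst h
      have h0 : S.FF A i i x = 0 := by
        have := S.FF_swap A i i x
        linarith
      rw [h0]; simp
    · simp [h]
  have h2 : ∀ i j, ((S.FF A i j x : ℝ) : ℂ) • (S.g i * S.g j) = (S.κ : ℂ) • ∑ B, ∑ C,
      (eps A B C : ℂ) • ((((x (i, B) : ℝ) : ℂ) • S.g i) * (((x (j, C) : ℝ) : ℂ) • S.g j)) := by
    intro i j
    simp only [FF, smul_mul_smul_comm, smul_smul, ← Finset.sum_smul]
    congr 1
    push_cast
    congr 1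
    refine Finset.sum_congr rfl fun B _ => Finset.sum_congr rfl fun C _ => ?_
    ring
  simp only [NA, h1, h2, XB, Finset.sum_mul_sum]
  simp only [← Finset.smul_sum, smul_smul]
  rw [show (1 / 2 : ℂ) * (S.κ : ℂ) = (S.κ : ℂ) / 2 by ring]
  congr 1
  simp only [Finset.smul_sum]
  calc _ = ∑ i : Fin 9, ∑ B : Fin 3, ∑ j : Fin 9, ∑ C : Fin 3,
        (eps A B C : ℂ) • ((((x (i, B) : ℝ) : ℂ) • S.g i) * (((x (j, C) : ℝ) : ℂ) • S.g j)) := by
        refine Finset.sum_congr rfl fun i _ => ?_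
        rw [Finset.sum_comm]
    _ = ∑ B : Fin 3, ∑ i : Fin 9, ∑ j : Fin 9, ∑ C : Fin 3,
        (eps A B C : ℂ) • ((((x (i, B) : ℝ) : ℂ) • S.g i) * (((x (j, C) : ℝ) : ℂ) • S.g j)) := by
        rw [Finset.sum_comm]
    _ = ∑ B : Fin 3, ∑ i : Fin 9, ∑ C : Fin 3, ∑ j : Fin 9,
        (eps A B C : ℂ) • ((((x (i, B) : ℝ) : ℂ) • S.g i) * (((x (j, C) : ℝ) : ℂ) • S.g j)) := by
        refine Finset.sum_congr rfl fun B _ => Finset.sum_congr rfl fun i _ => ?_
        rw [Finset.sum_comm]
    _ = _ := by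
        refine Finset.sum_congr rfl fun B _ => ?_
        rw [Finset.sum_comm]

lemma NA_RR {k l : Fin 9} (h : k ≠ l) (t : ℝ) (A : Fin 3) (y : X3) :
    S.NA A (RR k l t y) * S.gt k l t = S.gt k l t * S.NA A y := by
  rw [NA_eq_XB, NA_eq_XB]
  simp only [Matrix.smul_mul, Matrix.mul_smul, Finset.sum_mul, Finset.mul_sum]
  congr 1
  refine Finset.sum_congr rfl fun B _ => Finset.sum_congr rfl fun C _ => ?_
  congr 1
  rw [mul_assoc, S.XB_RR h, ← mul_assoc, S.XB_RR h, mul_assoc]

section U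
variable [CompleteSpace F]

/-- the rotated wave function `(U_t u)(x) = s_t u(R_{-t} x)` -/
noncomputable def Ut (k l : Fin 9) (t : ℝ) (u : X3 → F) (x : X3) : F :=
  S.st k l t (u (RR k l (-t) x))

lemma contDiff_Ut (k l : Fin 9) (t : ℝ) {u : X3 → F} (hu : ContDiff ℝ ∞ u) :
    ContDiff ℝ ∞ (S.Ut k l t u) := by
  unfold Ut
  exact ((S.st k l t).restrictScalars ℝ).contDiff.comp (hu.comp (RR k l (-t)).contDiff)

lemma Tst.Ut {k l : Fin 9} (h : k ≠ l) (t : ℝ) {u : X3 → F} (hu : Tst u) :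
    Tst (S.Ut k l t u) := by
  refine ⟨S.contDiff_Ut k l t hu.1, ?_⟩
  have h1 : HasCompactSupport (fun x => u (RR k l (-t) x)) :=
    hu.2.comp_homeomorph (RI h (-t)).toHomeomorph
  refine h1.mono ?_
  intro x hx
  simp only [Function.mem_support, Setup.Ut] at hx ⊢
  intro h0
  exact hx (by rw [h0, map_zero])

lemma fderiv_Ut (k l : Fin 9) (t : ℝ) {u : X3 → F} (hu : Differentiable ℝ u) (x e : X3) :
    fderiv ℝ (S.Ut k l t u) x e = S.st k l t (fderiv ℝ u (RR k l (-t) x) (RR k l (-t) e)) := by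
  have h1 : HasFDerivAt (fun x => u (RR k l (-t) x))
      ((fderiv ℝ u (RR k l (-t) x)).comp (RR k l (-t))) x :=
    (hu (RR k l (-t) x)).hasFDerivAt.comp x (RR k l (-t)).hasFDerivAt
  have h2 := ((S.st k l t).restrictScalars ℝ).hasFDerivAt.comp x h1
  have h3 : fderiv ℝ (S.Ut k l t u) x = _ := h2.fderiv
  rw [h3]
  rfl

omit [CompleteSpace F] in
lemma J_eq (k l : Fin 9) (u : X3 → F) (x : X3) :
    S.J k l u x = (-Complex.I) • fderiv ℝ u x (-(LL k l x)) + S.Skl k l (u x) := by
  rw [neg_LL_eq]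
  simp only [J, pd, map_sum, map_sub, map_smul, Complex.coe_smul]

/-- `J` commutes with the rotations -/
lemma J_Ut {k l : Fin 9} (h : k ≠ l) (t : ℝ) {u : X3 → F} (hu : Differentiable ℝ u) (x : X3) :
    S.J k l (S.Ut k l t u) x = S.st k l t (S.J k l u (RR k l (-t) x)) := by
  rw [J_eq, J_eq, S.fderiv_Ut k l t hu, map_neg (RR k l (-t)), RR_LL h, map_add, map_smul]
  congr 1
  have := congrArg (fun T : F →L[ℂ] F => T (u (RR k l (-t) x))) (S.st_comm k l t)
  simpa [mul_apply_eq_comp, Ut] using this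

lemma hasDerivAt_Ut {k l : Fin 9} (h : k ≠ l) (t : ℝ) {u : X3 → F} (hu : Differentiable ℝ u)
    (x : X3) :
    HasDerivAt (fun s => S.Ut k l s u x) (Complex.I • S.J k l (S.Ut k l t u) x) t := by
  have h1 : HasDerivAt (fun s => u (RR k l (-s) x))
      (fderiv ℝ u (RR k l (-t) x) (RR k l (-t) (-(LL k l x)))) t :=
    (hu (RR k l (-t) x)).hasFDerivAt.comp_hasDerivAt t (hasDerivAt_RR_neg h t x)
  have hB : IsBoundedBilinearMap ℝ (fun p : (F →L[ℂ] F) × F => p.1 p.2) := by
    have h := (isBoundedBilinearMap_apply (𝕜 := ℂ) (E := F) (F := F))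
    refine ⟨fun a b c => by simp, fun c a b => ?_, fun a b c => by simp, fun c a b => ?_, ?_⟩
    · simp
    · simp
    · obtain ⟨C, hC, hb⟩ := h.bound
      exact ⟨C, hC, hb⟩
  have h2 := (S.hasDerivAt_st k l t).prodMk h1
  have h3 := (hB.hasFDerivAt (S.st k l t, u (RR k l (-t) x))).comp_hasDerivAt t h2
  refine HasDerivAt.congr_deriv (f := fun s => S.Ut k l s u x) h3 ?_
  rw [J_eq, S.fderiv_Ut k l t hu, smul_add, smul_smul]
  have e1 : Complex.I * -Complex.I = 1 := by
    rw [mul_neg, Complex.I_mul_I, neg_neg]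
  rw [e1, one_smul]
  simp [mul_apply_eq_comp, Ut]

/-- covariance of the supercharges -/
lemma Q_Ut {k l : Fin 9} (h : k ≠ l) (t : ℝ) {u : X3 → F} (hu : Differentiable ℝ u) (b : Fin 16)
    (x : X3) :
    S.Q b (S.Ut k l t u) x = S.st k l t (∑ c, S.gt k l t b c • S.Q c u (RR k l (-t) x)) := by
  set y := RR k l (-t) x with hy
  have hx : x = RR k l t y := (RR_cancel_neg h t x).symm
  have happ : ∀ (P : Matrix (Fin 16) (Fin 16) ℂ) (A : Fin 3) (v : F),
      S.vec P A b (S.st k l t v) = S.st k l t (S.vec (P * S.gt k l t) A b v) := by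
    intro P A v
    have := congrArg (fun T : F →L[ℂ] F => T v) (S.vec_mul_st h P A b t)
    simpa [mul_apply_eq_comp] using this
  -- the potential part
  have hW : S.W b x (S.st k l t (u y)) = S.st k l t (∑ c, S.gt k l t b c • S.W c y (u y)) := by
    rw [S.W_eq_NA b x, _root_.sum_apply]
    simp only [happ]
    rw [← map_sum]
    congr 1
    rw [hx]
    simp only [S.NA_RR h, S.vec_mul, W_eq_NA, _root_.sum_apply, _root_.smul_apply, Finset.smul_sum]
    rw [Finset.sum_comm]
  -- the derivative part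
  have hD : ∑ i, ∑ A, S.vec (S.g i) A b (pd i A (S.Ut k l t u) x) =
      S.st k l t (∑ c, S.gt k l t b c • ∑ i, ∑ A, S.vec (S.g i) A c (pd i A u y)) := by
    have hpd : ∀ i A, pd i A (S.Ut k l t u) x = S.st k l t (∑ j, ∑ C,
        ((RR k l t (EuclideanSpace.single (j, C) (1 : ℝ))) (i, A) : ℂ) • pd j C u y) := by
      intro i A
      rw [pd, S.fderiv_Ut k l t hu]
      congr 1
      have e1 : RR k l (-t) (EuclideanSpace.single (i, A) (1 : ℝ)) = ∑ j, ∑ C,
          (RR k l t (EuclideanSpace.single (j, C) (1 : ℝ)) (i, A)) •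
            (EuclideanSpace.single (j, C) (1 : ℝ) : X3) := by
        have h0 : ∀ j C, RR k l t (EuclideanSpace.single (j, C) (1 : ℝ)) (i, A) =
            RR k l (-t) (EuclideanSpace.single (i, A) (1 : ℝ)) (j, C) := by
          intro j C
          have := RR_inner k l t (EuclideanSpace.single (j, C) (1 : ℝ))
            (EuclideanSpace.single (i, A) (1 : ℝ))
          simpa [EuclideanSpace.inner_single_left, EuclideanSpace.inner_single_right] using this
        simp only [h0]
        ext ⟨j', C'⟩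
        simp only [WithLp.ofLp_sum, Finset.sum_apply, WithLp.ofLp_smul, Pi.smul_apply,
          PiLp.single_apply, Prod.mk.injEq, smul_eq_mul, mul_ite, mul_one, mul_zero]
        rw [Finset.sum_eq_single j', Finset.sum_eq_single C']
        · simp
        · intro C _ hC; simp [Ne.symm hC]
        · intro h; exact absurd (Finset.mem_univ _) h
        · intro j _ hj
          refine Finset.sum_eq_zero fun C _ => ?_
          simp [Ne.symm hj]
        · intro h; exact absurd (Finset.mem_univ _) h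
      rw [e1]
      simp only [map_sum, map_smul, Complex.coe_smul, ← hy]
      rfl
    simp only [hpd, happ]
    simp only [← map_sum]
    congr 1
    simp only [map_sum, map_smul]
    have hsw : ∀ (f : Fin 9 → Fin 3 → Fin 9 → Fin 3 → F), ∑ i, ∑ A, ∑ j, ∑ C, f i A j C =
        ∑ j, ∑ C, ∑ A, ∑ i, f i A j C := by
      intro f
      calc _ = ∑ i, ∑ j, ∑ A, ∑ C, f i A j C := by
            refine Finset.sum_congr rfl fun i _ => ?_
            rw [Finset.sum_comm]
        _ = ∑ j, ∑ i, ∑ A, ∑ C, f i A j C := by rw [Finset.sum_comm]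
        _ = ∑ j, ∑ i, ∑ C, ∑ A, f i A j C := by
            refine Finset.sum_congr rfl fun j _ => Finset.sum_congr rfl fun i _ => ?_
            rw [Finset.sum_comm]
        _ = ∑ j, ∑ C, ∑ i, ∑ A, f i A j C := by
            refine Finset.sum_congr rfl fun j _ => ?_
            rw [Finset.sum_comm]
        _ = _ := by
            refine Finset.sum_congr rfl fun j _ => Finset.sum_congr rfl fun C _ => ?_
            rw [Finset.sum_comm]
    rw [hsw]
    have hXe : ∀ (A : Fin 3) (j : Fin 9) (C : Fin 3),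
        S.XB A (EuclideanSpace.single (j, C) (1 : ℝ)) = if A = C then S.g j else 0 := by
      intro A j C
      simp only [XB, PiLp.single_apply, Prod.mk.injEq]
      rw [Finset.sum_eq_single j]
      · by_cases hA : A = C <;> simp [hA]
      · intro i _ hi; simp [hi]
      · intro h; exact absurd (Finset.mem_univ _) h
    have hin : ∀ j C, ∑ A, ∑ i, ((RR k l t (EuclideanSpace.single (j, C) (1 : ℝ)) (i, A) : ℝ) : ℂ) •
        (S.vec (S.g i * S.gt k l t) A b) (pd j C u y) =
        ∑ c, S.gt k l t b c • S.vec (S.g j) C c (pd j C u y) := by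
      intro j C
      have h1 : ∀ A, ∑ i, ((RR k l t (EuclideanSpace.single (j, C) (1 : ℝ)) (i, A) : ℝ) : ℂ) •
          (S.vec (S.g i * S.gt k l t) A b) = S.vec (S.gt k l t *
            S.XB A (EuclideanSpace.single (j, C) (1 : ℝ))) A b := by
        intro A
        rw [← S.XB_RR h]
        simp only [XB, Finset.sum_mul, Matrix.smul_mul, S.vec_sum, S.vec_smul]
      have h2 : ∀ A, ∑ i, ((RR k l t (EuclideanSpace.single (j, C) (1 : ℝ)) (i, A) : ℝ) : ℂ) •
          (S.vec (S.g i * S.gt k l t) A b) (pd j C u y) = (S.vec (S.gt k l t *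
            S.XB A (EuclideanSpace.single (j, C) (1 : ℝ))) A b) (pd j C u y) := by
        intro A
        rw [← h1 A]
        simp only [_root_.sum_apply, _root_.smul_apply]
      simp only [h2, hXe, mul_ite, mul_zero]
      rw [Finset.sum_eq_single C]
      · simp only [if_true, S.vec_mul, _root_.sum_apply, _root_.smul_apply]
      · intro A _ hA
        simp [hA, S.vec_zero]
      · intro h; exact absurd (Finset.mem_univ _) h
    simp only [hin, Finset.smul_sum]
    calc _ = ∑ j, ∑ c, ∑ C, S.gt k l t b c • S.vec (S.g j) C c (pd j C u y) := by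
          refine Finset.sum_congr rfl fun j _ => ?_
          rw [Finset.sum_comm]
      _ = _ := by rw [Finset.sum_comm]
  have hQ : S.Q b (S.Ut k l t u) x = (-Complex.I) • ∑ i, ∑ A,
      S.vec (S.g i) A b (pd i A (S.Ut k l t u) x) + S.W b x (S.Ut k l t u x) := by rw [Q]
  have hUx : S.Ut k l t u x = S.st k l t (u y) := by rw [Ut, hy]
  rw [hQ, hUx, hD, hW, ← map_smul, ← map_add]
  congr 1
  simp only [Finset.smul_sum]
  simp only [Q, smul_add, Finset.sum_add_distrib, Finset.smul_sum]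
  congr 1
  refine Finset.sum_congr rfl fun c _ => Finset.sum_congr rfl fun i _ =>
    Finset.sum_congr rfl fun A _ => ?_
  rw [smul_comm]

end U

end Setup

end Vale.Agent.P353
end

section

/-! # P353, uniqueness for `N = 2`: A2 and A3 (covariance of the supercharges) -/

open MeasureTheory Filter Topology
open scoped ContDiff

namespace Vale.Agent.P353.U

variable {F : Type*} [NormedAddCommGroup F] [InnerProductSpace ℂ F]

/-- product rule -/
lemma fderiv_clm_app {T : X3 → F →L[ℂ] F} {u : X3 → F} {x : X3}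
    (hT : DifferentiableAt ℝ T x) (hu : DifferentiableAt ℝ u x) (e : X3) :
    fderiv ℝ (fun y => T y (u y)) x e = (fderiv ℝ T x e) (u x) + T x (fderiv ℝ u x e) := by
  have hB : IsBoundedBilinearMap ℝ (fun p : (F →L[ℂ] F) × F => p.1 p.2) := by
    have h := (isBoundedBilinearMap_apply (𝕜 := ℂ) (E := F) (F := F))
    refine ⟨fun a b c => by simp, fun c a b => ?_, fun a b c => by simp, fun c a b => ?_, ?_⟩
    · simp
    · simp
    · obtain ⟨C, hC, hb⟩ := h.bound
      exact ⟨C, hC, hb⟩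
  have h1 := hB.hasFDerivAt (T x, u x)
  have h2 := hT.hasFDerivAt.prodMk hu.hasFDerivAt
  have h3 := h1.comp x h2
  have h4 : fderiv ℝ (fun y => T y (u y)) x = _ := h3.fderiv
  rw [h4]
  simp [add_comm]

/-- directional derivative of a quadratic polynomial -/
lemma line_fderiv {G : Type*} [NormedAddCommGroup G] [NormedSpace ℂ G] {f : X3 → G} {x v : X3}
    {a b : G} (hf : DifferentiableAt ℝ f x)
    (h : ∀ t : ℝ, f (x + t • v) = f x + (t : ℂ) • a + ((t : ℂ) ^ 2) • b) :
    fderiv ℝ f x v = a := by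
  have h1 : HasDerivAt (fun t : ℝ => f (x + t • v)) (fderiv ℝ f x v) 0 := by
    have h2 : HasDerivAt (fun t : ℝ => x + t • v) v 0 := by
      simpa using ((hasDerivAt_id (0 : ℝ)).smul_const v).const_add x
    have h3 : HasFDerivAt f (fderiv ℝ f x) (x + (0 : ℝ) • v) := by simpa using hf.hasFDerivAt
    exact h3.comp_hasDerivAt (0 : ℝ) h2
  have h4 : HasDerivAt (fun t : ℝ => f x + (t : ℂ) • a + ((t : ℂ) ^ 2) • b) a 0 := by
    have h5 : HasDerivAt (fun t : ℝ => (t : ℂ)) 1 (0 : ℝ) := by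
      simpa using (hasDerivAt_id (0 : ℝ)).ofReal_comp
    have h6 : HasDerivAt (fun t : ℝ => (t : ℂ) ^ 2) 0 (0 : ℝ) := by
      simpa using h5.fun_pow 2
    simpa using ((h5.smul_const a).const_add (f x)).fun_add (h6.smul_const b)
  have h7 : (fun t : ℝ => f (x + t • v)) = fun t : ℝ => f x + (t : ℂ) • a + ((t : ℂ) ^ 2) • b :=
    funext h
  rw [h7] at h1
  exact h1.unique h4

/-- commutator of a first order generator with a Dirac type operator -/
lemma comm_gen {N : Fin 9 → Fin 3 → F →L[ℂ] F} {Z : X3 → F →L[ℂ] F} (hZ : ContDiff ℝ ∞ Z)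
    (L : X3 →L[ℝ] X3) (T : F →L[ℂ] F) {D K : (X3 → F) → X3 → F}
    (hD : ∀ u x, D u x = (-Complex.I) • fderiv ℝ u x (L x) + T (u x))
    (hK : ∀ u x, K u x = (-Complex.I) • ∑ i, ∑ A, N i A (pd i A u x) + Z x (u x))
    {u : X3 → F} (hu : ContDiff ℝ ∞ u) (x : X3) :
    D (K u) x - K (D u) x =
      ∑ i, ∑ A, N i A (fderiv ℝ u x (L (EuclideanSpace.single (i, A) (1 : ℝ)))) +
      (-Complex.I) • ∑ i, ∑ A, (T * N i A - N i A * T) (pd i A u x) +
      (-Complex.I) • (fderiv ℝ Z x (L x)) (u x) + (T * Z x - Z x * T) (u x) := by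
  have hud : Differentiable ℝ u := hu.differentiable (by simp)
  have hpd : ∀ i A, DifferentiableAt ℝ (pd i A u) x := fun i A =>
    (contDiff_pd hu).differentiable (by simp) x
  have hfd : Differentiable ℝ (fderiv ℝ u) := (hu.fderiv_right (m := ∞) (by simp)).differentiable
    (by simp)
  have hZd : DifferentiableAt ℝ Z x := hZ.differentiable (by simp) x
  have hKu : K u = fun y => (-Complex.I) • ∑ i, ∑ A, N i A (pd i A u y) + Z y (u y) :=
    funext (hK u)
  have hDu : D u = fun y => (-Complex.I) • fderiv ℝ u y (L y) + T (u y) := funext (hD u)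
  have e1 : ∀ e, fderiv ℝ (K u) x e = (-Complex.I) • ∑ i, ∑ A, N i A (fderiv ℝ (pd i A u) x e) +
      ((fderiv ℝ Z x e) (u x) + Z x (fderiv ℝ u x e)) := by
    intro e
    have hN : ∀ i A, DifferentiableAt ℝ (fun y => N i A (pd i A u y)) x := fun i A =>
      ((N i A).restrictScalars ℝ).differentiableAt.comp x (hpd i A)
    have hs1 : ∀ i, DifferentiableAt ℝ (fun y => ∑ A, N i A (pd i A u y)) x := fun i =>
      DifferentiableAt.fun_sum fun A _ => hN i A
    have hs2 : DifferentiableAt ℝ (fun y => ∑ i, ∑ A, N i A (pd i A u y)) x :=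
      DifferentiableAt.fun_sum fun i _ => hs1 i
    have hs3 : DifferentiableAt ℝ (fun y => Z y (u y)) x :=
      (Setup.contDiff_clm_apply' hZ hu).differentiable (by simp) x
    rw [hKu, fderiv_fun_add (hs2.fun_const_smul _) hs3, _root_.add_apply, fderiv_clm_app hZd (hud x),
      fderiv_fun_const_smul hs2]
    congr 1
    rw [_root_.smul_apply]
    congr 1
    rw [fderiv_fun_sum fun i _ => hs1 i, _root_.sum_apply]
    refine Finset.sum_congr rfl fun i _ => ?_
    rw [fderiv_fun_sum fun A _ => hN i A, _root_.sum_apply]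
    refine Finset.sum_congr rfl fun A _ => ?_
    rw [fderiv_clm_app (T := fun _ => N i A) (differentiableAt_const _) (hpd i A)]
    simp
  have e2 : ∀ i A, pd i A (D u) x = (-Complex.I) • (fderiv ℝ (pd i A u) x (L x) +
      fderiv ℝ u x (L (EuclideanSpace.single (i, A) (1 : ℝ)))) + T (pd i A u x) := by
    intro i A
    have hL : DifferentiableAt ℝ (fun y => fderiv ℝ u y (L y)) x :=
      (hfd x).clm_apply L.differentiableAt
    have hT : DifferentiableAt ℝ (fun y => T (u y)) x :=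
      (T.restrictScalars ℝ).differentiableAt.comp x (hud x)
    have hs : IsSymmSndFDerivAt ℝ u x := by
      refine (hu.contDiffAt).isSymmSndFDerivAt ?_
      simp only [minSmoothness_of_isRCLikeNormedField]
      exact WithTop.coe_le_coe.mpr le_top
    have h3 : fderiv ℝ (pd i A u) x (L x) =
        fderiv ℝ (fderiv ℝ u) x (EuclideanSpace.single (i, A) (1 : ℝ)) (L x) := by
      unfold pd
      rw [fderiv_clm_apply (hfd x) (differentiableAt_const _)]
      simp only [fderiv_fun_const, Pi.zero_apply, _root_.add_apply,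
        ContinuousLinearMap.flip_apply]
      simp only [ContinuousLinearMap.comp_zero, _root_.zero_apply, zero_add]
      exact hs _ _
    rw [pd, hDu, fderiv_fun_add (hL.fun_const_smul _) hT, _root_.add_apply,
      fderiv_fun_const_smul hL, _root_.smul_apply, fderiv_clm_apply (hfd x) L.differentiableAt,
      fderiv_clm_app (T := fun _ => T) (differentiableAt_const _) (hud x), h3]
    simp only [fderiv_fun_const, Pi.zero_apply, _root_.add_apply, _root_.zero_apply,
      ContinuousLinearMap.flip_apply, ContinuousLinearMap.comp_apply, ContinuousLinearMap.fderiv,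
      zero_add]
    rw [add_comm (fderiv ℝ u x (L _))]
    rfl
  rw [hD (K u) x, hK (D u) x, e1, hD u x, hK u x]
  simp only [e2, map_add, map_smul, map_sum, _root_.sub_apply, mul_apply_eq_comp,
    Finset.sum_add_distrib, Finset.sum_sub_distrib, ← Finset.smul_sum]
  linear_combination (norm := module) (-Complex.I_mul_I) •
    (∑ i, ∑ A, N i A (fderiv ℝ u x (L (EuclideanSpace.single (i, A) (1 : ℝ)))))


section defs

variable (S : Setup F)

/-- polarisation of the matrix `NA` -/
noncomputable def NB (A : Fin 3) (v x : X3) : Matrix (Fin 16) (Fin 16) ℂ :=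
  (S.κ / 2 : ℂ) • ∑ B, ∑ C, (eps A B C : ℂ) • (S.XB B v * S.XB C x + S.XB B x * S.XB C v)

/-- the matrix of the mass term -/
noncomputable def MA (A : Fin 3) (x : X3) : Matrix (Fin 16) (Fin 16) ℂ :=
  ∑ i, ((aw i * x (i, A) : ℝ) : ℂ) • (S.g i * S.Gam)

lemma XB_line (A : Fin 3) (x v : X3) (t : ℝ) :
    S.XB A (x + t • v) = S.XB A x + (t : ℂ) • S.XB A v := by
  simp only [Setup.XB, PiLp.add_apply, PiLp.smul_apply, smul_eq_mul, Complex.ofReal_add,
    Complex.ofReal_mul, add_smul, mul_smul, Finset.sum_add_distrib, Finset.smul_sum]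

lemma NA_line (A : Fin 3) (x v : X3) (t : ℝ) :
    S.NA A (x + t • v) = S.NA A x + (t : ℂ) • NB S A v x + ((t : ℂ) ^ 2) • S.NA A v := by
  simp only [S.NA_eq_XB, NB, XB_line]
  rw [smul_comm (t : ℂ), smul_comm ((t : ℂ) ^ 2), ← smul_add, ← smul_add]
  congr 1
  simp only [Finset.smul_sum, ← Finset.sum_add_distrib]
  refine Finset.sum_congr rfl fun B _ => Finset.sum_congr rfl fun C _ => ?_
  simp only [add_mul, mul_add, Matrix.smul_mul, Matrix.mul_smul]
  module

lemma fderiv_W' (b : Fin 16) (x v : X3) :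
    fderiv ℝ (S.W b) x v = ∑ A, S.vec (NB S A v x) A b := by
  refine line_fderiv (b := S.W b v) ((S.contDiff_W b).differentiable (by simp) x) fun t => ?_
  simp only [S.W_eq_NA, NA_line, S.vec_add, S.vec_smul, Finset.sum_add_distrib, ← Finset.smul_sum]

lemma MM_eq_MA (b : Fin 16) (x : X3) : S.MM b x = ∑ A, S.vec (MA S A x) A b := by
  simp only [Setup.MM, MA, S.vec_sum, S.vec_smul]
  rw [Finset.sum_comm]

lemma MA_line (A : Fin 3) (x v : X3) (t : ℝ) :
    MA S A (x + t • v) = MA S A x + (t : ℂ) • MA S A v := by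
  simp only [MA, PiLp.add_apply, PiLp.smul_apply, smul_eq_mul, Finset.smul_sum,
    ← Finset.sum_add_distrib]
  refine Finset.sum_congr rfl fun i _ => ?_
  push_cast
  module

lemma contDiff_MM (b : Fin 16) : ContDiff ℝ ∞ (S.MM b) := by
  unfold Setup.MM
  refine ContDiff.sum fun i _ => ContDiff.sum fun A _ => ?_
  exact (Setup.contDiff_ofReal (contDiff_const.mul (Setup.contDiff_coord _))).smul contDiff_const

lemma fderiv_MM (b : Fin 16) (x v : X3) : fderiv ℝ (S.MM b) x v = S.MM b v := by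
  refine line_fderiv (b := 0) ((contDiff_MM S b).differentiable (by simp) x) fun t => ?_
  simp only [MM_eq_MA, MA_line, S.vec_add, S.vec_smul, Finset.sum_add_distrib, ← Finset.smul_sum,
    smul_zero, add_zero]

/-- the multiplier part of `Q_β + m M_β` -/
noncomputable def Zm (m : ℝ) (b : Fin 16) (x : X3) : F →L[ℂ] F := S.W b x + (m : ℂ) • S.MM b x

lemma contDiff_Zm (m : ℝ) (b : Fin 16) : ContDiff ℝ ∞ (Zm S m b) :=
  (S.contDiff_W b).add ((contDiff_MM S b).const_smul (m : ℂ))

lemma fderiv_Zm (m : ℝ) (b : Fin 16) (x v : X3) : fderiv ℝ (Zm S m b) x v =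
    ∑ A, S.vec (NB S A v x + (m : ℂ) • MA S A v) A b := by
  have h1 : DifferentiableAt ℝ (S.W b) x := (S.contDiff_W b).differentiable (by simp) x
  have h2 : DifferentiableAt ℝ (S.MM b) x := (contDiff_MM S b).differentiable (by simp) x
  have h : fderiv ℝ (Zm S m b) x = fderiv ℝ (S.W b) x + (m : ℂ) • fderiv ℝ (S.MM b) x := by
    have e : Zm S m b = fun y => S.W b y + (m : ℂ) • S.MM b y := rfl
    rw [e, fderiv_fun_add h1 (h2.fun_const_smul _), fderiv_fun_const_smul h2]
  rw [h, _root_.add_apply, _root_.smul_apply, fderiv_W', fderiv_MM, MM_eq_MA]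
  simp only [S.vec_add, S.vec_smul, Finset.sum_add_distrib, ← Finset.smul_sum]

lemma Zm_eq (m : ℝ) (b : Fin 16) (x : X3) : Zm S m b x =
    ∑ A, S.vec (S.NA A x + (m : ℂ) • MA S A x) A b := by
  rw [Zm, S.W_eq_NA, MM_eq_MA]
  simp only [S.vec_add, S.vec_smul, Finset.sum_add_distrib, ← Finset.smul_sum]

lemma Qm_eq (m : ℝ) (b : Fin 16) (u : X3 → F) (x : X3) : S.Qm m b u x =
    (-Complex.I) • ∑ i, ∑ A, S.vec (S.g i) A b (pd i A u x) + Zm S m b x (u x) := by
  rw [Setup.Qm, Setup.Q, Zm, _root_.add_apply, _root_.smul_apply, add_assoc]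

/-! ### rotations -/

lemma aw_same {k l : Fin 9} (h : Same k l) : aw k = aw l := by
  unfold aw
  by_cases hk : k.val < 3
  · rw [if_pos hk, if_pos (h.2.mp hk)]
  · rw [if_neg hk, if_neg fun hl => hk (h.2.mpr hl)]

lemma g_g2_comm (k l i : Fin 9) : S.g i * S.g2 k l - S.g2 k l * S.g i =
    (2 : ℂ) • ((if i = k then S.g l else 0) - (if i = l then S.g k else 0)) := by
  have h := S.g2_mul_g k l i
  rw [h]
  by_cases h1 : i = k <;> by_cases h2 : i = l
  · subst h1; subst h2; simp
  · subst h1; simp [h2, Ne.symm h2]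
  · subst h2; simp [h1, Ne.symm h1]
  · simp [h1, h2, Ne.symm h1, Ne.symm h2]

lemma neg_LL_apply (k l i : Fin 9) (A : Fin 3) (x : X3) :
    (-(LL k l x)) (i, A) = (if i = l then x (k, A) else 0) - (if i = k then x (l, A) else 0) := by
  rw [PiLp.neg_apply, LL_apply]
  ring

lemma XB_J (k l : Fin 9) (A : Fin 3) (x : X3) :
    (2 : ℂ) • S.XB A (-(LL k l x)) = S.XB A x * S.g2 k l - S.g2 k l * S.XB A x := by
  simp only [Setup.XB, neg_LL_apply, Finset.sum_mul, Finset.mul_sum, Matrix.smul_mul,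
    Matrix.mul_smul, ← Finset.sum_sub_distrib, ← smul_sub, g_g2_comm]
  simp only [smul_comm _ (2 : ℂ), ← Finset.smul_sum]
  congr 1
  simp only [smul_sub, Complex.ofReal_sub, sub_smul, Finset.sum_sub_distrib, smul_ite, smul_zero]
  rw [sub_eq_sub_iff_add_eq_add]
  simp

lemma NB_J (k l : Fin 9) (A : Fin 3) (x : X3) :
    (2 : ℂ) • NB S A (-(LL k l x)) x = S.NA A x * S.g2 k l - S.g2 k l * S.NA A x := by
  rw [NB, S.NA_eq_XB, smul_comm, Matrix.smul_mul, Matrix.mul_smul, ← smul_sub]
  congr 1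
  simp only [Finset.smul_sum, Finset.sum_mul, Finset.mul_sum, ← Finset.sum_sub_distrib]
  refine Finset.sum_congr rfl fun B _ => Finset.sum_congr rfl fun C _ => ?_
  rw [smul_comm, smul_add, ← Matrix.smul_mul, ← Matrix.mul_smul, XB_J, XB_J, Matrix.smul_mul,
    Matrix.mul_smul, ← smul_sub]
  congr 1
  noncomm_ring

lemma MA_J {k l : Fin 9} (h : Same k l) (A : Fin 3) (x : X3) :
    (2 : ℂ) • MA S A (-(LL k l x)) = MA S A x * S.g2 k l - S.g2 k l * MA S A x := by
  have e : ∀ i, S.g i * S.Gam * S.g2 k l - S.g2 k l * (S.g i * S.Gam) =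
      (2 : ℂ) • ((if i = k then S.g l * S.Gam else 0) - (if i = l then S.g k * S.Gam else 0)) := by
    intro i
    have h1 : S.g i * S.Gam * S.g2 k l - S.g2 k l * (S.g i * S.Gam) =
        (S.g i * S.g2 k l - S.g2 k l * S.g i) * S.Gam := by
      rw [sub_mul, mul_assoc (S.g i), ← S.Gam_comm_g2 h]
      simp only [mul_assoc]
    rw [h1, g_g2_comm, Matrix.smul_mul, sub_mul]
    congr 2 <;> split_ifs <;> simp
  simp only [MA, neg_LL_apply, Finset.sum_mul, Finset.mul_sum, Matrix.smul_mul,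
    Matrix.mul_smul, ← Finset.sum_sub_distrib, ← smul_sub, e]
  simp only [smul_comm _ (2 : ℂ), ← Finset.smul_sum]
  congr 1
  simp only [smul_sub, mul_sub, Complex.ofReal_sub, sub_smul, Finset.sum_sub_distrib, smul_ite,
    smul_zero]
  rw [sub_eq_sub_iff_add_eq_add]
  simp [aw_same h, -Complex.ofReal_mul]

lemma comm_Sk (k l : Fin 9) (P : Matrix (Fin 16) (Fin 16) ℂ) (A : Fin 3) (b : Fin 16) :
    S.Skl k l * S.vec P A b - S.vec P A b * S.Skl k l =
      (Complex.I / 2) • S.vec (P * S.g2 k l) A b := by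
  rw [S.Skl_eq, ← neg_sub, S.vec_comm_Sk, ← neg_smul]
  congr 1
  ring

lemma fderiv_neg_LL (k l i : Fin 9) (A : Fin 3) (u : X3 → F) (x : X3) :
    fderiv ℝ u x (-(LL k l (EuclideanSpace.single (i, A) (1 : ℝ)))) =
      (if i = k then pd l A u x else 0) - (if i = l then pd k A u x else 0) := by
  have h : -(LL k l (EuclideanSpace.single (i, A) (1 : ℝ))) =
      (if i = k then (EuclideanSpace.single (l, A) (1 : ℝ) : X3) else 0) -
        (if i = l then (EuclideanSpace.single (k, A) (1 : ℝ) : X3) else 0) := by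
    rw [neg_LL_eq]
    simp only [PiLp.single_apply, Prod.mk.injEq, Finset.sum_sub_distrib]
    congr 1
    · by_cases h1 : i = k
      · subst h1
        simp only [true_and, if_true, ite_smul, one_smul, zero_smul]
        rw [Finset.sum_ite_eq']
        simp
      · have h1' : ¬ k = i := fun e => h1 e.symm
        simp [h1, h1']
    · by_cases h1 : i = l
      · subst h1
        simp only [true_and, if_true, ite_smul, one_smul, zero_smul]
        rw [Finset.sum_ite_eq']
        simp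
      · have h1' : ¬ l = i := fun e => h1 e.symm
        simp [h1, h1']
  rw [h, map_sub]
  congr 1
  · split_ifs <;> simp [pd]
  · split_ifs <;> simp [pd]

theorem a2 : A2Stmt S := by
  intro m k l hkl α u hu x
  have hD : ∀ (u : X3 → F) (x : X3), S.J k l u x =
      (-Complex.I) • fderiv ℝ u x ((-(LL k l)) x) + S.Skl k l (u x) := fun u x => S.J_eq k l u x
  rw [comm_gen (contDiff_Zm S m α) (-(LL k l)) (S.Skl k l) hD (Qm_eq S m α) hu x]
  -- the zero order part
  have hZ : (-Complex.I) • (fderiv ℝ (Zm S m α) x ((-(LL k l)) x)) (u x) +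
      (S.Skl k l * Zm S m α x - Zm S m α x * S.Skl k l) (u x) =
      (Complex.I / 2) • ∑ β, S.g2 k l α β • Zm S m β x (u x) := by
    have h1 : ∑ β, S.g2 k l α β • Zm S m β x =
        ∑ A, S.vec (S.g2 k l * (S.NA A x + (m : ℂ) • MA S A x)) A α := by
      simp only [Zm_eq, S.vec_mul, Finset.smul_sum]
      rw [Finset.sum_comm]
    have h2 : (2 : ℂ) • fderiv ℝ (Zm S m α) x ((-(LL k l)) x) =
        ∑ A, S.vec ((S.NA A x + (m : ℂ) • MA S A x) * S.g2 k l) A α -
        ∑ A, S.vec (S.g2 k l * (S.NA A x + (m : ℂ) • MA S A x)) A α := by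
      rw [fderiv_Zm, Finset.smul_sum, ← Finset.sum_sub_distrib]
      refine Finset.sum_congr rfl fun A _ => ?_
      rw [← S.vec_smul, ← S.vec_sub]
      congr 1
      rw [_root_.neg_apply, smul_add, NB_J, smul_comm, MA_J S hkl]
      simp only [add_mul, mul_add, Matrix.smul_mul, Matrix.mul_smul, smul_sub]
      rw [sub_add_sub_comm]
    have h3 : S.Skl k l * Zm S m α x - Zm S m α x * S.Skl k l =
        (Complex.I / 2) • ∑ A, S.vec ((S.NA A x + (m : ℂ) • MA S A x) * S.g2 k l) A α := by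
      rw [Zm_eq, Finset.mul_sum, Finset.sum_mul, ← Finset.sum_sub_distrib, Finset.smul_sum]
      refine Finset.sum_congr rfl fun A _ => ?_
      rw [comm_Sk]
    have h4 : (-Complex.I) • fderiv ℝ (Zm S m α) x ((-(LL k l)) x) +
        (S.Skl k l * Zm S m α x - Zm S m α x * S.Skl k l) =
        (Complex.I / 2) • ∑ β, S.g2 k l α β • Zm S m β x := by
      rw [h1, h3]
      linear_combination (norm := module) (-Complex.I / 2) • h2
    have h5 := congrArg (fun T : F →L[ℂ] F => T (u x)) h4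
    simpa only [_root_.add_apply, _root_.smul_apply, _root_.sum_apply] using h5
  -- the first order part
  have hF : ∑ i, ∑ A, S.vec (S.g i) A α
        (fderiv ℝ u x ((-(LL k l)) (EuclideanSpace.single (i, A) (1 : ℝ)))) +
      (-Complex.I) • ∑ i, ∑ A, (S.Skl k l * S.vec (S.g i) A α - S.vec (S.g i) A α * S.Skl k l)
        (pd i A u x) =
      (1 / 2 : ℂ) • ∑ i, ∑ A, S.vec (S.g2 k l * S.g i) A α (pd i A u x) := by
    have h1 : ∀ i, S.g2 k l * S.g i = S.g i * S.g2 k l -
        (2 : ℂ) • ((if i = k then S.g l else 0) - (if i = l then S.g k else 0)) := by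
      intro i
      rw [← g_g2_comm]
      abel
    have h2 : ∑ i, ∑ A, S.vec (S.g i) A α
        (fderiv ℝ u x ((-(LL k l)) (EuclideanSpace.single (i, A) (1 : ℝ)))) =
        ∑ A, (S.vec (S.g k) A α (pd l A u x) - S.vec (S.g l) A α (pd k A u x)) := by
      rw [Finset.sum_comm]
      refine Finset.sum_congr rfl fun A _ => ?_
      have e1 : ∀ (c : Prop) [Decidable c] (T : F →L[ℂ] F) (v : F),
          T (if c then v else 0) = if c then T v else 0 := by
        intro c _ T v
        split_ifs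
        · rfl
        · rw [map_zero]
      simp only [_root_.neg_apply, fderiv_neg_LL, map_sub, Finset.sum_sub_distrib, e1]
      simp
    have h3 : ∑ i, ∑ A, S.vec (S.g2 k l * S.g i) A α (pd i A u x) =
        ∑ i, ∑ A, S.vec (S.g i * S.g2 k l) A α (pd i A u x) +
        (2 : ℂ) • ∑ A, (S.vec (S.g k) A α (pd l A u x) - S.vec (S.g l) A α (pd k A u x)) := by
      have e : ∀ i A, S.vec (S.g2 k l * S.g i) A α (pd i A u x) =
          S.vec (S.g i * S.g2 k l) A α (pd i A u x) +
          (2 : ℂ) • ((if i = l then S.vec (S.g k) A α (pd i A u x) else 0) -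
            (if i = k then S.vec (S.g l) A α (pd i A u x) else 0)) := by
        intro i A
        rw [h1, S.vec_sub, S.vec_smul, S.vec_sub, _root_.sub_apply, _root_.smul_apply,
          _root_.sub_apply]
        have e1 : ∀ (c : Prop) [Decidable c] (P : Matrix (Fin 16) (Fin 16) ℂ) (v : F),
            S.vec (if c then P else 0) A α v = if c then S.vec P A α v else 0 := by
          intro c _ P v
          split_ifs
          · rfl
          · rw [S.vec_zero]; rfl
        rw [e1, e1]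
        module
      simp only [e, Finset.sum_add_distrib, ← Finset.smul_sum, Finset.sum_sub_distrib]
      congr 3
      · rw [Finset.sum_comm]; simp
      · rw [Finset.sum_comm]; simp
    have h4 : ∀ i A, (S.Skl k l * S.vec (S.g i) A α - S.vec (S.g i) A α * S.Skl k l)
        (pd i A u x) = (Complex.I / 2) • S.vec (S.g i * S.g2 k l) A α (pd i A u x) := by
      intro i A
      rw [comm_Sk]; rfl
    simp only [h4, ← Finset.smul_sum]
    rw [h2, h3]
    linear_combination (norm := module) (-(1 / 2 : ℂ) * Complex.I_mul_I) •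
      (∑ i, ∑ A, S.vec (S.g i * S.g2 k l) A α (pd i A u x))
  have hQ : ∑ β, S.g2 k l α β • S.Qm m β u x =
      (-Complex.I) • ∑ i, ∑ A, S.vec (S.g2 k l * S.g i) A α (pd i A u x) +
      ∑ β, S.g2 k l α β • Zm S m β x (u x) := by
    simp only [Qm_eq, smul_add, Finset.sum_add_distrib]
    congr 1
    simp only [smul_comm _ (-Complex.I), ← Finset.smul_sum]
    congr 1
    simp only [Finset.smul_sum, S.vec_mul, _root_.sum_apply, _root_.smul_apply]
    rw [Finset.sum_comm]
    refine Finset.sum_congr rfl fun i _ => ?_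
    rw [Finset.sum_comm]
  rw [hQ, add_assoc, hZ, hF]
  linear_combination (norm := module) ((1 / 2 : ℂ) * Complex.I_mul_I) •
      (∑ i, ∑ A, S.vec (S.g2 k l * S.g i) A α (pd i A u x))

/-! ### gauge transformations -/

/-- the generator of the colour rotations -/
noncomputable def gLc (C : Fin 3) : X3 →L[ℝ] X3 :=
  ∑ i : Fin 9, ∑ A : Fin 3, ∑ B : Fin 3, (eps C A B : ℝ) •
    ((EuclideanSpace.proj (𝕜 := ℝ) (i, A) : X3 →L[ℝ] ℝ).smulRight
      (EuclideanSpace.single (i, B) (1 : ℝ)))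

lemma gLc_eq (C : Fin 3) (x : X3) : gLc C x = ∑ i : Fin 9, ∑ A : Fin 3, ∑ B : Fin 3,
    ((eps C A B : ℝ) * x (i, A)) • (EuclideanSpace.single (i, B) (1 : ℝ) : X3) := by
  simp only [gLc, _root_.sum_apply, _root_.smul_apply, ContinuousLinearMap.smulRight_apply,
    PiLp.proj_apply, smul_smul]

lemma gLc_apply (C : Fin 3) (x : X3) (i : Fin 9) (B : Fin 3) :
    (gLc C x) (i, B) = ∑ A, (eps C A B : ℝ) * x (i, A) := by
  simp only [gLc_eq, WithLp.ofLp_sum, Finset.sum_apply, WithLp.ofLp_smul, Pi.smul_apply,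
    PiLp.single_apply, Prod.mk.injEq, smul_eq_mul, mul_ite, mul_one, mul_zero]
  rw [Finset.sum_eq_single i]
  · simp
  · intro j _ hj; simp [Ne.symm hj]
  · intro h; exact absurd (Finset.mem_univ _) h

lemma gLc_single (C : Fin 3) (i : Fin 9) (A : Fin 3) :
    gLc C (EuclideanSpace.single (i, A) (1 : ℝ)) =
      ∑ B : Fin 3, (eps C A B : ℝ) • (EuclideanSpace.single (i, B) (1 : ℝ) : X3) := by
  rw [gLc_eq, Finset.sum_eq_single i, Finset.sum_eq_single A]
  · simp
  · intro B _ hB; simp [hB]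
  · intro h; exact absurd (Finset.mem_univ _) h
  · intro j _ hj; simp [hj]
  · intro h; exact absurd (Finset.mem_univ _) h

lemma G_eq (C : Fin 3) (u : X3 → F) (x : X3) :
    S.G C u x = (-Complex.I) • fderiv ℝ u x (gLc C x) + S.cS C (u x) := by
  have h : ∀ (i : Fin 9) (A B : Fin 3), ((eps C A B : ℂ) * (x (i, A) : ℂ)) • pd i B u x =
      ((eps C A B : ℝ) * x (i, A)) • pd i B u x := by
    intro i A B
    rw [← Complex.coe_smul]
    push_cast
    rfl
  simp only [Setup.G, h, gLc_eq, map_sum, map_smul]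
  rfl

lemma XB_G (C B : Fin 3) (x : X3) : S.XB B (gLc C x) = ∑ A, (eps C A B : ℂ) • S.XB A x := by
  simp only [Setup.XB, gLc_apply, Complex.ofReal_sum, Finset.sum_smul, Finset.smul_sum]
  rw [Finset.sum_comm]
  refine Finset.sum_congr rfl fun A _ => Finset.sum_congr rfl fun i _ => ?_
  rw [smul_smul]
  congr 1
  push_cast
  rfl

lemma MA_G (C B : Fin 3) (x : X3) : MA S B (gLc C x) = ∑ A, (eps C A B : ℂ) • MA S A x := by
  simp only [MA, gLc_apply, Finset.mul_sum, Complex.ofReal_sum, Finset.sum_smul, Finset.smul_sum]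
  rw [Finset.sum_comm]
  refine Finset.sum_congr rfl fun A _ => Finset.sum_congr rfl fun i _ => ?_
  rw [smul_smul]
  congr 1
  push_cast
  ring

/-- Jacobi identity -/
lemma eps_jacobi {M : Type*} [AddCommGroup M] [Module ℂ M] (b : Fin 3 → Fin 3 → M)
    (C E : Fin 3) :
    ∑ B, ∑ D, (eps E B D : ℂ) • (∑ G, (eps C G B : ℂ) • b G D + ∑ G, (eps C G D : ℂ) • b B G) =
      ∑ A, (eps C A E : ℂ) • ∑ B, ∑ D, (eps A B D : ℂ) • b B D := by
  simp only [Fin.sum_univ_three]
  fin_cases C <;> fin_cases E <;> simp [eps] <;> module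

lemma NB_G (C E : Fin 3) (x : X3) : NB S E (gLc C x) x = ∑ A, (eps C A E : ℂ) • S.NA A x := by
  have h := eps_jacobi (fun B D => S.XB B x * S.XB D x) C E
  simp only [NB, S.NA_eq_XB, XB_G, Finset.sum_mul, Finset.mul_sum, Matrix.smul_mul,
    Matrix.mul_smul]
  rw [h, Finset.smul_sum]
  refine Finset.sum_congr rfl fun A _ => ?_
  rw [smul_comm]

lemma comm_cS (C : Fin 3) (P : Matrix (Fin 16) (Fin 16) ℂ) (A : Fin 3) (b : Fin 16) :
    S.cS C * S.vec P A b - S.vec P A b * S.cS C =
      Complex.I • ∑ E, (eps C A E : ℂ) • S.vec P E b := by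
  rw [S.cS_eq, ← neg_sub, S.vec_comm_sG, ← neg_smul, neg_neg]

theorem a3 : A3Stmt S := by
  intro m C α u hu x
  rw [← sub_eq_zero]
  have hD : ∀ (u : X3 → F) (x : X3), S.G C u x =
      (-Complex.I) • fderiv ℝ u x (gLc C x) + S.cS C (u x) := fun u x => G_eq S C u x
  rw [comm_gen (contDiff_Zm S m α) (gLc C) (S.cS C) hD (Qm_eq S m α) hu x]
  -- the zero order part
  have hZ : (-Complex.I) • (fderiv ℝ (Zm S m α) x (gLc C x)) (u x) +
      (S.cS C * Zm S m α x - Zm S m α x * S.cS C) (u x) = 0 := by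
    have h2 : fderiv ℝ (Zm S m α) x (gLc C x) =
        ∑ E, ∑ A, (eps C A E : ℂ) • S.vec (S.NA A x + (m : ℂ) • MA S A x) E α := by
      rw [fderiv_Zm]
      refine Finset.sum_congr rfl fun E _ => ?_
      rw [NB_G, MA_G, Finset.smul_sum, ← Finset.sum_add_distrib, S.vec_sum]
      refine Finset.sum_congr rfl fun A _ => ?_
      rw [← S.vec_smul]
      congr 1
      rw [smul_add, smul_comm]
    have h3 : S.cS C * Zm S m α x - Zm S m α x * S.cS C =
        Complex.I • ∑ E, ∑ A, (eps C A E : ℂ) • S.vec (S.NA A x + (m : ℂ) • MA S A x) E α := by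
      rw [Zm_eq, Finset.mul_sum, Finset.sum_mul, ← Finset.sum_sub_distrib, Finset.sum_comm,
        Finset.smul_sum]
      refine Finset.sum_congr rfl fun A _ => ?_
      rw [comm_cS]
    have h4 : (-Complex.I) • fderiv ℝ (Zm S m α) x (gLc C x) +
        (S.cS C * Zm S m α x - Zm S m α x * S.cS C) = 0 := by
      rw [h2, h3]
      module
    have h5 := congrArg (fun T : F →L[ℂ] F => T (u x)) h4
    simpa only [_root_.add_apply, _root_.smul_apply, _root_.sum_apply, _root_.zero_apply] using h5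
  have hF : ∑ i, ∑ A, S.vec (S.g i) A α
        (fderiv ℝ u x ((gLc C) (EuclideanSpace.single (i, A) (1 : ℝ)))) +
      (-Complex.I) • ∑ i, ∑ A, (S.cS C * S.vec (S.g i) A α - S.vec (S.g i) A α * S.cS C)
        (pd i A u x) = 0 := by
    have h1 : ∀ i A, S.vec (S.g i) A α
        (fderiv ℝ u x ((gLc C) (EuclideanSpace.single (i, A) (1 : ℝ)))) =
        ∑ B, (eps C A B : ℂ) • S.vec (S.g i) A α (pd i B u x) := by
      intro i A
      rw [gLc_single, map_sum, map_sum]
      refine Finset.sum_congr rfl fun B _ => ?_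
      rw [map_smul, ← Complex.coe_smul, map_smul]
      push_cast
      rfl
    have h2 : ∀ i A, (S.cS C * S.vec (S.g i) A α - S.vec (S.g i) A α * S.cS C) (pd i A u x) =
        Complex.I • ∑ B, (eps C A B : ℂ) • S.vec (S.g i) B α (pd i A u x) := by
      intro i A
      rw [comm_cS, _root_.smul_apply, _root_.sum_apply]
      rfl
    have h3 : ∀ i, ∑ A, ∑ B, (eps C A B : ℂ) • S.vec (S.g i) B α (pd i A u x) =
        -∑ A, ∑ B, (eps C A B : ℂ) • S.vec (S.g i) A α (pd i B u x) := by
      intro i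
      rw [Finset.sum_comm, ← Finset.sum_neg_distrib]
      refine Finset.sum_congr rfl fun A _ => ?_
      rw [← Finset.sum_neg_distrib]
      refine Finset.sum_congr rfl fun B _ => ?_
      rw [eps_swap' C B A, ← neg_smul]
      push_cast
      rfl
    simp only [h1, h2, ← Finset.smul_sum, h3, Finset.sum_neg_distrib]
    linear_combination (norm := module) (Complex.I_mul_I) •
      (∑ i, ∑ A, ∑ B, (eps C A B : ℂ) • S.vec (S.g i) A α (pd i B u x))
  rw [add_assoc, hZ, hF, add_zero]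

end defs

end Vale.Agent.P353.U
end
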