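import Mathlib
import Vale.Agent.P353.BdU.B4
import Vale.Agent.P353.BdU.B2
import Vale.Agent.P353.BdU.B3
import Vale.Agent.P353.BdU.B5

set_option linter.all false

section

open MeasureTheory Filter Topology
open scoped ContDiff ComplexConjugate

namespace Vale.Agent.P353.Ex

variable {F : Type*} [NormedAddCommGroup F] [InnerProductSpace ℂ F]

/-- the Fock data `K` come from the model `M` (Pauli basis) and the spinor `s` -/
structure Link (M : Model 2 3 F) (s : Spin M.γ) (K : Fk F) : Prop where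
  hT : M.T = pauliT
  c_eq : ∀ i A, K.c i A = ∑ α, s.u i α • M.θ α A
  a_eq : ∀ i A, K.a i A = ∑ α, conj (s.u i α) • M.θ α A
  t_eq : K.t = s.t
  sg_eq : K.sg = 1
  f_eq : ∀ A B C, M.f A B C = K.f0 * (eps A B C : ℝ)
  S_eq : K.S = M.S
  pair : K.PairNe

end Vale.Agent.P353.Ex
end

section

/-! # P353, uniqueness for `N = 2`: the spinors `ζ`, `η` of the gap argument (A5) -/

open Matrix

namespace Vale.Agent.P353.U

variable {F : Type*} [NormedAddCommGroup F] [InnerProductSpace ℂ F]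

section gen

variable {n : Type*} [Fintype n]

/-- splitting off an eigenvector of an involution -/
lemma a5_step [DecidableEq n] (B : Matrix n n ℂ) (hB : B * B = 1) (v : n → ℂ) (hv : v ≠ 0) :
    ∃ w : n → ℂ, w ≠ 0 ∧ (∃ s : ℂ, s * s = 1 ∧ (starRingEnd ℂ) s = s ∧ B *ᵥ w = s • w) ∧
      ∀ C : Matrix n n ℂ, C * B = B * C → ∀ c : ℂ, C *ᵥ v = c • v → C *ᵥ w = c • w := by
  by_cases h : v + B *ᵥ v = 0
  · refine ⟨v, hv, ⟨-1, by norm_num, by simp, ?_⟩, fun C _ c hc => hc⟩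
    rw [neg_smul, one_smul]
    exact eq_neg_of_add_eq_zero_right h
  · refine ⟨v + B *ᵥ v, h, ⟨1, by norm_num, by simp, ?_⟩, ?_⟩
    · rw [Matrix.mulVec_add, Matrix.mulVec_mulVec, hB, Matrix.one_mulVec, one_smul, add_comm]
    · intro C hC c hc
      rw [Matrix.mulVec_add, hc, Matrix.mulVec_mulVec, hC, ← Matrix.mulVec_mulVec, hc,
        Matrix.mulVec_smul, smul_add]

/-- an expectation value vanishes -/
lemma a5_zero (A C : Matrix n n ℂ) (hA : Aᴴ = -A) (hAC : C * A = -(A * C)) (v : n → ℂ) (s : ℂ)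
    (hs : s * s = 1) (hs' : (starRingEnd ℂ) s = s) (hv : A *ᵥ v = (-Complex.I * s) • v) :
    star v ⬝ᵥ (C *ᵥ v) = 0 := by
  have h1 : star v ⬝ᵥ ((C * A) *ᵥ v) = (-Complex.I * s) * (star v ⬝ᵥ (C *ᵥ v)) := by
    rw [← Matrix.mulVec_mulVec, hv, Matrix.mulVec_smul, dotProduct_smul, smul_eq_mul]
  have h2 : star v ⬝ᵥ ((A * C) *ᵥ v) = -((Complex.I * s) * (star v ⬝ᵥ (C *ᵥ v))) := by
    rw [← Matrix.mulVec_mulVec, Matrix.dotProduct_mulVec]
    have h3 : star v ᵥ* A = star (Aᴴ *ᵥ v) := by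
      rw [Matrix.star_mulVec, Matrix.conjTranspose_conjTranspose]
    rw [h3, hA, Matrix.neg_mulVec, hv, star_neg, star_smul, neg_dotProduct, smul_dotProduct]
    simp only [star_mul', star_neg, smul_eq_mul, Complex.star_def, Complex.conj_I, hs']
    ring
  rw [hAC, Matrix.neg_mulVec, dotProduct_neg, h2] at h1
  have h4 : (Complex.I * s) * (star v ⬝ᵥ (C *ᵥ v)) = 0 := by linear_combination (1/2) * h1
  have h5 : Complex.I * s ≠ 0 := by
    refine mul_ne_zero Complex.I_ne_zero ?_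
    rintro rfl
    simp at hs
  exact (mul_eq_zero.mp h4).resolve_left h5

end gen

section gam

variable (S : Setup F)

lemma a5_g_conj (i : Fin 9) : (S.g i)ᴴ = S.g i := by
  ext a b
  rw [Matrix.conjTranspose_apply]
  have h1 : S.g i b a = S.g i a b := congrFun (congrFun (S.g_symm i) a) b
  rw [h1, Complex.star_def, Complex.conj_eq_iff_im.mpr (S.g_real i a b)]

lemma a5_g2_conj (i j : Fin 9) : (S.g2 i j)ᴴ = -S.g2 i j := by
  unfold CS.g2
  rw [Matrix.conjTranspose_smul, Matrix.conjTranspose_sub, Matrix.conjTranspose_mul,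
    Matrix.conjTranspose_mul, a5_g_conj, a5_g_conj, ← smul_neg, neg_sub]
  congr 1
  simp

lemma a5_Gam_conj : (S.Gam)ᴴ = -S.Gam := by
  rw [← S.Gam_transpose]
  ext a b
  rw [Matrix.conjTranspose_apply, Matrix.transpose_apply, Complex.star_def,
    Complex.conj_eq_iff_im.mpr (S.Gam_real b a)]

lemma a5_g2_ne {i j : Fin 9} (h : i ≠ j) : S.g2 i j = S.g i * S.g j := by
  unfold CS.g2
  rw [S.g_ac h.symm, sub_neg_eq_add, ← two_smul ℂ, smul_smul]
  norm_num

lemma a5_g2_sq {i j : Fin 9} (h : i ≠ j) : S.g2 i j * S.g2 i j = -1 := by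
  rw [a5_g2_ne S h]
  calc S.g i * S.g j * (S.g i * S.g j) = S.g i * (S.g j * S.g i) * S.g j := by
        simp only [mul_assoc]
    _ = S.g i * -(S.g i * S.g j) * S.g j := by rw [S.g_ac h.symm]
    _ = -(S.g i * S.g i * (S.g j * S.g j)) := by
        simp only [mul_assoc, mul_neg, neg_mul]
    _ = -1 := by rw [S.g_sq', S.g_sq', one_mul]

lemma a5_anti {k l p : Fin 9} (h1 : k ≠ l) (h2 : k ≠ p) (h3 : l ≠ p) :
    S.g2 k l * S.g2 k p = -(S.g2 k p * S.g2 k l) := by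
  rw [a5_g2_ne S h1, a5_g2_ne S h2]
  have e1 : S.g k * S.g l * (S.g k * S.g p) = -(S.g l * S.g p) := by
    calc S.g k * S.g l * (S.g k * S.g p) = S.g k * (S.g l * S.g k) * S.g p := by
          simp only [mul_assoc]
      _ = S.g k * -(S.g k * S.g l) * S.g p := by rw [S.g_ac h1.symm]
      _ = -(S.g k * S.g k * (S.g l * S.g p)) := by simp only [mul_assoc, mul_neg, neg_mul]
      _ = -(S.g l * S.g p) := by rw [S.g_sq', one_mul]
  have e2 : S.g k * S.g p * (S.g k * S.g l) = -(S.g p * S.g l) := by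
    calc S.g k * S.g p * (S.g k * S.g l) = S.g k * (S.g p * S.g k) * S.g l := by
          simp only [mul_assoc]
      _ = S.g k * -(S.g k * S.g p) * S.g l := by rw [S.g_ac h2.symm]
      _ = -(S.g k * S.g k * (S.g p * S.g l)) := by simp only [mul_assoc, mul_neg, neg_mul]
      _ = -(S.g p * S.g l) := by rw [S.g_sq', one_mul]
  rw [e1, e2, S.g_ac h3]

lemma a5_comm {i j k l : Fin 9} (h1 : i ≠ j) (h2 : k ≠ l) (h3 : i ≠ k) (h4 : i ≠ l)
    (h5 : j ≠ k) (h6 : j ≠ l) : S.g2 i j * S.g2 k l = S.g2 k l * S.g2 i j := by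
  rw [a5_g2_ne S h1, a5_g2_ne S h2]
  calc S.g i * S.g j * (S.g k * S.g l) = S.g i * (S.g j * S.g k) * S.g l := by
        simp only [mul_assoc]
    _ = -(S.g i * S.g k * (S.g j * S.g l)) := by
        rw [S.g_ac h5]; simp only [mul_assoc, mul_neg, neg_mul]
    _ = -(S.g k * (S.g i * S.g l) * S.g j) := by
        rw [S.g_ac h3, S.g_ac h6]; simp only [mul_assoc, mul_neg, neg_mul, neg_neg]
    _ = S.g k * S.g l * (S.g i * S.g j) := by
        rw [S.g_ac h4]; simp only [mul_assoc, mul_neg, neg_mul, neg_neg]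

lemma a5_g2_self (k : Fin 9) : S.g2 k k = 0 := by
  unfold CS.g2
  rw [sub_self, smul_zero]

/-- the partner of an index in its plane -/
def pt : Fin 9 → Fin 9 := ![0, 2, 1, 4, 3, 6, 5, 8, 7]

/-- a joint eigenvector -/
lemma a5_vec : ∃ (ζ : Fin 16 → ℂ) (σ : Fin 9 → ℂ), ζ ≠ 0 ∧ S.Gam *ᵥ ζ = (-Complex.I) • ζ ∧
    ∀ k, k ≠ 0 → σ k * σ k = 1 ∧ (starRingEnd ℂ) (σ k) = σ k ∧
      S.g2 k (pt k) *ᵥ ζ = (-Complex.I * σ k) • ζ := by
  have hinv : ∀ A : Matrix (Fin 16) (Fin 16) ℂ, A * A = -1 →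
      (Complex.I • A) * (Complex.I • A) = 1 := by
    intro A hA
    rw [smul_mul_smul_comm, hA, Complex.I_mul_I]
    simp
  -- the start
  have h00 : S.Gam 0 0 = 0 := by
    have h := congrFun (congrFun S.Gam_transpose 0) 0
    rw [Matrix.transpose_apply, Matrix.neg_apply] at h
    linear_combination (1/2) * h
  set B0 : Matrix (Fin 16) (Fin 16) ℂ := Complex.I • S.Gam with hB0
  have hB0s : B0 * B0 = 1 := hinv _ S.Gam_sq
  set x : Fin 16 → ℂ := Pi.single 0 1 with hx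
  set v0 : Fin 16 → ℂ := x + B0 *ᵥ x with hv0
  have hv0n : v0 ≠ 0 := by
    intro h
    have h1 := congrFun h 0
    rw [hv0, Pi.add_apply, hx, Matrix.mulVec_single_one, hB0] at h1
    simp [h00] at h1
  have hB0v : B0 *ᵥ v0 = v0 := by
    rw [hv0, Matrix.mulVec_add, Matrix.mulVec_mulVec, hB0s, Matrix.one_mulVec, add_comm]
  have conv : ∀ (A : Matrix (Fin 16) (Fin 16) ℂ) (v : Fin 16 → ℂ) (s : ℂ),
      (Complex.I • A) *ᵥ v = s • v → A *ᵥ v = (-Complex.I * s) • v := by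
    intro A v s h
    rw [Matrix.smul_mulVec] at h
    have h2 := congrArg (fun w => (-Complex.I) • w) h
    simp only [smul_smul] at h2
    rw [neg_mul, Complex.I_mul_I, neg_neg, one_smul] at h2
    exact h2
  have hG0 : S.Gam *ᵥ v0 = (-Complex.I) • v0 := by
    have := conv S.Gam v0 1 (by rw [one_smul]; exact hB0v)
    rwa [mul_one] at this
  obtain ⟨v1, hv1n, ⟨s1, hs1, hs1', hv1⟩, hk1⟩ := a5_step (Complex.I • S.g2 1 2)
    (hinv _ (a5_g2_sq S (by decide))) v0 hv0n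
  obtain ⟨v2, hv2n, ⟨s2, hs2, hs2', hv2⟩, hk2⟩ := a5_step (Complex.I • S.g2 3 4)
    (hinv _ (a5_g2_sq S (by decide))) v1 hv1n
  obtain ⟨v3, hv3n, ⟨s3, hs3, hs3', hv3⟩, hk3⟩ := a5_step (Complex.I • S.g2 5 6)
    (hinv _ (a5_g2_sq S (by decide))) v2 hv2n
  obtain ⟨v4, hv4n, ⟨s4, hs4, hs4', hv4⟩, hk4⟩ := a5_step (Complex.I • S.g2 7 8)
    (hinv _ (a5_g2_sq S (by decide))) v3 hv3n
  have cm : ∀ A B : Matrix (Fin 16) (Fin 16) ℂ, A * B = B * A →
      A * (Complex.I • B) = (Complex.I • B) * A := by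
    intro A B h
    rw [Matrix.mul_smul, Matrix.smul_mul, h]
  have cG : ∀ {k l : Fin 9}, Same k l → S.Gam * (Complex.I • S.g2 k l) =
      (Complex.I • S.g2 k l) * S.Gam := fun h => cm _ _ (S.Gam_comm_g2 h).symm
  -- propagate
  have G1 := hk1 _ (cG ⟨by decide, by decide⟩) _ hG0
  have G2 := hk2 _ (cG ⟨by decide, by decide⟩) _ G1
  have G3 := hk3 _ (cG ⟨by decide, by decide⟩) _ G2
  have G4 := hk4 _ (cG ⟨by decide, by decide⟩) _ G3
  have cc : ∀ {i j k l : Fin 9}, i ≠ j → k ≠ l → i ≠ k → i ≠ l → j ≠ k → j ≠ l →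
      S.g2 i j * (Complex.I • S.g2 k l) = (Complex.I • S.g2 k l) * S.g2 i j :=
    fun h1 h2 h3 h4 h5 h6 => cm _ _ (a5_comm S h1 h2 h3 h4 h5 h6)
  have P1 := conv _ _ _ hv1
  have P1 := hk2 _ (cc (by decide) (by decide) (by decide) (by decide) (by decide) (by decide)) _ P1
  have P1 := hk3 _ (cc (by decide) (by decide) (by decide) (by decide) (by decide) (by decide)) _ P1
  have P1 := hk4 _ (cc (by decide) (by decide) (by decide) (by decide) (by decide) (by decide)) _ P1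
  have P2 := conv _ _ _ hv2
  have P2 := hk3 _ (cc (by decide) (by decide) (by decide) (by decide) (by decide) (by decide)) _ P2
  have P2 := hk4 _ (cc (by decide) (by decide) (by decide) (by decide) (by decide) (by decide)) _ P2
  have P3 := conv _ _ _ hv3
  have P3 := hk4 _ (cc (by decide) (by decide) (by decide) (by decide) (by decide) (by decide)) _ P3
  have P4 := conv _ _ _ hv4
  have neg : ∀ (a b : Fin 9) (s : ℂ), S.g2 a b *ᵥ v4 = (-Complex.I * s) • v4 →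
      S.g2 b a *ᵥ v4 = (-Complex.I * (-s)) • v4 := by
    intro a b s h
    rw [S.g2_swap b a, Matrix.neg_mulVec, h, ← neg_smul]
    congr 1; ring
  have sq : ∀ s : ℂ, s * s = 1 → -s * -s = 1 := fun s h => by rw [neg_mul_neg, h]
  have cj : ∀ s : ℂ, (starRingEnd ℂ) s = s → (starRingEnd ℂ) (-s) = -s := fun s h => by
    rw [map_neg, h]
  refine ⟨v4, ![0, s1, -s1, s2, -s2, s3, -s3, s4, -s4], hv4n, G4, ?_⟩
  intro k hk
  fin_cases k
  · exact absurd rfl hk
  · exact ⟨hs1, hs1', P1⟩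
  · exact ⟨sq _ hs1, cj _ hs1', neg _ _ _ P1⟩
  · exact ⟨hs2, hs2', P2⟩
  · exact ⟨sq _ hs2, cj _ hs2', neg _ _ _ P2⟩
  · exact ⟨hs3, hs3', P3⟩
  · exact ⟨sq _ hs3, cj _ hs3', neg _ _ _ P3⟩
  · exact ⟨hs4, hs4', P4⟩
  · exact ⟨sq _ hs4, cj _ hs4', neg _ _ _ P4⟩

/-- twice the contribution of the pair `(k, l)` -/
def a5t (k l : Fin 9) : ℤ := if k ≠ 0 ∧ l = pt k then (if k.val < 3 then -2 else -1) else 0

lemma a5t_sum : ∑ k, ∑ l, a5t k l = -10 := by decide

theorem a5 : A5Stmt S := by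
  obtain ⟨ζ, σ, hζ, hΓ, hσ⟩ := a5_vec S
  set η : Fin 16 → ℂ := S.g2 0 1 *ᵥ ζ with hη
  have h01 : (0 : Fin 9) ≠ 1 := by decide
  have hηn : η ≠ 0 := by
    intro h
    apply hζ
    have h1 : S.g2 0 1 *ᵥ η = -ζ := by
      rw [hη, Matrix.mulVec_mulVec, a5_g2_sq S h01, Matrix.neg_mulVec, Matrix.one_mulVec]
    rw [h, Matrix.mulVec_zero] at h1
    exact neg_eq_zero.mp h1.symm
  have hΓη : S.Gam *ᵥ η = (-Complex.I) • η := by
    rw [hη, Matrix.mulVec_mulVec, ← S.Gam_comm_g2 ⟨by decide, by decide⟩, ← Matrix.mulVec_mulVec, hΓ,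
      Matrix.mulVec_smul]
  -- expectation values
  have hE0 : ∀ k l : Fin 9, k ≠ 0 → k ≠ l → l ≠ pt k → star ζ ⬝ᵥ (S.g2 k l *ᵥ ζ) = 0 := by
    intro k l hk hkl hl
    obtain ⟨h1, h2, h3⟩ := hσ k hk
    refine a5_zero (S.g2 k (pt k)) (S.g2 k l) (a5_g2_conj S _ _) (a5_anti S hkl ?_ hl) ζ (σ k)
      h1 h2 h3
    revert hk; fin_cases k <;> decide
  have hE : ∀ k l : Fin 9, ¬ (k ≠ 0 ∧ l = pt k) → star ζ ⬝ᵥ (S.g2 k l *ᵥ ζ) = 0 := by
    intro k l h
    by_cases hkl : k = l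
    · rw [hkl, a5_g2_self, Matrix.zero_mulVec, dotProduct_zero]
    · by_cases hk : k = 0
      · subst hk
        rw [S.g2_swap 0 l, Matrix.neg_mulVec, dotProduct_neg, hE0 l 0 (Ne.symm hkl) (Ne.symm hkl),
          neg_zero]
        have : l ≠ 0 := Ne.symm hkl
        revert this; fin_cases l <;> decide
      · exact hE0 k l hk hkl fun hl => h ⟨hk, hl⟩
  have hEp : ∀ k, k ≠ 0 → star ζ ⬝ᵥ (S.g2 k (pt k) *ᵥ ζ) = (-Complex.I * σ k) * (star ζ ⬝ᵥ ζ) := by
    intro k hk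
    rw [(hσ k hk).2.2, dotProduct_smul, smul_eq_mul]
  -- action on `η`
  have hηp : ∀ k, k ≠ 0 → S.g2 k (pt k) *ᵥ η =
      (if k.val < 3 then Complex.I * σ k else -Complex.I * σ k) • η := by
    intro k hk
    have h3 := (hσ k hk).2.2
    by_cases hk3 : k.val < 3
    · rw [if_pos hk3]
      have ha : S.g2 k (pt k) * S.g2 0 1 = -(S.g2 0 1 * S.g2 k (pt k)) := by
        have hk' : k = 1 ∨ k = 2 := by
          revert hk hk3; fin_cases k <;> decide
        rcases hk' with rfl | rfl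
        · rw [S.g2_swap 0 1]
          have h := a5_anti S (k := 1) (l := 2) (p := 0) (by decide) (by decide) (by decide)
          change S.g2 1 2 * -S.g2 1 0 = -(-S.g2 1 0 * S.g2 1 2)
          rw [mul_neg, neg_mul, h]
        · rw [S.g2_swap 0 1]
          have h := a5_anti S (k := 1) (l := 2) (p := 0) (by decide) (by decide) (by decide)
          change S.g2 2 1 * -S.g2 1 0 = -(-S.g2 1 0 * S.g2 2 1)
          rw [S.g2_swap 2 1, mul_neg, neg_mul, mul_neg, neg_mul, h]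
      rw [hη, Matrix.mulVec_mulVec, ha, Matrix.neg_mulVec, ← Matrix.mulVec_mulVec, h3,
        Matrix.mulVec_smul, ← neg_smul]
      congr 1; ring
    · rw [if_neg hk3]
      have ha : S.g2 k (pt k) * S.g2 0 1 = S.g2 0 1 * S.g2 k (pt k) := by
        have hk' : k ≠ 0 ∧ k ≠ 1 ∧ pt k ≠ 0 ∧ pt k ≠ 1 ∧ k ≠ pt k := by
          revert hk hk3; fin_cases k <;> decide
        obtain ⟨p1, p2, p3, p4, p5⟩ := hk'
        exact a5_comm S p5 (by decide) p1 p2 p3 p4
      rw [hη, Matrix.mulVec_mulVec, ha, ← Matrix.mulVec_mulVec, h3, Matrix.mulVec_smul]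
  -- orthogonality
  have horth : star η ⬝ᵥ ζ = 0 := by
    have h1 : star ζ ⬝ᵥ η = 0 := hE 0 1 (by simp)
    rw [Matrix.star_dotProduct, h1, star_zero]
  refine ⟨ζ, η, hζ, hηn, ?_, ?_, ?_, ?_⟩
  · intro α
    have h := congrFun hΓ α
    have h' : ∑ β, S.Gam α β * ζ β = -Complex.I * ζ α := h
    rw [h']
    linear_combination (-(ζ α)) * Complex.I_mul_I
  · intro α
    have h := congrFun hΓη α
    have h' : ∑ β, S.Gam α β * η β = -Complex.I * η α := h
    rw [h']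
    linear_combination (-(η α)) * Complex.I_mul_I
  · exact horth
  · intro α
    set N : ℂ := star ζ ⬝ᵥ ζ with hN
    have hNs : ∑ β, (starRingEnd ℂ) (ζ β) * ζ β = N := rfl
    have hc : ∀ k l : Fin 9, (∑ β, ∑ γ, (starRingEnd ℂ) (ζ β) * (S.Gam * S.g2 k l) β γ * ζ γ) =
        -Complex.I * (star ζ ⬝ᵥ (S.g2 k l *ᵥ ζ)) := by
      intro k l
      have h1 : (∑ β, ∑ γ, (starRingEnd ℂ) (ζ β) * (S.Gam * S.g2 k l) β γ * ζ γ) =
          star ζ ⬝ᵥ ((S.Gam * S.g2 k l) *ᵥ ζ) := by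
        simp only [dotProduct, Matrix.mulVec, Finset.mul_sum, mul_assoc]
        rfl
      have h3 : star ζ ᵥ* S.Gam = star ((S.Gam)ᴴ *ᵥ ζ) := by
        rw [Matrix.star_mulVec, Matrix.conjTranspose_conjTranspose]
      rw [h1, ← Matrix.mulVec_mulVec, Matrix.dotProduct_mulVec, h3, a5_Gam_conj, Matrix.neg_mulVec,
        hΓ, star_neg, star_smul, neg_dotProduct, smul_dotProduct]
      simp only [star_neg, smul_eq_mul, Complex.star_def, Complex.conj_I]
      ring
    have hterm : ∀ k l : Fin 9, (rc k l : ℂ) *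
        (∑ β, ∑ γ, (starRingEnd ℂ) (ζ β) * (S.Gam * S.g2 k l) β γ * ζ γ) *
        (-Complex.I / 2) * (∑ β, S.g2 k l α β * η β) = (a5t k l : ℂ) * (1 / 2 * N * η α) := by
      intro k l
      rw [hc]
      by_cases h : k ≠ 0 ∧ l = pt k
      · obtain ⟨hk, rfl⟩ := h
        have h4 : ∑ β, S.g2 k (pt k) α β * η β =
            (if k.val < 3 then Complex.I * σ k else -Complex.I * σ k) * η α :=
          congrFun (hηp k hk) α
        rw [hEp k hk, h4]
        have h5 := (hσ k hk).1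
        by_cases hk3 : k.val < 3
        · have h6 : (pt k).val < 3 := by revert hk hk3; fin_cases k <;> decide
          have e1 : rc k (pt k) = 2 := by rw [rc, if_pos ⟨hk3, h6⟩]
          have e2 : a5t k (pt k) = -2 := by rw [a5t, if_pos ⟨hk, rfl⟩, if_pos hk3]
          rw [e1, e2, if_pos hk3]
          push_cast
          linear_combination (-(N * η α)) * h5 +
            (N * η α * σ k ^ 2 * (1 - Complex.I ^ 2)) * Complex.I_mul_I
        · have h6 : ¬ (pt k).val < 3 := by revert hk hk3; fin_cases k <;> decide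
          have e1 : rc k (pt k) = -1 := by
            rw [rc, if_neg (fun h => hk3 h.1), if_pos (And.intro (by omega) (by omega))]
          have e2 : a5t k (pt k) = -1 := by rw [a5t, if_pos ⟨hk, rfl⟩, if_neg hk3]
          rw [e1, e2, if_neg hk3]
          push_cast
          linear_combination (-(1 / 2) * (N * η α)) * h5 +
            (1 / 2 * N * η α * σ k ^ 2 * (1 - Complex.I ^ 2)) * Complex.I_mul_I
      · rw [hE k l h, a5t, if_neg h]
        simp
    calc _ = ∑ k, ∑ l, (a5t k l : ℂ) * (1 / 2 * N * η α) :=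
          Finset.sum_congr rfl fun k _ => Finset.sum_congr rfl fun l _ => hterm k l
      _ = ((∑ k, ∑ l, a5t k l : ℤ) : ℂ) * (1 / 2 * N * η α) := by
          push_cast
          simp only [Finset.sum_mul]
      _ = _ := by
          rw [a5t_sum, hNs]
          push_cast
          ring

end gam

end Vale.Agent.P353.U
end

section

open MeasureTheory Filter Topology
open scoped ContDiff

namespace Vale.Agent.P353

variable {F : Type*} [NormedAddCommGroup F] [InnerProductSpace ℂ F]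

/-- the soft compactness lemma -/
lemma soft_compact {E : Type*} [TopologicalSpace E] {K : Set E} (hK : IsCompact K) {f h : E → ℝ}
    (hf : Continuous f) (hh : Continuous h) (hf0 : ∀ x ∈ K, 0 ≤ f x)
    (hpos : ∀ x ∈ K, f x = 0 → 0 < h x) : ∃ L : ℝ, 0 ≤ L ∧ ∀ x ∈ K, 0 < L * f x + h x := by
  obtain ⟨t, ht⟩ := hK.elim_finite_subcover (fun n : ℕ => {x | 0 < (n : ℝ) * f x + h x})
    (fun n => isOpen_lt continuous_const ((continuous_const.mul hf).add hh)) (by
      intro x hx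
      rw [Set.mem_iUnion]
      by_cases h0 : f x = 0
      · exact ⟨0, by simpa [h0] using hpos x hx h0⟩
      · have hfx : 0 < f x := lt_of_le_of_ne (hf0 x hx) (Ne.symm h0)
        obtain ⟨n, hn⟩ := exists_nat_gt (-h x / f x)
        refine ⟨n, ?_⟩
        rw [div_lt_iff₀ hfx] at hn
        simp only [Set.mem_ofPred_eq]
        linarith)
  refine ⟨(t.sup id : ℕ), Nat.cast_nonneg _, fun x hx => ?_⟩
  have h1 := ht hx
  simp only [Set.mem_iUnion, Set.mem_ofPred_eq] at h1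
  obtain ⟨n, hn, hlt⟩ := h1
  have h2 : (n : ℝ) ≤ (t.sup id : ℕ) := by
    exact_mod_cast Finset.le_sup (f := id) hn
  have := mul_le_mul_of_nonneg_right h2 (hf0 x hx)
  linarith

/-! ### scaling -/

namespace Setup

variable (S : Setup F)

lemma FF_smul (A : Fin 3) (i j : Fin 9) (ρ : ℝ) (x : X3) :
    S.FF A i j (ρ • x) = ρ ^ 2 * S.FF A i j x := by
  simp only [FF, PiLp.smul_apply, smul_eq_mul, Finset.mul_sum]
  refine Finset.sum_congr rfl fun B _ => Finset.sum_congr rfl fun C _ => ?_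
  ring

lemma V_smul (ρ : ℝ) (x : X3) : S.V (ρ • x) = ρ ^ 4 * S.V x := by
  simp only [V, FF_smul, Finset.mul_sum]
  refine Finset.sum_congr rfl fun A _ => Finset.sum_congr rfl fun i _ =>
    Finset.sum_congr rfl fun j _ => ?_
  ring

lemma V_nonneg (x : X3) : 0 ≤ S.V x := by
  unfold V; positivity

lemma Fx_smul (ρ : ℝ) (x : X3) (v : F) : S.Fx (ρ • x) v = (ρ : ℂ) • S.Fx x v := by
  simp only [Fx, _root_.smul_apply, _root_.sum_apply, PiLp.smul_apply, smul_eq_mul,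
    Finset.smul_sum, smul_smul]
  refine Finset.sum_congr rfl fun q _ => Finset.sum_congr rfl fun A _ =>
    Finset.sum_congr rfl fun B _ => Finset.sum_congr rfl fun C _ => ?_
  congr 1
  push_cast
  ring

lemma B_smul (b : Fin 16) (ρ : ℝ) (x : X3) (v : F) : S.B b (ρ • x) v = (ρ : ℂ) • S.B b x v := by
  simp only [B, _root_.smul_apply, _root_.sum_apply, PiLp.smul_apply, smul_eq_mul,
    Finset.smul_sum, smul_smul]
  refine Finset.sum_congr rfl fun q _ => Finset.sum_congr rfl fun A _ => ?_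
  congr 1
  push_cast
  ring

lemma Mult_smul (b : Fin 16) (ρ : ℝ) (x : X3) (v : F) :
    S.Mult b (ρ • x) v = (ρ : ℂ) • S.Mult b x v := by
  have h1 : ∀ p : Fin 9 × Fin 3, (((ρ • x) p : ℝ) : ℂ) = (ρ : ℂ) * ((x p : ℝ) : ℂ) := by
    intro p
    rw [PiLp.smul_apply, smul_eq_mul]
    push_cast
    rfl
  simp only [Mult, _root_.smul_apply, _root_.sum_apply, _root_.add_apply, _root_.sub_apply,
    mul_apply_eq_comp, B_smul, h1]
  have a1 : ∑ j, ∑ l, ∑ A, ((ρ : ℂ) * ((x (j, A) : ℝ) : ℂ)) • S.vec (S.g l) A b (S.Skl j l v) =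
      (ρ : ℂ) • ∑ j, ∑ l, ∑ A, ((x (j, A) : ℝ) : ℂ) • S.vec (S.g l) A b (S.Skl j l v) := by
    simp only [Finset.smul_sum, smul_smul]
  have a2 : ∑ C, ∑ j, ∑ A, ∑ A', ((eps A A' C : ℂ) * ((ρ : ℂ) * ((x (j, A) : ℝ) : ℂ))) •
      S.vec (S.g j) A' b (S.cS C v) =
      (ρ : ℂ) • ∑ C, ∑ j, ∑ A, ∑ A', ((eps A A' C : ℂ) * ((x (j, A) : ℝ) : ℂ)) •
      S.vec (S.g j) A' b (S.cS C v) := by
    simp only [Finset.smul_sum, smul_smul]
    refine Finset.sum_congr rfl fun C _ => Finset.sum_congr rfl fun j _ =>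
      Finset.sum_congr rfl fun A _ => Finset.sum_congr rfl fun A' _ => ?_
    congr 1
    ring
  have a3 : ∑ k, ∑ l, ∑ j, ∑ A, ((ρ : ℂ) * ((x (j, A) : ℝ) : ℂ)) •
      S.vec (S.g2 k l * S.g j) A b (S.Skl k l v) =
      (ρ : ℂ) • ∑ k, ∑ l, ∑ j, ∑ A, ((x (j, A) : ℝ) : ℂ) •
      S.vec (S.g2 k l * S.g j) A b (S.Skl k l v) := by
    simp only [Finset.smul_sum, smul_smul]
  rw [a1, a2, a3]
  module

lemma Bd_smul (ρ : ℝ) (x : X3) (v : F) : Bd S (ρ • x) v = ((ρ ^ 2 : ℝ) : ℂ) • Bd S x v := by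
  simp only [Bd, _root_.smul_apply, _root_.sum_apply, mul_apply_eq_comp, B_smul, Mult_smul,
    map_smul, Finset.smul_sum, smul_smul]
  refine Finset.sum_congr rfl fun b _ => ?_
  congr 1
  push_cast
  ring

end Setup

/-! ### joint continuity -/

lemma continuous_Mult_apply (S : Setup F) (b : Fin 16) :
    Continuous (fun p : X3 × F => S.Mult b p.1 p.2) := by
  have e : (fun p : X3 × F => S.Mult b p.1 p.2) = fun p : X3 × F =>
      ∑ i, ∑ A, ((p.1 (i, A) : ℝ) : ℂ) • S.toCS.Mv (CS.E1 i A) b p.2 := by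
    funext p
    rw [S.Mult_eq]
    have h := congrArg (fun T : F →L[ℂ] F => T p.2) (S.toCS.Mv_eq_sum (Xc p.1) b)
    simp only [_root_.sum_apply, _root_.smul_apply] at h
    exact h
  rw [e]
  refine continuous_finsetSum _ fun i _ => continuous_finsetSum _ fun A _ => ?_
  exact ((Setup.contDiff_ofReal (Setup.contDiff_coord (i, A))).continuous.comp
    continuous_fst).smul ((S.toCS.Mv (CS.E1 i A) b).continuous.comp continuous_snd)

lemma continuous_B_apply (S : Setup F) (b : Fin 16) :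
    Continuous (fun p : X3 × F => S.B b p.1 p.2) := by
  have e : (fun p : X3 × F => S.B b p.1 p.2) = fun p : X3 × F =>
      ∑ i, ∑ A, ((p.1 (i, A) : ℝ) : ℂ) • S.vec (S.g i) A b p.2 := by
    funext p
    simp only [Setup.B, _root_.sum_apply, _root_.smul_apply]
  rw [e]
  refine continuous_finsetSum _ fun i _ => continuous_finsetSum _ fun A _ => ?_
  exact ((Setup.contDiff_ofReal (Setup.contDiff_coord (i, A))).continuous.comp
    continuous_fst).smul ((S.vec (S.g i) A b).continuous.comp continuous_snd)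

lemma Bd_apply (S : Setup F) (x : X3) (v : F) :
    Bd S x v = Complex.I • ∑ b, S.B b x (S.Mult b x v) := by
  simp only [Bd, _root_.smul_apply, _root_.sum_apply, mul_apply_eq_comp]

lemma continuous_Bd_apply (S : Setup F) : Continuous (fun p : X3 × F => Bd S p.1 p.2) := by
  simp only [Bd_apply]
  refine Continuous.const_smul (continuous_finsetSum _ fun b _ => ?_) _
  exact (continuous_B_apply S b).comp (continuous_fst.prodMk (continuous_Mult_apply S b))

lemma continuous_Fx_apply (S : Setup F) : Continuous (fun p : X3 × F => S.Fx p.1 p.2) := by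
  have e : (fun p : X3 × F => S.Fx p.1 p.2) = fun p : X3 × F =>
      (Complex.I / 2 * (S.κ : ℂ)) • ∑ q, ∑ A, ∑ B, ∑ C,
        ((eps A B C : ℂ) * ((p.1 (q, C) : ℝ) : ℂ)) • S.bil (S.g q) A B p.2 := by
    funext p
    simp only [Setup.Fx, _root_.sum_apply, _root_.smul_apply]
  rw [e]
  refine Continuous.const_smul (continuous_finsetSum _ fun q _ => continuous_finsetSum _ fun A _ =>
    continuous_finsetSum _ fun B _ => continuous_finsetSum _ fun C _ => ?_) _
  exact (continuous_const.mul ((Setup.contDiff_ofReal (Setup.contDiff_coord (q, C))).continuous.comp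
    continuous_fst)).smul ((S.bil (S.g q) A B).continuous.comp continuous_snd)

omit [InnerProductSpace ℂ F] in
/-- abstract form of the two-step compactness argument -/
lemma two_step [ProperSpace F] {V : X3 → ℝ} (hV : Continuous V) (hV0 : ∀ x, 0 ≤ V x)
    {Fr Or Br : X3 → F → ℝ} (hF : Continuous (fun p : X3 × F => Fr p.1 p.2))
    (hO : Continuous (fun p : X3 × F => Or p.1 p.2))
    (hB : Continuous (fun p : X3 × F => Br p.1 p.2)) {κ s : ℝ} (hκ : 0 < κ)
    (hs : s < 9)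
    (hvac : ∀ x : X3, ‖x‖ = 1 → V x = 0 → ∀ v : F, ‖v‖ = 1 → 0 ≤ Fr x v + 8 * κ ∧
      (Fr x v + 8 * κ = 0 → 56 ≤ Or x v ∧ Br x v ≤ 56 / 9)) :
    ∃ ε ε' δ L : ℝ, 0 < ε ∧ ε < 1 ∧ 0 < ε' ∧ 0 < δ ∧ 0 ≤ L ∧
      ∀ x : X3, ‖x‖ = 1 → ∀ v : F, ‖v‖ = 1 → ∀ σ, 0 ≤ σ → σ ≤ s →
        0 < L * V x + (Fr x v + (1 - ε) * (8 * κ - 16 / κ * V x) +
          ε' * (Or x v - σ * Br x v - δ)) := by
  let K2 : Set (X3 × F × ℝ) := Metric.sphere (0 : X3) 1 ×ˢ (Metric.sphere (0 : F) 1 ×ˢ Set.Icc 0 s)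
  have hK2 : IsCompact K2 :=
    (isCompact_sphere _ _).prod ((isCompact_sphere _ _).prod isCompact_Icc)
  have hK2mem : ∀ p : X3 × F × ℝ, p ∈ K2 ↔ ‖p.1‖ = 1 ∧ ‖p.2.1‖ = 1 ∧ 0 ≤ p.2.2 ∧ p.2.2 ≤ s := by
    intro p
    simp only [K2, Set.mem_prod, mem_sphere_zero_iff_norm, Set.mem_Icc]
  have hVc : Continuous (fun p : X3 × F × ℝ => V p.1) := hV.comp continuous_fst
  have hpr : Continuous (fun p : X3 × F × ℝ => ((p.1, p.2.1) : X3 × F)) :=
    continuous_fst.prodMk (continuous_fst.comp continuous_snd)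
  have hFc : Continuous (fun p : X3 × F × ℝ => Fr p.1 p.2.1) := hF.comp hpr
  have hOc : Continuous (fun p : X3 × F × ℝ => Or p.1 p.2.1) := hO.comp hpr
  have hBc : Continuous (fun p : X3 × F × ℝ => Br p.1 p.2.1) := hB.comp hpr
  have hσc : Continuous (fun p : X3 × F × ℝ => p.2.2) := continuous_snd.comp continuous_snd
  let K1 : Set (X3 × F × ℝ) := K2 ∩ {p | V p.1 = 0}
  have hK1 : IsCompact K1 := hK2.inter_right (isClosed_eq hVc continuous_const)
  have hK1mem : ∀ p : X3 × F × ℝ, p ∈ K1 →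
      ‖p.1‖ = 1 ∧ ‖p.2.1‖ = 1 ∧ 0 ≤ p.2.2 ∧ p.2.2 ≤ s ∧ V p.1 = 0 := by
    intro p hp
    obtain ⟨a, b, c, d⟩ := (hK2mem p).mp hp.1
    exact ⟨a, b, c, d, hp.2⟩
  obtain ⟨δ, hδ, hδ0⟩ : ∃ δ : ℝ, δ = (56 - 56 * s / 9) / 2 ∧ 0 < δ := ⟨_, rfl, by linarith⟩
  have hf1c : Continuous (fun p : X3 × F × ℝ => Fr p.1 p.2.1 + 8 * κ) :=
    hFc.add continuous_const
  have hh1c : Continuous (fun p : X3 × F × ℝ => Or p.1 p.2.1 - p.2.2 * Br p.1 p.2.1 - δ) :=
    (hOc.sub (hσc.mul hBc)).sub continuous_const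
  have hnn : ∀ p ∈ K1, 0 ≤ Fr p.1 p.2.1 + 8 * κ := by
    intro p hp
    obtain ⟨a, b, c, d, e⟩ := hK1mem p hp
    exact (hvac p.1 a e p.2.1 b).1
  obtain ⟨L1, hL1, hK1pos⟩ := soft_compact hK1 hf1c hh1c hnn (by
      intro p hp h0
      obtain ⟨a, b, c, d, e⟩ := hK1mem p hp
      obtain ⟨ho, hb⟩ := (hvac p.1 a e p.2.1 b).2 h0
      have h3 : p.2.2 * Br p.1 p.2.1 ≤ p.2.2 * (56 / 9) := mul_le_mul_of_nonneg_left hb c
      have h4 : p.2.2 * (56 / 9) ≤ s * (56 / 9) := mul_le_mul_of_nonneg_right d (by norm_num)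
      linarith)
  obtain ⟨ε', hε', hε'0⟩ : ∃ ε' : ℝ, ε' = 1 / (L1 + 1) ∧ 0 < ε' := ⟨_, rfl, by positivity⟩
  have hpos1 : ∀ p ∈ K1, 0 < (Fr p.1 p.2.1 + 8 * κ) +
      ε' * (Or p.1 p.2.1 - p.2.2 * Br p.1 p.2.1 - δ) := by
    intro p hp
    have h2 := hK1pos p hp
    have h3 := hnn p hp
    have h4 : (Fr p.1 p.2.1 + 8 * κ) + ε' * (Or p.1 p.2.1 - p.2.2 * Br p.1 p.2.1 - δ) =
        ε' * ((L1 + 1) * (Fr p.1 p.2.1 + 8 * κ) + (Or p.1 p.2.1 - p.2.2 * Br p.1 p.2.1 - δ)) := by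
      rw [hε']; field_simp
    rw [h4]
    refine mul_pos hε'0 ?_
    linarith
  have hgc : Continuous (fun p : X3 × F × ℝ => (Fr p.1 p.2.1 + 8 * κ) +
      ε' * (Or p.1 p.2.1 - p.2.2 * Br p.1 p.2.1 - δ)) :=
    hf1c.add (continuous_const.mul hh1c)
  obtain ⟨ε, hε0, hε1, hεpos⟩ : ∃ ε : ℝ, 0 < ε ∧ ε < 1 ∧
      ∀ p ∈ K1, 0 < (Fr p.1 p.2.1 + 8 * κ) + ε' * (Or p.1 p.2.1 - p.2.2 * Br p.1 p.2.1 - δ)
        - 8 * κ * ε := by
    by_cases hne : K1.Nonempty
    · obtain ⟨p0, hp0, hmin⟩ := hK1.exists_isMinOn hne hgc.continuousOn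
      have hc := hpos1 p0 hp0
      obtain ⟨c, hcdef⟩ : ∃ c : ℝ, c = (Fr p0.1 p0.2.1 + 8 * κ) +
        ε' * (Or p0.1 p0.2.1 - p0.2.2 * Br p0.1 p0.2.1 - δ) := ⟨_, rfl⟩
      rw [← hcdef] at hc
      refine ⟨min (1 / 2) (c / (16 * κ)), by positivity,
        lt_of_le_of_lt (min_le_left _ _) (by norm_num), fun p hp => ?_⟩
      have h2 : c ≤ (Fr p.1 p.2.1 + 8 * κ) +
        ε' * (Or p.1 p.2.1 - p.2.2 * Br p.1 p.2.1 - δ) := by
        rw [hcdef]; exact hmin hp
      have h3 : 8 * κ * min (1 / 2) (c / (16 * κ)) ≤ 8 * κ * (c / (16 * κ)) :=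
        mul_le_mul_of_nonneg_left (min_le_right _ _) (by positivity)
      have h4 : 8 * κ * (c / (16 * κ)) = c / 2 := by field_simp; ring
      linarith
    · refine ⟨1 / 2, by norm_num, by norm_num, fun p hp => ?_⟩
      exact absurd ⟨p, hp⟩ hne
  have hh2c : Continuous (fun p : X3 × F × ℝ => Fr p.1 p.2.1 +
      (1 - ε) * (8 * κ - 16 / κ * V p.1) + ε' * (Or p.1 p.2.1 - p.2.2 * Br p.1 p.2.1 - δ)) :=
    (hFc.add (continuous_const.mul (continuous_const.sub (continuous_const.mul hVc)))).add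
      (continuous_const.mul hh1c)
  obtain ⟨L2, hL2, hK2pos⟩ := soft_compact hK2 hVc hh2c (fun p _ => hV0 p.1) (by
    intro p hp hVp
    have h3 := hεpos p ⟨hp, hVp⟩
    rw [hVp]
    linarith)
  refine ⟨ε, ε', δ, L2, hε0, hε1, hε'0, hδ0, hL2, fun x hx v hv σ h0 h1 => ?_⟩
  exact hK2pos (x, v, σ) ((hK2mem _).mpr ⟨hx, hv, h0, h1⟩)

/-- real arithmetic of the rescaling -/
lemma rescale_arith {n ρ ε ε' δ κ σ f V o b L : ℝ} (hρ1 : 1 ≤ ρ) (hε0 : 0 < ε)
    (hε1 : ε < 1) (hV : 0 ≤ V) (hR : L / (2 * ε - ε ^ 2) ≤ ρ)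
    (hn : 0 ≤ n)
    (hkey : 0 < L * V + (f + (1 - ε) * (8 * κ - 16 / κ * V) + ε' * (o - σ * b - δ))) :
    0 ≤ n * (ρ * f) + ((1 - ε) * (8 * κ * ρ - 16 / κ * (ρ ^ 4 * V) / ρ ^ 3) +
        (2 * ε - ε ^ 2) * (ρ ^ 4 * V)) * n +
      ε' * ρ * (n * o - σ / ρ ^ 2 * (n * (ρ ^ 2 * b)) - δ * n) := by
  have hρ : 0 < ρ := lt_of_lt_of_le one_pos hρ1
  have hc0 : 0 < 2 * ε - ε ^ 2 := by nlinarith
  have hR3 : L ≤ (2 * ε - ε ^ 2) * ρ ^ 3 := by
    rw [div_le_iff₀ hc0] at hR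
    have h4 : ρ ≤ ρ ^ 3 := by nlinarith [mul_pos hρ hρ]
    nlinarith
  have hgoal : n * (ρ * f) + ((1 - ε) * (8 * κ * ρ - 16 / κ * (ρ ^ 4 * V) / ρ ^ 3) +
        (2 * ε - ε ^ 2) * (ρ ^ 4 * V)) * n +
      ε' * ρ * (n * o - σ / ρ ^ 2 * (n * (ρ ^ 2 * b)) - δ * n) =
      n * ρ * ((2 * ε - ε ^ 2) * ρ ^ 3 * V + (f +
        (1 - ε) * (8 * κ - 16 / κ * V) + ε' * (o - σ * b - δ))) := by
    have e1 : 16 / κ * (ρ ^ 4 * V) / ρ ^ 3 = 16 / κ * V * ρ := by
      rw [mul_div_assoc, show ρ ^ 4 * V / ρ ^ 3 = V * ρ by field_simp]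
      ring
    have e2 : σ / ρ ^ 2 * (n * (ρ ^ 2 * b)) = σ * n * b := by
      field_simp
    rw [e1, e2]
    ring
  rw [hgoal]
  have h5 := mul_le_mul_of_nonneg_right hR3 hV
  refine mul_nonneg (by positivity) ?_
  linarith

theorem pointwise_bound_of [FiniteDimensional ℂ F] (S : Setup F) (hvac : VacuumStmt S) (s : ℝ)
    (hs : s < 9) :
    ∃ R ε ε' δ : ℝ, 0 < R ∧ 0 < ε ∧ ε < 1 ∧ 0 < ε' ∧ 0 < δ ∧
      ∀ x : X3, R ≤ ‖x‖ → ∀ σ : ℝ, 0 ≤ σ → σ ≤ s → ∀ v : F,
        0 ≤ (inner ℂ v (S.Fx x v)).re +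
          ((1 - ε) * (8 * S.κ * ‖x‖ - 16 / S.κ * S.V x / ‖x‖ ^ 3) +
            (2 * ε - ε ^ 2) * S.V x) * ‖v‖ ^ 2 +
          ε' * ‖x‖ * ((inner ℂ v (S.O1 v)).re - σ / ‖x‖ ^ 2 * (inner ℂ v (Bd S x v)).re
            - δ * ‖v‖ ^ 2) := by
  have : ProperSpace F := FiniteDimensional.proper_rclike ℂ F
  have hre : ∀ {T : X3 → F → F}, Continuous (fun p : X3 × F => T p.1 p.2) →
      Continuous (fun p : X3 × F => (inner ℂ p.2 (T p.1 p.2)).re) := fun hT =>
    Complex.continuous_re.comp (continuous_snd.inner hT)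
  obtain ⟨ε, ε', δ, L, hε0, hε1, hε'0, hδ0, hL, hkey⟩ := two_step (V := S.V)
    (Fr := fun x v => (inner ℂ v (S.Fx x v)).re) (Or := fun _ v => (inner ℂ v (S.O1 v)).re)
    (Br := fun x v => (inner ℂ v (Bd S x v)).re)
    (contDiff_V S).continuous S.V_nonneg (hre (T := fun x v => S.Fx x v) (continuous_Fx_apply S))
    (hre (T := fun _ v => S.O1 v) (S.O1.continuous.comp continuous_snd))
    (hre (T := fun x v => Bd S x v) (continuous_Bd_apply S)) S.κ_pos hs (by
      intro x hx hV v hv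
      have h := hvac x hx hV v
      rw [hv] at h
      simpa using h)
  refine ⟨max 1 (L / (2 * ε - ε ^ 2)), ε, ε', δ, lt_of_lt_of_le one_pos (le_max_left _ _),
    hε0, hε1, hε'0, hδ0, ?_⟩
  intro x hx σ hσ0 hσs v
  by_cases hv0 : v = 0
  · subst hv0; simp
  have hρ1 : 1 ≤ ‖x‖ := (le_max_left _ _).trans hx
  have hρ : 0 < ‖x‖ := lt_of_lt_of_le one_pos hρ1
  have hn : 0 < ‖v‖ := norm_pos_iff.mpr hv0
  obtain ⟨ρ, hρdef⟩ : ∃ ρ, ρ = ‖x‖ := ⟨_, rfl⟩
  rw [← hρdef] at hρ hρ1 hx ⊢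
  obtain ⟨ξ, hξ⟩ : ∃ ξ : X3, ξ = ρ⁻¹ • x := ⟨_, rfl⟩
  obtain ⟨w, hw⟩ : ∃ w : F, w = ((‖v‖⁻¹ : ℝ) : ℂ) • v := ⟨_, rfl⟩
  have hξn : ‖ξ‖ = 1 := by
    rw [hξ, norm_smul, Real.norm_of_nonneg (by positivity), ← hρdef, inv_mul_cancel₀ hρ.ne']
  have hwn : ‖w‖ = 1 := by
    rw [hw, norm_smul, Complex.norm_real, Real.norm_of_nonneg (by positivity),
      inv_mul_cancel₀ hn.ne']
  have hxξ : x = ρ • ξ := by rw [hξ, smul_smul, mul_inv_cancel₀ hρ.ne', one_smul]
  have hvw : v = ((‖v‖ : ℝ) : ℂ) • w := by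
    rw [hw, smul_smul, ← Complex.ofReal_mul, mul_inv_cancel₀ hn.ne', Complex.ofReal_one, one_smul]
  have hk := hkey ξ hξn w hwn σ hσ0 hσs
  -- quadratic scaling
  have hquad : ∀ T : F →L[ℂ] F, (inner ℂ v (T v)).re = ‖v‖ ^ 2 * (inner ℂ w (T w)).re := by
    intro T
    conv_lhs => rw [hvw]
    rw [map_smul, inner_smul_left, inner_smul_right, Complex.conj_ofReal, Complex.re_ofReal_mul,
      Complex.re_ofReal_mul]
    ring
  have e1 : (inner ℂ v (S.Fx x v)).re = ‖v‖ ^ 2 * (ρ * (inner ℂ w (S.Fx ξ w)).re) := by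
    rw [hquad, hxξ, S.Fx_smul, inner_smul_right, Complex.re_ofReal_mul]
  have e2 : (inner ℂ v (Bd S x v)).re = ‖v‖ ^ 2 * (ρ ^ 2 * (inner ℂ w (Bd S ξ w)).re) := by
    rw [hquad, hxξ, S.Bd_smul, inner_smul_right, Complex.re_ofReal_mul]
  have e3 : S.V x = ρ ^ 4 * S.V ξ := by rw [hxξ, S.V_smul]
  rw [e1, e2, e3, hquad S.O1]
  exact rescale_arith hρ1 hε0 hε1 (S.V_nonneg ξ) ((le_max_right _ _).trans hx) (by positivity) hk

end Vale.Agent.P353
end

section

open MeasureTheory Filter Topology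
open scoped ContDiff

namespace Vale.Agent.P353

variable {F : Type*} [NormedAddCommGroup F] [InnerProductSpace ℂ F]

/-! ### radial functions -/

/-- radial function of `‖x‖²` -/
noncomputable def rad (f : ℝ → ℝ) (x : X3) : ℝ := f (‖x‖ ^ 2)

lemma contDiff_rad {f : ℝ → ℝ} (hf : ContDiff ℝ ∞ f) : ContDiff ℝ ∞ (rad f) :=
  hf.comp (contDiff_norm_sq ℝ)

lemma continuous_rad {f : ℝ → ℝ} (hf : Continuous f) : Continuous (rad f) :=
  hf.comp (continuous_norm.pow 2)

lemma pdr_rad {f : ℝ → ℝ} (hf : ContDiff ℝ ∞ f) (j : Fin 9) (B : Fin 3) (x : X3) :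
    pdr j B (rad f) x = 2 * deriv f (‖x‖ ^ 2) * x (j, B) := by
  have h1 : HasDerivAt f (deriv f (‖x‖ ^ 2)) (‖x‖ ^ 2) :=
    ((hf.differentiable (by simp)) _).hasDerivAt
  have h2 : HasFDerivAt (fun y : X3 => ‖y‖ ^ 2) (2 • (innerSL ℝ x)) x :=
    (hasStrictFDerivAt_norm_sq x).hasFDerivAt
  have h3 := h1.comp_hasFDerivAt x h2
  have h4 : fderiv ℝ (rad f) x = _ := h3.fderiv
  rw [pdr, h4]
  simp only [_root_.smul_apply, innerSL_apply_apply, smul_eq_mul]
  have : inner ℝ x (EuclideanSpace.single (j, B) (1 : ℝ)) = x (j, B) := by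
    simp [EuclideanSpace.inner_single_right]
  rw [this]
  simp
  ring

lemma hcs_rad {G : Type*} [Zero G] [TopologicalSpace G] {f : ℝ → G} (hf : HasCompactSupport f) :
    HasCompactSupport (fun x : X3 => f (‖x‖ ^ 2)) := by
  obtain ⟨r, hr⟩ := hf.isCompact.isBounded.subset_closedBall (0 : ℝ)
  refine HasCompactSupport.intro (isCompact_closedBall (0 : X3) (Real.sqrt (max r 0))) ?_
  intro x hx
  by_contra hne
  have h1 : ‖x‖ ^ 2 ∈ tsupport f := subset_tsupport _ hne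
  have h2 := hr h1
  rw [Metric.mem_closedBall, dist_zero_right, Real.norm_of_nonneg (by positivity)] at h2
  apply hx
  rw [Metric.mem_closedBall, dist_zero_right]
  exact Real.le_sqrt_of_sq_le (h2.trans (le_max_left _ _))

lemma hcs_rad' {f : ℝ → ℝ} (hf : HasCompactSupport f) : HasCompactSupport (rad f) := hcs_rad hf

namespace Setup

variable (S : Setup F)

lemma Q_rad {f : ℝ → ℝ} (hf : ContDiff ℝ ∞ f) (β : Fin 16) (u : X3 → F) (x : X3)
    (hu : DifferentiableAt ℝ u x) :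
    S.Q β (fun y => ((rad f y : ℝ) : ℂ) • u y) x = ((rad f x : ℝ) : ℂ) • S.Q β u x +
      (-Complex.I * ((2 * deriv f (‖x‖ ^ 2) : ℝ) : ℂ)) • S.B β x (u x) := by
  rw [Q_smul S β (rad f) u x ((contDiff_rad hf).differentiable (by simp) x) hu, sub_eq_add_neg]
  congr 1
  rw [neg_mul, neg_smul, mul_smul]
  congr 2
  simp only [B, _root_.sum_apply, _root_.smul_apply, Finset.smul_sum, smul_smul]
  refine Finset.sum_congr rfl fun i _ => Finset.sum_congr rfl fun A _ => ?_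
  rw [pdr_rad hf]
  push_cast
  rfl

lemma J_rad {f : ℝ → ℝ} (hf : ContDiff ℝ ∞ f) (k l : Fin 9) (u : X3 → F) (x : X3)
    (hu : DifferentiableAt ℝ u x) :
    S.J k l (fun y => ((rad f y : ℝ) : ℂ) • u y) x = ((rad f x : ℝ) : ℂ) • S.J k l u x := by
  have h : ∀ i A, pd i A (fun y => ((rad f y : ℝ) : ℂ) • u y) x =
      ((2 * deriv f (‖x‖ ^ 2) * x (i, A) : ℝ) : ℂ) • u x + ((rad f x : ℝ) : ℂ) • pd i A u x := by
    intro i A
    rw [pd_rsmul ((contDiff_rad hf).differentiable (by simp) x) hu]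
    have := pdr_rad hf i A x
    rw [pdr] at this
    rw [this]
  have e : ∀ A, (x (k, A) : ℂ) • (((2 * deriv f (‖x‖ ^ 2) * x (l, A) : ℝ) : ℂ) • u x +
      ((rad f x : ℝ) : ℂ) • pd l A u x) - (x (l, A) : ℂ) •
      (((2 * deriv f (‖x‖ ^ 2) * x (k, A) : ℝ) : ℂ) • u x + ((rad f x : ℝ) : ℂ) • pd k A u x) =
      ((rad f x : ℝ) : ℂ) • ((x (k, A) : ℂ) • pd l A u x - (x (l, A) : ℂ) • pd k A u x) := by
    intro A
    push_cast
    module
  simp only [J, h, e, ← Finset.smul_sum, map_smul]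
  rw [smul_add, smul_comm ((rad f x : ℝ) : ℂ) (-Complex.I)]

lemma contDiff_lin (T : Fin 9 → Fin 3 → (F →L[ℂ] F)) :
    ContDiff ℝ ∞ (fun x : X3 => ∑ j, ∑ B, Xc x j B • T j B) := by
  refine ContDiff.sum fun j _ => ContDiff.sum fun B _ => ?_
  exact (contDiff_ofReal (contDiff_coord (j, B))).smul contDiff_const

lemma Mult_eq_sum (β : Fin 16) (x : X3) :
    S.Mult β x = ∑ j, ∑ B, Xc x j B • S.toCS.Mv (CS.E1 j B) β := by
  ext v
  rw [S.Mult_eq]
  have h := congrArg (fun T : F →L[ℂ] F => T v) (S.toCS.Mv_eq_sum (Xc x) β)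
  simp only [_root_.sum_apply, _root_.smul_apply] at h ⊢
  exact h

lemma contDiff_Mult (β : Fin 16) : ContDiff ℝ ∞ (S.Mult β) := by
  have h : S.Mult β = fun x => ∑ j, ∑ B, Xc x j B • S.toCS.Mv (CS.E1 j B) β := by
    funext x; exact S.Mult_eq_sum β x
  rw [h]
  exact contDiff_lin _

lemma continuous_Bd : Continuous (Bd S) := by
  have h1 : Continuous (fun x => ∑ β, S.B β x * S.Mult β x) :=
    continuous_finsetSum _ fun β _ =>
      ((S.contDiff_B β).continuous).mul ((S.contDiff_Mult β).continuous)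
  exact h1.const_smul Complex.I

lemma continuous_Xop (β : Fin 16) : Continuous (S.Xop β) := by
  have h1 : Continuous (fun x => (56 / 81 * Complex.I) • S.B β x) :=
    (S.contDiff_B β).continuous.const_smul (56 / 81 * Complex.I : ℂ)
  have h2 : Continuous (fun x => -S.Mult β x) := (S.contDiff_Mult β).continuous.neg
  exact h2.add h1

lemma lin_bound (T : Fin 9 → Fin 3 → (F →L[ℂ] F)) (x : X3) :
    ‖∑ j, ∑ B, Xc x j B • T j B‖ ≤ ‖x‖ * ∑ j, ∑ B, ‖T j B‖ := by
  rw [Finset.mul_sum]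
  refine (norm_sum_le _ _).trans (Finset.sum_le_sum fun j _ => ?_)
  rw [Finset.mul_sum]
  refine (norm_sum_le _ _).trans (Finset.sum_le_sum fun B _ => ?_)
  rw [norm_smul]
  refine mul_le_mul_of_nonneg_right ?_ (norm_nonneg _)
  rw [Xc, Complex.norm_real]
  exact PiLp.norm_apply_le x (j, B)

lemma B_bound (β : Fin 16) : ∃ C, 0 ≤ C ∧ ∀ x, ‖S.B β x‖ ≤ C * ‖x‖ := by
  refine ⟨∑ j, ∑ B, ‖S.vec (S.g j) B β‖, by positivity, fun x => ?_⟩
  have h : S.B β x = ∑ j, ∑ B, Xc x j B • S.vec (S.g j) B β := by simp only [B, Xc]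
  rw [h, mul_comm]
  exact lin_bound _ x

lemma Mult_bound (β : Fin 16) : ∃ C, 0 ≤ C ∧ ∀ x, ‖S.Mult β x‖ ≤ C * ‖x‖ := by
  refine ⟨∑ j, ∑ B, ‖S.toCS.Mv (CS.E1 j B) β‖, by positivity, fun x => ?_⟩
  rw [S.Mult_eq_sum, mul_comm]
  exact lin_bound _ x

lemma Bd_bound : ∃ C, 0 ≤ C ∧ ∀ x, ‖Bd S x‖ ≤ C * ‖x‖ ^ 2 := by
  choose C1 h1 h1' using S.B_bound
  choose C2 h2 h2' using S.Mult_bound
  refine ⟨∑ β, C1 β * C2 β, Finset.sum_nonneg fun β _ => mul_nonneg (h1 β) (h2 β), fun x => ?_⟩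
  rw [Bd, norm_smul, Complex.norm_I, one_mul, Finset.sum_mul]
  refine (norm_sum_le _ _).trans (Finset.sum_le_sum fun β _ => ?_)
  refine (norm_mul_le _ _).trans ?_
  calc ‖S.B β x‖ * ‖S.Mult β x‖ ≤ (C1 β * ‖x‖) * (C2 β * ‖x‖) :=
        mul_le_mul (h1' β x) (h2' β x) (norm_nonneg _) (mul_nonneg (h1 β) (norm_nonneg _))
    _ = C1 β * C2 β * ‖x‖ ^ 2 := by ring

end Setup
end Vale.Agent.P353
end

section

open MeasureTheory Filter Topology
open scoped ContDiff

namespace Vale.Agent.P353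

variable {F : Type*} [NormedAddCommGroup F] [InnerProductSpace ℂ F]

/-! ### more `L²` inequalities -/

omit [InnerProductSpace ℂ F] in
lemma nsq_sum_le {ι : Type*} (s : Finset ι) (f : ι → X3 → F)
    (hf : ∀ i ∈ s, MemLp (f i) 2 (volume : Measure X3)) :
    nsq (fun x => ∑ i ∈ s, f i x) ≤ s.card * ∑ i ∈ s, nsq (f i) := by
  have h1 : ∑ i ∈ s, nsq (f i) = ∫ x, ∑ i ∈ s, ‖f i x‖ ^ 2 := by
    rw [integral_finsetSum]
    · rfl
    · intro i hi; exact memLp_norm_sq_int (hf i hi)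
  rw [h1, nsq, ← integral_const_mul]
  refine integral_mono_of_nonneg (Filter.Eventually.of_forall fun x => by positivity)
    ((integrable_finsetSum _ fun i hi => memLp_norm_sq_int (hf i hi)).const_mul _)
    (Filter.Eventually.of_forall fun x => ?_)
  have h2 := norm_sum_le s (fun i => f i x)
  have h3 := sq_sum_le_card_mul_sum_sq (s := s) (f := fun i => ‖f i x‖)
  exact (pow_le_pow_left₀ (norm_nonneg _) h2 2).trans h3

omit [InnerProductSpace ℂ F] in
/-- `‖f‖ ≤ c ‖g‖` pointwise -/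
lemma nsq_le_of {f g : X3 → F} {c : ℝ} (hg : MemLp g 2 (volume : Measure X3))
    (h : ∀ x, ‖f x‖ ≤ c * ‖g x‖) : nsq f ≤ c ^ 2 * nsq g := by
  rw [nsq, nsq, ← integral_const_mul]
  refine integral_mono_of_nonneg (Filter.Eventually.of_forall fun x => by positivity)
    ((memLp_norm_sq_int hg).const_mul _) (Filter.Eventually.of_forall fun x => ?_)
  have := pow_le_pow_left₀ (norm_nonneg _) (h x) 2
  simpa [mul_pow] using this

namespace Setup

variable (S : Setup F)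

/-- multiplication of an operator field by a real function -/
lemma continuous_rsmul_op {φ : X3 → ℝ} (hφ : Continuous φ) {A : X3 → F →L[ℂ] F}
    (hA : Continuous A) : Continuous (fun x => ((φ x : ℝ) : ℂ) • A x) :=
  (Complex.continuous_ofReal.comp hφ).smul hA

lemma bdd_rsmul_op {φ : X3 → ℝ} (hφ : Continuous φ) (hc : HasCompactSupport φ)
    {A : X3 → F →L[ℂ] F} (hA : Continuous A) : ∃ C, 0 ≤ C ∧ ∀ x, ‖((φ x : ℝ) : ℂ) • A x‖ ≤ C := by
  have h1 : HasCompactSupport (fun x => ((φ x : ℝ) : ℂ) • A x) := by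
    refine hc.mono ?_
    intro x hx
    simp only [Function.mem_support] at hx ⊢
    intro h0
    exact hx (by simp [h0])
  obtain ⟨C, hC⟩ := h1.exists_bound_of_continuous (continuous_rsmul_op hφ hA)
  exact ⟨max C 0, le_max_right _ _, fun x => (hC x).trans (le_max_left _ _)⟩

/-- gradient part of `Q (χ u)` -/
noncomputable def gradOp (χ : X3 → ℝ) (β : Fin 16) (x : X3) : F →L[ℂ] F :=
  (-Complex.I) • ∑ i, ∑ A, ((pdr i A χ x : ℝ) : ℂ) • S.vec (S.g i) A β

lemma Q_cut (χ : X3 → ℝ) (β : Fin 16) (u : X3 → F) (x : X3) (hχ : DifferentiableAt ℝ χ x)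
    (hu : DifferentiableAt ℝ u x) :
    S.Q β (fun y => ((χ y : ℝ) : ℂ) • u y) x = ((χ x : ℝ) : ℂ) • S.Q β u x +
      S.gradOp χ β x (u x) := by
  rw [Q_smul S β χ u x hχ hu, gradOp, sub_eq_add_neg]
  congr 1
  rw [_root_.smul_apply, neg_smul]
  simp only [_root_.smul_apply, _root_.sum_apply]

lemma gradOp_bound {χ : X3 → ℝ} (hχ : ContDiff ℝ ∞ χ) (hc : HasCompactSupport χ) (β : Fin 16) :
    ∃ C, 0 ≤ C ∧ ∀ x, ‖S.gradOp χ β x‖ ≤ C := by
  have h1 : ∀ i A, ∃ C, ∀ x, ‖pdr i A χ x‖ ≤ C := by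
    intro i A
    refine HasCompactSupport.exists_bound_of_continuous ?_ (contDiff_pdr hχ i A).continuous
    exact hc.fderiv_apply (𝕜 := ℝ) (EuclideanSpace.single (i, A) (1 : ℝ) : X3)
  choose C hC using h1
  have hC0 : ∀ i A, 0 ≤ C i A := fun i A => (norm_nonneg _).trans (hC i A 0)
  refine ⟨∑ i, ∑ A, C i A * ‖S.vec (S.g i) A β‖, Finset.sum_nonneg fun i _ =>
    Finset.sum_nonneg fun A _ => mul_nonneg (hC0 i A) (norm_nonneg _), fun x => ?_⟩
  rw [gradOp, norm_smul, norm_neg, Complex.norm_I, one_mul]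
  refine (norm_sum_le _ _).trans (Finset.sum_le_sum fun i _ => ?_)
  refine (norm_sum_le _ _).trans (Finset.sum_le_sum fun A _ => ?_)
  rw [norm_smul, Complex.norm_real]
  exact mul_le_mul_of_nonneg_right (hC i A x) (norm_nonneg _)

/-- local bound for `Q (χ u)` -/
lemma nsq_Q_cut {χ : X3 → ℝ} (hχ : ContDiff ℝ ∞ χ) (hc : HasCompactSupport χ) (β : Fin 16) :
    ∃ C, 0 ≤ C ∧ ∀ u, Tst u → nsq (S.Q β (fun y => ((χ y : ℝ) : ℂ) • u y)) ≤
      C * (nsq (S.Q β u) + nsq u) := by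
  obtain ⟨C1, h1, hC1⟩ := S.gradOp_bound hχ hc β
  obtain ⟨C2, hC2⟩ := hc.exists_bound_of_continuous hχ.continuous
  refine ⟨2 * C2 ^ 2 + 2 * C1 ^ 2, by positivity, fun u hu => ?_⟩
  have hv : nsq (S.Q β (fun y => ((χ y : ℝ) : ℂ) • u y)) =
      nsq (fun x => ((χ x : ℝ) : ℂ) • S.Q β u x + S.gradOp χ β x (u x)) := by
    congr 1; funext x
    exact S.Q_cut χ β u x (hχ.differentiable (by simp) x) (hu.diff x)
  have m1 : MemLp (fun x => ((χ x : ℝ) : ℂ) • S.Q β u x) 2 (volume : Measure X3) :=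
    (Tst.rsmul hχ (hu.Q S β)).memLp
  have m2 : MemLp (fun x => S.gradOp χ β x (u x)) 2 (volume : Measure X3) := by
    have hc' : ContDiff ℝ ∞ (S.gradOp χ β) := by
      have : ContDiff ℝ ∞ (fun x => ∑ i, ∑ A, ((pdr i A χ x : ℝ) : ℂ) • S.vec (S.g i) A β) := by
        refine ContDiff.sum fun i _ => ContDiff.sum fun A _ => ?_
        exact (contDiff_ofReal (contDiff_pdr hχ i A)).smul contDiff_const
      exact this.const_smul (-Complex.I)
    exact (Tst.clm hc' hu).memLp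
  rw [hv]
  refine (nsq_add_le m1 m2).trans ?_
  have e1 : nsq (fun x => ((χ x : ℝ) : ℂ) • S.Q β u x) ≤ C2 ^ 2 * nsq (S.Q β u) := by
    refine nsq_le_of (hu.Q S β).memLp fun x => ?_
    rw [norm_smul, Complex.norm_real]
    exact mul_le_mul_of_nonneg_right (hC2 x) (norm_nonneg _)
  have e2 : nsq (fun x => S.gradOp χ β x (u x)) ≤ C1 ^ 2 * nsq u := by
    refine nsq_le_of hu.memLp fun x => ?_
    exact ((S.gradOp χ β x).le_opNorm _).trans
      (mul_le_mul_of_nonneg_right (hC1 x) (norm_nonneg _))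
  have n1 := nsq_nonneg (S.Q β u)
  have n2 := nsq_nonneg u
  nlinarith [sq_nonneg C1, sq_nonneg C2, mul_nonneg (sq_nonneg C2) n2,
    mul_nonneg (sq_nonneg C1) n1]

/-- local `H¹` bound -/
lemma loc_H1 {χ : X3 → ℝ} (hχ : ContDiff ℝ ∞ χ) (hc : HasCompactSupport χ) :
    ∃ C, 0 ≤ C ∧ ∀ u, Tst u → ∑ i, ∑ A, nsq (pd i A (fun y => ((χ y : ℝ) : ℂ) • u y)) ≤
      C * (∑ β, nsq (S.Q β u) + nsq u) := by
  choose C1 h1 hC1 using S.nsq_Q_cut hχ hc
  -- bound for the fermionic potential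
  obtain ⟨C2, h2, hC2⟩ := bdd_rsmul_op (φ := fun x => χ x ^ 2) (hχ.continuous.pow 2)
    (hc.comp_left (g := fun t : ℝ => t ^ 2) (by simp)) (contDiff_Fx S).continuous
  set C3 : ℝ := ∑ β, C1 β with hC3
  have h3 : 0 ≤ C3 := Finset.sum_nonneg fun β _ => h1 β
  refine ⟨(1 / 8) * C3 + (16 / 8 * C3 + 2 * C2), by positivity, fun u hu => ?_⟩
  have hv : Tst (fun y => ((χ y : ℝ) : ℂ) • u y) := Tst.rsmul hχ hu
  have hE := energy_formula S _ hv
  have hVn : 0 ≤ ∫ x, S.V x * ‖((χ x : ℝ) : ℂ) • u x‖ ^ 2 :=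
    integral_nonneg fun x => mul_nonneg (S.V_nonneg x) (by positivity)
  have hF : -(∫ x, (inner ℂ (((χ x : ℝ) : ℂ) • u x) (S.Fx x (((χ x : ℝ) : ℂ) • u x))).re) ≤
      C2 * nsq u := by
    rw [← integral_neg, nsq, ← integral_const_mul]
    refine integral_mono_ae ?_ ((hu.norm_sq_int).const_mul _)
      (Filter.Eventually.of_forall fun x => ?_)
    · have hcl : Tst (fun x => S.Fx x (((χ x : ℝ) : ℂ) • u x)) := Tst.clm (contDiff_Fx S) hv
      exact (hv.inner_int hcl.1.continuous).re.neg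
    · have e : inner ℂ (((χ x : ℝ) : ℂ) • u x) (S.Fx x (((χ x : ℝ) : ℂ) • u x)) =
          inner ℂ (u x) ((((χ x ^ 2 : ℝ) : ℂ) • S.Fx x) (u x)) := by
        rw [inner_smul_left, map_smul, inner_smul_right, _root_.smul_apply, inner_smul_right,
          Complex.conj_ofReal]
        push_cast; ring
      simp only
      rw [e]
      have h4 := norm_inner_le_norm (𝕜 := ℂ) (u x) ((((χ x ^ 2 : ℝ) : ℂ) • S.Fx x) (u x))
      have h5 := ((((χ x ^ 2 : ℝ) : ℂ) • S.Fx x)).le_opNorm (u x)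
      have h6 := hC2 x
      have h7 := Complex.abs_re_le_norm (inner ℂ (u x) ((((χ x ^ 2 : ℝ) : ℂ) • S.Fx x) (u x)))
      have h8 := neg_abs_le (inner ℂ (u x) ((((χ x ^ 2 : ℝ) : ℂ) • S.Fx x) (u x))).re
      have h9 : ‖((((χ x ^ 2 : ℝ) : ℂ) • S.Fx x)) (u x)‖ ≤ C2 * ‖u x‖ :=
        h5.trans (mul_le_mul_of_nonneg_right h6 (norm_nonneg _))
      have h10 : ‖u x‖ * ‖((((χ x ^ 2 : ℝ) : ℂ) • S.Fx x)) (u x)‖ ≤ C2 * ‖u x‖ ^ 2 := by
        calc ‖u x‖ * ‖((((χ x ^ 2 : ℝ) : ℂ) • S.Fx x)) (u x)‖ ≤ ‖u x‖ * (C2 * ‖u x‖) :=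
              mul_le_mul_of_nonneg_left h9 (norm_nonneg _)
          _ = C2 * ‖u x‖ ^ 2 := by ring
      linarith
  have hQ : ∑ β, ∫ x, ‖S.Q β (fun y => ((χ y : ℝ) : ℂ) • u y) x‖ ^ 2 ≤
      C3 * (∑ β, nsq (S.Q β u)) + C3 * nsq u := by
    have a1 : ∀ β, ∫ x, ‖S.Q β (fun y => ((χ y : ℝ) : ℂ) • u y) x‖ ^ 2 ≤
        C1 β * (∑ β, nsq (S.Q β u)) + C1 β * nsq u := by
      intro β
      have a2 : nsq (S.Q β u) ≤ ∑ β, nsq (S.Q β u) :=
        Finset.single_le_sum (f := fun β => nsq (S.Q β u)) (fun β _ => nsq_nonneg _)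
          (Finset.mem_univ β)
      calc ∫ x, ‖S.Q β (fun y => ((χ y : ℝ) : ℂ) • u y) x‖ ^ 2 ≤
            C1 β * (nsq (S.Q β u) + nsq u) := hC1 β u hu
        _ ≤ C1 β * (∑ β, nsq (S.Q β u) + nsq u) :=
            mul_le_mul_of_nonneg_left (by linarith) (h1 β)
        _ = _ := by ring
    refine (Finset.sum_le_sum fun β _ => a1 β).trans (le_of_eq ?_)
    rw [Finset.sum_add_distrib, ← Finset.sum_mul, ← Finset.sum_mul]
  have n1 : 0 ≤ ∑ β, nsq (S.Q β u) := Finset.sum_nonneg fun β _ => nsq_nonneg _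
  have n2 := nsq_nonneg u
  have hsum : ∑ i, ∑ A, nsq (pd i A (fun y => ((χ y : ℝ) : ℂ) • u y)) =
      ∑ i, ∑ A, ∫ x, ‖pd i A (fun y => ((χ y : ℝ) : ℂ) • u y) x‖ ^ 2 := rfl
  rw [hsum]
  nlinarith [mul_nonneg h3 n1, mul_nonneg h3 n2, mul_nonneg h2 n1, mul_nonneg h2 n2]

/-- bound for `J (χ u)` -/
lemma nsq_J_cut {χ : X3 → ℝ} (hχ : ContDiff ℝ ∞ χ) (hc : HasCompactSupport χ) (k l : Fin 9) :
    ∃ C, 0 ≤ C ∧ ∀ u, Tst u → nsq (S.J k l (fun y => ((χ y : ℝ) : ℂ) • u y)) ≤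
      C * (∑ β, nsq (S.Q β u) + nsq u) := by
  obtain ⟨C1, h1, hC1⟩ := S.loc_H1 hχ hc
  obtain ⟨C2, hC2⟩ := hc.exists_bound_of_continuous hχ.continuous
  obtain ⟨M, hM⟩ := hc.isCompact.isBounded.subset_closedBall (0 : X3)
  set N := ‖S.Skl k l‖ with hN
  refine ⟨24 * M ^ 2 * C1 + 2 * N ^ 2 * C2 ^ 2, by positivity, fun u hu => ?_⟩
  have hv : Tst (fun y => ((χ y : ℝ) : ℂ) • u y) := Tst.rsmul hχ hu
  set v : X3 → F := fun y => ((χ y : ℝ) : ℂ) • u y with hvdef
  -- coordinates are bounded on the support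
  have hb : ∀ (i j : Fin 9) (A : Fin 3) (x : X3), ‖((x (j, A) : ℝ) : ℂ) • pd i A v x‖ ≤
      M * ‖pd i A v x‖ := by
    intro i j A x
    by_cases hx : pd i A v x = 0
    · simp [hx]
    · have h2 : x ∈ tsupport v := by
        have h3 := (tsupport_fderiv_subset ℝ (f := v))
        apply h3
        apply subset_tsupport
        intro h0
        apply hx
        rw [_root_.Vale.Agent.P353.pd, h0]; simp
      have h4 : x ∈ tsupport χ := by
        have : Function.support v ⊆ Function.support χ := by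
          intro y hy
          simp only [Function.mem_support, hvdef] at hy ⊢
          intro h0; exact hy (by simp [h0])
        exact closure_mono this h2
      have h5 := hM h4
      rw [Metric.mem_closedBall, dist_zero_right] at h5
      rw [norm_smul, Complex.norm_real]
      exact mul_le_mul_of_nonneg_right ((PiLp.norm_apply_le x (j, A)).trans h5) (norm_nonneg _)
  have hJ : nsq (S.J k l v) ≤ 2 * nsq (fun x => (-Complex.I) • ∑ A, ((x (k, A) : ℂ) • pd l A v x -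
      (x (l, A) : ℂ) • pd k A v x)) + 2 * nsq (fun x => S.Skl k l (v x)) := by
    refine nsq_add_le ?_ ?_
    · have : Tst (fun x => (-Complex.I) • ∑ A, ((x (k, A) : ℂ) • pd l A v x -
          (x (l, A) : ℂ) • pd k A v x)) := by
        have e : (fun x => (-Complex.I) • ∑ A, ((x (k, A) : ℂ) • pd l A v x -
          (x (l, A) : ℂ) • pd k A v x)) = fun x => S.J k l v x - S.Skl k l (v x) := by
          funext x; rw [J]; abel
        rw [e]
        exact (hv.J S k l).sub (Tst.clm (T := fun _ => S.Skl k l) contDiff_const hv)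
      exact this.memLp
    · exact (Tst.clm (T := fun _ => S.Skl k l) contDiff_const hv).memLp
  have hS : nsq (fun x => S.Skl k l (v x)) ≤ N ^ 2 * (C2 ^ 2 * nsq u) := by
    refine (nsq_le_of hv.memLp fun x => (S.Skl k l).le_opNorm (v x)).trans ?_
    refine mul_le_mul_of_nonneg_left ?_ (by positivity)
    refine nsq_le_of hu.memLp fun x => ?_
    rw [hvdef]
    simp only
    rw [norm_smul, Complex.norm_real]
    exact mul_le_mul_of_nonneg_right (hC2 x) (norm_nonneg _)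
  have hP : nsq (fun x => (-Complex.I) • ∑ A, ((x (k, A) : ℂ) • pd l A v x -
      (x (l, A) : ℂ) • pd k A v x)) ≤ 12 * M ^ 2 * ∑ i, ∑ A, nsq (pd i A v) := by
    have e0 : nsq (fun x => (-Complex.I) • ∑ A, ((x (k, A) : ℂ) • pd l A v x -
        (x (l, A) : ℂ) • pd k A v x)) = nsq (fun x => ∑ A, ((x (k, A) : ℂ) • pd l A v x -
        (x (l, A) : ℂ) • pd k A v x)) := by
      rw [nsq, nsq]
      congr 1; funext x
      rw [norm_smul, norm_neg, Complex.norm_I, one_mul]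
    have m0 : ∀ i j A, MemLp (fun x : X3 => (x (j, A) : ℂ) • pd i A v x) 2
        (volume : Measure X3) := by
      intro i j A
      exact (Tst.rsmul (contDiff_coord (j, A)) (hv.pd i A)).memLp
    have e1 : ∀ i j A, nsq (fun x : X3 => (x (j, A) : ℂ) • pd i A v x) ≤ M ^ 2 * nsq (pd i A v) :=
      fun i j A => nsq_le_of (hv.pd i A).memLp (hb i j A)
    have e2 : ∀ A, nsq (fun x : X3 => (x (k, A) : ℂ) • pd l A v x - (x (l, A) : ℂ) • pd k A v x) ≤
        2 * M ^ 2 * nsq (pd l A v) + 2 * M ^ 2 * nsq (pd k A v) := by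
      intro A
      have e3 : nsq (fun x : X3 => (x (k, A) : ℂ) • pd l A v x - (x (l, A) : ℂ) • pd k A v x) =
          nsq (fun x : X3 => (x (k, A) : ℂ) • pd l A v x + (-((x (l, A) : ℂ) • pd k A v x))) := by
        congr 1; funext x; abel
      rw [e3]
      refine (nsq_add_le (m0 l k A) (m0 k l A).neg).trans ?_
      have e4 : nsq (fun x : X3 => -((x (l, A) : ℂ) • pd k A v x)) =
          nsq (fun x : X3 => (x (l, A) : ℂ) • pd k A v x) := by
        rw [nsq, nsq]; simp only [norm_neg]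
      have e5 : nsq (-fun x : X3 => (x (l, A) : ℂ) • pd k A v x) =
          nsq (fun x : X3 => -((x (l, A) : ℂ) • pd k A v x)) := rfl
      rw [e5, e4]
      have := e1 l k A
      have := e1 k l A
      linarith
    rw [e0]
    refine (nsq_sum_le Finset.univ (fun (A : Fin 3) (x : X3) => (x (k, A) : ℂ) • pd l A v x -
      (x (l, A) : ℂ) • pd k A v x) fun A _ => (m0 l k A).sub (m0 k l A)).trans ?_
    rw [Finset.card_univ, Fintype.card_fin]
    have e6 : ∑ A, nsq (fun x : X3 => (x (k, A) : ℂ) • pd l A v x - (x (l, A) : ℂ) • pd k A v x) ≤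
        2 * M ^ 2 * ∑ A, nsq (pd l A v) + 2 * M ^ 2 * ∑ A, nsq (pd k A v) := by
      refine (Finset.sum_le_sum fun A _ => e2 A).trans (le_of_eq ?_)
      rw [Finset.sum_add_distrib, Finset.mul_sum, Finset.mul_sum]
    have e7 : ∀ i, ∑ A, nsq (pd i A v) ≤ ∑ i, ∑ A, nsq (pd i A v) := fun i =>
      Finset.single_le_sum (f := fun i => ∑ A, nsq (pd i A v))
        (fun i _ => Finset.sum_nonneg fun A _ => nsq_nonneg _) (Finset.mem_univ i)
    have e8 := e7 k
    have e9 := e7 l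
    have hM2 : 0 ≤ M ^ 2 := sq_nonneg M
    have e10 := mul_le_mul_of_nonneg_left e8 hM2
    have e11 := mul_le_mul_of_nonneg_left e9 hM2
    push_cast
    linarith
  have h6 := hC1 u hu
  have n1 : 0 ≤ ∑ β, nsq (S.Q β u) := Finset.sum_nonneg fun β _ => nsq_nonneg _
  have n2 := nsq_nonneg u
  have hM2 : 0 ≤ M ^ 2 := sq_nonneg M
  have h7 := mul_le_mul_of_nonneg_left h6 hM2
  have h8 : 0 ≤ N ^ 2 * C2 ^ 2 * ∑ β, nsq (S.Q β u) := by positivity
  calc nsq (S.J k l v) ≤ 2 * (12 * M ^ 2 * ∑ i, ∑ A, nsq (pd i A v)) +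
        2 * (N ^ 2 * (C2 ^ 2 * nsq u)) := by linarith
    _ ≤ 24 * (M ^ 2 * (C1 * (∑ β, nsq (S.Q β u) + nsq u))) +
        2 * (N ^ 2 * (C2 ^ 2 * nsq u)) := by linarith
    _ ≤ _ := by nlinarith

/-! ### the rotation term -/

lemma Tst.L2t_const {ζ : X3 → F} (hζ : Tst ζ) : L2t (fun _ : ℕ => ζ) ζ :=
  ⟨fun _ => hζ.memLp, hζ.memLp, by simp [nsq]⟩

variable {S} in
lemma Apx.L2t {Ψ : Lp F 2 (volume : Measure X3)} {u : ℕ → X3 → F} (h : S.Apx Ψ u) : L2t u Ψ :=
  Lp_L2t h.1 h.2.2.1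

variable {S} in
lemma Apx.Q0 {Ψ : Lp F 2 (volume : Measure X3)} {u : ℕ → X3 → F} (h : S.Apx Ψ u) (β : Fin 16) :
    P353.L2t (fun n => S.Q β (u n)) (fun _ => 0) :=
  zero_L2t (fun n => (h.1 n).Q S β) (h.2.2.2 β)

variable {S} in
/-- the local quantities are bounded along the sequence -/
lemma Apx.bdd {Ψ : Lp F 2 (volume : Measure X3)} {u : ℕ → X3 → F} (h : S.Apx Ψ u) :
    ∃ B, 0 ≤ B ∧ ∀ n, ∑ β, nsq (S.Q β (u n)) + nsq (u n) ≤ B := by
  have h1 : Tendsto (fun n => ∑ β, nsq (S.Q β (u n)) + nsq (u n)) atTop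
      (𝓝 (∑ _β : Fin 16, 0 + nsq Ψ)) := by
    refine Tendsto.add (tendsto_finsetSum _ fun β _ => ?_) h.L2t.lim_nsq
    have := (h.Q0 β).lim_nsq
    simpa [nsq] using this
  obtain ⟨B, hB⟩ := h1.bddAbove_range
  exact ⟨max B 0, le_max_right _ _, fun n => (hB ⟨n, rfl⟩).trans (le_max_left _ _)⟩

end Setup
end Vale.Agent.P353
end

section

/-! # P353, uniqueness: tools for B4 (weighted estimate `‖X u‖ ≤ C ‖(1 + ∑Q²) u‖`) -/

open MeasureTheory Filter Topology
open scoped ContDiff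

namespace Vale.Agent.P353.U

open Setup

variable {F : Type*} [NormedAddCommGroup F] [InnerProductSpace ℂ F] (S : Setup F)

section basic

lemma rinv_contDiff_MM (β : Fin 16) : ContDiff ℝ ∞ (S.MM β) := by
  unfold Setup.MM
  exact ContDiff.sum fun i _ => ContDiff.sum fun A _ =>
    (contDiff_ofReal (contDiff_const.mul (contDiff_coord _))).smul contDiff_const

lemma rinv_MM_symm (β : Fin 16) (x : X3) (v w : F) :
    inner ℂ (S.MM β x v) w = inner ℂ v (S.MM β x w) := by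
  have h : ∀ i (α γ : Fin 16), ((S.g i * S.Gam) α γ).im = 0 := fun i =>
    Setup.mul_im_zero (S.g_im i) S.Gam_real
  simp only [Setup.MM, _root_.sum_apply, _root_.smul_apply, sum_inner, inner_sum,
    inner_smul_left, inner_smul_right, Complex.conj_ofReal, S.vec_symm _ (h _)]

variable (m : ℝ)

lemma rinv_Tst_Qm (β : Fin 16) {u : X3 → F} (hu : Tst u) : Tst (S.Qm m β u) := by
  have h1 : Tst (fun x => ((m : ℂ) • S.MM β x) (u x)) :=
    Tst.clm ((rinv_contDiff_MM S β).const_smul (m : ℂ)) hu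
  exact (hu.Q S β).add h1

lemma rinv_Qm_symm (β : Fin 16) {u v : X3 → F} (hu : Tst u) (hv : ContDiff ℝ ∞ v) :
    ∫ x, inner ℂ (S.Qm m β u x) (v x) = ∫ x, inner ℂ (u x) (S.Qm m β v x) := by
  have h1 : Tst (fun x => S.MM β x (u x)) := Tst.clm (rinv_contDiff_MM S β) hu
  have h2 : ContDiff ℝ ∞ (fun x => S.MM β x (v x)) :=
    contDiff_clm_apply' (rinv_contDiff_MM S β) hv
  simp only [Setup.Qm, inner_add_left, inner_add_right, inner_smul_left, inner_smul_right,
    Complex.conj_ofReal]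
  rw [integral_add ((hu.Q S β).inner_int hv.continuous)
      ((h1.inner_int hv.continuous).const_mul _),
    integral_add (hu.inner_int (S.contDiff_Q β hv).continuous)
      ((hu.inner_int h2.continuous).const_mul _), Q_symm S β u v hu hv]
  congr 1
  simp only [rinv_MM_symm]

lemma rinv_Qm_add (β : Fin 16) {u v : X3 → F} {x : X3} (hu : DifferentiableAt ℝ u x)
    (hv : DifferentiableAt ℝ v x) :
    S.Qm m β (fun y => u y + v y) x = S.Qm m β u x + S.Qm m β v x := by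
  simp only [Setup.Qm, Setup.Q, pd_add hu hv, map_add, Finset.sum_add_distrib, smul_add]
  abel

lemma rinv_Qm_smul (β : Fin 16) (c : ℂ) {u : X3 → F} {x : X3} (hu : DifferentiableAt ℝ u x) :
    S.Qm m β (fun y => c • u y) x = c • S.Qm m β u x := by
  have h : ∀ i A, pd i A (fun y => c • u y) x = c • pd i A u x := by
    intro i A
    have := pd_clm (i := i) (A := A) (x := x) (c • (1 : F →L[ℂ] F)) hu
    simpa using this
  simp only [Setup.Qm, Setup.Q, h, map_smul, smul_add, Finset.smul_sum]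
  simp only [smul_comm c]

/-- commutator of `Q` with a coordinate -/
noncomputable def cop (p : Fin 9 × Fin 3) (β : Fin 16) : F →L[ℂ] F :=
  (-Complex.I) • S.vec (S.g p.1) p.2 β

lemma rinv_Qm_coord (β : Fin 16) (p : Fin 9 × Fin 3) {u : X3 → F} {x : X3}
    (hu : DifferentiableAt ℝ u x) :
    S.Qm m β (fun y => ((y p : ℝ) : ℂ) • u y) x =
      ((x p : ℝ) : ℂ) • S.Qm m β u x + cop S p β (u x) := by
  have h1 := Q_smul S β (fun y : X3 => y p) u x ((contDiff_coord p).differentiable (by simp) x) hu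
  have h2 : ∀ i A, pdr i A (fun y : X3 => y p) x = if p = (i, A) then 1 else 0 := by
    intro i A
    have hL : (fun y : X3 => y p) = (EuclideanSpace.proj (𝕜 := ℝ) p : X3 →L[ℝ] ℝ) := rfl
    rw [pdr, hL, ContinuousLinearMap.fderiv]
    by_cases hpq : p = (i, A)
    · simp [hpq]
    · simp [hpq]
  have h3 : ∑ i, ∑ A, ((pdr i A (fun y : X3 => y p) x : ℝ) : ℂ) • S.vec (S.g i) A β (u x) =
      S.vec (S.g p.1) p.2 β (u x) := by
    rw [Finset.sum_eq_single p.1, Finset.sum_eq_single p.2]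
    · simp [h2]
    · intro A _ hA
      have : p ≠ (p.1, A) := fun h => hA (by rw [h])
      simp [h2, this]
    · intro h; exact absurd (Finset.mem_univ _) h
    · intro i _ hi
      refine Finset.sum_eq_zero fun A _ => ?_
      have : p ≠ (i, A) := fun h => hi (by rw [h])
      simp [h2, this]
    · intro h; exact absurd (Finset.mem_univ _) h
  simp only [Setup.Qm]
  rw [h1, h3]
  have h4 : cop S p β (u x) = -(Complex.I • S.vec (S.g p.1) p.2 β (u x)) := by
    simp [cop]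
  rw [h4, map_smul, smul_add, smul_comm (m : ℂ)]
  abel

end basic

section est

variable (m : ℝ)

lemma rinv_Tst_sum {ι : Type*} (s : Finset ι) {f : ι → X3 → F} (h : ∀ i ∈ s, Tst (f i)) :
    Tst (fun x => ∑ i ∈ s, f i x) := by
  classical
  induction s using Finset.induction_on with
  | empty =>
    simp only [Finset.sum_empty]
    exact ⟨contDiff_const, (HasCompactSupport.zero : HasCompactSupport (0 : X3 → F))⟩
  | insert a s ha ih =>
    simp only [Finset.sum_insert ha]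
    exact (h a (Finset.mem_insert_self a s)).add
      (ih fun i hi => h i (Finset.mem_insert_of_mem hi))

lemma rinv_Tst_csmul (c : ℂ) {u : X3 → F} (hu : Tst u) : Tst (fun x => c • u x) := by
  have := Tst.clm (T := fun _ : X3 => c • (1 : F →L[ℂ] F)) contDiff_const hu
  simpa using this

/-- `∑ Q²` -/
noncomputable def TT (u : X3 → F) (x : X3) : F := ∑ β, S.Qm m β (S.Qm m β u) x

/-- `1 + ∑ Q²` -/
noncomputable def LQ (u : X3 → F) (x : X3) : F := u x + ∑ β, S.Qm m β (S.Qm m β u) x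

lemma rinv_Tst_TT {u : X3 → F} (hu : Tst u) : Tst (TT S m u) :=
  rinv_Tst_sum _ fun β _ => rinv_Tst_Qm S m β (rinv_Tst_Qm S m β hu)

lemma rinv_Tst_LQ {u : X3 → F} (hu : Tst u) : Tst (LQ S m u) :=
  hu.add (rinv_Tst_TT S m hu)

lemma rinv_inner_self_int (v : X3 → F) : ∫ x, inner ℂ (v x) (v x) = ((nsq v : ℝ) : ℂ) := by
  rw [nsq, ← integral_complex_ofReal]
  refine integral_congr_ae (Filter.Eventually.of_forall fun x => ?_)
  simp only [inner_self_eq_norm_sq_to_K]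
  norm_cast

lemma rinv_TT_inner {u v : X3 → F} (hu : Tst u) (hv : Tst v) :
    ∫ x, inner ℂ (v x) (TT S m u x) = ∑ β, ∫ x, inner ℂ (S.Qm m β v x) (S.Qm m β u x) := by
  simp only [TT, inner_sum]
  rw [integral_finsetSum _ fun β _ => hv.inner_int
    (rinv_Tst_Qm S m β (rinv_Tst_Qm S m β hu)).1.continuous]
  refine Finset.sum_congr rfl fun β _ => ?_
  rw [rinv_Qm_symm S m β hv (rinv_Tst_Qm S m β hu).1]

lemma rinv_form_eq {u : X3 → F} (hu : Tst u) :
    (∫ x, inner ℂ (u x) (TT S m u x)).re = ∑ β, nsq (S.Qm m β u) := by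
  rw [rinv_TT_inner S m hu hu, Complex.re_sum]
  refine Finset.sum_congr rfl fun β _ => ?_
  rw [rinv_inner_self_int, Complex.ofReal_re]

lemma rinv_re_int {u v : X3 → F} (hu : Tst u) (hv : Tst v) :
    Integrable (fun x => (inner ℂ (u x) (v x)).re) := by
  simpa using (hu.inner_int hv.1.continuous).re

lemma rinv_re_integral {u v : X3 → F} (hu : Tst u) (hv : Tst v) :
    (∫ x, inner ℂ (u x) (v x)).re = ∫ x, (inner ℂ (u x) (v x)).re := by
  have := (integral_re (𝕜 := ℂ) (hu.inner_int hv.1.continuous))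
  simpa using this.symm

lemma rinv_re_inner_le {u v : X3 → F} (hu : Tst u) (hv : Tst v) :
    (∫ x, inner ℂ (u x) (v x)).re ≤ Real.sqrt (nsq u) * Real.sqrt (nsq v) :=
  (Complex.re_le_norm _).trans (cs_inner hu.memLp hv.memLp)

lemma rinv_form_le {u : X3 → F} (hu : Tst u) :
    ∑ β, nsq (S.Qm m β u) ≤ (nsq u + nsq (TT S m u)) / 2 := by
  rw [← rinv_form_eq S m hu]
  refine (rinv_re_inner_le hu (rinv_Tst_TT S m hu)).trans ?_
  have h1 := Real.sq_sqrt (nsq_nonneg u)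
  have h2 := Real.sq_sqrt (nsq_nonneg (TT S m u))
  nlinarith [sq_nonneg (Real.sqrt (nsq u) - Real.sqrt (nsq (TT S m u)))]

lemma rinv_LQ_ge {u : X3 → F} (hu : Tst u) :
    nsq u + nsq (TT S m u) ≤ nsq (LQ S m u) := by
  have hT := rinv_Tst_TT S m hu
  have h1 : nsq (LQ S m u) = nsq u + 2 * (∫ x, inner ℂ (u x) (TT S m u x)).re +
      nsq (TT S m u) := by
    have hI : Integrable (fun x => ‖u x‖ ^ 2 + 2 * (inner ℂ (u x) (TT S m u x)).re) :=
      hu.norm_sq_int.add ((rinv_re_int hu hT).const_mul 2)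
    rw [rinv_re_integral hu hT, ← integral_const_mul]
    unfold nsq
    rw [← integral_add hu.norm_sq_int ((rinv_re_int hu hT).const_mul 2),
      ← integral_add hI hT.norm_sq_int]
    refine integral_congr_ae (Filter.Eventually.of_forall fun x => ?_)
    exact norm_add_sq (𝕜 := ℂ) (u x) (TT S m u x)
  rw [h1, rinv_form_eq S m hu]
  have : 0 ≤ ∑ β, nsq (S.Qm m β u) := Finset.sum_nonneg fun β _ => nsq_nonneg _
  linarith

/-- multiplication by a coordinate -/
noncomputable def cm (p : Fin 9 × Fin 3) (u : X3 → F) (x : X3) : F := ((x p : ℝ) : ℂ) • u x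

lemma rinv_Tst_cm (p : Fin 9 × Fin 3) {u : X3 → F} (hu : Tst u) : Tst (cm p u) :=
  Tst.rsmul (contDiff_coord p) hu

lemma rinv_pt (β : Fin 16) (p : Fin 9 × Fin 3) {u : X3 → F} (hu : Tst u) (x : X3) :
    ‖S.Qm m β (cm p u) x‖ ^ 2 = (inner ℂ (S.Qm m β (cm p (cm p u)) x) (S.Qm m β u x)).re +
      ‖cop S p β (u x)‖ ^ 2 := by
  have h1 : S.Qm m β (cm p u) x = ((x p : ℝ) : ℂ) • S.Qm m β u x + cop S p β (u x) :=
    rinv_Qm_coord S m β p (hu.diff x)
  have h2 : S.Qm m β (cm p (cm p u)) x = ((x p : ℝ) : ℂ) • S.Qm m β (cm p u) x +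
      cop S p β (cm p u x) := rinv_Qm_coord S m β p ((rinv_Tst_cm p hu).diff x)
  rw [h2, h1]
  have h3 : cop S p β (cm p u x) = ((x p : ℝ) : ℂ) • cop S p β (u x) := by
    rw [cm, map_smul]
  rw [h3]
  generalize S.Qm m β u x = q
  generalize cop S p β (u x) = c
  rw [← re_inner_self, inner_add_left, inner_add_right, inner_add_right]
  simp only [inner_add_left, inner_smul_left, inner_smul_right, Complex.conj_ofReal,
    smul_add, Complex.add_re, re_inner_self, Complex.re_ofReal_mul]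
  have h4 : (inner ℂ q c).re = (inner ℂ c q).re := by
    rw [← inner_conj_symm, Complex.conj_re]
  rw [h4]
  ring

lemma rinv_form_cm (p : Fin 9 × Fin 3) {u : X3 → F} (hu : Tst u) :
    ∑ β, nsq (S.Qm m β (cm p u)) = (∫ x, inner ℂ (cm p (cm p u) x) (TT S m u x)).re +
      ∑ β, nsq (fun x => cop S p β (u x)) := by
  have hpp := rinv_Tst_cm p (rinv_Tst_cm p hu)
  rw [rinv_TT_inner S m hu hpp, Complex.re_sum, ← Finset.sum_add_distrib]
  refine Finset.sum_congr rfl fun β _ => ?_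
  have hq := rinv_Tst_Qm S m β hu
  have hc : Tst (fun x => cop S p β (u x)) :=
    Tst.clm (T := fun _ : X3 => cop S p β) contDiff_const hu
  rw [rinv_re_integral (rinv_Tst_Qm S m β hpp) hq]
  unfold nsq
  rw [← integral_add (rinv_re_int (rinv_Tst_Qm S m β hpp) hq) hc.norm_sq_int]
  exact integral_congr_ae (Filter.Eventually.of_forall fun x => rinv_pt S m β p hu x)

lemma rinv_coord_sq_le (p : Fin 9 × Fin 3) (x : X3) : (x p) ^ 2 ≤ ‖x‖ ^ 2 := by
  have h := PiLp.norm_apply_le x p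
  rw [Real.norm_eq_abs] at h
  calc (x p) ^ 2 = |x p| ^ 2 := (sq_abs _).symm
    _ ≤ ‖x‖ ^ 2 := pow_le_pow_left₀ (abs_nonneg _) h 2

lemma rinv_norm_cm (p : Fin 9 × Fin 3) (u : X3 → F) (x : X3) :
    ‖cm p u x‖ ^ 2 = (x p) ^ 2 * ‖u x‖ ^ 2 := by
  rw [cm, norm_smul, mul_pow, Complex.norm_real, Real.norm_eq_abs, sq_abs]

lemma rinv_nsq_cm_le (p : Fin 9 × Fin 3) {u : X3 → F} (hu : Tst u) :
    nsq (cm p u) ≤ ∫ x, ‖x‖ ^ 2 * ‖u x‖ ^ 2 := by
  refine integral_mono_of_nonneg (Filter.Eventually.of_forall fun x => by positivity)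
    (hu.mul_norm_sq_int (by fun_prop)) (Filter.Eventually.of_forall fun x => ?_)
  simp only
  rw [rinv_norm_cm]
  exact mul_le_mul_of_nonneg_right (rinv_coord_sq_le p x) (by positivity)

lemma rinv_pd_cm (p : Fin 9 × Fin 3) (j : Fin 9) (B : Fin 3) {u : X3 → F} (hu : Tst u) (x : X3) :
    pd j B (cm p u) x = ((if p = (j, B) then (1 : ℝ) else 0 : ℝ) : ℂ) • u x +
      cm p (pd j B u) x := by
  have hL : (fun y : X3 => y p) = (EuclideanSpace.proj (𝕜 := ℝ) p : X3 →L[ℝ] ℝ) := rfl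
  have h1 : pd j B (cm p u) x = ((pdr j B (fun y : X3 => y p) x : ℝ) : ℂ) • u x +
      ((x p : ℝ) : ℂ) • pd j B u x :=
    pd_rsmul ((contDiff_coord p).differentiable (by simp) x) (hu.diff x)
  have h2 : pdr j B (fun y : X3 => y p) x = if p = (j, B) then 1 else 0 := by
    rw [pdr, hL, ContinuousLinearMap.fderiv]
    by_cases hpq : p = (j, B)
    · simp [hpq]
    · simp [hpq]
  rw [h1, h2]
  rfl

/-- the weighted estimate -/
lemma rinv_weighted (h0 : CoerStmt S) (hm : 0 < m) : ∃ K : ℝ, 0 ≤ K ∧ ∀ u : X3 → F, Tst u →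
    ∀ (p : Fin 9 × Fin 3) (j : Fin 9) (B : Fin 3),
      nsq (cm p (pd j B u)) ≤ K * nsq (LQ S m u) := by
  obtain ⟨c, C, hc, hC, h⟩ := h0 m m hm
  set D : ℝ := ∑ p, ∑ β, ‖cop S p β‖ ^ 2 with hD
  have hD0 : 0 ≤ D := Finset.sum_nonneg fun _ _ => Finset.sum_nonneg fun _ _ => by positivity
  refine ⟨2 * ((C * ((C + 1) / c) + 1 / (2 * c) + D) / c) + 2, by positivity, ?_⟩
  intro u hu p j B
  have hT := rinv_Tst_TT S m hu
  have hv := rinv_Tst_cm p hu
  have hvv := rinv_Tst_cm p hv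
  have hL := rinv_LQ_ge S m hu
  set a : ℝ := ∫ x, ‖x‖ ^ 2 * ‖cm p u x‖ ^ 2 with ha
  have ha0 : 0 ≤ a := integral_nonneg fun x => by positivity
  have hu0 := nsq_nonneg u
  have hT0 := nsq_nonneg (TT S m u)
  -- the first moment
  have e1 := h m le_rfl le_rfl u hu
  have e2 := rinv_form_le S m hu
  have e3 : 0 ≤ ∑ i, ∑ A, nsq (pd i A u) :=
    Finset.sum_nonneg fun _ _ => Finset.sum_nonneg fun _ _ => nsq_nonneg _
  have e4 := rinv_nsq_cm_le p hu
  have e5 : nsq (cm p u) ≤ ((C + 1) / c) * (nsq u + nsq (TT S m u)) := by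
    rw [div_mul_eq_mul_div, le_div_iff₀ hc]
    nlinarith
  -- the second moment
  have f1 := h m le_rfl le_rfl (cm p u) hv
  rw [rinv_form_cm S m p hu] at f1
  have f2 := rinv_re_inner_le hvv hT
  have f3 : Real.sqrt (nsq (cm p (cm p u))) ≤ Real.sqrt a :=
    Real.sqrt_le_sqrt (rinv_nsq_cm_le p hv)
  have f4 : ∑ β, nsq (fun x => cop S p β (u x)) ≤ D * nsq u := by
    have g1 : ∀ β, nsq (fun x => cop S p β (u x)) ≤ ‖cop S p β‖ ^ 2 * nsq u := fun β =>
      nsq_le_of hu.memLp fun x => (cop S p β).le_opNorm _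
    refine (Finset.sum_le_sum fun β _ => g1 β).trans ?_
    rw [← Finset.sum_mul]
    refine mul_le_mul_of_nonneg_right ?_ hu0
    exact Finset.single_le_sum (f := fun p => ∑ β, ‖cop S p β‖ ^ 2)
      (fun p _ => Finset.sum_nonneg fun _ _ => by positivity) (Finset.mem_univ p)
  have f5 : Real.sqrt a * Real.sqrt (nsq (TT S m u)) ≤
      c * a / 2 + 1 / (2 * c) * nsq (TT S m u) := by
    have g1 := Real.sq_sqrt ha0
    have g2 := Real.sq_sqrt hT0
    have g3 : 0 ≤ (c * Real.sqrt a - Real.sqrt (nsq (TT S m u))) ^ 2 / (2 * c) := by positivity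
    have g4 : (c * Real.sqrt a - Real.sqrt (nsq (TT S m u))) ^ 2 / (2 * c) =
        c * (Real.sqrt a) ^ 2 / 2 + 1 / (2 * c) * (Real.sqrt (nsq (TT S m u))) ^ 2 -
          Real.sqrt a * Real.sqrt (nsq (TT S m u)) := by
      field_simp
      ring
    rw [g1, g2] at g4
    linarith
  have f6 : Real.sqrt (nsq (cm p (cm p u))) * Real.sqrt (nsq (TT S m u)) ≤
      Real.sqrt a * Real.sqrt (nsq (TT S m u)) :=
    mul_le_mul_of_nonneg_right f3 (Real.sqrt_nonneg _)
  have f7 : nsq (pd j B (cm p u)) ≤ ∑ i, ∑ A, nsq (pd i A (cm p u)) :=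
    (Finset.single_le_sum (f := fun A => nsq (pd j A (cm p u))) (fun A _ => nsq_nonneg _)
      (Finset.mem_univ B)).trans
      (Finset.single_le_sum (f := fun i => ∑ A, nsq (pd i A (cm p u)))
        (fun i _ => Finset.sum_nonneg fun _ _ => nsq_nonneg _) (Finset.mem_univ j))
  have f8 : nsq (pd j B (cm p u)) ≤
      ((C * ((C + 1) / c) + 1 / (2 * c) + D) / c) * (nsq u + nsq (TT S m u)) := by
    rw [div_mul_eq_mul_div, le_div_iff₀ hc]
    have g1 : C * nsq (cm p u) ≤ C * (((C + 1) / c) * (nsq u + nsq (TT S m u))) :=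
      mul_le_mul_of_nonneg_left e5 hC
    have g2 : c * nsq (pd j B (cm p u)) ≤ c * ∑ i, ∑ A, nsq (pd i A (cm p u)) :=
      mul_le_mul_of_nonneg_left f7 hc.le
    have g3 : 1 / (2 * c) * nsq (TT S m u) ≤ 1 / (2 * c) * (nsq u + nsq (TT S m u)) :=
      mul_le_mul_of_nonneg_left (by linarith) (by positivity)
    have g4 : D * nsq u ≤ D * (nsq u + nsq (TT S m u)) :=
      mul_le_mul_of_nonneg_left (by linarith) hD0
    have g5 : 0 ≤ c * a := mul_nonneg hc.le ha0
    have g6 : c * (a + ∑ i, ∑ A, nsq (pd i A (cm p u))) =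
      c * a + c * ∑ i, ∑ A, nsq (pd i A (cm p u)) := by ring
    rw [g6] at f1
    have g7 : (C * ((C + 1) / c) + 1 / (2 * c) + D) * (nsq u + nsq (TT S m u)) =
      C * (((C + 1) / c) * (nsq u + nsq (TT S m u))) +
        1 / (2 * c) * (nsq u + nsq (TT S m u)) + D * (nsq u + nsq (TT S m u)) := by ring
    rw [g7]
    linarith
  -- conclusion
  have hpd := hv.pd j B
  have k1 : nsq (cm p (pd j B u)) ≤ 2 * nsq (pd j B (cm p u)) + 2 * nsq u := by
    have g1 : cm p (pd j B u) = fun x => pd j B (cm p u) x +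
        -((((if p = (j, B) then (1 : ℝ) else 0 : ℝ) : ℂ) • u x)) := by
      funext x
      rw [rinv_pd_cm p j B hu x]
      abel
    have hw : Tst (fun x => -((((if p = (j, B) then (1 : ℝ) else 0 : ℝ) : ℂ) • u x))) :=
      (rinv_Tst_csmul _ hu).neg
    rw [g1]
    refine (nsq_add_le hpd.memLp hw.memLp).trans ?_
    have g2 : nsq (fun x => -((((if p = (j, B) then (1 : ℝ) else 0 : ℝ) : ℂ) • u x))) ≤
        1 ^ 2 * nsq u := by
      refine nsq_le_of hu.memLp fun x => ?_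
      rw [norm_neg, norm_smul]
      refine mul_le_mul_of_nonneg_right ?_ (norm_nonneg _)
      split_ifs <;> simp
    linarith
  have k2 : nsq u + nsq (TT S m u) ≤ nsq (LQ S m u) := hL
  have k3 : 0 ≤ (C * ((C + 1) / c) + 1 / (2 * c) + D) / c := by positivity
  have k4 : ((C * ((C + 1) / c) + 1 / (2 * c) + D) / c) * (nsq u + nsq (TT S m u)) ≤
      ((C * ((C + 1) / c) + 1 / (2 * c) + D) / c) * nsq (LQ S m u) :=
    mul_le_mul_of_nonneg_left k2 k3
  nlinarith

end est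

end Vale.Agent.P353.U
end

section

/-! # Mollification on `X3`: `mo ρ f = ρ * f`, derivatives, `L²` bounds, `L²` convergence -/

open MeasureTheory Filter Topology
open scoped ContDiff

namespace Vale.Agent.P353.Moll

section general

variable {G : Type*} [NormedAddCommGroup G] [NormedSpace ℝ G]

/-- mollification -/
noncomputable def mo (ρ : X3 → ℝ) (f : X3 → G) (x : X3) : G := ∫ y, ρ (x - y) • f y

lemma mo_eq_conv (ρ : X3 → ℝ) (f : X3 → G) :
    mo ρ f = convolution f ρ (ContinuousLinearMap.lsmul ℝ ℝ).flip volume := rfl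

lemma mo_eq_conv' (ρ : X3 → ℝ) (f : X3 → G) :
    mo ρ f = convolution ρ f (ContinuousLinearMap.lsmul ℝ ℝ) volume := by
  rw [mo_eq_conv, convolution_flip]

lemma integrable_mo {ρ : X3 → ℝ} (hρ : Continuous ρ) (hc : HasCompactSupport ρ) {f : X3 → G}
    (hf : LocallyIntegrable f volume) (x : X3) : Integrable (fun y => ρ (x - y) • f y) := by
  have h := HasCompactSupport.convolutionExists_right
    ((ContinuousLinearMap.lsmul ℝ ℝ : ℝ →L[ℝ] G →L[ℝ] G).flip) hc hf hρ x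
  exact h

lemma contDiff_mo {ρ : X3 → ℝ} (hρ : ContDiff ℝ ∞ ρ) (hc : HasCompactSupport ρ) {f : X3 → G}
    (hf : LocallyIntegrable f volume) : ContDiff ℝ ∞ (mo ρ f) := by
  rw [mo_eq_conv]
  exact hc.contDiff_convolution_right _ hf hρ

lemma fderiv_mo {ρ : X3 → ℝ} (hρ : ContDiff ℝ ∞ ρ) (hc : HasCompactSupport ρ) {f : X3 → G}
    (hf : LocallyIntegrable f volume) (x e : X3) :
    fderiv ℝ (mo ρ f) x e = mo (fun z => fderiv ℝ ρ z e) f x := by
  have h1 := hc.hasFDerivAt_convolution_right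
    ((ContinuousLinearMap.lsmul ℝ ℝ : ℝ →L[ℝ] G →L[ℝ] G).flip) hf (hρ.of_le (by simp)) x
  have h2 : fderiv ℝ (mo ρ f) x = _ := h1.fderiv
  rw [h2, convolution_precompR_apply _ hf (hc.fderiv ℝ) (hρ.continuous_fderiv (by simp))]
  rfl

lemma mo_sub {ρ : X3 → ℝ} (hρ : Continuous ρ) (hc : HasCompactSupport ρ) {f g : X3 → G}
    (hf : LocallyIntegrable f volume) (hg : LocallyIntegrable g volume) (x : X3) :
    mo ρ (fun y => f y - g y) x = mo ρ f x - mo ρ g x := by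
  unfold mo
  rw [← integral_sub (integrable_mo hρ hc hf x) (integrable_mo hρ hc hg x)]
  simp only [smul_sub]

end general

/-- radial mollifiers -/
structure IsMol (ε : ℝ) (ρ : X3 → ℝ) : Prop where
  contDiff : ContDiff ℝ ∞ ρ
  hcs : HasCompactSupport ρ
  nonneg : ∀ x, 0 ≤ ρ x
  supp : ∀ x, ε ≤ ‖x‖ → ρ x = 0
  one : ∫ x, ρ x = 1

section jensen

variable {G : Type*} [NormedAddCommGroup G] [NormedSpace ℝ G] {ε : ℝ} {ρ : X3 → ℝ}

lemma IsMol.one' (h : IsMol ε ρ) (x : X3) : ∫ y, ρ (x - y) = 1 := by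
  rw [integral_sub_left_eq_self ρ volume x, h.one]

lemma IsMol.int (h : IsMol ε ρ) (x : X3) : Integrable (fun y => ρ (x - y)) :=
  (h.contDiff.continuous.integrable_of_hasCompactSupport h.hcs).comp_sub_left x

lemma norm_mo_le (h : IsMol ε ρ) (f : X3 → G) (x : X3) :
    ‖mo ρ f x‖ ≤ mo ρ (fun y => ‖f y‖) x := by
  unfold mo
  refine (norm_integral_le_integral_norm _).trans (le_of_eq ?_)
  refine integral_congr_ae (Eventually.of_forall fun y => ?_)
  simp only [norm_smul, Real.norm_of_nonneg (h.nonneg _), smul_eq_mul]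

omit [NormedSpace ℝ G] in
lemma sq_mo_le (h : IsMol ε ρ) {f : X3 → G} (hf : LocallyIntegrable f volume)
    (hf2 : LocallyIntegrable (fun y => ‖f y‖ ^ 2) volume) (x : X3) :
    (mo ρ (fun y => ‖f y‖) x) ^ 2 ≤ mo ρ (fun y => ‖f y‖ ^ 2) x := by
  have i1 : Integrable (fun y => ρ (x - y) • ‖f y‖) :=
    integrable_mo h.contDiff.continuous h.hcs (fun z => (hf z).norm) x
  have i2 : Integrable (fun y => ρ (x - y) • ‖f y‖ ^ 2) :=
    integrable_mo h.contDiff.continuous h.hcs hf2 x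
  have i3 := h.int x
  obtain ⟨a, ha⟩ : ∃ a, a = mo ρ (fun y => ‖f y‖) x := ⟨_, rfl⟩
  have h1 : 0 ≤ ∫ y, ρ (x - y) * (‖f y‖ - a) ^ 2 :=
    integral_nonneg fun y => mul_nonneg (h.nonneg _) (sq_nonneg _)
  have h2 : ∫ y, ρ (x - y) * (‖f y‖ - a) ^ 2 =
      mo ρ (fun y => ‖f y‖ ^ 2) x - 2 * a * mo ρ (fun y => ‖f y‖) x + a ^ 2 * ∫ y, ρ (x - y) := by
    have i4 : Integrable (fun y => ρ (x - y) • ‖f y‖ ^ 2 - 2 * a * (ρ (x - y) • ‖f y‖)) :=
      i2.sub (i1.const_mul _)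
    unfold mo
    rw [← integral_const_mul, ← integral_const_mul, ← integral_sub i2 (i1.const_mul _),
      ← integral_add i4 (i3.const_mul _)]
    refine integral_congr_ae (Eventually.of_forall fun y => ?_)
    simp only [smul_eq_mul]
    ring
  rw [h2, h.one' x, ← ha] at h1
  rw [← ha]
  nlinarith

end jensen

section L2

variable {F : Type*} [NormedAddCommGroup F] [InnerProductSpace ℂ F] {ε : ℝ} {ρ : X3 → ℝ}

omit [InnerProductSpace ℂ F] in
lemma locInt {f : X3 → F} (hf : MemLp f 2 (volume : Measure X3)) :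
    LocallyIntegrable f volume := hf.locallyIntegrable (by norm_num)

omit [InnerProductSpace ℂ F] in
lemma locInt_sq {f : X3 → F} (hf : MemLp f 2 (volume : Measure X3)) :
    LocallyIntegrable (fun y => ‖f y‖ ^ 2) volume := (memLp_norm_sq_int hf).locallyIntegrable

omit [InnerProductSpace ℂ F] in
lemma integral_mo_sq (h : IsMol ε ρ) {f : X3 → F} (hf : MemLp f 2 (volume : Measure X3)) :
    Integrable (mo ρ (fun y => ‖f y‖ ^ 2)) ∧ ∫ x, mo ρ (fun y => ‖f y‖ ^ 2) x = nsq f := by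
  have i1 := memLp_norm_sq_int hf
  have i2 : Integrable ρ := h.contDiff.continuous.integrable_of_hasCompactSupport h.hcs
  rw [mo_eq_conv]
  refine ⟨i1.integrable_convolution _ i2, ?_⟩
  rw [integral_convolution _ i1 i2, h.one]
  simp [nsq]

/-- bound for functions dominated by `η ρ * |f|` -/
lemma nsq_le_mo (h : IsMol ε ρ) {f : X3 → F} (hf : MemLp f 2 (volume : Measure X3))
    {w : X3 → F} {η : ℝ} (hm : AEStronglyMeasurable w volume)
    (hw : ∀ x, ‖w x‖ ≤ η * mo ρ (fun y => ‖f y‖) x) :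
    MemLp w 2 (volume : Measure X3) ∧ nsq w ≤ η ^ 2 * nsq f := by
  obtain ⟨i1, i2⟩ := integral_mo_sq h hf
  have hb : ∀ x, ‖w x‖ ^ 2 ≤ η ^ 2 * mo ρ (fun y => ‖f y‖ ^ 2) x := by
    intro x
    calc ‖w x‖ ^ 2 ≤ (η * mo ρ (fun y => ‖f y‖) x) ^ 2 :=
          pow_le_pow_left₀ (norm_nonneg _) (hw x) 2
      _ = η ^ 2 * (mo ρ (fun y => ‖f y‖) x) ^ 2 := by ring
      _ ≤ _ := mul_le_mul_of_nonneg_left (sq_mo_le h (locInt hf) (locInt_sq hf) x) (sq_nonneg _)
  constructor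
  · refine (memLp_two_iff_integrable_sq_norm hm).mpr ?_
    refine (i1.const_mul (η ^ 2)).mono' (hm.norm.pow 2) (Eventually.of_forall fun x => ?_)
    rw [Real.norm_of_nonneg (by positivity)]
    exact hb x
  · rw [← i2, nsq, ← integral_const_mul]
    exact integral_mono_of_nonneg (Eventually.of_forall fun x => by positivity)
      (i1.const_mul _) (Eventually.of_forall hb)

lemma nsq_mo_le (h : IsMol ε ρ) {f : X3 → F} (hf : MemLp f 2 (volume : Measure X3)) :
    MemLp (mo ρ f) 2 (volume : Measure X3) ∧ nsq (mo ρ f) ≤ nsq f := by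
  have h1 := nsq_le_mo (η := 1) h hf
    (contDiff_mo h.contDiff h.hcs (locInt hf)).continuous.aestronglyMeasurable
    (fun x => by rw [one_mul]; exact norm_mo_le h f x)
  simpa using h1

/-- mollification of a continuous compactly supported function -/
lemma mo_approx_cont [CompleteSpace F] {g : X3 → F} (hg : Continuous g) (hgc : HasCompactSupport g) {δ : ℝ}
    (hδ : 0 < δ) : ∃ ε₀ > 0, ∀ ε, ε ≤ ε₀ → ∀ ρ, IsMol ε ρ →
      nsq (fun x => mo ρ g x - g x) ≤ δ := by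
  obtain ⟨r, hr⟩ := hgc.isCompact.isBounded.subset_closedBall (0 : X3)
  have hg0 : ∀ x, r < ‖x‖ → g x = 0 := by
    intro x hx
    by_contra hne
    have h1 := hr (subset_tsupport _ hne)
    rw [Metric.mem_closedBall, dist_zero_right] at h1
    linarith
  obtain ⟨v, hv⟩ : ∃ v : ℝ, v = (volume (Metric.closedBall (0 : X3) (r + 1))).toReal := ⟨_, rfl⟩
  have hv0 : 0 ≤ v := hv ▸ ENNReal.toReal_nonneg
  obtain ⟨η, hη⟩ : ∃ η : ℝ, η = Real.sqrt (δ / (v + 1)) := ⟨_, rfl⟩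
  have hη0 : 0 < η := hη ▸ Real.sqrt_pos.2 (by positivity)
  have huc : UniformContinuous g := hgc.uniformContinuous_of_continuous hg
  obtain ⟨ε₁, hε₁, h1⟩ := Metric.uniformContinuous_iff.1 huc η hη0
  refine ⟨min ε₁ 1, lt_min hε₁ one_pos, fun ε hε ρ hρ => ?_⟩
  have hsupp : Function.support ρ ⊆ Metric.ball (0 : X3) ε := by
    intro z hz
    rw [Metric.mem_ball, dist_zero_right]
    by_contra hcon
    exact hz (hρ.supp z (not_lt.1 hcon))
  have hbd : ∀ x, ‖mo ρ g x - g x‖ ^ 2 ≤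
      (Metric.closedBall (0 : X3) (r + 1)).indicator (fun _ => η ^ 2) x := by
    intro x
    by_cases hx : x ∈ Metric.closedBall (0 : X3) (r + 1)
    · rw [Set.indicator_of_mem hx]
      refine pow_le_pow_left₀ (norm_nonneg _) ?_ 2
      rw [← dist_eq_norm, mo_eq_conv']
      refine dist_convolution_le hη0.le hsupp hρ.nonneg hρ.one hg.aestronglyMeasurable ?_
      intro y hy
      exact (h1 (lt_of_lt_of_le hy (hε.trans (min_le_left _ _)))).le
    · rw [Set.indicator_of_notMem hx]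
      have hx' : r + 1 < ‖x‖ := by
        rw [Metric.mem_closedBall, dist_zero_right, not_le] at hx
        exact hx
      have h2 : ‖mo ρ g x - g x‖ ≤ 0 := by
        rw [← dist_eq_norm, mo_eq_conv']
        refine dist_convolution_le le_rfl hsupp hρ.nonneg hρ.one hg.aestronglyMeasurable ?_
        intro y hy
        have hy1 : dist y x < 1 := lt_of_lt_of_le hy (hε.trans (min_le_right _ _))
        have hy2 : r < ‖y‖ := by
          have h3 : ‖x‖ ≤ ‖y‖ + dist y x := by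
            have := norm_sub_norm_le x y
            rw [dist_comm, dist_eq_norm]
            linarith
          linarith
        rw [hg0 y hy2, hg0 x (by linarith), dist_self]
      have h3 : ‖mo ρ g x - g x‖ = 0 := le_antisymm h2 (norm_nonneg _)
      rw [h3]
      norm_num
  have hfin : volume (Metric.closedBall (0 : X3) (r + 1)) ≠ ⊤ :=
    (isCompact_closedBall (0 : X3) (r + 1)).measure_lt_top.ne
  calc nsq (fun x => mo ρ g x - g x)
      ≤ ∫ x, (Metric.closedBall (0 : X3) (r + 1)).indicator (fun _ => η ^ 2) x := by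
        refine integral_mono_of_nonneg (Eventually.of_forall fun x => by positivity) ?_
          (Eventually.of_forall hbd)
        exact (integrable_indicator_iff Metric.isClosed_closedBall.measurableSet).2
          (integrableOn_const hfin)
    _ = v * η ^ 2 := by
        rw [integral_indicator Metric.isClosed_closedBall.measurableSet, setIntegral_const,
          smul_eq_mul, hv]
        rfl
    _ ≤ δ := by
        rw [hη, Real.sq_sqrt (by positivity), mul_div_assoc']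
        rw [div_le_iff₀ (by positivity)]
        nlinarith

/-- mollification converges in `L²` -/
lemma mo_approx [CompleteSpace F] {f : X3 → F} (hf : MemLp f 2 (volume : Measure X3)) {δ : ℝ} (hδ : 0 < δ) :
    ∃ ε₀ > 0, ∀ ε, ε ≤ ε₀ → ∀ ρ, IsMol ε ρ → nsq (fun x => mo ρ f x - f x) ≤ δ := by
  obtain ⟨s, hs⟩ : ∃ s : ℝ, s = Real.sqrt (δ / 12) := ⟨_, rfl⟩
  have hs0 : 0 < s := hs ▸ Real.sqrt_pos.2 (by positivity)
  obtain ⟨g, hgc, hfg, hg, hgm⟩ := hf.exists_hasCompactSupport_eLpNorm_sub_le (by norm_num)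
    (ε := ENNReal.ofReal s) (by simpa using hs0)
  have hd : MemLp (fun x => f x - g x) 2 (volume : Measure X3) := hf.sub hgm
  have h1 : nsq (fun x => f x - g x) ≤ δ / 12 := by
    have e1 := norm_toLp hd
    have e2 : ‖hd.toLp (fun x => f x - g x)‖ ≤ s := by
      rw [Lp.norm_toLp]
      refine ENNReal.toReal_le_of_le_ofReal hs0.le ?_
      exact hfg
    rw [e1, hs] at e2
    exact (Real.sqrt_le_sqrt_iff (by positivity)).1 e2
  obtain ⟨ε₀, hε₀, h2⟩ := mo_approx_cont hg hgc (show 0 < δ / 12 by positivity)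
  refine ⟨ε₀, hε₀, fun ε hε ρ hρ => ?_⟩
  have h3 := h2 ε hε ρ hρ
  have h4 := nsq_mo_le hρ hd
  have m1 : MemLp (mo ρ (fun x => f x - g x)) 2 (volume : Measure X3) := h4.1
  have m2 : MemLp (fun x => mo ρ g x - g x) 2 (volume : Measure X3) :=
    (nsq_mo_le hρ hgm).1.sub hgm
  have m3 : MemLp (fun x => g x - f x) 2 (volume : Measure X3) := hgm.sub hf
  have e : (fun x => mo ρ f x - f x) = fun x =>
      mo ρ (fun x => f x - g x) x + ((mo ρ g x - g x) + (g x - f x)) := by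
    funext x
    rw [mo_sub hρ.contDiff.continuous hρ.hcs (locInt hf) (locInt hgm)]
    abel
  have e3 : nsq (fun x => g x - f x) = nsq (fun x => f x - g x) := by
    unfold nsq
    refine integral_congr_ae (Eventually.of_forall fun x => ?_)
    simp only [norm_sub_rev]
  rw [e]
  have b1 := nsq_add_le m1 (m2.add m3)
  have b2 := nsq_add_le m2 m3
  have b3 : nsq (fun x => mo ρ (fun x => f x - g x) x + ((mo ρ g x - g x) + (g x - f x))) ≤
    2 * nsq (mo ρ (fun x => f x - g x)) + 2 * nsq (fun x => (mo ρ g x - g x) + (g x - f x)) := b1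
  rw [e3] at b2
  linarith [h4.2]

end L2

end Vale.Agent.P353.Moll
end

section

/-! # Radial mollifiers and radial cutoff functions on `X3` -/

open MeasureTheory Filter Topology
open scoped ContDiff

namespace Vale.Agent.P353.Moll

/-- profile of the radial mollifier -/
noncomputable def gm (c ε : ℝ) (s : ℝ) : ℝ := c * Real.smoothTransition (1 - s / ε ^ 2)

lemma contDiff_gm (c ε : ℝ) : ContDiff ℝ ∞ (gm c ε) := by
  unfold gm
  exact contDiff_const.mul (Real.smoothTransition.contDiff.comp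
    (contDiff_const.sub (contDiff_id.div_const _)))

lemma gm_zero {c ε : ℝ} (hε : 0 < ε) {x : X3} (hx : ε ≤ ‖x‖) : rad (gm c ε) x = 0 := by
  unfold rad gm
  rw [Real.smoothTransition.zero_of_nonpos, mul_zero]
  have : 1 ≤ ‖x‖ ^ 2 / ε ^ 2 := by
    rw [le_div_iff₀ (by positivity), one_mul]
    exact pow_le_pow_left₀ hε.le hx 2
  linarith

lemma hcs_gm {c ε : ℝ} (hε : 0 < ε) : HasCompactSupport (rad (gm c ε)) := by
  refine HasCompactSupport.intro (isCompact_closedBall (0 : X3) ε) fun x hx => ?_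
  rw [Metric.mem_closedBall, dist_zero_right, not_le] at hx
  exact gm_zero hε hx.le

/-- existence of radial mollifiers -/
lemma exists_mol {ε : ℝ} (hε : 0 < ε) :
    ∃ g : ℝ → ℝ, ContDiff ℝ ∞ g ∧ IsMol ε (rad g) := by
  have hpos : 0 < ∫ x, rad (gm 1 ε) x := by
    refine (contDiff_rad (contDiff_gm 1 ε)).continuous.integral_pos_of_hasCompactSupport_nonneg_nonzero
      (hcs_gm hε) (fun x => ?_) (x := 0) ?_
    · unfold rad gm
      exact mul_nonneg zero_le_one (Real.smoothTransition.nonneg _)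
    · have : rad (gm 1 ε) (0 : X3) = 1 := by
        unfold rad gm
        rw [Real.smoothTransition.one_of_one_le (by simp), mul_one]
      rw [this]
      exact one_ne_zero
  obtain ⟨c, hc⟩ : ∃ c, c = (∫ x, rad (gm 1 ε) x)⁻¹ := ⟨_, rfl⟩
  have hc0 : 0 < c := hc ▸ inv_pos.2 hpos
  refine ⟨gm c ε, contDiff_gm c ε, ⟨contDiff_rad (contDiff_gm c ε), hcs_gm hε, fun x => ?_,
    fun x hx => gm_zero hε hx, ?_⟩⟩
  · unfold rad gm
    exact mul_nonneg hc0.le (Real.smoothTransition.nonneg _)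
  · have e : ∀ x : X3, rad (gm c ε) x = c * rad (gm 1 ε) x := by
      intro x
      unfold rad gm
      ring
    simp only [e]
    rw [integral_const_mul, hc, inv_mul_cancel₀ hpos.ne']

/-- radial cutoff functions: `1` for `‖x‖ ≤ R/2`, `0` for `‖x‖ ≥ R`, gradient `≤ K/R` -/
structure IsRC (K R : ℝ) (h : ℝ → ℝ) : Prop where
  contDiff : ContDiff ℝ ∞ h
  nonneg : ∀ x : X3, 0 ≤ rad h x
  le_one : ∀ x : X3, rad h x ≤ 1
  one : ∀ x : X3, ‖x‖ ≤ R / 2 → rad h x = 1
  zero : ∀ x : X3, R ≤ ‖x‖ → rad h x = 0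
  grad : ∀ j B (x : X3), |pdr j B (rad h) x| ≤ K / R
  grad0 : ∀ j B (x : X3), ‖x‖ < R / 2 → pdr j B (rad h) x = 0

lemma exists_rc : ∃ K : ℝ, 0 ≤ K ∧ ∀ R : ℝ, 0 < R → ∃ h : ℝ → ℝ, IsRC K R h := by
  -- bound of the derivative of `smoothTransition`
  obtain ⟨K₀, hK₀⟩ : ∃ K₀, ∀ s : ℝ, |deriv Real.smoothTransition s| ≤ K₀ := by
    have hc : Continuous (deriv Real.smoothTransition) :=
      (Real.smoothTransition.contDiff (n := 1)).continuous_deriv (by simp)
    have hs : HasCompactSupport (deriv Real.smoothTransition) := by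
      refine HasCompactSupport.intro (isCompact_Icc (a := (0 : ℝ)) (b := 1)) fun s hs => ?_
      rw [Set.mem_Icc, not_and_or, not_le, not_le] at hs
      rcases hs with h | h
      · have : Real.smoothTransition =ᶠ[𝓝 s] fun _ => 0 := by
          filter_upwards [isOpen_Iio.mem_nhds h] with y hy
          exact Real.smoothTransition.zero_of_nonpos (le_of_lt hy)
        rw [this.deriv_eq]
        simp
      · have : Real.smoothTransition =ᶠ[𝓝 s] fun _ => 1 := by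
          filter_upwards [isOpen_Ioi.mem_nhds h] with y hy
          exact Real.smoothTransition.one_of_one_le (le_of_lt hy)
        rw [this.deriv_eq]
        simp
    obtain ⟨C, hC⟩ := hs.exists_bound_of_continuous hc
    exact ⟨C, hC⟩
  have hK0 : 0 ≤ K₀ := (abs_nonneg _).trans (hK₀ 0)
  refine ⟨8 / 3 * K₀, by positivity, fun R hR => ?_⟩
  obtain ⟨h, hh⟩ : ∃ h : ℝ → ℝ, h = fun s => Real.smoothTransition (4 / 3 * (1 - s / R ^ 2)) :=
    ⟨_, rfl⟩
  have hcd : ContDiff ℝ ∞ h := by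
    rw [hh]
    exact Real.smoothTransition.contDiff.comp
      (contDiff_const.mul (contDiff_const.sub (contDiff_id.div_const _)))
  have hone : ∀ x : X3, ‖x‖ ≤ R / 2 → rad h x = 1 := by
    intro x hx
    rw [rad, hh]
    refine Real.smoothTransition.one_of_one_le ?_
    have h1 : ‖x‖ ^ 2 / R ^ 2 ≤ 1 / 4 := by
      rw [div_le_iff₀ (by positivity)]
      have := pow_le_pow_left₀ (norm_nonneg x) hx 2
      linarith
    linarith
  have hzero : ∀ x : X3, R ≤ ‖x‖ → rad h x = 0 := by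
    intro x hx
    rw [rad, hh]
    refine Real.smoothTransition.zero_of_nonpos ?_
    have h1 : 1 ≤ ‖x‖ ^ 2 / R ^ 2 := by
      rw [le_div_iff₀ (by positivity), one_mul]
      exact pow_le_pow_left₀ hR.le hx 2
    linarith
  have hder : ∀ s, deriv h s = deriv Real.smoothTransition (4 / 3 * (1 - s / R ^ 2)) *
      (-(4 / 3) / R ^ 2) := by
    intro s
    have h1 : HasDerivAt (fun s : ℝ => 4 / 3 * (1 - s / R ^ 2)) (-(4 / 3) / R ^ 2) s := by
      have h2 := (((hasDerivAt_id s).div_const (R ^ 2)).const_sub 1).const_mul (4 / 3)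
      refine h2.congr_deriv ?_
      ring
    have h3 : HasDerivAt Real.smoothTransition
        (deriv Real.smoothTransition (4 / 3 * (1 - s / R ^ 2))) (4 / 3 * (1 - s / R ^ 2)) :=
      (((Real.smoothTransition.contDiff (n := 1)).differentiable (by simp)) _).hasDerivAt
    rw [hh]
    exact (h3.comp s h1).deriv
  refine ⟨h, ⟨hcd, fun x => ?_, fun x => ?_, hone, hzero, fun j B x => ?_, fun j B x hx => ?_⟩⟩
  · rw [rad, hh]; exact Real.smoothTransition.nonneg _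
  · rw [rad, hh]; exact Real.smoothTransition.le_one _
  · by_cases hx : ‖x‖ ≤ R
    · rw [pdr_rad hcd, hder, abs_mul, abs_mul, abs_mul, abs_div, abs_neg]
      have h1 := hK₀ (4 / 3 * (1 - ‖x‖ ^ 2 / R ^ 2))
      have h2 : |x (j, B)| ≤ R := by
        have := PiLp.norm_apply_le x (j, B)
        rw [Real.norm_eq_abs] at this
        exact this.trans hx
      have h3 : |(2 : ℝ)| = 2 := abs_of_pos (by norm_num)
      have h4 : |(4 / 3 : ℝ)| = 4 / 3 := abs_of_pos (by norm_num)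
      have h5 : |R ^ 2| = R ^ 2 := abs_of_pos (by positivity)
      rw [h3, h4, h5]
      calc 2 * (|deriv Real.smoothTransition (4 / 3 * (1 - ‖x‖ ^ 2 / R ^ 2))| *
            (4 / 3 / R ^ 2)) * |x (j, B)|
          ≤ 2 * (K₀ * (4 / 3 / R ^ 2)) * R := by gcongr
        _ = 8 / 3 * K₀ / R := by field_simp; ring
    · push Not at hx
      have h1 : rad h =ᶠ[𝓝 x] fun _ => 0 := by
        have : {y : X3 | R < ‖y‖} ∈ 𝓝 x := (isOpen_lt continuous_const continuous_norm).mem_nhds hx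
        filter_upwards [this] with y hy
        exact hzero y (le_of_lt hy)
      rw [pdr, h1.fderiv_eq]
      simp only [fderiv_fun_const, Pi.zero_apply, _root_.zero_apply, abs_zero]
      positivity
  · have h1 : rad h =ᶠ[𝓝 x] fun _ => 1 := by
      have : {y : X3 | ‖y‖ < R / 2} ∈ 𝓝 x := (isOpen_lt continuous_norm continuous_const).mem_nhds hx
      filter_upwards [this] with y hy
      exact hone y (le_of_lt hy)
    rw [pdr, h1.fderiv_eq]
    simp

end Vale.Agent.P353.Moll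
end

section

open MeasureTheory Filter Topology
open scoped ContDiff

namespace Vale.Agent.P353

variable {F : Type*} [NormedAddCommGroup F] [InnerProductSpace ℂ F]

/-- the weight `√t H(t)²` -/
noncomputable def gH (H : ℝ → ℝ) (t : ℝ) : ℝ := Real.sqrt t * H t ^ 2

/-- the weight `√t H(t)² σ(t) / t` -/
noncomputable def tH (H σ : ℝ → ℝ) (t : ℝ) : ℝ := gH H t * σ t / t

section weights

variable {H : ℝ → ℝ} {R : ℝ}

lemma contDiff_gH (hH : ContDiff ℝ ∞ H) (hR : 0 < R) (h0 : ∀ t, t ≤ R ^ 2 → H t = 0) :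
    ContDiff ℝ ∞ (gH H) := by
  rw [contDiff_iff_contDiffAt]
  intro t
  rcases lt_or_ge t (R ^ 2) with h | h
  · have h1 : gH H =ᶠ[𝓝 t] fun _ => 0 := by
      filter_upwards [Iio_mem_nhds h] with y hy
      simp [gH, h0 y (le_of_lt hy)]
    exact contDiffAt_const.congr_of_eventuallyEq h1
  · have ht : t ≠ 0 := (lt_of_lt_of_le (by positivity) h).ne'
    exact (Real.contDiffAt_sqrt ht).mul (hH.contDiffAt.pow 2)

lemma hcs_gH (hc : HasCompactSupport H) : HasCompactSupport (gH H) := by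
  refine hc.mono ?_
  intro x hx
  simp only [Function.mem_support] at hx ⊢
  intro h0
  exact hx (by simp [gH, h0])

lemma hcs_tH {σ : ℝ → ℝ} (hc : HasCompactSupport H) : HasCompactSupport (tH H σ) := by
  refine hc.mono ?_
  intro x hx
  simp only [Function.mem_support] at hx ⊢
  intro h0
  exact hx (by simp [tH, gH, h0])

lemma continuous_tH {σ : ℝ → ℝ} (hH : ContDiff ℝ ∞ H) (hσ : Continuous σ) (hR : 0 < R)
    (h0 : ∀ t, t ≤ R ^ 2 → H t = 0) : Continuous (tH H σ) := by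
  rw [continuous_iff_continuousAt]
  intro t
  rcases lt_or_ge t (R ^ 2) with h | h
  · have h1 : tH H σ =ᶠ[𝓝 t] fun _ => 0 := by
      filter_upwards [Iio_mem_nhds h] with y hy
      simp [tH, gH, h0 y (le_of_lt hy)]
    exact continuousAt_const.congr h1.symm
  · have ht : t ≠ 0 := (lt_of_lt_of_le (by positivity) h).ne'
    exact (((contDiff_gH hH hR h0).continuous.continuousAt).mul hσ.continuousAt).div
      continuousAt_id ht

lemma gH_norm (x : X3) : gH H (‖x‖ ^ 2) = ‖x‖ * H (‖x‖ ^ 2) ^ 2 := by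
  rw [gH, Real.sqrt_sq (norm_nonneg _)]

end weights

namespace Setup

variable (S : Setup F)

lemma re_inner_rsmul (c : ℝ) (A : F →L[ℂ] F) (v : F) :
    (inner ℂ v (((c : ℂ) • A) v)).re = c * (inner ℂ v (A v)).re := by
  rw [_root_.smul_apply, inner_smul_right, Complex.re_ofReal_mul]

lemma re_inner_real_smul (c : ℝ) (A : F →L[ℂ] F) (v : F) :
    (inner ℂ ((c : ℂ) • v) (A ((c : ℂ) • v))).re = c ^ 2 * (inner ℂ v (A v)).re := by
  rw [map_smul, inner_smul_left, inner_smul_right, Complex.conj_ofReal, Complex.re_ofReal_mul,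
    Complex.re_ofReal_mul]
  ring

lemma continuous_opapply {A : X3 → F →L[ℂ] F} (hA : Continuous A) {w : X3 → F}
    (hw : Continuous w) : Continuous (fun x => A x (w x)) := by
  have hc : Continuous (fun p : (F →L[ℂ] F) × F => p.1 p.2) :=
    (isBoundedBilinearMap_apply (𝕜 := ℂ) (E := F) (F := F)).continuous
  exact hc.comp (hA.prodMk hw)

/-- the inequality for test functions -/
theorem test_ineq {R ε ε' δ s : ℝ} (hR : 0 < R) (hε : 0 < ε) (hε1 : ε < 1) (_hε' : 0 < ε')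
    (hpt : ∀ x : X3, R ≤ ‖x‖ → ∀ σ : ℝ, 0 ≤ σ → σ ≤ s → ∀ v : F,
        0 ≤ (inner ℂ v (S.Fx x v)).re +
          ((1 - ε) * (8 * S.κ * ‖x‖ - 16 / S.κ * S.V x / ‖x‖ ^ 3) +
            (2 * ε - ε ^ 2) * S.V x) * ‖v‖ ^ 2 +
          ε' * ‖x‖ * ((inner ℂ v (S.O1 v)).re - σ / ‖x‖ ^ 2 * (inner ℂ v (Bd S x v)).re
            - δ * ‖v‖ ^ 2))
    {H : ℝ → ℝ} (hH : ContDiff ℝ ∞ H) (h0 : ∀ t, t ≤ R ^ 2 → H t = 0)
    {σ : ℝ → ℝ} (hσ : Continuous σ) (hσs : ∀ t, 0 ≤ σ t ∧ σ t ≤ s) {u : X3 → F} (hu : Tst u) :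
    0 ≤ (1 / 16 : ℝ) * ∑ β, nsq (S.Q β (fun y => ((rad H y : ℝ) : ℂ) • u y)) +
      ε' * ((∫ x, inner ℂ (u x) ((((rad (gH H) x : ℝ) : ℂ) • S.O1) (u x))).re -
        (∫ x, inner ℂ (u x) ((((rad (tH H σ) x : ℝ) : ℂ) • Bd S x) (u x))).re -
        δ * (∫ x, inner ℂ (u x) ((((rad (gH H) x : ℝ) : ℂ) • (1 : F →L[ℂ] F)) (u x))).re) := by
  set v : X3 → F := fun y => ((rad H y : ℝ) : ℂ) • u y with hv_def
  have hv : Tst v := Tst.rsmul (contDiff_rad hH) hu
  have hsupp : ∀ x, ‖x‖ < R → v x = 0 := by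
    intro x hx
    have : rad H x = 0 := h0 _ (pow_le_pow_left₀ (norm_nonneg _) hx.le 2)
    simp [hv_def, this]
  have cg : Continuous (rad (gH H)) := continuous_rad (contDiff_gH hH hR h0).continuous
  have ct : Continuous (rad (tH H σ)) := continuous_rad (continuous_tH hH hσ hR h0)
  have j1 : Integrable (fun x => inner ℂ (u x) ((((rad (gH H) x : ℝ) : ℂ) • S.O1) (u x))) :=
    hu.inner_int (continuous_opapply (continuous_rsmul_op cg continuous_const) hu.1.continuous)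
  have j2 : Integrable (fun x => inner ℂ (u x) ((((rad (tH H σ) x : ℝ) : ℂ) • Bd S x) (u x))) :=
    hu.inner_int (continuous_opapply (continuous_rsmul_op ct S.continuous_Bd) hu.1.continuous)
  have j3 : Integrable (fun x => inner ℂ (u x)
      ((((rad (gH H) x : ℝ) : ℂ) • (1 : F →L[ℂ] F)) (u x))) :=
    hu.inner_int (continuous_opapply (continuous_rsmul_op cg continuous_const) hu.1.continuous)
  have j4 : Integrable (fun x => inner ℂ (v x) (S.Fx x (v x))) :=
    hv.inner_int (continuous_opapply (contDiff_Fx S).continuous hv.1.continuous)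
  have k1 : Integrable (fun x => (inner ℂ (u x) ((((rad (gH H) x : ℝ) : ℂ) • S.O1) (u x))).re) :=
    j1.re
  have k2 : Integrable (fun x => (inner ℂ (u x)
      ((((rad (tH H σ) x : ℝ) : ℂ) • Bd S x) (u x))).re) := j2.re
  have k3 : Integrable (fun x => (inner ℂ (u x)
      ((((rad (gH H) x : ℝ) : ℂ) • (1 : F →L[ℂ] F)) (u x))).re) := j3.re
  have k4 : Integrable (fun x => (inner ℂ (v x) (S.Fx x (v x))).re) := j4.re
  have k5 : Integrable (fun x => ((1 - ε) * (8 * S.κ * ‖x‖ - 16 / S.κ * S.V x / ‖x‖ ^ 3) +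
            (2 * ε - ε ^ 2) * S.V x) * ‖v x‖ ^ 2) := by
    refine integrable_sing ?_ hv hR hsupp
    intro x hx
    have hV := (contDiff_V S).continuous.continuousAt (x := x)
    have hn := continuous_norm.continuousAt (x := x)
    have hne : ‖x‖ ^ 3 ≠ 0 := pow_ne_zero 3 (norm_ne_zero_iff.mpr hx)
    exact (continuousAt_const.mul ((continuousAt_const.mul hn).sub
      ((continuousAt_const.mul hV).div (hn.pow 3) hne))).add (continuousAt_const.mul hV)
  -- pointwise inequality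
  have hpw : ∀ x, 0 ≤ ((inner ℂ (v x) (S.Fx x (v x))).re +
      ((1 - ε) * (8 * S.κ * ‖x‖ - 16 / S.κ * S.V x / ‖x‖ ^ 3) +
            (2 * ε - ε ^ 2) * S.V x) * ‖v x‖ ^ 2) +
      ε' * (((inner ℂ (u x) ((((rad (gH H) x : ℝ) : ℂ) • S.O1) (u x))).re -
        (inner ℂ (u x) ((((rad (tH H σ) x : ℝ) : ℂ) • Bd S x) (u x))).re) -
        δ * (inner ℂ (u x) ((((rad (gH H) x : ℝ) : ℂ) • (1 : F →L[ℂ] F)) (u x))).re) := by
    intro x
    rw [re_inner_rsmul, re_inner_rsmul, re_inner_rsmul]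
    rcases lt_or_ge ‖x‖ R with hx | hx
    · have h1 : v x = 0 := hsupp x hx
      have hH0 : H (‖x‖ ^ 2) = 0 := h0 _ (pow_le_pow_left₀ (norm_nonneg _) hx.le 2)
      have h2 : rad (gH H) x = 0 := by simp [rad, gH, hH0]
      have h3 : rad (tH H σ) x = 0 := by simp [rad, tH, gH, hH0]
      rw [h1, h2, h3]
      simp
    · have h1 := hpt x hx (σ (‖x‖ ^ 2)) (hσs _).1 (hσs _).2 (v x)
      refine h1.trans (le_of_eq ?_)
      have hxp : 0 < ‖x‖ := lt_of_lt_of_le hR hx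
      have hvx : v x = ((H (‖x‖ ^ 2) : ℝ) : ℂ) • u x := rfl
      have e1 : (inner ℂ (v x) (S.O1 (v x))).re = (H (‖x‖ ^ 2)) ^ 2 *
          (inner ℂ (u x) (S.O1 (u x))).re := by
        rw [hvx]; exact re_inner_real_smul (H (‖x‖ ^ 2)) S.O1 (u x)
      have e2 : (inner ℂ (v x) (Bd S x (v x))).re = (H (‖x‖ ^ 2)) ^ 2 *
          (inner ℂ (u x) (Bd S x (u x))).re := by
        rw [hvx]; exact re_inner_real_smul (H (‖x‖ ^ 2)) (Bd S x) (u x)
      have e3 : (inner ℂ (u x) ((1 : F →L[ℂ] F) (u x))).re = ‖u x‖ ^ 2 := by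
        rw [one_apply_eq_self, re_inner_self]
      have e4 : ‖v x‖ ^ 2 = (H (‖x‖ ^ 2)) ^ 2 * ‖u x‖ ^ 2 := by
        rw [hvx, norm_smul, Complex.norm_real, Real.norm_eq_abs, mul_pow, sq_abs]
      have e5 : rad (gH H) x = ‖x‖ * (H (‖x‖ ^ 2)) ^ 2 := gH_norm x
      have e6 : rad (tH H σ) x = ‖x‖ * (σ (‖x‖ ^ 2) / ‖x‖ ^ 2) * (H (‖x‖ ^ 2)) ^ 2 := by
        rw [rad, tH, gH_norm]; ring
      have key : ε' * ‖x‖ * ((inner ℂ (v x) (S.O1 (v x))).re - σ (‖x‖ ^ 2) / ‖x‖ ^ 2 *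
            (inner ℂ (v x) (Bd S x (v x))).re - δ * ‖v x‖ ^ 2) =
          ε' * ((rad (gH H) x * (inner ℂ (u x) (S.O1 (u x))).re -
            rad (tH H σ) x * (inner ℂ (u x) (Bd S x (u x))).re) -
            δ * (rad (gH H) x * (inner ℂ (u x) ((1 : F →L[ℂ] F) (u x))).re)) := by
        rw [e1, e2, e3, e4, e5, e6]
        ring
      rw [key]
  have hnn := integral_nonneg_of_ae (μ := (volume : Measure X3))
    (Filter.Eventually.of_forall hpw)
  have k45 : Integrable (fun x => (inner ℂ (v x) (S.Fx x (v x))).re +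
      ((1 - ε) * (8 * S.κ * ‖x‖ - 16 / S.κ * S.V x / ‖x‖ ^ 3) +
            (2 * ε - ε ^ 2) * S.V x) * ‖v x‖ ^ 2) := k4.add k5
  have k12 : Integrable (fun x => (inner ℂ (u x) ((((rad (gH H) x : ℝ) : ℂ) • S.O1) (u x))).re -
        (inner ℂ (u x) ((((rad (tH H σ) x : ℝ) : ℂ) • Bd S x) (u x))).re) := k1.sub k2
  have k123 : Integrable (fun x => ((inner ℂ (u x)
        ((((rad (gH H) x : ℝ) : ℂ) • S.O1) (u x))).re -
        (inner ℂ (u x) ((((rad (tH H σ) x : ℝ) : ℂ) • Bd S x) (u x))).re) -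
        δ * (inner ℂ (u x) ((((rad (gH H) x : ℝ) : ℂ) • (1 : F →L[ℂ] F)) (u x))).re) :=
    k12.sub (k3.const_mul δ)
  rw [integral_add k45 (k123.const_mul ε'), integral_const_mul, integral_add k4 k5,
    integral_sub k12 (k3.const_mul δ), integral_sub k1 k2, integral_const_mul] at hnn
  have r1 : ∫ x, (inner ℂ (u x) ((((rad (gH H) x : ℝ) : ℂ) • S.O1) (u x))).re =
    (∫ x, inner ℂ (u x) ((((rad (gH H) x : ℝ) : ℂ) • S.O1) (u x))).re := integral_re j1
  have r2 : ∫ x, (inner ℂ (u x) ((((rad (tH H σ) x : ℝ) : ℂ) • Bd S x) (u x))).re =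
    (∫ x, inner ℂ (u x) ((((rad (tH H σ) x : ℝ) : ℂ) • Bd S x) (u x))).re := integral_re j2
  have r3 : ∫ x, (inner ℂ (u x) ((((rad (gH H) x : ℝ) : ℂ) • (1 : F →L[ℂ] F)) (u x))).re =
    (∫ x, inner ℂ (u x) ((((rad (gH H) x : ℝ) : ℂ) • (1 : F →L[ℂ] F)) (u x))).re := integral_re j3
  rw [r1, r2, r3] at hnn
  have hen := energy_formula S v hv
  have hsq := square_lower_bound S v hv R hR hsupp ε hε.le hε1.le
  have hen' : (1 / 16 : ℝ) * ∑ β, nsq (S.Q β v) =
      (1 / 2) * (∑ i, ∑ A, ∫ x, ‖pd i A v x‖ ^ 2) + (∫ x, S.V x * ‖v x‖ ^ 2)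
        + (∫ x, (inner ℂ (v x) (S.Fx x (v x))).re) := hen
  rw [hen']
  linarith

end Setup
end Vale.Agent.P353
end
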