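import Mathlib
import Vale.Agent.P353.BdU.B3
import Vale.Agent.P353.BdU.B2
import Vale.Agent.P353.BdU.B8

set_option linter.all false

section

open MeasureTheory Filter Topology Matrix
open scoped ContDiff

namespace Vale.Agent.P353

variable {F : Type*} [NormedAddCommGroup F] [InnerProductSpace ℂ F]

namespace Setup

variable (S : Setup F)

/-- expansion of the product of two supercharges -/
lemma a1a_expand (a b : Fin 16) {u : X3 → F} (hu : ContDiff ℝ ∞ u) (x : X3) :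
    S.Q a (S.Q b u) x =
      -(∑ j, ∑ B, ∑ i, ∑ A, S.vec (S.g j) B a (S.vec (S.g i) A b (pd j B (pd i A u) x)))
      + ((-Complex.I) • ∑ j, ∑ B, S.vec (S.g j) B a *
        (fderiv ℝ (S.W b) x (EuclideanSpace.single (j, B) (1 : ℝ)))) (u x)
      + (-Complex.I) • ∑ j, ∑ B, (S.vec (S.g j) B a * S.W b x + S.W a x * S.vec (S.g j) B b)
          (pd j B u x)
      + (S.W a x * S.W b x) (u x) := by
  conv_lhs => rw [Q]
  simp only [pd_Q S b hu]
  rw [Q]
  simp only [map_add, map_smul, map_sum, Finset.sum_add_distrib, smul_add,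
    _root_.smul_apply, _root_.sum_apply, _root_.add_apply, mul_apply_eq_comp,
    ← Finset.smul_sum, smul_smul]
  have hI : (-Complex.I) * (-Complex.I) = -1 := by
    rw [neg_mul_neg, Complex.I_mul_I]
  rw [hI, neg_one_smul]
  abel

lemma a1a_reindex {M : Type*} [AddCommMonoid M] (f : Fin 9 → Fin 3 → Fin 9 → Fin 3 → M) :
    ∑ j, ∑ B, ∑ i, ∑ A, f j B i A = ∑ j, ∑ B, ∑ i, ∑ A, f i A j B := by
  have e1 : ∀ (f : Fin 9 → Fin 3 → Fin 9 → Fin 3 → M), ∑ j, ∑ B, ∑ i, ∑ A, f j B i A =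
      ∑ p : Fin 9 × Fin 3, ∑ q : Fin 9 × Fin 3, f p.1 p.2 q.1 q.2 := by
    intro f
    simp only [Fintype.sum_prod_type]
  rw [e1 f, e1 (fun j B i A => f i A j B), Finset.sum_comm]

lemma a1a_g_anti_apply (i j : Fin 9) (a b : Fin 16) :
    (S.g i * S.g j) a b + (S.g j * S.g i) a b =
      if i = j then (if a = b then 2 else 0) else 0 := by
  have h := congrArg (fun M => M a b) (S.g_anti i j)
  simp only [Matrix.add_apply] at h
  rw [h]
  by_cases hij : i = j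
  · simp only [hij, if_true]
    have h2 : (2 : Matrix (Fin 16) (Fin 16) ℂ) = (2 : ℂ) • 1 := by
      rw [two_smul]; norm_num
    rw [h2, Matrix.smul_apply, Matrix.one_apply]
    by_cases hab : a = b <;> simp [hab]
  · simp [hij]

/-- the second order part -/
lemma a1a_second (a b : Fin 16) (D : Fin 9 → Fin 3 → Fin 9 → Fin 3 → F)
    (hD : ∀ i A j B, D i A j B = D j B i A) :
    ∑ j, ∑ B, ∑ i, ∑ A, S.vec (S.g j) B a (S.vec (S.g i) A b (D j B i A)) +
      ∑ j, ∑ B, ∑ i, ∑ A, S.vec (S.g j) B b (S.vec (S.g i) A a (D j B i A)) =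
      if a = b then ∑ i, ∑ A, D i A i A else 0 := by
  have h1 : ∑ j, ∑ B, ∑ i, ∑ A, S.vec (S.g j) B b (S.vec (S.g i) A a (D j B i A)) =
      ∑ j, ∑ B, ∑ i, ∑ A, S.vec (S.g i) A b (S.vec (S.g j) B a (D j B i A)) := by
    rw [a1a_reindex]
    refine Finset.sum_congr rfl fun j _ => Finset.sum_congr rfl fun B _ =>
      Finset.sum_congr rfl fun i _ => Finset.sum_congr rfl fun A _ => ?_
    rw [hD]
  rw [h1]
  simp only [← Finset.sum_add_distrib]
  have h2 : ∀ j B i A, S.vec (S.g j) B a (S.vec (S.g i) A b (D j B i A)) +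
      S.vec (S.g i) A b (S.vec (S.g j) B a (D j B i A)) =
      if B = A then ((S.g j * S.g i) a b) • D j B i A else 0 := by
    intro j B i A
    have h3 := S.vec_anti (S.g j) (S.g i) B A a b
    rw [S.g_symm] at h3
    have h4 := congrArg (fun T : F →L[ℂ] F => T (D j B i A)) h3
    simp only [_root_.add_apply, mul_apply_eq_comp] at h4
    rw [h4]
    by_cases hBA : B = A
    · simp [hBA]
    · simp [hBA]
  simp only [h2]
  have h5 : ∀ j B, ∑ i, ∑ A, (if B = A then ((S.g j * S.g i) a b) • D j B i A else 0) =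
      ∑ i, ((S.g j * S.g i) a b) • D j B i B := by
    intro j B
    refine Finset.sum_congr rfl fun i _ => ?_
    rw [Finset.sum_ite_eq]
    simp
  simp only [h5]
  have h6 : ∑ j, ∑ B, ∑ i, ((S.g j * S.g i) a b) • D j B i B =
      ∑ j, ∑ B, ∑ i, ((S.g i * S.g j) a b) • D j B i B := by
    have e : ∀ f : Fin 9 → Fin 3 → Fin 9 → F, ∑ j, ∑ B, ∑ i, f j B i =
        ∑ B, ∑ j, ∑ i, f j B i := fun f => by rw [Finset.sum_comm]
    rw [e, e]
    refine Finset.sum_congr rfl fun B _ => ?_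
    rw [Finset.sum_comm]
    refine Finset.sum_congr rfl fun j _ => Finset.sum_congr rfl fun i _ => ?_
    rw [hD]
  have h7 : (2 : ℂ) • ∑ j, ∑ B, ∑ i, ((S.g j * S.g i) a b) • D j B i B =
      (2 : ℂ) • (if a = b then ∑ i, ∑ A, D i A i A else 0) := by
    rw [two_smul]
    nth_rewrite 2 [h6]
    simp only [← Finset.sum_add_distrib, ← add_smul, a1a_g_anti_apply]
    by_cases hab : a = b
    · simp only [hab, if_true, ite_smul, zero_smul, Finset.smul_sum]
      refine Finset.sum_congr rfl fun j _ => Finset.sum_congr rfl fun B _ => ?_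
      rw [Finset.sum_ite_eq]
      simp
    · simp [hab]
  have h8 := congrArg (fun w => (1 / 2 : ℂ) • w) h7
  simp only [smul_smul] at h8
  norm_num at h8
  exact h8

/-- `N_A = (1/2) F^A_{ij} γ^i γ^j` -/
lemma a1a_NA_eq (A : Fin 3) (x : X3) :
    S.NA A x = (1 / 2 : ℂ) • ∑ i, ∑ j, ((S.FF A i j x : ℝ) : ℂ) • (S.g i * S.g j) := by
  unfold NA
  congr 1
  have h1 : ∑ i, ∑ j, ((S.FF A i j x : ℝ) : ℂ) • (S.g j * S.g i) =
      -∑ i, ∑ j, ((S.FF A i j x : ℝ) : ℂ) • (S.g i * S.g j) := by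
    rw [Finset.sum_comm, ← Finset.sum_neg_distrib]
    refine Finset.sum_congr rfl fun i _ => ?_
    rw [← Finset.sum_neg_distrib]
    refine Finset.sum_congr rfl fun j _ => ?_
    rw [S.FF_swap A j i x, ← neg_smul]
    push_cast
    rfl
  have h2 : ∀ i j, ((S.FF A i j x : ℝ) : ℂ) • S.g2 i j =
      (1 / 2 : ℂ) • (((S.FF A i j x : ℝ) : ℂ) • (S.g i * S.g j)) -
        (1 / 2 : ℂ) • (((S.FF A i j x : ℝ) : ℂ) • (S.g j * S.g i)) := by
    intro i j
    rw [CS.g2, smul_comm, smul_sub, smul_sub]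
  simp only [h2, Finset.sum_sub_distrib, ← Finset.smul_sum, h1]
  rw [smul_neg, sub_neg_eq_add, ← add_smul]
  norm_num

/-- `γ^j N_B - N_B γ^j = 2 F^B_{jl} γ^l` -/
lemma a1a_comm (j : Fin 9) (B : Fin 3) (x : X3) :
    S.g j * S.NA B x - S.NA B x * S.g j =
      (2 : ℂ) • ∑ l, ((S.FF B j l x : ℝ) : ℂ) • S.g l := by
  have h1 : ∀ k l, S.g j * (S.g k * S.g l) - S.g k * S.g l * S.g j =
      (if j = k then (2 : ℂ) • S.g l else 0) - (if j = l then (2 : ℂ) • S.g k else 0) := by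
    intro k l
    have e1 := S.g_swapE' j k
    have e2 := S.g_swapE' j l
    have e3 : S.g j * (S.g k * S.g l) - S.g k * S.g l * S.g j =
        (S.g j * S.g k + S.g k * S.g j) * S.g l - S.g k * (S.g j * S.g l + S.g l * S.g j) := by
      noncomm_ring
    rw [e3, e1, e2, sub_add_cancel, sub_add_cancel]
    by_cases hjk : j = k <;> by_cases hjl : j = l <;> simp [hjk, hjl]
  rw [a1a_NA_eq, Matrix.mul_smul, Matrix.smul_mul, ← smul_sub]
  have h2 : S.g j * (∑ k, ∑ l, ((S.FF B k l x : ℝ) : ℂ) • (S.g k * S.g l)) -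
      (∑ k, ∑ l, ((S.FF B k l x : ℝ) : ℂ) • (S.g k * S.g l)) * S.g j =
      ∑ k, ∑ l, ((S.FF B k l x : ℝ) : ℂ) •
        ((if j = k then (2 : ℂ) • S.g l else 0) - (if j = l then (2 : ℂ) • S.g k else 0)) := by
    simp only [Matrix.mul_sum, Matrix.sum_mul, Matrix.mul_smul, Matrix.smul_mul,
      ← Finset.sum_sub_distrib, ← smul_sub, h1]
  rw [h2]
  have h3 : ∑ k, ∑ l, ((S.FF B k l x : ℝ) : ℂ) •
        ((if j = k then (2 : ℂ) • S.g l else 0) - (if j = l then (2 : ℂ) • S.g k else 0)) =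
      (4 : ℂ) • ∑ l, ((S.FF B j l x : ℝ) : ℂ) • S.g l := by
    simp only [smul_sub, Finset.sum_sub_distrib]
    have p1 : ∑ k, ∑ l, ((S.FF B k l x : ℝ) : ℂ) • (if j = k then (2 : ℂ) • S.g l else 0) =
        (2 : ℂ) • ∑ l, ((S.FF B j l x : ℝ) : ℂ) • S.g l := by
      rw [Finset.sum_eq_single j]
      · simp only [if_true, Finset.smul_sum]
        exact Finset.sum_congr rfl fun l _ => smul_comm _ _ _
      · intro k _ hk
        simp [Ne.symm hk]
      · intro h; exact absurd (Finset.mem_univ _) h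
    have p2 : ∑ k, ∑ l, ((S.FF B k l x : ℝ) : ℂ) • (if j = l then (2 : ℂ) • S.g k else 0) =
        -((2 : ℂ) • ∑ l, ((S.FF B j l x : ℝ) : ℂ) • S.g l) := by
      rw [Finset.sum_comm, Finset.sum_eq_single j]
      · simp only [if_true, Finset.smul_sum]
        rw [← Finset.sum_neg_distrib]
        refine Finset.sum_congr rfl fun l _ => ?_
        rw [S.FF_swap B l j x, smul_comm]
        push_cast
        rw [neg_smul, smul_neg]
      · intro k _ hk
        simp [Ne.symm hk]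
      · intro h; exact absurd (Finset.mem_univ _) h
    rw [p1, p2, sub_neg_eq_add, ← add_smul]
    norm_num
  rw [h3, smul_smul]
  norm_num

/-- the first order part -/
lemma a1a_first (a b : Fin 16) (j : Fin 9) (B : Fin 3) (x : X3) :
    (S.vec (S.g j) B a * S.W b x + S.W b x * S.vec (S.g j) B a) +
      (S.vec (S.g j) B b * S.W a x + S.W a x * S.vec (S.g j) B b) =
      (-(2 : ℂ) * ∑ l, ((S.FF B j l x : ℝ) : ℂ) * S.g l a b) • (1 : F →L[ℂ] F) := by
  have h : ∀ a b, S.vec (S.g j) B a * S.W b x + S.W b x * S.vec (S.g j) B a =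
      (-((S.g j * S.NA B x) a b)) • (1 : F →L[ℂ] F) := by
    intro a b
    rw [W_eq_NA, Finset.mul_sum, Finset.sum_mul, ← Finset.sum_add_distrib]
    simp only [S.vec_anti, NA_transpose, Matrix.mul_neg, Matrix.neg_apply]
    rw [Finset.sum_ite_eq]
    simp
  rw [h a b, h b a, ← add_smul]
  congr 1
  have h1 : (S.g j * S.NA B x) b a = -((S.NA B x * S.g j) a b) := by
    have h2 : (S.g j * S.NA B x) b a = ((S.g j * S.NA B x)ᵀ) a b := rfl
    rw [h2, Matrix.transpose_mul, NA_transpose, S.g_symm, Matrix.neg_mul, Matrix.neg_apply]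
  rw [h1]
  have h3 := congrArg (fun M => M a b) (S.a1a_comm j B x)
  simp only [Matrix.sub_apply, Matrix.smul_apply, Matrix.sum_apply, smul_eq_mul] at h3
  linear_combination -h3

/-- the slash of the positions of colour `B` -/
noncomputable def a1aX (B : Fin 3) (x : X3) : Matrix (Fin 16) (Fin 16) ℂ :=
  ∑ i, (x (i, B) : ℂ) • S.g i

lemma a1aX_anti (B C : Fin 3) (x : X3) : ∃ c : ℂ,
    S.a1aX B x * S.a1aX C x + S.a1aX C x * S.a1aX B x = c • 1 := by
  refine ⟨∑ i, (x (i, B) : ℂ) * (x (i, C) : ℂ) * 2, ?_⟩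
  have h1 : S.a1aX C x * S.a1aX B x =
      ∑ i, ∑ j, ((x (i, B) : ℂ) * (x (j, C) : ℂ)) • (S.g j * S.g i) := by
    unfold a1aX
    rw [Finset.sum_mul_sum, Finset.sum_comm]
    refine Finset.sum_congr rfl fun i _ => Finset.sum_congr rfl fun j _ => ?_
    rw [smul_mul_smul_comm, mul_comm (x (j, C) : ℂ)]
  have h2 : S.a1aX B x * S.a1aX C x =
      ∑ i, ∑ j, ((x (i, B) : ℂ) * (x (j, C) : ℂ)) • (S.g i * S.g j) := by
    unfold a1aX
    rw [Finset.sum_mul_sum]
    refine Finset.sum_congr rfl fun i _ => Finset.sum_congr rfl fun j _ => ?_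
    rw [smul_mul_smul_comm]
  rw [h1, h2, ← Finset.sum_add_distrib]
  simp only [← Finset.sum_add_distrib, ← smul_add]
  have h3 : ∀ i j, S.g i * S.g j + S.g j * S.g i =
      if i = j then (2 : ℂ) • (1 : Matrix (Fin 16) (Fin 16) ℂ) else 0 := by
    intro i j
    rw [S.g_swapE' i j, sub_add_cancel]
  simp only [h3, smul_ite, smul_zero, Finset.sum_ite_eq, Finset.mem_univ, if_true, smul_smul]
  rw [← Finset.sum_smul]

lemma a1a_NA_X (A : Fin 3) (x : X3) :
    S.NA A x = (S.κ / 2 : ℂ) • ∑ B, ∑ C, (eps A B C : ℂ) • (S.a1aX B x * S.a1aX C x) := by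
  rw [a1a_NA_eq]
  have h2 : ∀ B C, S.a1aX B x * S.a1aX C x =
      ∑ i, ∑ j, ((x (i, B) : ℂ) * (x (j, C) : ℂ)) • (S.g i * S.g j) := by
    intro B C
    unfold a1aX
    rw [Finset.sum_mul_sum]
    refine Finset.sum_congr rfl fun i _ => Finset.sum_congr rfl fun j _ => ?_
    rw [smul_mul_smul_comm]
  have h3 : ∑ i, ∑ j, ((S.FF A i j x : ℝ) : ℂ) • (S.g i * S.g j) =
      (S.κ : ℂ) • ∑ B, ∑ C, (eps A B C : ℂ) • (S.a1aX B x * S.a1aX C x) := by
    simp only [h2, Finset.smul_sum, smul_smul]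
    have h4 : ∀ i j, ((S.FF A i j x : ℝ) : ℂ) • (S.g i * S.g j) =
        ∑ B, ∑ C, ((S.κ : ℂ) * ((eps A B C : ℂ) * ((x (i, B) : ℂ) * (x (j, C) : ℂ)))) •
          (S.g i * S.g j) := by
      intro i j
      simp only [← Finset.sum_smul]
      congr 1
      unfold FF
      push_cast
      simp only [Finset.mul_sum]
      refine Finset.sum_congr rfl fun B _ => Finset.sum_congr rfl fun C _ => ?_
      ring
    simp only [h4]
    calc ∑ i, ∑ j, ∑ B, ∑ C, ((S.κ : ℂ) * ((eps A B C : ℂ) * ((x (i, B) : ℂ) *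
          (x (j, C) : ℂ)))) • (S.g i * S.g j)
        = ∑ i, ∑ B, ∑ j, ∑ C, ((S.κ : ℂ) * ((eps A B C : ℂ) * ((x (i, B) : ℂ) *
          (x (j, C) : ℂ)))) • (S.g i * S.g j) :=
          Finset.sum_congr rfl fun i _ => Finset.sum_comm
      _ = ∑ B, ∑ i, ∑ j, ∑ C, ((S.κ : ℂ) * ((eps A B C : ℂ) * ((x (i, B) : ℂ) *
          (x (j, C) : ℂ)))) • (S.g i * S.g j) := Finset.sum_comm
      _ = ∑ B, ∑ i, ∑ C, ∑ j, ((S.κ : ℂ) * ((eps A B C : ℂ) * ((x (i, B) : ℂ) *
          (x (j, C) : ℂ)))) • (S.g i * S.g j) :=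
          Finset.sum_congr rfl fun B _ => Finset.sum_congr rfl fun i _ => Finset.sum_comm
      _ = ∑ B, ∑ C, ∑ i, ∑ j, ((S.κ : ℂ) * ((eps A B C : ℂ) * ((x (i, B) : ℂ) *
          (x (j, C) : ℂ)))) • (S.g i * S.g j) :=
          Finset.sum_congr rfl fun B _ => Finset.sum_comm
  rw [h3, smul_smul]
  congr 1
  ring

lemma a1a_PQ {P Q : Matrix (Fin 16) (Fin 16) ℂ} {a b c : ℂ} (h1 : P * Q + Q * P = a • 1)
    (h2 : P * P + P * P = b • 1) (h3 : Q * Q + Q * Q = c • 1) :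
    ∃ e : ℂ, (P * Q - Q * P) * (P * Q - Q * P) = e • 1 := by
  have h2' : P * P = (b / 2) • 1 := by
    have : (2 : ℂ) • (P * P) = b • 1 := by rw [two_smul, h2]
    have h4 := congrArg (fun M => (1 / 2 : ℂ) • M) this
    simp only [smul_smul] at h4
    norm_num at h4
    rw [h4]
    congr 1
    ring
  have h3' : Q * Q = (c / 2) • 1 := by
    have : (2 : ℂ) • (Q * Q) = c • 1 := by rw [two_smul, h3]
    have h4 := congrArg (fun M => (1 / 2 : ℂ) • M) this
    simp only [smul_smul] at h4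
    norm_num at h4
    rw [h4]
    congr 1
    ring
  have hQP : Q * P = a • 1 - P * Q := by rw [← h1]; abel
  refine ⟨a ^ 2 - b * c, ?_⟩
  have e1 : (P * Q - Q * P) * (P * Q - Q * P) =
      (4 : ℂ) • (P * (Q * P) * Q) - (4 * a : ℂ) • (P * Q) + (a ^ 2 : ℂ) • 1 := by
    rw [hQP]
    have e2 : P * Q - (a • 1 - P * Q) = (2 : ℂ) • (P * Q) - a • 1 := by
      rw [two_smul]; abel
    rw [e2]
    have e3 : P * Q * (P * Q) = P * (Q * P) * Q := by noncomm_ring
    simp only [sub_mul, mul_sub, smul_mul_assoc, mul_smul_comm, Matrix.mul_one, Matrix.one_mul,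
      smul_sub, smul_smul, e3, hQP]
    module
  have e4 : P * (Q * P) * Q = a • (P * Q) - (b * c / 4) • 1 := by
    rw [hQP]
    have e5 : P * (a • 1 - P * Q) * Q = a • (P * Q) - (P * P) * (Q * Q) := by
      simp only [mul_sub, sub_mul, mul_smul_comm, smul_mul_assoc, Matrix.mul_one]
      congr 1
      noncomm_ring
    rw [e5, h2', h3', smul_mul_smul_comm, Matrix.mul_one]
    congr 2
    ring
  rw [e1, e4]
  module

lemma a1a_eps0 {M : Type*} [AddCommGroup M] [Module ℂ M] (f : Fin 3 → Fin 3 → M) :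
    ∑ B, ∑ C, (eps 0 B C : ℂ) • f B C = f 1 2 - f 2 1 := by
  have h : eps 0 0 0 = 0 ∧ eps 0 0 1 = 0 ∧ eps 0 0 2 = 0 ∧ eps 0 1 0 = 0 ∧ eps 0 1 1 = 0 ∧
      eps 0 1 2 = 1 ∧ eps 0 2 0 = 0 ∧ eps 0 2 1 = -1 ∧ eps 0 2 2 = 0 := by decide
  obtain ⟨h1, h2, h3, h4, h5, h6, h7, h8, h9⟩ := h
  simp only [Fin.sum_univ_three, h1, h2, h3, h4, h5, h6, h7, h8, h9]
  push_cast; module

lemma a1a_eps1 {M : Type*} [AddCommGroup M] [Module ℂ M] (f : Fin 3 → Fin 3 → M) :
    ∑ B, ∑ C, (eps 1 B C : ℂ) • f B C = f 2 0 - f 0 2 := by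
  have h : eps 1 0 0 = 0 ∧ eps 1 0 1 = 0 ∧ eps 1 0 2 = -1 ∧ eps 1 1 0 = 0 ∧ eps 1 1 1 = 0 ∧
      eps 1 1 2 = 0 ∧ eps 1 2 0 = 1 ∧ eps 1 2 1 = 0 ∧ eps 1 2 2 = 0 := by decide
  obtain ⟨h1, h2, h3, h4, h5, h6, h7, h8, h9⟩ := h
  simp only [Fin.sum_univ_three, h1, h2, h3, h4, h5, h6, h7, h8, h9]
  push_cast; module

lemma a1a_eps2 {M : Type*} [AddCommGroup M] [Module ℂ M] (f : Fin 3 → Fin 3 → M) :
    ∑ B, ∑ C, (eps 2 B C : ℂ) • f B C = f 0 1 - f 1 0 := by
  have h : eps 2 0 0 = 0 ∧ eps 2 0 1 = 1 ∧ eps 2 0 2 = 0 ∧ eps 2 1 0 = -1 ∧ eps 2 1 1 = 0 ∧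
      eps 2 1 2 = 0 ∧ eps 2 2 0 = 0 ∧ eps 2 2 1 = 0 ∧ eps 2 2 2 = 0 := by decide
  obtain ⟨h1, h2, h3, h4, h5, h6, h7, h8, h9⟩ := h
  simp only [Fin.sum_univ_three, h1, h2, h3, h4, h5, h6, h7, h8, h9]
  push_cast; module

lemma a1a_NA_sq (A : Fin 3) (x : X3) :
    S.NA A x * S.NA A x = ((-(1 / 2) * ∑ i, ∑ j, (S.FF A i j x) ^ 2 : ℝ) : ℂ) • 1 := by
  have h : ∃ e : ℂ, S.NA A x * S.NA A x = e • 1 := by
    have key : ∀ P Q, (∃ B C, P = S.a1aX B x ∧ Q = S.a1aX C x) →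
        ∃ e : ℂ, (P * Q - Q * P) * (P * Q - Q * P) = e • 1 := by
      rintro P Q ⟨B, C, rfl, rfl⟩
      obtain ⟨a, ha⟩ := S.a1aX_anti B C x
      obtain ⟨b, hb⟩ := S.a1aX_anti B B x
      obtain ⟨c, hc⟩ := S.a1aX_anti C C x
      exact a1a_PQ ha hb hc
    have h2 : ∃ B C, ∑ B', ∑ C', (eps A B' C' : ℂ) • (S.a1aX B' x * S.a1aX C' x) =
        S.a1aX B x * S.a1aX C x - S.a1aX C x * S.a1aX B x := by
      obtain rfl | rfl | rfl : A = 0 ∨ A = 1 ∨ A = 2 := by fin_cases A <;> simp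
      · exact ⟨1, 2, a1a_eps0 _⟩
      · exact ⟨2, 0, a1a_eps1 _⟩
      · exact ⟨0, 1, a1a_eps2 _⟩
    obtain ⟨B, C, hBC⟩ := h2
    obtain ⟨e, he⟩ := key _ _ ⟨B, C, rfl, rfl⟩
    rw [a1a_NA_X, hBC, smul_mul_smul_comm, he, smul_smul]
    exact ⟨_, rfl⟩
  obtain ⟨e, he⟩ := h
  have h3 := S.trace_NA_NA A x
  rw [he, Matrix.trace_smul, CS.trace_one16, smul_eq_mul] at h3
  rw [he]
  congr 1
  push_cast at h3 ⊢
  linear_combination (1 / 16) * h3

/-- the zero order part -/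
lemma a1a_zero (a b : Fin 16) (x : X3) :
    S.W a x * S.W b x + S.W b x * S.W a x =
      (if a = b then ((2 * S.V x : ℝ) : ℂ) else 0) • (1 : F →L[ℂ] F) := by
  have h1 : S.W a x * S.W b x + S.W b x * S.W a x =
      ∑ A, ∑ B, (if A = B then ((S.NA A x * (S.NA B x)ᵀ) a b) • (1 : F →L[ℂ] F) else 0) := by
    simp only [W_eq_NA, Finset.sum_mul_sum]
    have : ∑ A, ∑ B, S.vec (S.NA A x) A b * S.vec (S.NA B x) B a =
        ∑ A, ∑ B, S.vec (S.NA B x) B b * S.vec (S.NA A x) A a := Finset.sum_comm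
    rw [this, ← Finset.sum_add_distrib]
    simp only [← Finset.sum_add_distrib, S.vec_anti]
  rw [h1]
  simp only [Finset.sum_ite_eq, Finset.mem_univ, if_true, NA_transpose, Matrix.mul_neg,
    a1a_NA_sq, Matrix.neg_apply, Matrix.smul_apply, Matrix.one_apply, smul_eq_mul]
  rw [← Finset.sum_smul]
  congr 1
  by_cases hab : a = b
  · simp only [hab, if_true, mul_one, V]
    push_cast
    rw [Finset.mul_sum, Finset.mul_sum]
    refine Finset.sum_congr rfl fun A _ => ?_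
    ring
  · simp [hab]

lemma a1a_bil (N : Matrix (Fin 16) (Fin 16) ℂ) (A B : Fin 3) :
    S.bil N A B = ∑ c, ∑ d, N c d • (S.th c A * S.th d B) := by
  simp only [CS.bil, CS.vec, Finset.mul_sum, mul_smul_comm]

/-- the coefficients of the fermionic term -/
noncomputable def a1aK (a b : Fin 16) (l : Fin 9) (c d : Fin 16) : ℂ :=
  ∑ j, (S.g j a c * S.g2 j l b d + S.g j b c * S.g2 j l a d)

lemma a1a_g2_apply (j l : Fin 9) (b d : Fin 16) :
    S.g2 j l b d = (∑ e, S.g j b e * S.g l e d) - (if j = l then (if b = d then 1 else 0) else 0) := by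
  have h1 : S.g2 j l b d = (1 / 2 : ℂ) * ((S.g j * S.g l) b d - (S.g l * S.g j) b d) := by
    rw [CS.g2, Matrix.smul_apply, Matrix.sub_apply, smul_eq_mul]
  have h2 := S.a1a_g_anti_apply j l b d
  have h3 : (∑ e, S.g j b e * S.g l e d) = (S.g j * S.g l) b d := (Matrix.mul_apply).symm
  rw [h1, h3]
  by_cases hjl : j = l <;> by_cases hbd : b = d <;> simp only [hjl, hbd, if_true, if_false] at h2 ⊢
  all_goals linear_combination -(1 / 2) * h2

lemma a1a_g_sym (i : Fin 9) (a b : Fin 16) : S.g i a b = S.g i b a := by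
  have := congrArg (fun M => M b a) (S.g_symm i)
  exact this

lemma a1a_K (h : U.F10Stmt S) (a b : Fin 16) (l : Fin 9) (c d : Fin 16) :
    S.a1aK a b l c d + S.a1aK a b l d c =
      2 * (if a = b then S.g l c d else 0) - 2 * (S.g l a b * (if c = d then 1 else 0)) := by
  have hK : ∀ c d, S.a1aK a b l c d =
      (if a = b then S.g l c d else 0) + (if b = c then S.g l a d else 0) +
        (if c = a then S.g l b d else 0) - ∑ j, S.g j a b * (S.g j * S.g l) c d -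
        (if b = d then S.g l a c else 0) - (if a = d then S.g l b c else 0) := by
    intro c d
    have e1 : S.a1aK a b l c d = (∑ e, (∑ j, (S.g j a c * S.g j b e + S.g j b c * S.g j a e)) *
        S.g l e d) - (if b = d then S.g l a c else 0) - (if a = d then S.g l b c else 0) := by
      unfold a1aK
      simp only [a1a_g2_apply, mul_sub, Finset.sum_add_distrib, Finset.sum_sub_distrib]
      have e2 : ∀ (p q : Fin 16), ∑ j, S.g j p c * (if j = l then (if q = d then (1 : ℂ) else 0)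
          else 0) = (if q = d then S.g l p c else 0) := by
        intro p q
        rw [Finset.sum_eq_single l]
        · by_cases hq : q = d <;> simp [hq]
        · intro j _ hj; simp [hj]
        · intro hh; exact absurd (Finset.mem_univ _) hh
      rw [e2 a b, e2 b a]
      have e3 : ∀ p q : Fin 16, ∑ j, S.g j p c * ∑ e, S.g j q e * S.g l e d =
          ∑ e, (∑ j, S.g j p c * S.g j q e) * S.g l e d := by
        intro p q
        simp only [Finset.mul_sum, Finset.sum_mul]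
        rw [Finset.sum_comm]
        refine Finset.sum_congr rfl fun e _ => Finset.sum_congr rfl fun j _ => ?_
        ring
      rw [e3, e3]
      simp only [add_mul, Finset.sum_add_distrib]
      ring
    rw [e1]
    have e4 : ∀ e, ∑ j, (S.g j a c * S.g j b e + S.g j b c * S.g j a e) =
        (if a = b ∧ c = e then 1 else 0) + (if b = c ∧ a = e then 1 else 0) +
          (if c = a ∧ b = e then 1 else 0) - ∑ j, S.g j a b * S.g j c e := by
      intro e
      have h5 := h a b c e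
      rw [← h5, ← Finset.sum_sub_distrib]
      refine Finset.sum_congr rfl fun j _ => ?_
      rw [S.a1a_g_sym j c a]
      ring
    simp only [e4, sub_mul, add_mul, Finset.sum_sub_distrib, Finset.sum_add_distrib]
    have e5 : ∀ (p : Prop) [Decidable p] (q : Fin 16), ∑ e, (if p ∧ q = e then (1 : ℂ) else 0) *
        S.g l e d = (if p then S.g l q d else 0) := by
      intro p _ q
      by_cases hp : p <;> simp [hp]
    have e6 : ∑ e, (∑ j, S.g j a b * S.g j c e) * S.g l e d =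
        ∑ j, S.g j a b * (S.g j * S.g l) c d := by
      simp only [Matrix.mul_apply, Finset.mul_sum, Finset.sum_mul]
      rw [Finset.sum_comm]
      refine Finset.sum_congr rfl fun e _ => Finset.sum_congr rfl fun j _ => ?_
      ring
    rw [e5, e5, e5, e6]
  rw [hK, hK]
  have e7 : ∑ j, S.g j a b * (S.g j * S.g l) c d + ∑ j, S.g j a b * (S.g j * S.g l) d c =
      2 * (S.g l a b * (if c = d then 1 else 0)) := by
    rw [← Finset.sum_add_distrib]
    have e8 : ∀ j, S.g j a b * (S.g j * S.g l) c d + S.g j a b * (S.g j * S.g l) d c =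
        if j = l then S.g j a b * (if c = d then 2 else 0) else 0 := by
      intro j
      have e9 : (S.g j * S.g l) d c = (S.g l * S.g j) c d := by
        have : (S.g j * S.g l) d c = ((S.g j * S.g l)ᵀ) c d := rfl
        rw [this, Matrix.transpose_mul, S.g_symm, S.g_symm]
      rw [e9, ← mul_add, a1a_g_anti_apply]
      by_cases hj : j = l <;> simp [hj]
    simp only [e8]
    rw [Finset.sum_ite_eq']
    by_cases hcd : c = d <;> simp [hcd]
    ring
  rw [S.a1a_g_sym l d c]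
  have s1 : (if d = a then S.g l b c else 0) = (if a = d then S.g l b c else 0) := by
    simp only [eq_comm]
  have s2 : (if c = a then S.g l b d else 0) = (if a = c then S.g l b d else 0) := by
    simp only [eq_comm]
  rw [s1, s2]
  linear_combination -e7

/-- the zero order part coming from `∂W` -/
lemma a1a_ferm_aux (h : U.F10Stmt S) (a b : Fin 16) (l : Fin 9) (D : Fin 3) :
    ∑ A, ∑ B, (eps A B D : ℂ) • ∑ j, (S.vec (S.g j) B a * S.vec (S.g2 j l) A b +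
      S.vec (S.g j) B b * S.vec (S.g2 j l) A a) =
    ∑ A, ∑ B, (eps A B D : ℂ) • ((if a = b then S.bil (S.g l) B A else 0) -
      S.g l a b • S.bil 1 B A) := by
  have e1 : ∀ A B, ∑ j, (S.vec (S.g j) B a * S.vec (S.g2 j l) A b +
      S.vec (S.g j) B b * S.vec (S.g2 j l) A a) =
      ∑ c, ∑ d, S.a1aK a b l c d • (S.th c B * S.th d A) := by
    intro A B
    have e2 : ∀ p q : Fin 16, ∀ j, S.vec (S.g j) B p * S.vec (S.g2 j l) A q =
        ∑ c, ∑ d, (S.g j p c * S.g2 j l q d) • (S.th c B * S.th d A) := by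
      intro p q j
      simp only [CS.vec, Finset.sum_mul_sum, smul_mul_smul_comm]
    simp only [e2, ← Finset.sum_add_distrib, ← add_smul]
    unfold a1aK
    rw [Finset.sum_comm]
    refine Finset.sum_congr rfl fun c _ => ?_
    rw [Finset.sum_comm]
    refine Finset.sum_congr rfl fun d _ => ?_
    rw [← Finset.sum_smul]
  simp only [e1]
  have e3 : ∑ A, ∑ B, (eps A B D : ℂ) • ∑ c, ∑ d, S.a1aK a b l c d • (S.th c B * S.th d A) =
      ∑ A, ∑ B, (eps A B D : ℂ) • ∑ c, ∑ d, S.a1aK a b l d c • (S.th c B * S.th d A) := by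
    rw [Finset.sum_comm]
    refine Finset.sum_congr rfl fun A _ => Finset.sum_congr rfl fun B _ => ?_
    by_cases hAB : A = B
    · subst hAB
      have : eps A A D = 0 := by revert A D; decide
      rw [this]
      simp
    · have h1 : eps B A D = -eps A B D := by revert A B D; decide
      have h2 : ∑ c, ∑ d, S.a1aK a b l c d • (S.th c A * S.th d B) =
          -∑ c, ∑ d, S.a1aK a b l d c • (S.th c B * S.th d A) := by
        rw [Finset.sum_comm, ← Finset.sum_neg_distrib]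
        refine Finset.sum_congr rfl fun c _ => ?_
        rw [← Finset.sum_neg_distrib]
        refine Finset.sum_congr rfl fun d _ => ?_
        have h3 := S.th_anti d A c B
        rw [if_neg (fun hh => hAB hh.2)] at h3
        rw [eq_neg_of_add_eq_zero_left h3, smul_neg]
      rw [h1, h2]
      push_cast
      simp only [neg_smul, smul_neg, neg_neg]
  have e4 : (2 : ℂ) • ∑ A, ∑ B, (eps A B D : ℂ) • ∑ c, ∑ d, S.a1aK a b l c d •
      (S.th c B * S.th d A) = (2 : ℂ) • ∑ A, ∑ B, (eps A B D : ℂ) •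
      ((if a = b then S.bil (S.g l) B A else 0) - S.g l a b • S.bil 1 B A) := by
    rw [two_smul]
    nth_rewrite 2 [e3]
    simp only [← Finset.sum_add_distrib, ← smul_add, ← add_smul, S.a1a_K h, Finset.smul_sum]
    refine Finset.sum_congr rfl fun A _ => Finset.sum_congr rfl fun B _ => ?_
    rw [smul_comm (2 : ℂ)]
    simp only [← Finset.smul_sum (r := (eps A B D : ℂ))]
    congr 1
    have e5 : S.bil 1 B A = ∑ c, ∑ d, (if c = d then (1 : ℂ) else 0) • (S.th c B * S.th d A) := by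
      rw [a1a_bil]
      rfl
    have e6 : (if a = b then S.bil (S.g l) B A else 0) = ∑ c, ∑ d,
        (if a = b then S.g l c d else 0) • (S.th c B * S.th d A) := by
      by_cases hab : a = b
      · simp only [hab, if_true, a1a_bil]
      · simp [hab]
    rw [e5, e6, Finset.smul_sum, ← Finset.sum_sub_distrib, Finset.smul_sum]
    refine Finset.sum_congr rfl fun c _ => ?_
    rw [Finset.smul_sum, ← Finset.sum_sub_distrib, Finset.smul_sum]
    refine Finset.sum_congr rfl fun d _ => ?_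
    rw [sub_smul, smul_sub, smul_smul, smul_smul, smul_smul, mul_assoc]
  have e7 := congrArg (fun w => (1 / 2 : ℂ) • w) e4
  simp only [smul_smul] at e7
  norm_num at e7
  exact e7

lemma a1a_ferm1 (a b : Fin 16) (x : X3) :
    ∑ j, ∑ B, (S.vec (S.g j) B a *
        (fderiv ℝ (S.W b) x (EuclideanSpace.single (j, B) (1 : ℝ))) + S.vec (S.g j) B b *
        (fderiv ℝ (S.W a) x (EuclideanSpace.single (j, B) (1 : ℝ)))) =
      (S.κ : ℂ) • ∑ l, ∑ D, (x (l, D) : ℂ) • ∑ A, ∑ B, (eps A B D : ℂ) •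
        ∑ j, (S.vec (S.g j) B a * S.vec (S.g2 j l) A b +
          S.vec (S.g j) B b * S.vec (S.g2 j l) A a) := by
  have e2 : ∀ j B, (S.vec (S.g j) B a *
      (fderiv ℝ (S.W b) x (EuclideanSpace.single (j, B) (1 : ℝ))) + S.vec (S.g j) B b *
      (fderiv ℝ (S.W a) x (EuclideanSpace.single (j, B) (1 : ℝ)))) =
      (S.κ : ℂ) • ∑ A, ∑ l, ∑ D, (x (l, D) : ℂ) • (eps A B D : ℂ) •
        (S.vec (S.g j) B a * S.vec (S.g2 j l) A b +
        S.vec (S.g j) B b * S.vec (S.g2 j l) A a) := by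
    intro j B
    rw [fderiv_W, fderiv_W, mul_smul_comm, mul_smul_comm, ← smul_add]
    congr 1
    simp only [Finset.mul_sum, mul_smul_comm, ← Finset.sum_add_distrib, ← smul_add, smul_smul]
    refine Finset.sum_congr rfl fun A _ => Finset.sum_congr rfl fun l _ =>
      Finset.sum_congr rfl fun D _ => ?_
    rw [mul_comm]
  simp only [e2, ← Finset.smul_sum (r := (S.κ : ℂ))]
  congr 1
  generalize hf : (fun (j : Fin 9) (B A : Fin 3) (l : Fin 9) (D : Fin 3) =>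
    (S.vec (S.g j) B a * S.vec (S.g2 j l) A b + S.vec (S.g j) B b * S.vec (S.g2 j l) A a)) = f
  calc _ = ∑ j, ∑ B, ∑ A, ∑ l, ∑ D, (x (l, D) : ℂ) • (eps A B D : ℂ) • f j B A l D := by
        simp only [← hf]
    _ = ∑ j, ∑ B, ∑ l, ∑ A, ∑ D, (x (l, D) : ℂ) • (eps A B D : ℂ) • f j B A l D :=
        Finset.sum_congr rfl fun j _ => Finset.sum_congr rfl fun B _ => Finset.sum_comm
    _ = ∑ j, ∑ l, ∑ B, ∑ A, ∑ D, (x (l, D) : ℂ) • (eps A B D : ℂ) • f j B A l D :=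
        Finset.sum_congr rfl fun j _ => Finset.sum_comm
    _ = ∑ l, ∑ j, ∑ B, ∑ A, ∑ D, (x (l, D) : ℂ) • (eps A B D : ℂ) • f j B A l D :=
        Finset.sum_comm
    _ = ∑ l, ∑ j, ∑ D, ∑ A, ∑ B, (x (l, D) : ℂ) • (eps A B D : ℂ) • f j B A l D := by
        refine Finset.sum_congr rfl fun l _ => Finset.sum_congr rfl fun j _ => ?_
        rw [Finset.sum_comm]
        rw [Finset.sum_congr rfl fun A _ => Finset.sum_comm]
        rw [Finset.sum_comm]
    _ = ∑ l, ∑ D, ∑ j, ∑ A, ∑ B, (x (l, D) : ℂ) • (eps A B D : ℂ) • f j B A l D :=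
        Finset.sum_congr rfl fun l _ => Finset.sum_comm
    _ = ∑ l, ∑ D, ∑ A, ∑ j, ∑ B, (x (l, D) : ℂ) • (eps A B D : ℂ) • f j B A l D :=
        Finset.sum_congr rfl fun l _ => Finset.sum_congr rfl fun D _ => Finset.sum_comm
    _ = ∑ l, ∑ D, ∑ A, ∑ B, ∑ j, (x (l, D) : ℂ) • (eps A B D : ℂ) • f j B A l D :=
        Finset.sum_congr rfl fun l _ => Finset.sum_congr rfl fun D _ =>
          Finset.sum_congr rfl fun A _ => Finset.sum_comm
    _ = _ := by
        simp only [← hf, Finset.smul_sum]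

lemma a1a_ferm2 (a b : Fin 16) (x : X3) (l : Fin 9) (D : Fin 3) :
    (x (l, D) : ℂ) • ∑ A, ∑ B, (eps A B D : ℂ) •
      ((if a = b then S.bil (S.g l) B A else 0) - S.g l a b • S.bil 1 B A) =
      (if a = b then -∑ A, ∑ B, ((eps A B D : ℂ) * (x (l, D) : ℂ)) •
        S.bil (S.g l) A B else 0) + (S.g l a b * (x (l, D) : ℂ)) •
          ∑ A, ∑ B, (eps D A B : ℂ) • S.bil 1 A B := by
  have hs2 : ∀ A B : Fin 3, (eps A B D : ℂ) = (eps D A B : ℂ) := by
    intro A B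
    have : eps A B D = eps D A B := by revert A B D; decide
    rw [this]
  have hs : ∀ A B : Fin 3, (eps A B D : ℂ) = -(eps B A D : ℂ) := by
    intro A B
    have : eps A B D = -eps B A D := by clear hs2; revert A B D; decide
    rw [this]
    push_cast
    ring
  rw [Finset.sum_comm]
  simp only [Finset.smul_sum]
  have t : ∀ A B : Fin 3, (x (l, D) : ℂ) • (eps A B D : ℂ) •
      ((if a = b then S.bil (S.g l) B A else 0) - S.g l a b • S.bil 1 B A) =
      -(if a = b then ((eps B A D : ℂ) * (x (l, D) : ℂ)) • S.bil (S.g l) B A else 0) +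
        (S.g l a b * (x (l, D) : ℂ)) • (eps D B A : ℂ) • S.bil 1 B A := by
    intro A B
    rw [hs A B, hs2 B A]
    by_cases hab : a = b
    · simp only [hab, if_true]
      module
    · simp only [hab, if_false]
      module
  simp only [t, Finset.sum_add_distrib]
  congr 1
  by_cases hab : a = b
  · simp only [hab, if_true, Finset.sum_neg_distrib]
  · simp [hab]

/-- the zero order part coming from `∂W` -/
lemma a1a_ferm (h : U.F10Stmt S) (a b : Fin 16) (x : X3) :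
    (-Complex.I) • ∑ j, ∑ B, (S.vec (S.g j) B a *
        (fderiv ℝ (S.W b) x (EuclideanSpace.single (j, B) (1 : ℝ))) + S.vec (S.g j) B b *
        (fderiv ℝ (S.W a) x (EuclideanSpace.single (j, B) (1 : ℝ)))) =
      (if a = b then (2 : ℂ) • S.Fx x else 0) +
        (2 * S.κ : ℂ) • ∑ l, ∑ D, (S.g l a b * (x (l, D) : ℂ)) • S.cS D := by
  rw [S.a1a_ferm1]
  simp only [S.a1a_ferm_aux h]
  simp only [S.a1a_ferm2]
  simp only [Finset.sum_add_distrib]
  rw [smul_add, smul_add]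
  congr 1
  · by_cases hab : a = b
    · simp only [hab, if_true, Fx, Finset.sum_neg_distrib, smul_neg, smul_smul, ← neg_smul]
      have e : ∑ l, ∑ D, ∑ A, ∑ B, ((eps A B D : ℂ) * (x (l, D) : ℂ)) • S.bil (S.g l) A B =
          ∑ q, ∑ A, ∑ B, ∑ C, ((eps A B C : ℂ) * (x (q, C) : ℂ)) • S.bil (S.g q) A B := by
        refine Finset.sum_congr rfl fun l _ => ?_
        rw [Finset.sum_comm]
        refine Finset.sum_congr rfl fun A _ => ?_
        rw [Finset.sum_comm]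
      rw [e]
      congr 1
      ring
    · simp [hab]
  · simp only [cS, smul_smul, Finset.smul_sum]
    refine Finset.sum_congr rfl fun l _ => Finset.sum_congr rfl fun D _ =>
      Finset.sum_congr rfl fun A _ => Finset.sum_congr rfl fun B _ => ?_
    congr 1
    ring

lemma a1a_first_sum (a b : Fin 16) (x : X3) (p : Fin 9 → Fin 3 → F) :
    (-Complex.I) • ∑ j, ∑ B, (-(2 : ℂ) * ∑ l, ((S.FF B j l x : ℝ) : ℂ) * S.g l a b) • p j B =
      (2 * S.κ : ℂ) • ∑ l, ∑ D, (S.g l a b * (x (l, D) : ℂ)) •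
        ((-Complex.I) • ∑ i, ∑ A, ∑ B, ((eps D A B : ℂ) * (x (i, A) : ℂ)) • p i B) := by
  have hs2 : ∀ A B D : Fin 3, (eps B A D : ℂ) = -(eps D A B : ℂ) := by
    intro A B D
    have : eps B A D = -eps D A B := by revert A B D; decide
    rw [this]
    push_cast
    ring
  have e1 : ∀ j B, (-(2 : ℂ) * ∑ l, ((S.FF B j l x : ℝ) : ℂ) * S.g l a b) • p j B =
      ∑ l, ∑ D, ∑ A, ((2 * S.κ : ℂ) * (S.g l a b * (x (l, D) : ℂ)) *
        ((eps D A B : ℂ) * (x (j, A) : ℂ))) • p j B := by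
    intro j B
    simp only [← Finset.sum_smul]
    congr 1
    rw [Finset.mul_sum]
    refine Finset.sum_congr rfl fun l _ => ?_
    unfold FF
    push_cast
    rw [Finset.sum_comm, Finset.mul_sum, Finset.sum_mul, Finset.mul_sum]
    refine Finset.sum_congr rfl fun D _ => ?_
    rw [Finset.mul_sum, Finset.sum_mul, Finset.mul_sum]
    refine Finset.sum_congr rfl fun A _ => ?_
    rw [hs2 A B D]
    ring
  simp only [e1]
  generalize hf : (fun (j : Fin 9) (B : Fin 3) (l : Fin 9) (D A : Fin 3) =>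
    ((2 * S.κ : ℂ) * (S.g l a b * (x (l, D) : ℂ)) * ((eps D A B : ℂ) * (x (j, A) : ℂ))) •
      p j B) = f
  have hr : (2 * S.κ : ℂ) • ∑ l, ∑ D, (S.g l a b * (x (l, D) : ℂ)) •
        ((-Complex.I) • ∑ i, ∑ A, ∑ B, ((eps D A B : ℂ) * (x (i, A) : ℂ)) • p i B) =
      (-Complex.I) • ∑ l, ∑ D, ∑ i, ∑ A, ∑ B, f i B l D A := by
    simp only [← hf, Finset.smul_sum, smul_smul]
    refine Finset.sum_congr rfl fun l _ => Finset.sum_congr rfl fun D _ =>
      Finset.sum_congr rfl fun i _ => Finset.sum_congr rfl fun A _ =>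
      Finset.sum_congr rfl fun B _ => ?_
    congr 1
    ring
  rw [hr]
  congr 1
  calc _ = ∑ j, ∑ B, ∑ l, ∑ D, ∑ A, f j B l D A := by simp only [← hf]
    _ = ∑ j, ∑ l, ∑ B, ∑ D, ∑ A, f j B l D A :=
        Finset.sum_congr rfl fun j _ => Finset.sum_comm
    _ = ∑ l, ∑ j, ∑ B, ∑ D, ∑ A, f j B l D A := Finset.sum_comm
    _ = ∑ l, ∑ j, ∑ D, ∑ B, ∑ A, f j B l D A :=
        Finset.sum_congr rfl fun l _ => Finset.sum_congr rfl fun j _ => Finset.sum_comm
    _ = ∑ l, ∑ D, ∑ j, ∑ B, ∑ A, f j B l D A :=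
        Finset.sum_congr rfl fun l _ => Finset.sum_comm
    _ = ∑ l, ∑ D, ∑ j, ∑ A, ∑ B, f j B l D A :=
        Finset.sum_congr rfl fun l _ => Finset.sum_congr rfl fun D _ =>
          Finset.sum_congr rfl fun j _ => Finset.sum_comm

lemma a1a_arrange {M : Type*} [AddCommGroup M] {X1 X2 T1 T2 P1 P2 Z1 Z2 X Fp Cp V P : M}
    (hX : X1 + X2 = X) (hT : T1 + T2 = Fp + Cp) (hP : P1 + P2 = P) (hZ : Z1 + Z2 = V) :
    -X1 + T1 + P1 + Z1 + (-X2 + T2 + P2 + Z2) = -X + Fp + V + (P + Cp) := by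
  have h : Fp = T1 + T2 - Cp := by rw [hT]; abel
  rw [h, ← hX, ← hP, ← hZ]
  abel

/-- **A1a** the anticommutator of the undeformed supercharges -/
theorem a1a (h : U.F10Stmt S) : U.A1aStmt S := by
  intro a b u hu x
  rw [S.a1a_expand a b hu, S.a1a_expand b a hu]
  have hsec := S.a1a_second a b (fun j B i A => pd j B (pd i A u) x)
    (fun i A j B => pd_comm hu i j A B x)
  have hferm := congrArg (fun T : F →L[ℂ] F => T (u x)) (S.a1a_ferm h a b x)
  have hzero := congrArg (fun T : F →L[ℂ] F => T (u x)) (S.a1a_zero a b x)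
  have hfirst : (-Complex.I) • ∑ j, ∑ B, (S.vec (S.g j) B a * S.W b x +
        S.W a x * S.vec (S.g j) B b) (pd j B u x) +
      (-Complex.I) • ∑ j, ∑ B, (S.vec (S.g j) B b * S.W a x +
        S.W b x * S.vec (S.g j) B a) (pd j B u x) =
      (2 * S.κ : ℂ) • ∑ l, ∑ D, (S.g l a b * (x (l, D) : ℂ)) •
        ((-Complex.I) • ∑ i, ∑ A, ∑ B, ((eps D A B : ℂ) * (x (i, A) : ℂ)) • pd i B u x) := by
    rw [← smul_add]
    simp only [← Finset.sum_add_distrib, ← _root_.add_apply]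
    have f1 : ∀ j B, (S.vec (S.g j) B a * S.W b x + S.W a x * S.vec (S.g j) B b +
        (S.vec (S.g j) B b * S.W a x + S.W b x * S.vec (S.g j) B a)) (pd j B u x) =
        (-(2 : ℂ) * ∑ l, ((S.FF B j l x : ℝ) : ℂ) * S.g l a b) • pd j B u x := by
      intro j B
      have f2 := congrArg (fun T : F →L[ℂ] F => T (pd j B u x)) (S.a1a_first a b j B x)
      simp only [_root_.add_apply, _root_.smul_apply] at f2 ⊢
      rw [one_apply_eq_self] at f2
      rw [← f2]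
      abel
    simp only [f1]
    exact S.a1a_first_sum a b x (fun j B => pd j B u x)
  have hT : ((-Complex.I) • ∑ j, ∑ B, S.vec (S.g j) B a *
        (fderiv ℝ (S.W b) x (EuclideanSpace.single (j, B) (1 : ℝ)))) (u x) +
      ((-Complex.I) • ∑ j, ∑ B, S.vec (S.g j) B b *
        (fderiv ℝ (S.W a) x (EuclideanSpace.single (j, B) (1 : ℝ)))) (u x) =
      (if a = b then (2 : ℂ) • S.Fx x (u x) else 0) +
        (2 * S.κ : ℂ) • ∑ l, ∑ D, (S.g l a b * (x (l, D) : ℂ)) • S.cS D (u x) := by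
    rw [← _root_.add_apply, ← smul_add]
    simp only [← Finset.sum_add_distrib]
    refine hferm.trans ?_
    simp only [_root_.add_apply, _root_.smul_apply, _root_.sum_apply]
    congr 1
    by_cases hab : a = b <;> simp [hab]
  have hZ : (S.W a x * S.W b x) (u x) + (S.W b x * S.W a x) (u x) =
      if a = b then ((2 * S.V x : ℝ) : ℂ) • u x else 0 := by
    rw [← _root_.add_apply]
    refine hzero.trans ?_
    by_cases hab : a = b <;> simp [hab]
  have hG : (2 * S.κ : ℂ) • ∑ j, ∑ C, (S.g j a b * (x (j, C) : ℂ)) • S.G C u x =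
      (2 * S.κ : ℂ) • ∑ l, ∑ D, (S.g l a b * (x (l, D) : ℂ)) •
        ((-Complex.I) • ∑ i, ∑ A, ∑ B, ((eps D A B : ℂ) * (x (i, A) : ℂ)) • pd i B u x) +
      (2 * S.κ : ℂ) • ∑ l, ∑ D, (S.g l a b * (x (l, D) : ℂ)) • S.cS D (u x) := by
    rw [← smul_add]
    simp only [← Finset.sum_add_distrib, ← smul_add]
    rfl
  have hH : (if a = b then (2 : ℂ) • S.Hm 0 u x else 0) =
      -(if a = b then ∑ i, ∑ A, pd i A (pd i A u) x else 0) +
      (if a = b then (2 : ℂ) • S.Fx x (u x) else 0) +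
      (if a = b then ((2 * S.V x : ℝ) : ℂ) • u x else 0) := by
    by_cases hab : a = b
    · simp only [hab, if_true]
      have hV : S.Vm 0 x = S.V x := by simp [Vm]
      rw [Hm, hV]
      push_cast
      simp only [mul_zero, zero_smul, sub_zero, smul_add, smul_smul]
      module
    · simp [hab]
  rw [hG, hH]
  exact a1a_arrange hsec hT hfirst hZ

end Setup
end Vale.Agent.P353
end

section

/-! # P353, uniqueness: the main pointwise estimate, part A (product formula and homogeneity) -/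

open MeasureTheory Filter Topology
open scoped ContDiff

namespace Vale.Agent.P353.U

variable {F : Type*} [NormedAddCommGroup F] [InnerProductSpace ℂ F]

namespace EstP

/-! ### the outer weight -/

lemma diff_norm {x : X3} (hx : x ≠ 0) : DifferentiableAt ℝ (fun y : X3 => ‖y‖) x :=
  (contDiffAt_norm ℝ (n := 1) hx).differentiableAt (by simp)

lemma pdr_norm {x : X3} (hx : x ≠ 0) (i : Fin 9) (A : Fin 3) :
    pdr i A (fun y => ‖y‖) x = x (i, A) / ‖x‖ := by
  have h := pdr_mul i A (diff_norm hx) (diff_norm hx)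
  have e : (fun y : X3 => ‖y‖ * ‖y‖) = e1 := by funext y; rw [e1_eq, sq]
  rw [e, pdr_e1] at h
  have h0 : ‖x‖ ≠ 0 := norm_ne_zero_iff.2 hx
  rw [eq_div_iff h0]
  linarith

lemma line_deriv {φ : X3 → ℝ} {x : X3} (hφ : DifferentiableAt ℝ φ x) (i : Fin 9) (A : Fin 3) :
    HasDerivAt (fun t : ℝ => φ (x + t • EuclideanSpace.single (i, A) (1 : ℝ))) (pdr i A φ x) 0 := by
  have h1 : HasDerivAt (fun t : ℝ => x + t • (EuclideanSpace.single (i, A) (1 : ℝ) : X3))
      (EuclideanSpace.single (i, A) (1 : ℝ)) 0 := by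
    have := ((hasDerivAt_id (0 : ℝ)).smul_const
      (EuclideanSpace.single (i, A) (1 : ℝ) : X3)).const_add x
    simpa using this
  have h2 : HasFDerivAt φ (fderiv ℝ φ x) (x + (0 : ℝ) • (EuclideanSpace.single (i, A) (1 : ℝ) : X3)) := by
    rw [zero_smul, add_zero]; exact hφ.hasFDerivAt
  exact h2.comp_hasDerivAt (0 : ℝ) h1

/-- the quadratic form `∑ a_i |x_i|²` -/
noncomputable def qa (x : X3) : ℝ := ∑ i : Fin 9, ∑ A : Fin 3, aw i * x (i, A) ^ 2

lemma contDiff_qa : ContDiff ℝ ∞ qa := by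
  unfold qa
  exact ContDiff.sum fun i _ => ContDiff.sum fun A _ =>
    contDiff_const.mul ((Setup.contDiff_coord _).pow 2)

lemma hasFDerivAt_qa (x : X3) : HasFDerivAt qa
    (∑ i, ∑ A, (aw i * (2 * x (i, A))) • (EuclideanSpace.proj (𝕜 := ℝ) (i, A) : X3 →L[ℝ] ℝ)) x := by
  unfold qa
  refine HasFDerivAt.fun_sum fun i _ => HasFDerivAt.fun_sum fun A _ => ?_
  have h := ((Setup.hasFDerivAt_coord (i, A) x).pow 2).const_mul (aw i)
  simpa [smul_smul] using h

lemma pdr_qa (j : Fin 9) (B : Fin 3) (x : X3) : pdr j B qa x = 2 * (aw j * x (j, B)) := by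
  unfold pdr
  rw [(hasFDerivAt_qa x).fderiv]
  simp only [_root_.sum_apply, _root_.smul_apply, PiLp.proj_apply, PiLp.single_apply,
    Prod.mk.injEq, smul_eq_mul, mul_ite, mul_one, mul_zero]
  rw [Finset.sum_eq_single j, Finset.sum_eq_single B]
  · simp; ring
  · intro A _ hA; simp [hA]
  · intro h; exact absurd (Finset.mem_univ _) h
  · intro i _ hi
    refine Finset.sum_eq_zero fun A _ => ?_
    simp [hi]
  · intro h; exact absurd (Finset.mem_univ _) h

variable (S : Setup F)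

lemma ph_eq (m : ℝ) : S.ph m = fun x =>
    ‖x‖ ^ 3 * Real.exp (-(S.V x / (S.κ * ‖x‖)) - m / 2 * qa x) := rfl

lemma diff_V (x : X3) : DifferentiableAt ℝ S.V x := (contDiff_V S).differentiable (by simp) x

lemma diff_qa (x : X3) : DifferentiableAt ℝ qa x := contDiff_qa.differentiable (by simp) x

lemma diff_ph (m : ℝ) {x : X3} (hx : x ≠ 0) : DifferentiableAt ℝ (S.ph m) x := by
  rw [ph_eq]
  have h0 : S.κ * ‖x‖ ≠ 0 := mul_ne_zero S.κ_pos.ne' (norm_ne_zero_iff.2 hx)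
  have h1 : DifferentiableAt ℝ (fun y : X3 => S.V y / (S.κ * ‖y‖)) x := by
    have := (diff_V S x).mul (((diff_norm hx).const_mul S.κ).fun_inv h0)
    exact this
  exact ((diff_norm hx).pow 3).mul ((h1.neg.sub ((diff_qa x).const_mul _)).exp)

lemma pdr_ph (m : ℝ) {x : X3} (hx : x ≠ 0) (i : Fin 9) (A : Fin 3) :
    pdr i A (S.ph m) x = S.ph m x * (3 * x (i, A) / ‖x‖ ^ 2 - (pdr i A S.V x / (S.κ * ‖x‖) -
      S.V x * x (i, A) / (S.κ * ‖x‖ ^ 3)) - m * (aw i * x (i, A))) := by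
  have hn : ‖x‖ ≠ 0 := norm_ne_zero_iff.2 hx
  have hk : S.κ ≠ 0 := S.κ_pos.ne'
  have h1 := line_deriv (diff_norm hx) i A
  have h2 := line_deriv (diff_V S x) i A
  have h3 := line_deriv (diff_qa x) i A
  have h5 := line_deriv (diff_ph S m hx) i A
  have e0 : x + (0 : ℝ) • (EuclideanSpace.single (i, A) (1 : ℝ) : X3) = x := by
    rw [zero_smul, add_zero]
  have h0 : S.κ * ‖x + (0 : ℝ) • (EuclideanSpace.single (i, A) (1 : ℝ) : X3)‖ ≠ 0 := by
    rw [e0]; exact mul_ne_zero hk hn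
  have h4 := (h1.pow 3).mul (((h2.div (h1.const_mul S.κ) h0).neg.sub (h3.const_mul (m / 2))).exp)
  have h6 := h5.unique h4
  rw [h6]
  simp only [e0, Pi.pow_apply, Pi.neg_apply, Pi.sub_apply, Pi.div_apply]
  rw [pdr_norm hx, pdr_qa, ph_eq]
  field_simp
  ring

/-! ### the three parts of `Q^m(φv)/φ` -/

/-- the gradient of `V/(κρ)` -/
noncomputable def PP (x : X3) : X3 :=
  (S.κ * ‖x‖) • (x - xh x) - (S.V x / (S.κ * ‖x‖ ^ 3)) • x

lemma xh_apply (x : X3) (i : Fin 9) (A : Fin 3) :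
    xh x (i, A) = (∑ B, Gr x A B * x (i, B)) / ‖x‖ ^ 2 := rfl

lemma Gr_eq (x : X3) (A B : Fin 3) : Gr x A B = Sm A B x := rfl

lemma PP_apply {x : X3} (hx : x ≠ 0) (i : Fin 9) (A : Fin 3) : PP S x (i, A) =
    pdr i A S.V x / (S.κ * ‖x‖) - S.V x * x (i, A) / (S.κ * ‖x‖ ^ 3) := by
  have hn : ‖x‖ ≠ 0 := norm_ne_zero_iff.2 hx
  have hk : S.κ ≠ 0 := S.κ_pos.ne'
  rw [PP, PiLp.sub_apply, PiLp.smul_apply, PiLp.smul_apply, PiLp.sub_apply, xh_apply, pdr_V, e1_eq]
  simp only [smul_eq_mul, Gr_eq]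
  field_simp

/-- the part of degree `2` -/
noncomputable def E2 (Ω : F) (β : Fin 16) (x : X3) : F :=
  Complex.I • S.B β (PP S x) (S.vv Ω x) + S.W β x (S.vv Ω x)

/-- the part of degree `-1` -/
noncomputable def E1 (Ω : F) (β : Fin 16) (x : X3) : F :=
  (-Complex.I) • (∑ i, ∑ A, S.vec (S.g i) A β (pd i A (S.vv Ω) x)) -
    (((3 / ‖x‖ ^ 2 : ℝ) : ℂ) * Complex.I) • S.B β x (S.vv Ω x)

/-- the part of degree `1` -/
noncomputable def EM (Ω : F) (β : Fin 16) (x : X3) : F :=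
  S.MM β x (S.vv Ω x) +
    Complex.I • ∑ i, ∑ A, ((aw i * x (i, A) : ℝ) : ℂ) • S.vec (S.g i) A β (S.vv Ω x)

lemma Qm_ph (Ω : F) (m : ℝ) (β : Fin 16) {x : X3} (hx : x ≠ 0)
    (hv : DifferentiableAt ℝ (S.vv Ω) x) :
    S.Qm m β (fun y => ((S.ph m y : ℝ) : ℂ) • S.vv Ω y) x =
      ((S.ph m x : ℝ) : ℂ) • (E2 S Ω β x + E1 S Ω β x + (m : ℂ) • EM S Ω β x) := by
  rw [Setup.Qm, Q_smul S β (S.ph m) (S.vv Ω) x (diff_ph S m hx) hv, Setup.Q, E2, E1, EM]
  have h1 : ∀ i A, ((pdr i A (S.ph m) x : ℝ) : ℂ) • S.vec (S.g i) A β (S.vv Ω x) =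
      ((S.ph m x : ℝ) : ℂ) • (((3 / ‖x‖ ^ 2 : ℝ) : ℂ) • (((x (i, A) : ℝ) : ℂ) •
        S.vec (S.g i) A β (S.vv Ω x)) - ((PP S x (i, A) : ℝ) : ℂ) • S.vec (S.g i) A β (S.vv Ω x) -
        (m : ℂ) • (((aw i * x (i, A) : ℝ) : ℂ) • S.vec (S.g i) A β (S.vv Ω x))) := by
    intro i A
    rw [pdr_ph S m hx, PP_apply S hx]
    have e : S.ph m x * (3 * x (i, A) / ‖x‖ ^ 2 - (pdr i A S.V x / (S.κ * ‖x‖) -
      S.V x * x (i, A) / (S.κ * ‖x‖ ^ 3)) - m * (aw i * x (i, A))) =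
      S.ph m x * (3 / ‖x‖ ^ 2 * x (i, A) - (pdr i A S.V x / (S.κ * ‖x‖) -
      S.V x * x (i, A) / (S.κ * ‖x‖ ^ 3)) - m * (aw i * x (i, A))) := by ring
    rw [e]
    push_cast
    module
  simp only [h1, ← Finset.smul_sum, Finset.sum_sub_distrib]
  have hB : ∀ y : X3, S.B β y (S.vv Ω x) =
      ∑ i, ∑ A, ((y (i, A) : ℝ) : ℂ) • S.vec (S.g i) A β (S.vv Ω x) := by
    intro y
    simp only [Setup.B, _root_.sum_apply, _root_.smul_apply]
  rw [← hB, ← hB, map_smul]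
  module

/-! ### homogeneity -/

lemma xh_smul (t : ℝ) (ht : t ≠ 0) (x : X3) : xh (t • x) = t • xh x := by
  ext ⟨i, A⟩
  rw [xh_apply, PiLp.smul_apply, xh_apply, norm_smul]
  simp only [Gr, PiLp.smul_apply, smul_eq_mul, Real.norm_eq_abs, mul_pow, sq_abs]
  have e : ∀ B, (∑ i, t * x (i, A) * (t * x (i, B))) = t ^ 2 * ∑ i, x (i, A) * x (i, B) := by
    intro B
    rw [Finset.mul_sum]
    refine Finset.sum_congr rfl fun i _ => ?_
    ring
  simp only [e]
  have e2 : ∑ B, t ^ 2 * (∑ i, x (i, A) * x (i, B)) * (t * x (i, B)) =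
      t ^ 2 * (t * ∑ B, (∑ i, x (i, A) * x (i, B)) * x (i, B)) := by
    rw [Finset.mul_sum, Finset.mul_sum]
    refine Finset.sum_congr rfl fun B _ => ?_
    ring
  rw [e2, mul_div_mul_left _ _ (pow_ne_zero 2 ht), mul_div_assoc]

lemma PP_smul {t : ℝ} (ht : 0 < t) (x : X3) : PP S (t • x) = t ^ 2 • PP S x := by
  have hk : S.κ ≠ 0 := S.κ_pos.ne'
  by_cases hx : x = 0
  · subst hx; simp [PP, xh, Gr]
  have hn : ‖x‖ ≠ 0 := norm_ne_zero_iff.2 hx
  have e1 : S.κ * (t * ‖x‖) * t = t ^ 2 * (S.κ * ‖x‖) := by ring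
  have e2 : t ^ 4 * S.V x / (S.κ * (t * ‖x‖) ^ 3) * t = t ^ 2 * (S.V x / (S.κ * ‖x‖ ^ 3)) := by
    field_simp
  rw [PP, PP, xh_smul t ht.ne', S.V_smul, norm_smul, Real.norm_of_nonneg ht.le, ← smul_sub,
    smul_smul, smul_smul, e1, e2]
  module

lemma W_smul (t : ℝ) (β : Fin 16) (x : X3) : S.W β (t • x) = ((t ^ 2 : ℝ) : ℂ) • S.W β x := by
  simp only [Setup.W, S.FF_smul, Finset.smul_sum, smul_smul]
  refine Finset.sum_congr rfl fun A _ => Finset.sum_congr rfl fun i _ =>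
    Finset.sum_congr rfl fun j _ => ?_
  congr 1
  push_cast
  ring

lemma MM_smul (t : ℝ) (β : Fin 16) (x : X3) : S.MM β (t • x) = ((t : ℝ) : ℂ) • S.MM β x := by
  simp only [Setup.MM, PiLp.smul_apply, smul_eq_mul, Finset.smul_sum, smul_smul]
  refine Finset.sum_congr rfl fun A _ => Finset.sum_congr rfl fun i _ => ?_
  congr 1
  push_cast
  ring

lemma rho6sq_smul (t : ℝ) (x : X3) : rho6sq (t • x) = t ^ 2 * rho6sq x := by
  simp only [rho6sq, PiLp.smul_apply, smul_eq_mul, Finset.mul_sum]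
  refine Finset.sum_congr rfl fun i _ => Finset.sum_congr rfl fun A _ => ?_
  split_ifs <;> ring

variable {S}

lemma E2_smul {Ω : F} (hv : ∀ x, ∀ t : ℝ, 0 < t → S.vv Ω (t • x) = S.vv Ω x) (β : Fin 16) {t : ℝ}
    (ht : 0 < t) (x : X3) : E2 S Ω β (t • x) = ((t ^ 2 : ℝ) : ℂ) • E2 S Ω β x := by
  rw [E2, E2, hv x t ht, PP_smul S ht, W_smul, S.B_smul, _root_.smul_apply, smul_add,
    smul_comm Complex.I]

lemma EM_smul {Ω : F} (hv : ∀ x, ∀ t : ℝ, 0 < t → S.vv Ω (t • x) = S.vv Ω x) (β : Fin 16) {t : ℝ}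
    (ht : 0 < t) (x : X3) : EM S Ω β (t • x) = ((t : ℝ) : ℂ) • EM S Ω β x := by
  rw [EM, EM, hv x t ht, MM_smul, _root_.smul_apply, smul_add]
  congr 1
  simp only [Finset.smul_sum, smul_smul, PiLp.smul_apply, smul_eq_mul]
  refine Finset.sum_congr rfl fun i _ => Finset.sum_congr rfl fun A _ => ?_
  congr 1
  push_cast
  ring

lemma pd_smul_arg {u : X3 → F} (hv : ∀ x, ∀ t : ℝ, 0 < t → u (t • x) = u x)
    (i : Fin 9) (A : Fin 3) {t : ℝ} (ht : 0 < t) (x : X3) :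
    pd i A u (t • x) = ((t⁻¹ : ℝ) : ℂ) • pd i A u x := by
  have h1 : fderiv ℝ (fun y => u (t • y)) x = t • fderiv ℝ u (t • x) := by
    exact fderiv_comp_smul t
  have h2 : (fun y => u (t • y)) = u := funext fun y => hv y t ht
  rw [h2] at h1
  unfold pd
  rw [h1]
  simp only [_root_.smul_apply]
  rw [← Complex.coe_smul t, smul_smul]
  have : ((t⁻¹ : ℝ) : ℂ) * (t : ℂ) = 1 := by
    push_cast
    exact inv_mul_cancel₀ (by exact_mod_cast ht.ne')
  rw [this, one_smul]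

lemma E1_smul {Ω : F} (hv : ∀ x, ∀ t : ℝ, 0 < t → S.vv Ω (t • x) = S.vv Ω x) (β : Fin 16) {t : ℝ}
    (ht : 0 < t) (x : X3) : E1 S Ω β (t • x) = ((t⁻¹ : ℝ) : ℂ) • E1 S Ω β x := by
  rw [E1, E1, hv x t ht]
  simp only [pd_smul_arg hv _ _ ht, map_smul, ← Finset.smul_sum]
  have e : ((3 / (t * ‖x‖) ^ 2 : ℝ) : ℂ) * Complex.I * (t : ℂ) =
      ((t⁻¹ : ℝ) : ℂ) * (((3 / ‖x‖ ^ 2 : ℝ) : ℂ) * Complex.I) := by
    have : (3 / (t * ‖x‖) ^ 2 * t : ℝ) = t⁻¹ * (3 / ‖x‖ ^ 2) := by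
      by_cases hx : ‖x‖ = 0
      · simp [hx]
      field_simp
    calc ((3 / (t * ‖x‖) ^ 2 : ℝ) : ℂ) * Complex.I * (t : ℂ) =
        ((3 / (t * ‖x‖) ^ 2 * t : ℝ) : ℂ) * Complex.I := by push_cast; ring
      _ = _ := by rw [this]; push_cast; ring
  rw [S.B_smul, norm_smul, Real.norm_of_nonneg ht.le,
    smul_smul (((3 / (t * ‖x‖) ^ 2 : ℝ) : ℂ) * Complex.I), e]
  module

end EstP
end Vale.Agent.P353.U
end

section

/-! # P353, uniqueness: the main pointwise estimate, part B (expansion at the cone) -/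

open MeasureTheory Filter Topology
open scoped ContDiff

namespace Vale.Agent.P353.U

variable {F : Type*} [NormedAddCommGroup F] [InnerProductSpace ℂ F]

namespace EstP

/-! ### elementary bounds -/

lemma coord_le' (x : X3) (p : Fin 9 × Fin 3) : |x p| ≤ ‖x‖ := by
  have h := PiLp.norm_apply_le x p
  rwa [Real.norm_eq_abs] at h

lemma norm_le_of_coord {x : X3} {c : ℝ} (h : ∀ i A, |x (i, A)| ≤ c) : ‖x‖ ≤ 27 * c := by
  have hc : 0 ≤ c := (abs_nonneg _).trans (h 0 0)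
  have h1 : ‖x‖ ^ 2 ≤ (27 * c) ^ 2 := by
    rw [← e1_eq, e1]
    have h2 : ∑ i : Fin 9, ∑ A : Fin 3, x (i, A) ^ 2 ≤ ∑ i : Fin 9, ∑ A : Fin 3, c ^ 2 := by
      refine Finset.sum_le_sum fun i _ => Finset.sum_le_sum fun A _ => ?_
      rw [← sq_abs]
      exact pow_le_pow_left₀ (abs_nonneg _) (h i A) 2
    refine h2.trans ?_
    simp only [Finset.sum_const, Finset.card_univ, Fintype.card_fin, nsmul_eq_mul]
    push_cast
    nlinarith [sq_nonneg c]
  exact le_of_sq_le_sq h1 (by positivity)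

lemma Sm_le (A B : Fin 3) (z : X3) : |Sm A B z| ≤ ‖z‖ ^ 2 := by
  rw [← e1_eq]
  have h1 : ∀ C : Fin 3, ∑ i : Fin 9, z (i, C) ^ 2 ≤ e1 z := by
    intro C
    rw [e1]
    refine Finset.sum_le_sum fun i _ => ?_
    exact Finset.single_le_sum (f := fun A : Fin 3 => z (i, A) ^ 2) (fun A _ => sq_nonneg _)
      (Finset.mem_univ C)
  rw [abs_le]
  have hA := h1 A
  have hB := h1 B
  rw [Sm]
  constructor
  · have : 0 ≤ ∑ i : Fin 9, (z (i, A) + z (i, B)) ^ 2 := Finset.sum_nonneg fun i _ => sq_nonneg _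
    have e : ∑ i : Fin 9, (z (i, A) + z (i, B)) ^ 2 = ∑ i : Fin 9, z (i, A) ^ 2 +
        ∑ i : Fin 9, z (i, B) ^ 2 + 2 * ∑ i : Fin 9, z (i, A) * z (i, B) := by
      rw [Finset.mul_sum, ← Finset.sum_add_distrib, ← Finset.sum_add_distrib]
      exact Finset.sum_congr rfl fun i _ => by ring
    linarith
  · have : 0 ≤ ∑ i : Fin 9, (z (i, A) - z (i, B)) ^ 2 := Finset.sum_nonneg fun i _ => sq_nonneg _
    have e : ∑ i : Fin 9, (z (i, A) - z (i, B)) ^ 2 = ∑ i : Fin 9, z (i, A) ^ 2 +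
        ∑ i : Fin 9, z (i, B) ^ 2 - 2 * ∑ i : Fin 9, z (i, A) * z (i, B) := by
      rw [Finset.mul_sum, ← Finset.sum_add_distrib, ← Finset.sum_sub_distrib]
      exact Finset.sum_congr rfl fun i _ => by ring
    linarith

/-- `(zᵀz) z` -/
noncomputable def Zz (z : X3) : X3 := WithLp.toLp 2 fun p => ∑ B, Sm p.2 B z * z (p.1, B)

lemma Zz_apply (z : X3) (i : Fin 9) (A : Fin 3) : Zz z (i, A) = ∑ B, Sm A B z * z (i, B) := rfl

lemma Zz_le (z : X3) : ‖Zz z‖ ≤ 81 * ‖z‖ ^ 3 := by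
  have h : ‖Zz z‖ ≤ 27 * (3 * ‖z‖ ^ 3) := by
    refine norm_le_of_coord fun i A => ?_
    rw [Zz_apply]
    refine (Finset.abs_sum_le_sum_abs _ _).trans ?_
    have : ∀ B : Fin 3, |Sm A B z * z (i, B)| ≤ ‖z‖ ^ 3 := by
      intro B
      rw [abs_mul]
      calc |Sm A B z| * |z (i, B)| ≤ ‖z‖ ^ 2 * ‖z‖ :=
            mul_le_mul (Sm_le A B z) (coord_le' z _) (abs_nonneg _) (by positivity)
        _ = ‖z‖ ^ 3 := by ring
    calc ∑ B : Fin 3, |Sm A B z * z (i, B)| ≤ ∑ B : Fin 3, ‖z‖ ^ 3 :=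
          Finset.sum_le_sum fun B _ => this B
      _ = 3 * ‖z‖ ^ 3 := by simp
  linarith

/-- `∑_{AB} (zᵀz)_{AB}²` -/
noncomputable def qz (z : X3) : ℝ := ∑ A, ∑ B, Sm A B z ^ 2

lemma qz_nonneg (z : X3) : 0 ≤ qz z := by unfold qz; positivity

lemma qz_le (z : X3) : qz z ≤ 9 * ‖z‖ ^ 4 := by
  unfold qz
  have : ∀ A B : Fin 3, Sm A B z ^ 2 ≤ ‖z‖ ^ 4 := by
    intro A B
    rw [← sq_abs]
    calc |Sm A B z| ^ 2 ≤ (‖z‖ ^ 2) ^ 2 := pow_le_pow_left₀ (abs_nonneg _) (Sm_le A B z) 2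
      _ = _ := by ring
  calc ∑ A : Fin 3, ∑ B : Fin 3, Sm A B z ^ 2 ≤ ∑ A : Fin 3, ∑ B : Fin 3, ‖z‖ ^ 4 :=
        Finset.sum_le_sum fun A _ => Finset.sum_le_sum fun B _ => this A B
    _ = 9 * ‖z‖ ^ 4 := by simp; ring

/-! ### geometry at the cone -/

lemma cone_apply (n : Fin 3 → ℝ) (y : Fin 9 → ℝ) (i : Fin 9) (A : Fin 3) :
    cone n y (i, A) = y i * n A := rfl

lemma ry_sq (y : Fin 9 → ℝ) : ry y ^ 2 = ∑ i, y i ^ 2 :=
  Real.sq_sqrt (Finset.sum_nonneg fun _ _ => sq_nonneg _)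

lemma ry_nonneg (y : Fin 9 → ℝ) : 0 ≤ ry y := Real.sqrt_nonneg _

lemma norm_cone {n : Fin 3 → ℝ} {y : Fin 9 → ℝ} (hn : ∑ A, n A ^ 2 = 1) : ‖cone n y‖ = ry y := by
  have h : ‖cone n y‖ ^ 2 = ry y ^ 2 := by
    rw [← e1_eq, e1, ry_sq]
    refine Finset.sum_congr rfl fun i _ => ?_
    simp only [cone_apply, mul_pow, ← Finset.mul_sum, hn, mul_one]
  exact (sq_eq_sq₀ (norm_nonneg _) (ry_nonneg y)).1 h

section geo

variable {n : Fin 3 → ℝ} {y : Fin 9 → ℝ} {z : X3} (hn : ∑ A, n A ^ 2 = 1)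
  (zn : ∀ i, ∑ A, z (i, A) * n A = 0) (yz : ∀ A, ∑ i, y i * z (i, A) = 0)

include yz in
lemma Sm_add (A B : Fin 3) : Sm A B (cone n y + z) = ry y ^ 2 * (n A * n B) + Sm A B z := by
  simp only [Sm, PiLp.add_apply, cone_apply]
  have h : ∀ i, (y i * n A + z (i, A)) * (y i * n B + z (i, B)) =
      y i ^ 2 * (n A * n B) + z (i, A) * z (i, B) + n A * (y i * z (i, B)) +
        n B * (y i * z (i, A)) := fun i => by ring
  simp only [h, Finset.sum_add_distrib, ← Finset.mul_sum, ← Finset.sum_mul, yz, ry_sq]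
  ring

include hn yz in
lemma norm_sq_add : ‖cone n y + z‖ ^ 2 = ry y ^ 2 + ‖z‖ ^ 2 := by
  rw [← e1_eq, ← e1_eq, e1_eq_Sm, e1_eq_Sm]
  simp only [Sm_add yz, Finset.sum_add_distrib, ← Finset.mul_sum, ← sq, hn, mul_one]

include zn in
lemma Sm_n (A : Fin 3) : ∑ B, Sm A B z * n B = 0 := by
  simp only [Sm, Finset.sum_mul]
  rw [Finset.sum_comm]
  refine Finset.sum_eq_zero fun i _ => ?_
  have : ∀ B, z (i, A) * z (i, B) * n B = z (i, A) * (z (i, B) * n B) := fun B => by ring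
  simp only [this, ← Finset.mul_sum, zn, mul_zero]

include hn zn yz in
lemma xh_eq (h1 : ‖cone n y + z‖ = 1) :
    xh (cone n y + z) = cone n y + (Zz z - (‖z‖ ^ 2) • cone n y) := by
  have hr : ry y ^ 2 = 1 - ‖z‖ ^ 2 := by
    have := norm_sq_add hn yz
    rw [h1] at this; linarith
  ext ⟨i, A⟩
  rw [xh_apply, h1, one_pow, div_one]
  simp only [Gr_eq, Sm_add yz, PiLp.add_apply, PiLp.sub_apply, PiLp.smul_apply, smul_eq_mul,
    cone_apply, Zz_apply]
  have h : ∀ B, (ry y ^ 2 * (n A * n B) + Sm A B z) * (y i * n B + z (i, B)) =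
      ry y ^ 2 * n A * y i * n B ^ 2 + ry y ^ 2 * n A * (z (i, B) * n B) +
        y i * (Sm A B z * n B) + Sm A B z * z (i, B) := fun B => by ring
  simp only [h, Finset.sum_add_distrib, ← Finset.mul_sum, hn, zn, Sm_n zn]
  rw [hr]
  ring

include hn zn yz in
lemma V_at (S : Setup F) (h1 : ‖cone n y + z‖ = 1) :
    S.V (cone n y + z) = S.κ ^ 2 / 4 * (2 * ‖z‖ ^ 2 - ‖z‖ ^ 4 - qz z) := by
  have hr : ry y ^ 2 = 1 - ‖z‖ ^ 2 := by
    have := norm_sq_add hn yz
    rw [h1] at this; linarith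
  rw [V_eq, e1_eq, h1]
  have h2 : ∑ A, ∑ B, Sm A B (cone n y + z) ^ 2 = ry y ^ 4 + qz z := by
    simp only [Sm_add yz]
    have h : ∀ A B, (ry y ^ 2 * (n A * n B) + Sm A B z) ^ 2 =
        ry y ^ 4 * (n A ^ 2 * n B ^ 2) + 2 * ry y ^ 2 * (n A * (Sm A B z * n B)) + Sm A B z ^ 2 :=
      fun A B => by ring
    simp only [h, Finset.sum_add_distrib, ← Finset.mul_sum, Sm_n zn, mul_zero, hn, mul_one, qz,
      add_zero]
  have h3 : ry y ^ 4 = (1 - ‖z‖ ^ 2) ^ 2 := by rw [← hr]; ring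
  rw [h2, h3]
  ring

end geo

/-! ### linearity and bounds of the coefficients -/

variable (S : Setup F)

lemma B_add (β : Fin 16) (x y : X3) : S.B β (x + y) = S.B β x + S.B β y := by
  simp only [Setup.B, PiLp.add_apply, Complex.ofReal_add, add_smul, Finset.sum_add_distrib]

lemma B_sub (β : Fin 16) (x y : X3) : S.B β (x - y) = S.B β x - S.B β y := by
  simp only [Setup.B, PiLp.sub_apply, Complex.ofReal_sub, sub_smul, Finset.sum_sub_distrib]

lemma B_smul' (β : Fin 16) (t : ℝ) (x : X3) : S.B β (t • x) = ((t : ℝ) : ℂ) • S.B β x := by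
  ext v
  rw [S.B_smul, _root_.smul_apply]

lemma Fx_sub (x y : X3) : S.Fx (x - y) = S.Fx x - S.Fx y := by
  simp only [Setup.Fx, PiLp.sub_apply, Complex.ofReal_sub, mul_sub, sub_smul,
    Finset.sum_sub_distrib, smul_sub]

lemma Fx_bound : ∃ C, 0 ≤ C ∧ ∀ x, ‖S.Fx x‖ ≤ C * ‖x‖ := by
  refine ⟨‖(Complex.I / 2 * (S.κ : ℂ))‖ *
    ∑ q : Fin 9, ∑ A, ∑ B, ∑ C, ‖(eps A B C : ℂ)‖ * ‖S.bil (S.g q) A B‖, by positivity, fun x => ?_⟩
  unfold Setup.Fx
  rw [norm_smul, mul_assoc]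
  apply mul_le_mul_of_nonneg_left _ (norm_nonneg _)
  simp only [Finset.sum_mul]
  refine (norm_sum_le _ _).trans (Finset.sum_le_sum fun q _ => ?_)
  refine (norm_sum_le _ _).trans (Finset.sum_le_sum fun A _ => ?_)
  refine (norm_sum_le _ _).trans (Finset.sum_le_sum fun B _ => ?_)
  refine (norm_sum_le _ _).trans (Finset.sum_le_sum fun C _ => ?_)
  rw [norm_smul, norm_mul]
  have h1 : ‖((x (q, C) : ℝ) : ℂ)‖ ≤ ‖x‖ := by
    rw [Complex.norm_real, Real.norm_eq_abs]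
    exact coord_le' x _
  calc ‖(eps A B C : ℂ)‖ * ‖((x (q, C) : ℝ) : ℂ)‖ * ‖S.bil (S.g q) A B‖ ≤
      ‖(eps A B C : ℂ)‖ * ‖x‖ * ‖S.bil (S.g q) A B‖ := by gcongr
    _ = _ := by ring

lemma DW_bound (β : Fin 16) : ∃ C, 0 ≤ C ∧ ∀ ξ x, ‖S.DW ξ β x‖ ≤ C * (‖ξ‖ * ‖x‖) := by
  refine ⟨‖(S.κ : ℂ)‖ * ∑ A : Fin 3, ∑ B : Fin 3, ∑ C : Fin 3, ∑ i, ∑ j,
    ‖(eps A B C : ℂ)‖ * ‖S.vec (S.g2 i j) A β‖, by positivity, fun ξ x => ?_⟩
  unfold Setup.DW
  rw [norm_smul, mul_assoc]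
  apply mul_le_mul_of_nonneg_left _ (norm_nonneg _)
  simp only [Finset.sum_mul]
  refine (norm_sum_le _ _).trans (Finset.sum_le_sum fun A _ => ?_)
  refine (norm_sum_le _ _).trans (Finset.sum_le_sum fun B _ => ?_)
  refine (norm_sum_le _ _).trans (Finset.sum_le_sum fun C _ => ?_)
  refine (norm_sum_le _ _).trans (Finset.sum_le_sum fun i _ => ?_)
  refine (norm_sum_le _ _).trans (Finset.sum_le_sum fun j _ => ?_)
  rw [norm_smul, norm_mul, norm_mul]
  have h1 : ∀ (w : X3) p, ‖((w p : ℝ) : ℂ)‖ ≤ ‖w‖ := by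
    intro w p
    rw [Complex.norm_real, Real.norm_eq_abs]
    exact coord_le' w _
  calc ‖(eps A B C : ℂ)‖ * ‖((ξ (i, B) : ℝ) : ℂ)‖ * ‖((x (j, C) : ℝ) : ℂ)‖ *
        ‖S.vec (S.g2 i j) A β‖ ≤
      ‖(eps A B C : ℂ)‖ * ‖ξ‖ * ‖x‖ * ‖S.vec (S.g2 i j) A β‖ := by
        gcongr
        · exact h1 _ _
        · exact h1 _ _
    _ = _ := by ring

lemma W_eq_DW (β : Fin 16) (x : X3) : S.W β x = (1 / 2 : ℂ) • S.DW x β x := by
  rw [Setup.W, Setup.DW]
  congr 1
  rw [Finset.smul_sum]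
  refine Finset.sum_congr rfl fun A _ => ?_
  simp only [Setup.FF, Complex.ofReal_mul, Complex.ofReal_sum, Finset.smul_sum, smul_smul,
    Finset.mul_sum, Finset.sum_smul]
  have h1 : ∑ B : Fin 3, ∑ C : Fin 3, ∑ i : Fin 9, ∑ j : Fin 9,
      ((S.κ : ℂ) * ((eps A B C : ℂ) * (x (i, B) : ℂ) * (x (j, C) : ℂ))) • S.vec (S.g2 i j) A β =
      ∑ i : Fin 9, ∑ j : Fin 9, ∑ B : Fin 3, ∑ C : Fin 3,
      ((S.κ : ℂ) * ((eps A B C : ℂ) * (x (i, B) : ℂ) * (x (j, C) : ℂ))) • S.vec (S.g2 i j) A β := by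
    calc _ = ∑ B : Fin 3, ∑ i : Fin 9, ∑ C : Fin 3, ∑ j : Fin 9,
        ((S.κ : ℂ) * ((eps A B C : ℂ) * (x (i, B) : ℂ) * (x (j, C) : ℂ))) •
          S.vec (S.g2 i j) A β := Finset.sum_congr rfl fun B _ => Finset.sum_comm
      _ = ∑ i : Fin 9, ∑ B : Fin 3, ∑ C : Fin 3, ∑ j : Fin 9,
        ((S.κ : ℂ) * ((eps A B C : ℂ) * (x (i, B) : ℂ) * (x (j, C) : ℂ))) •
          S.vec (S.g2 i j) A β := Finset.sum_comm
      _ = ∑ i : Fin 9, ∑ B : Fin 3, ∑ j : Fin 9, ∑ C : Fin 3,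
        ((S.κ : ℂ) * ((eps A B C : ℂ) * (x (i, B) : ℂ) * (x (j, C) : ℂ))) •
          S.vec (S.g2 i j) A β := Finset.sum_congr rfl fun i _ => Finset.sum_congr rfl fun B _ =>
            Finset.sum_comm
      _ = _ := Finset.sum_congr rfl fun i _ => Finset.sum_comm
  rw [h1]
  refine Finset.sum_congr rfl fun i _ => Finset.sum_congr rfl fun j _ =>
    Finset.sum_congr rfl fun B _ => Finset.sum_congr rfl fun C _ => ?_
  congr 1

lemma DW_symm (β : Fin 16) (x z : X3) : S.DW z β x = S.DW x β z := by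
  rw [Setup.DW, Setup.DW]
  congr 1
  refine Finset.sum_congr rfl fun A _ => ?_
  rw [Finset.sum_comm]
  refine Finset.sum_congr rfl fun C _ => Finset.sum_congr rfl fun B _ => ?_
  rw [Finset.sum_comm]
  refine Finset.sum_congr rfl fun j _ => Finset.sum_congr rfl fun i _ => ?_
  have he : ∀ A B C : Fin 3, eps A B C = - eps A C B := by decide
  rw [he A B C, S.g2_swap i j, S.vec_neg, smul_neg, ← neg_smul]
  congr 1
  push_cast
  ring

lemma DW_add (ξ : X3) (β : Fin 16) (x y : X3) : S.DW ξ β (x + y) = S.DW ξ β x + S.DW ξ β y := by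
  simp only [Setup.DW, PiLp.add_apply, Complex.ofReal_add, mul_add, add_smul,
    Finset.sum_add_distrib, smul_add]

lemma DW_add' (ξ ξ' : X3) (β : Fin 16) (x : X3) :
    S.DW (ξ + ξ') β x = S.DW ξ β x + S.DW ξ' β x := by
  rw [DW_symm, DW_add, DW_symm, DW_symm S β ξ' x]

lemma DW_cone (n : Fin 3 → ℝ) (y : Fin 9 → ℝ) (β : Fin 16) :
    S.DW (cone n y) β (cone n y) = 0 := by
  rw [Setup.DW]
  have he : ∀ A B C : Fin 3, eps A B C = - eps A C B := by decide
  have h : ∀ A : Fin 3, ∑ B : Fin 3, ∑ C : Fin 3, ∑ i : Fin 9, ∑ j : Fin 9,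
      ((eps A B C : ℂ) * (cone n y (i, B) : ℂ) * (cone n y (j, C) : ℂ)) •
        S.vec (S.g2 i j) A β = 0 := by
    intro A
    set f : Fin 3 → Fin 3 → (F →L[ℂ] F) := fun B C => ∑ i : Fin 9, ∑ j : Fin 9,
      ((eps A B C : ℂ) * (cone n y (i, B) : ℂ) * (cone n y (j, C) : ℂ)) •
        S.vec (S.g2 i j) A β with hf
    have h1 : ∀ B C, f B C = - f C B := by
      intro B C
      simp only [hf, ← Finset.sum_neg_distrib, ← neg_smul]
      refine Finset.sum_congr rfl fun i _ => Finset.sum_congr rfl fun j _ => ?_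
      congr 1
      rw [he A B C]
      simp only [cone_apply]
      push_cast
      ring
    have h2 : ∑ B, ∑ C, f B C = - ∑ B, ∑ C, f B C := by
      conv_rhs => rw [Finset.sum_comm]
      rw [← Finset.sum_neg_distrib]
      refine Finset.sum_congr rfl fun B _ => ?_
      rw [← Finset.sum_neg_distrib]
      exact Finset.sum_congr rfl fun C _ => h1 B C
    have h3 : (2 : ℂ) • ∑ B, ∑ C, f B C = 0 := by
      rw [two_smul]
      nth_rewrite 1 [h2]
      exact neg_add_cancel _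
    calc ∑ B, ∑ C, f B C = (1 / 2 : ℂ) • ((2 : ℂ) • ∑ B, ∑ C, f B C) := by
          rw [smul_smul]; norm_num
      _ = 0 := by rw [h3, smul_zero]
  simp only [h, Finset.sum_const_zero, smul_zero]

lemma W_add (n : Fin 3 → ℝ) (y : Fin 9 → ℝ) (z : X3) (β : Fin 16) :
    S.W β (cone n y + z) = S.DW (cone n y) β z + S.W β z := by
  rw [W_eq_DW, W_eq_DW, DW_add', DW_add, DW_add, DW_cone, DW_symm S β (cone n y) z]
  module

lemma W_bound (β : Fin 16) : ∃ C, 0 ≤ C ∧ ∀ x, ‖S.W β x‖ ≤ C * ‖x‖ ^ 2 := by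
  obtain ⟨C, hC, h⟩ := DW_bound S β
  refine ⟨C, hC, fun x => ?_⟩
  rw [W_eq_DW, norm_smul]
  have h1 : ‖(1 / 2 : ℂ)‖ ≤ 1 := by norm_num
  calc ‖(1 / 2 : ℂ)‖ * ‖S.DW x β x‖ ≤ 1 * (C * (‖x‖ * ‖x‖)) :=
        mul_le_mul h1 (h x x) (norm_nonneg _) zero_le_one
    _ = _ := by ring

end EstP
end Vale.Agent.P353.U
end
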