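import Mathlib
import Vale.Agent.P353.BdU.B1
import Vale.Agent.P353.BdU.B3
import Vale.Agent.P353.BdU.B2
import Vale.Agent.P353.BdU.B8

set_option linter.all false

section

/-! # P353, uniqueness for `N = 2`: statement A1b (the part of the anticommutator linear in `m`) -/

open MeasureTheory Filter Topology
open scoped ContDiff Matrix

namespace Vale.Agent.P353.U

variable {F : Type*} [NormedAddCommGroup F] [InnerProductSpace ℂ F]

namespace A1b

/-- sign: `γ^i Γ = sg i • Γ γ^i` -/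
noncomputable def sg (i : Fin 9) : ℂ := if i.val < 3 then 1 else -1

/-- `t_{ijk} = det (x_i, x_j, x_k)` -/
noncomputable def tt (x : X3) (i j k : Fin 9) : ℝ :=
  ∑ A, ∑ B, ∑ C, (eps A B C : ℝ) * x (i, A) * x (j, B) * x (k, C)

lemma tt_swap12 (x : X3) (i j k : Fin 9) : tt x j i k = -tt x i j k := by
  unfold tt
  rw [Finset.sum_comm, ← Finset.sum_neg_distrib]
  refine Finset.sum_congr rfl fun A _ => ?_
  rw [← Finset.sum_neg_distrib]
  refine Finset.sum_congr rfl fun B _ => ?_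
  rw [← Finset.sum_neg_distrib]
  refine Finset.sum_congr rfl fun C _ => ?_
  have he : eps B A C = -eps A B C := by revert A B C; decide
  rw [he]; push_cast; ring

lemma tt_swap23 (x : X3) (i j k : Fin 9) : tt x i k j = -tt x i j k := by
  unfold tt
  rw [← Finset.sum_neg_distrib]
  refine Finset.sum_congr rfl fun A _ => ?_
  rw [Finset.sum_comm, ← Finset.sum_neg_distrib]
  refine Finset.sum_congr rfl fun B _ => ?_
  rw [← Finset.sum_neg_distrib]
  refine Finset.sum_congr rfl fun C _ => ?_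
  have he : eps A C B = -eps A B C := by revert A B C; decide
  rw [he]; push_cast; ring

lemma tt_12 (x : X3) (i k : Fin 9) : tt x i i k = 0 := by
  have := tt_swap12 x i i k
  linarith

lemma tt_23 (x : X3) (i k : Fin 9) : tt x i k k = 0 := by
  have := tt_swap23 x i k k
  linarith

lemma tt_13 (x : X3) (i k : Fin 9) : tt x i k i = 0 := by
  have h1 := tt_swap12 x i k i
  have h2 := tt_23 x k i
  rw [h2] at h1
  linarith

lemma tt_FF (S : Setup F) (x : X3) (i j k : Fin 9) :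
    ∑ A, S.FF A i j x * x (k, A) = S.κ * tt x i j k := by
  have h : tt x i j k = tt x k i j := by
    rw [tt_swap12 x i k j, tt_swap23 x i j k, neg_neg]
  rw [h]
  unfold tt Setup.FF
  rw [Finset.mul_sum]
  refine Finset.sum_congr rfl fun A _ => ?_
  rw [mul_assoc, Finset.sum_mul]
  congr 1
  refine Finset.sum_congr rfl fun B _ => ?_
  rw [Finset.sum_mul]
  refine Finset.sum_congr rfl fun C _ => ?_
  ring

lemma tt_det3 (x : X3) : tt x 0 1 2 = det3 x := rfl

variable (S : Setup F)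

lemma g_Gam (i : Fin 9) : S.g i * S.Gam = sg i • (S.Gam * S.g i) := by
  unfold sg
  split_ifs with h
  · rw [S.g_Gam_comm h, one_smul]
  · rw [S.g_Gam_anti (by omega), neg_smul, one_smul]

/-- matrix identity for the first order terms -/
lemma first_mat (i j : Fin 9) :
    (aw j : ℂ) • (S.g i * S.Gam * S.g j - S.g j * S.Gam * S.g i) =
      (2 * (rc i j : ℂ)) • (S.Gam * S.g2 i j) := by
  rw [g_Gam S i, g_Gam S j, Matrix.smul_mul, Matrix.smul_mul, mul_assoc, mul_assoc]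
  unfold sg aw rc CS.g2
  by_cases hi : i.val < 3 <;> by_cases hj : j.val < 3
  · rw [if_pos hi, if_pos hj, if_pos hj, if_pos ⟨hi, hj⟩, one_smul, one_smul, Matrix.mul_smul,
      smul_smul, mul_sub]
    congr 1
    norm_num
  · have hne : i ≠ j := by rintro rfl; exact hj hi
    have h1 : ¬ (3 ≤ i.val ∧ 3 ≤ j.val) := by omega
    rw [if_pos hi, if_neg hj, if_neg hj, if_neg (by tauto), if_neg h1, S.g_ac hne]
    simp
  · have hne : i ≠ j := by rintro rfl; exact hi hj
    have h1 : ¬ (3 ≤ i.val ∧ 3 ≤ j.val) := by omega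
    rw [if_neg hi, if_pos hj, if_pos hj, if_neg (by tauto), if_neg h1, S.g_ac hne]
    simp
  · have h1 : (3 ≤ i.val ∧ 3 ≤ j.val) := by omega
    rw [if_neg hi, if_neg hj, if_neg hj, if_neg (by tauto), if_pos h1, Matrix.mul_smul,
      smul_smul, mul_sub]
    rw [← smul_sub, smul_smul]
    congr 1
    norm_num

/-- `t_{ijk} γ^i γ^j γ^k` -/
noncomputable def PP (x : X3) (i j k : Fin 9) : Matrix (Fin 16) (Fin 16) ℂ :=
  ((tt x i j k : ℝ) : ℂ) • (S.g i * S.g j * S.g k)

lemma PP_swap12 (x : X3) (i j k : Fin 9) : PP S x j i k = PP S x i j k := by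
  unfold PP
  by_cases h : i = j
  · subst h; rfl
  · rw [tt_swap12, S.g_ac h]
    simp

lemma PP_swap23 (x : X3) (i j k : Fin 9) : PP S x i k j = PP S x i j k := by
  unfold PP
  by_cases h : j = k
  · subst h; rfl
  · rw [tt_swap23, mul_assoc, mul_assoc, S.g_ac h]
    simp

lemma PP_cyc (x : X3) (i j k : Fin 9) : PP S x j k i = PP S x i j k := by
  rw [← PP_swap23 S x j k i, PP_swap12]

lemma PP_12 (x : X3) (i k : Fin 9) : PP S x i i k = 0 := by
  unfold PP; rw [tt_12]; simp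

lemma PP_23 (x : X3) (i k : Fin 9) : PP S x i k k = 0 := by
  unfold PP; rw [tt_23]; simp

lemma PP_13 (x : X3) (i k : Fin 9) : PP S x i k i = 0 := by
  unfold PP; rw [tt_13]; simp

lemma term_eq (x : X3) (i j k : Fin 9) :
    ((tt x i j k : ℝ) : ℂ) • (S.g2 i j * S.Gam * S.g k + S.g k * S.Gam * S.g2 i j) =
      (sg i * sg j + sg k) • (S.Gam * PP S x i j k) := by
  by_cases hij : i = j
  · subst hij; rw [PP_12, tt_12]; simp
  by_cases hjk : j = k
  · subst hjk; rw [PP_23, tt_23]; simp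
  by_cases hik : i = k
  · subst hik; rw [PP_13, tt_13]; simp
  have h2 : S.g2 i j = S.g i * S.g j := by rw [CS.g2_eq, if_neg hij]; simp
  have e1 : S.g2 i j * S.Gam * S.g k = (sg i * sg j) • (S.Gam * (S.g i * S.g j * S.g k)) := by
    rw [h2, mul_assoc (S.g i), g_Gam S j, Matrix.mul_smul, ← mul_assoc (S.g i), g_Gam S i]
    simp only [Matrix.smul_mul, smul_smul, mul_assoc]
    rw [mul_comm (sg j)]
  have e2 : S.g k * S.Gam * S.g2 i j = sg k • (S.Gam * (S.g i * S.g j * S.g k)) := by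
    rw [h2, g_Gam S k, Matrix.smul_mul]
    congr 1
    rw [mul_assoc, ← mul_assoc (S.g k), S.g_ac (Ne.symm hik), neg_mul, mul_assoc (S.g i),
      S.g_ac (Ne.symm hjk)]
    simp only [mul_neg, neg_neg, mul_assoc]
  rw [e1, e2, ← add_smul, smul_comm]
  congr 1
  unfold PP
  rw [Matrix.mul_smul]

lemma sum3 {M : Type*} [AddCommMonoid M] (f : Fin 9 → M) :
    ∑ i : Fin 9, (if i.val < 3 then f i else 0) = f 0 + f 1 + f 2 := by
  rw [Fin.sum_univ_castSucc, Fin.sum_univ_castSucc, Fin.sum_univ_castSucc, Fin.sum_univ_castSucc,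
    Fin.sum_univ_castSucc, Fin.sum_univ_castSucc, Fin.sum_univ_three]
  simp [Fin.last]

/-- the weight of `P_{ijk}` after symmetrisation -/
lemma weight (i j k : Fin 9) :
    (aw k : ℂ) * (sg i * sg j + sg k) + (aw i : ℂ) * (sg j * sg k + sg i) +
      (aw j : ℂ) * (sg k * sg i + sg j) =
      12 * ((if i.val < 3 then 1 else 0) * (if j.val < 3 then 1 else 0) *
        (if k.val < 3 then 1 else 0)) := by
  unfold aw sg
  by_cases hi : i.val < 3 <;> by_cases hj : j.val < 3 <;> by_cases hk : k.val < 3 <;>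
    simp only [hi, hj, hk, if_true, if_false] <;> push_cast <;> norm_num

/-- cyclic relabelling of a triple sum -/
lemma sum_cyc {M : Type*} [AddCommMonoid M] (f : Fin 9 → Fin 9 → Fin 9 → M) :
    ∑ i, ∑ j, ∑ k, f j k i = ∑ i, ∑ j, ∑ k, f i j k := by
  calc ∑ i, ∑ j, ∑ k, f j k i = ∑ j, ∑ i, ∑ k, f j k i := Finset.sum_comm
    _ = ∑ j, ∑ k, ∑ i, f j k i := Finset.sum_congr rfl fun j _ => Finset.sum_comm

lemma sum_PP (x : X3) :
    ∑ i : Fin 9, ∑ j : Fin 9, ∑ k : Fin 9,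
      (((if i.val < 3 then 1 else 0) * (if j.val < 3 then 1 else 0) *
        (if k.val < 3 then 1 else 0) : ℂ)) • PP S x i j k = (6 : ℂ) • PP S x 0 1 2 := by
  have h1 : ∀ i j k : Fin 9, (((if i.val < 3 then 1 else 0) * (if j.val < 3 then 1 else 0) *
        (if k.val < 3 then 1 else 0) : ℂ)) • PP S x i j k =
        if i.val < 3 then (if j.val < 3 then (if k.val < 3 then PP S x i j k else 0) else 0)
        else 0 := by
    intro i j k
    by_cases hi : i.val < 3 <;> by_cases hj : j.val < 3 <;> by_cases hk : k.val < 3 <;>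
      simp [hi, hj, hk]
  simp only [h1]
  have h2 : ∀ i j : Fin 9, ∑ k : Fin 9, (if i.val < 3 then (if j.val < 3 then
      (if k.val < 3 then PP S x i j k else 0) else 0) else 0) =
      if i.val < 3 then (if j.val < 3 then
        (PP S x i j 0 + PP S x i j 1 + PP S x i j 2) else 0) else 0 := by
    intro i j
    by_cases hi : i.val < 3 <;> by_cases hj : j.val < 3
    · simp only [hi, hj, if_true]; rw [sum3]
    · simp [hi, hj]
    · simp [hi]
    · simp [hi]
  simp only [h2]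
  have h3 : ∀ i : Fin 9, ∑ j : Fin 9, (if i.val < 3 then (if j.val < 3 then
        (PP S x i j 0 + PP S x i j 1 + PP S x i j 2) else 0) else 0) =
      if i.val < 3 then ((PP S x i 0 0 + PP S x i 0 1 + PP S x i 0 2) +
        (PP S x i 1 0 + PP S x i 1 1 + PP S x i 1 2) +
        (PP S x i 2 0 + PP S x i 2 1 + PP S x i 2 2)) else 0 := by
    intro i
    by_cases hi : i.val < 3
    · simp only [hi, if_true]; rw [sum3]
    · simp [hi]
  simp only [h3]
  rw [sum3]
  have a1 : PP S x 0 2 1 = PP S x 0 1 2 := PP_swap23 S x 0 1 2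
  have a2 : PP S x 1 0 2 = PP S x 0 1 2 := PP_swap12 S x 0 1 2
  have a3 : PP S x 1 2 0 = PP S x 0 1 2 := PP_cyc S x 0 1 2
  have a4 : PP S x 2 0 1 = PP S x 0 1 2 := (PP_cyc S x 2 0 1).symm
  have a5 : PP S x 2 1 0 = PP S x 0 1 2 := by rw [PP_swap12 S x 1 2 0, a3]
  simp only [PP_12, PP_23, PP_13, a1, a2, a3, a4, a5]
  module

/-- the matrix identity for the zero order terms -/
lemma zero_mat (x : X3) :
    ∑ i, ∑ j, ∑ k, ((aw k : ℂ) * ((tt x i j k : ℝ) : ℂ)) •
      (S.g2 i j * S.Gam * S.g k + S.g k * S.Gam * S.g2 i j) =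
      (-(24 * det3 x : ℝ) : ℂ) • 1 := by
  have h1 : ∀ i j k, ((aw k : ℂ) * ((tt x i j k : ℝ) : ℂ)) •
      (S.g2 i j * S.Gam * S.g k + S.g k * S.Gam * S.g2 i j) =
      S.Gam * (((aw k : ℂ) * (sg i * sg j + sg k)) • PP S x i j k) := by
    intro i j k
    rw [mul_smul, term_eq, smul_smul, Matrix.mul_smul]
  simp only [h1, ← Matrix.mul_sum]
  have h2 : (3 : ℂ) • ∑ i, ∑ j, ∑ k, ((aw k : ℂ) * (sg i * sg j + sg k)) • PP S x i j k =
      (12 * 6 : ℂ) • PP S x 0 1 2 := by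
    have e4 : (3 : ℂ) • ∑ i, ∑ j, ∑ k, ((aw k : ℂ) * (sg i * sg j + sg k)) • PP S x i j k =
      ∑ i, ∑ j, ∑ k, (12 * ((if i.val < 3 then 1 else 0) * (if j.val < 3 then 1 else 0) *
        (if k.val < 3 then 1 else 0)) : ℂ) • PP S x i j k := by
      have : ∀ i j k, (12 * ((if i.val < 3 then 1 else 0) * (if j.val < 3 then 1 else 0) *
        (if k.val < 3 then 1 else 0)) : ℂ) • PP S x i j k =
        ((aw k : ℂ) * (sg i * sg j + sg k)) • PP S x i j k +
        ((aw i : ℂ) * (sg j * sg k + sg i)) • PP S x j k i +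
        ((aw j : ℂ) * (sg k * sg i + sg j)) • PP S x k i j := by
        intro i j k
        rw [← weight, PP_cyc S x i j k,
          show PP S x k i j = PP S x i j k from (PP_cyc S x k i j).symm]
        module
      simp only [this, Finset.sum_add_distrib]
      have f1 : ∑ i, ∑ j, ∑ k, ((aw i : ℂ) * (sg j * sg k + sg i)) • PP S x j k i =
          ∑ i, ∑ j, ∑ k, ((aw k : ℂ) * (sg i * sg j + sg k)) • PP S x i j k :=
        sum_cyc (fun j k i => ((aw i : ℂ) * (sg j * sg k + sg i)) • PP S x j k i)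
      have f2 : ∑ i, ∑ j, ∑ k, ((aw j : ℂ) * (sg k * sg i + sg j)) • PP S x k i j =
          ∑ i, ∑ j, ∑ k, ((aw k : ℂ) * (sg i * sg j + sg k)) • PP S x i j k :=
        (sum_cyc (fun i j k => ((aw j : ℂ) * (sg k * sg i + sg j)) • PP S x k i j)).symm
      rw [f1, f2]
      module
    rw [e4, mul_smul, ← sum_PP S x]
    simp only [Finset.smul_sum, smul_smul]
  have h3 : ∑ i, ∑ j, ∑ k, ((aw k : ℂ) * (sg i * sg j + sg k)) • PP S x i j k =
      (24 : ℂ) • PP S x 0 1 2 := by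
    have := congrArg (fun w => (1 / 3 : ℂ) • w) h2
    simp only [smul_smul] at this
    norm_num at this
    exact this
  rw [h3, PP, tt_det3]
  have h4 : S.g 0 * S.g 1 * S.g 2 = S.Gam := rfl
  rw [h4, Matrix.mul_smul, Matrix.mul_smul, S.Gam_sq, smul_neg, smul_neg, smul_smul, ← neg_smul]
  congr 1
  push_cast
  ring

/-- `{(Nθ^A)_α, M_β(x)}` -/
lemma vec_MM (N : Matrix (Fin 16) (Fin 16) ℂ) (A : Fin 3) (α β : Fin 16) (x : X3) :
    S.vec N A α * S.MM β x + S.MM β x * S.vec N A α =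
      (-(∑ j, ((aw j * x (j, A) : ℝ) : ℂ) * (N * S.Gam * S.g j) α β)) • (1 : F →L[ℂ] F) := by
  unfold Setup.MM
  rw [Finset.mul_sum, Finset.sum_mul, ← Finset.sum_add_distrib, neg_smul, Finset.sum_smul,
    ← Finset.sum_neg_distrib]
  refine Finset.sum_congr rfl fun j _ => ?_
  rw [Finset.mul_sum, Finset.sum_mul, ← Finset.sum_add_distrib]
  simp only [mul_smul_comm, smul_mul_assoc, ← smul_add, S.vec_anti, smul_ite, smul_zero,
    Finset.sum_ite_eq, Finset.mem_univ, if_true]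
  have h : N * (S.g j * S.Gam)ᵀ = -(N * S.Gam * S.g j) := by
    rw [Matrix.transpose_mul, S.Gam_transpose, S.g_symm, neg_mul, mul_neg, mul_assoc]
  rw [h, Matrix.neg_apply, neg_smul, smul_neg, smul_smul]

lemma fderiv_MM (b : Fin 16) (x : X3) (i : Fin 9) (A : Fin 3) :
    fderiv ℝ (S.MM b) x (EuclideanSpace.single (i, A) (1 : ℝ)) =
      (aw i : ℂ) • S.vec (S.g i * S.Gam) A b := by
  have hd : HasFDerivAt (S.MM b) (∑ k, ∑ B, ((Complex.ofRealCLM.comp (aw k •
      (EuclideanSpace.proj (𝕜 := ℝ) (k, B) : X3 →L[ℝ] ℝ))).smulRight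
        (S.vec (S.g k * S.Gam) B b))) x := by
    unfold Setup.MM
    refine HasFDerivAt.fun_sum fun k _ => HasFDerivAt.fun_sum fun B _ => ?_
    have h1 := (Complex.ofRealCLM.hasFDerivAt (x := aw k * x (k, B))).comp x
      ((Setup.hasFDerivAt_coord (k, B) x).const_mul (aw k))
    exact h1.smul_const (S.vec (S.g k * S.Gam) B b)
  rw [hd.fderiv]
  simp only [_root_.sum_apply, ContinuousLinearMap.smulRight_apply,
    ContinuousLinearMap.comp_apply, Complex.ofRealCLM_apply, _root_.smul_apply, PiLp.proj_apply,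
    PiLp.single_apply, smul_eq_mul, Prod.mk.injEq, mul_ite, mul_one, mul_zero]
  rw [Finset.sum_eq_single i, Finset.sum_eq_single A]
  · simp
  · intro B _ hB; simp [hB]
  · intro h; exact absurd (Finset.mem_univ _) h
  · intro k _ hk; simp [hk]
  · intro h; exact absurd (Finset.mem_univ _) h

lemma contDiff_MM (b : Fin 16) : ContDiff ℝ ∞ (S.MM b) := by
  unfold Setup.MM
  refine ContDiff.sum fun i _ => ContDiff.sum fun A _ => ?_
  exact (Setup.contDiff_ofReal (contDiff_const.mul (Setup.contDiff_coord _))).smul contDiff_const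

lemma pd_MM (b : Fin 16) {u : X3 → F} (hu : ContDiff ℝ ∞ u) (i : Fin 9) (A : Fin 3) (x : X3) :
    pd i A (fun y => S.MM b y (u y)) x =
      (aw i : ℂ) • S.vec (S.g i * S.Gam) A b (u x) + S.MM b x (pd i A u x) := by
  rw [pd_clm_apply ((contDiff_MM S b).differentiable (by simp) x)
    (hu.differentiable (by simp) x), fderiv_MM]
  rfl

lemma Q_MM (a b : Fin 16) {u : X3 → F} (hu : ContDiff ℝ ∞ u) (x : X3) :
    S.Q a (fun y => S.MM b y (u y)) x + S.MM b x (S.Q a u x) =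
      ((-Complex.I) • ∑ i, ∑ A, (aw i : ℂ) •
        (S.vec (S.g i) A a * S.vec (S.g i * S.Gam) A b)) (u x) +
      (-Complex.I) • ∑ i, ∑ A, (S.vec (S.g i) A a * S.MM b x + S.MM b x * S.vec (S.g i) A a)
        (pd i A u x) + (S.W a x * S.MM b x + S.MM b x * S.W a x) (u x) := by
  unfold Setup.Q
  simp only [pd_MM S b hu, map_add, map_smul, map_sum, Finset.sum_add_distrib, smul_add,
    _root_.smul_apply, _root_.sum_apply, _root_.add_apply, mul_apply_eq_comp]
  abel

lemma mat_anti {M : Matrix (Fin 16) (Fin 16) ℂ} {N : Matrix (Fin 16) (Fin 16) ℂ} (h : Mᵀ = N)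
    (a b : Fin 16) : M b a = N a b := by
  rw [← h]; rfl

lemma first_coef (a b : Fin 16) (x : X3) (i : Fin 9) (A : Fin 3) :
    (S.vec (S.g i) A a * S.MM b x + S.MM b x * S.vec (S.g i) A a) +
      (S.vec (S.g i) A b * S.MM a x + S.MM a x * S.vec (S.g i) A b) =
      (-(2 * ∑ j, (x (j, A) : ℂ) * ((rc i j : ℂ) * (S.Gam * S.g2 i j) a b))) •
        (1 : F →L[ℂ] F) := by
  rw [vec_MM, vec_MM, ← add_smul]
  congr 1
  rw [← neg_add, ← Finset.sum_add_distrib, Finset.mul_sum]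
  congr 1
  refine Finset.sum_congr rfl fun j _ => ?_
  have h1 : (S.g i * S.Gam * S.g j)ᵀ = -(S.g j * S.Gam * S.g i) := by
    rw [Matrix.transpose_mul, Matrix.transpose_mul, S.Gam_transpose, S.g_symm, S.g_symm, neg_mul,
      mul_neg, mul_assoc]
  rw [mat_anti h1 a b]
  have h2 := congrFun (congrFun (first_mat S i j) a) b
  simp only [Matrix.smul_apply, Matrix.sub_apply, smul_eq_mul] at h2
  rw [Matrix.neg_apply]
  push_cast
  linear_combination (x (j, A) : ℂ) * h2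

/-- orbital part of the rotation generators -/
lemma first_sum (a b : Fin 16) (x : X3) (D : Fin 9 → Fin 3 → F) :
    ∑ i, ∑ A, (-(2 * ∑ j, (x (j, A) : ℂ) * ((rc i j : ℂ) * (S.Gam * S.g2 i j) a b))) • D i A =
      ∑ i, ∑ j, ((rc i j : ℂ) * (S.Gam * S.g2 i j) a b) •
        ∑ A, ((x (i, A) : ℂ) • D j A - (x (j, A) : ℂ) • D i A) := by
  have hrc : ∀ i j : Fin 9, rc j i = rc i j := by
    intro i j
    unfold rc
    by_cases hi : i.val < 3 <;> by_cases hj : j.val < 3 <;> simp [hi, hj, and_comm]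
  have e1 : ∑ i, ∑ j, ((rc i j : ℂ) * (S.Gam * S.g2 i j) a b) • ∑ A, (x (i, A) : ℂ) • D j A =
      -∑ i, ∑ j, ((rc i j : ℂ) * (S.Gam * S.g2 i j) a b) • ∑ A, (x (j, A) : ℂ) • D i A := by
    rw [Finset.sum_comm, ← Finset.sum_neg_distrib]
    refine Finset.sum_congr rfl fun i _ => ?_
    rw [← Finset.sum_neg_distrib]
    refine Finset.sum_congr rfl fun j _ => ?_
    rw [hrc i j, S.g2_swap j i, mul_neg, Matrix.neg_apply, mul_neg, neg_smul]
  simp only [Finset.sum_sub_distrib, smul_sub, e1]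
  rw [← neg_add', ← two_smul ℂ, Finset.smul_sum, ← Finset.sum_neg_distrib]
  refine Finset.sum_congr rfl fun i _ => ?_
  simp only [Finset.smul_sum, smul_smul]
  rw [Finset.sum_comm, ← Finset.sum_neg_distrib]
  refine Finset.sum_congr rfl fun A _ => ?_
  rw [← Finset.sum_smul, ← neg_smul, Finset.mul_sum]
  congr 2
  refine Finset.sum_congr rfl fun j _ => ?_
  ring

lemma zero_coef (a b : Fin 16) (x : X3) :
    (S.W a x * S.MM b x + S.MM b x * S.W a x) + (S.W b x * S.MM a x + S.MM a x * S.W b x) =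
      (if a = b then ((12 * S.κ * det3 x : ℝ) : ℂ) else 0) • (1 : F →L[ℂ] F) := by
  have h1 : ∀ a b, S.W a x * S.MM b x + S.MM b x * S.W a x =
      (-(∑ A, ∑ j, ((aw j * x (j, A) : ℝ) : ℂ) * (S.NA A x * S.Gam * S.g j) a b)) •
        (1 : F →L[ℂ] F) := by
    intro a b
    rw [S.W_eq_NA, Finset.sum_mul, Finset.mul_sum, ← Finset.sum_add_distrib]
    simp only [vec_MM]
    rw [← Finset.sum_smul, Finset.sum_neg_distrib]
  rw [h1 a b, h1 b a, ← add_smul]
  congr 1
  rw [← neg_add, ← Finset.sum_add_distrib]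
  simp only [← Finset.sum_add_distrib, ← mul_add]
  have h2 : ∀ A j, (S.NA A x * S.Gam * S.g j) a b + (S.NA A x * S.Gam * S.g j) b a =
      (1 / 2 : ℂ) * ∑ i, ∑ k, ((S.FF A i k x : ℝ) : ℂ) *
        (S.g2 i k * S.Gam * S.g j + S.g j * S.Gam * S.g2 i k) a b := by
    intro A j
    have ht : (S.NA A x * S.Gam * S.g j)ᵀ = S.g j * S.Gam * S.NA A x := by
      rw [Matrix.transpose_mul, Matrix.transpose_mul, S.Gam_transpose, S.g_symm, S.NA_transpose,
        neg_mul_neg, mul_assoc]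
    rw [mat_anti ht a b, ← Matrix.add_apply]
    have e : S.NA A x * S.Gam * S.g j + S.g j * S.Gam * S.NA A x =
        (1 / 2 : ℂ) • ∑ i, ∑ k, ((S.FF A i k x : ℝ) : ℂ) •
        (S.g2 i k * S.Gam * S.g j + S.g j * S.Gam * S.g2 i k) := by
      unfold Setup.NA
      simp only [smul_add, Finset.sum_add_distrib, Matrix.smul_mul, Matrix.mul_smul,
        Matrix.sum_mul, Matrix.mul_sum]
    rw [e]
    simp only [Matrix.smul_apply, Matrix.sum_apply, smul_eq_mul]
  simp only [h2]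
  have h3 := congrFun (congrFun (zero_mat S x) a) b
  simp only [Matrix.smul_apply, Matrix.sum_apply, smul_eq_mul] at h3
  have h4 : ∑ A, ∑ j, ((aw j * x (j, A) : ℝ) : ℂ) * ((1 / 2 : ℂ) * ∑ i, ∑ k,
      ((S.FF A i k x : ℝ) : ℂ) * (S.g2 i k * S.Gam * S.g j + S.g j * S.Gam * S.g2 i k) a b) =
      (S.κ / 2 : ℂ) * ∑ i, ∑ k, ∑ j, ((aw j : ℂ) * ((tt x i k j : ℝ) : ℂ)) *
        (S.g2 i k * S.Gam * S.g j + S.g j * S.Gam * S.g2 i k) a b := by
    simp only [Finset.mul_sum]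
    rw [Finset.sum_comm]
    have : ∀ j, ∑ A, ∑ i, ∑ k, ((aw j * x (j, A) : ℝ) : ℂ) * ((1 / 2 : ℂ) *
      (((S.FF A i k x : ℝ) : ℂ) *
        (S.g2 i k * S.Gam * S.g j + S.g j * S.Gam * S.g2 i k) a b)) =
        ∑ i, ∑ k, (S.κ / 2 : ℂ) * (((aw j : ℂ) * ((tt x i k j : ℝ) : ℂ)) *
        (S.g2 i k * S.Gam * S.g j + S.g j * S.Gam * S.g2 i k) a b) := by
      intro j
      rw [Finset.sum_comm]
      refine Finset.sum_congr rfl fun i _ => ?_
      rw [Finset.sum_comm]
      refine Finset.sum_congr rfl fun k _ => ?_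
      have h5 := congrArg (fun r : ℝ => (r : ℂ)) (tt_FF S x i k j)
      simp only at h5
      push_cast at h5
      calc _ = (aw j : ℂ) * (1 / 2) * (S.g2 i k * S.Gam * S.g j +
            S.g j * S.Gam * S.g2 i k) a b * ∑ A, (S.FF A i k x : ℂ) * (x (j, A) : ℂ) := by
            rw [Finset.mul_sum]
            refine Finset.sum_congr rfl fun A _ => ?_
            push_cast
            ring
        _ = _ := by rw [h5]; ring
    rw [Finset.sum_congr rfl fun j _ => this j, Finset.sum_comm]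
    refine Finset.sum_congr rfl fun i _ => ?_
    rw [Finset.sum_comm]
  rw [h4, h3, Matrix.one_apply]
  by_cases h : a = b
  · simp only [h, if_true]; push_cast; ring
  · simp [h]

end A1b

/-- **A1b** -/
theorem a1b (S : Setup F) (h : FBmnStmt S) : A1bStmt S := by
  intro α β u hu x
  have e0 : S.Q α (fun y => S.MM β y (u y)) x + S.MM α x (S.Q β u x) +
      S.Q β (fun y => S.MM α y (u y)) x + S.MM β x (S.Q α u x) =
      (S.Q α (fun y => S.MM β y (u y)) x + S.MM β x (S.Q α u x)) +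
      (S.Q β (fun y => S.MM α y (u y)) x + S.MM α x (S.Q β u x)) := by abel
  rw [e0, A1b.Q_MM S α β hu x, A1b.Q_MM S β α hu x]
  have t1 : ((-Complex.I) • ∑ i, ∑ A, (aw i : ℂ) •
        (S.vec (S.g i) A α * S.vec (S.g i * S.Gam) A β)) (u x) +
      ((-Complex.I) • ∑ i, ∑ A, (aw i : ℂ) •
        (S.vec (S.g i) A β * S.vec (S.g i * S.Gam) A α)) (u x) =
      (∑ i, ∑ j, ((rc i j : ℂ) * (S.Gam * S.g2 i j) α β) • S.Skl i j (u x)) -
      (if α = β then (3 / 2 : ℂ) • S.FG (u x) else 0) := by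
    have h1 := congrArg (fun T : F →L[ℂ] F => T (u x)) (h α β)
    simp only [smul_add, Finset.sum_add_distrib, _root_.add_apply, _root_.sub_apply,
      _root_.sum_apply, _root_.smul_apply] at h1
    rw [← _root_.add_apply, ← smul_add]
    simp only [_root_.add_apply, _root_.sum_apply, _root_.smul_apply]
    rw [smul_add, h1]
    congr 1
    split_ifs <;> simp
  have t2 : (-Complex.I) • ∑ i, ∑ A, (S.vec (S.g i) A α * S.MM β x + S.MM β x *
        S.vec (S.g i) A α) (pd i A u x) +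
      (-Complex.I) • ∑ i, ∑ A, (S.vec (S.g i) A β * S.MM α x + S.MM α x *
        S.vec (S.g i) A β) (pd i A u x) =
      (-Complex.I) • ∑ i, ∑ j, ((rc i j : ℂ) * (S.Gam * S.g2 i j) α β) •
        ∑ A, ((x (i, A) : ℂ) • pd j A u x - (x (j, A) : ℂ) • pd i A u x) := by
    rw [← smul_add, ← A1b.first_sum S α β x (fun i A => pd i A u x)]
    congr 1
    rw [← Finset.sum_add_distrib]
    refine Finset.sum_congr rfl fun i _ => ?_
    rw [← Finset.sum_add_distrib]
    refine Finset.sum_congr rfl fun A _ => ?_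
    rw [← _root_.add_apply, A1b.first_coef]
    rfl
  have t3 : (S.W α x * S.MM β x + S.MM β x * S.W α x) (u x) +
      (S.W β x * S.MM α x + S.MM α x * S.W β x) (u x) =
      (if α = β then ((12 * S.κ * det3 x : ℝ) : ℂ) else 0) • u x := by
    rw [← _root_.add_apply, A1b.zero_coef]
    rfl
  have t4 : ∑ i, ∑ j, ((rc i j : ℂ) * (S.Gam * S.g2 i j) α β) • S.J i j u x =
      (-Complex.I) • (∑ i, ∑ j, ((rc i j : ℂ) * (S.Gam * S.g2 i j) α β) •
        ∑ A, ((x (i, A) : ℂ) • pd j A u x - (x (j, A) : ℂ) • pd i A u x)) +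
      ∑ i, ∑ j, ((rc i j : ℂ) * (S.Gam * S.g2 i j) α β) • S.Skl i j (u x) := by
    unfold Setup.J
    simp only [smul_add, Finset.sum_add_distrib]
    congr 1
    rw [Finset.smul_sum]
    refine Finset.sum_congr rfl fun i _ => ?_
    rw [Finset.smul_sum]
    refine Finset.sum_congr rfl fun j _ => ?_
    rw [smul_comm]
  rw [t4]
  have e1 : ∀ a b c a' b' c' : F, (a + b + c) + (a' + b' + c') = (a + a') + (b + b') + (c + c') := by
    intro a b c a' b' c'; abel
  rw [e1, t1, t2, t3]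
  by_cases hab : α = β
  · simp only [hab, if_true]
    push_cast
    module
  · simp only [hab, if_false]
    module

end Vale.Agent.P353.U
end

section

/-! # P353, uniqueness for `N = 2`: local limits, algebra and scaling -/

open MeasureTheory Filter Topology
open scoped ContDiff

namespace Vale.Agent.P353.U

variable {F : Type*} [NormedAddCommGroup F] [InnerProductSpace ℂ F]

section alg

variable (S : Setup F)

lemma lm_eps_swap (A B C : Fin 3) : eps A C B = -eps A B C := by revert A B C; decide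

lemma lm_sum4 {G : Type*} [AddCommMonoid G] (f : Fin 9 → Fin 9 → Fin 3 → Fin 3 → G) :
    ∑ i, ∑ j, ∑ B, ∑ C, f i j B C = ∑ B, ∑ C, ∑ i, ∑ j, f i j B C := by
  calc ∑ i, ∑ j, ∑ B, ∑ C, f i j B C = ∑ i, ∑ B, ∑ j, ∑ C, f i j B C :=
        Finset.sum_congr rfl fun i _ => Finset.sum_comm
    _ = ∑ B, ∑ i, ∑ j, ∑ C, f i j B C := Finset.sum_comm
    _ = ∑ B, ∑ i, ∑ C, ∑ j, f i j B C :=
        Finset.sum_congr rfl fun B _ => Finset.sum_congr rfl fun i _ => Finset.sum_comm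
    _ = ∑ B, ∑ C, ∑ i, ∑ j, f i j B C := Finset.sum_congr rfl fun B _ => Finset.sum_comm

/-- the bilinear form of `W` -/
noncomputable def lmT (β : Fin 16) (x y : X3) : F →L[ℂ] F :=
  ∑ A, ∑ B, ∑ C, ∑ i, ∑ j,
    ((eps A B C : ℂ) * (x (i, B) : ℂ) * (y (j, C) : ℂ)) • S.vec (S.g2 i j) A β

lemma lm_DW (ξ : X3) (β : Fin 16) (x : X3) : S.DW ξ β x = (S.κ : ℂ) • lmT S β ξ x := by
  rw [Setup.DW, lmT]

lemma lm_W (β : Fin 16) (x : X3) : S.W β x = ((1 / 2 : ℂ) * (S.κ : ℂ)) • lmT S β x x := by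
  rw [Setup.W, lmT, mul_smul]
  congr 1
  rw [Finset.smul_sum]
  refine Finset.sum_congr rfl fun A _ => ?_
  rw [← lm_sum4, Finset.smul_sum]
  refine Finset.sum_congr rfl fun i _ => ?_
  rw [Finset.smul_sum]
  refine Finset.sum_congr rfl fun j _ => ?_
  rw [Setup.FF]
  push_cast
  rw [mul_smul]
  congr 1
  rw [Finset.sum_smul]
  refine Finset.sum_congr rfl fun B _ => ?_
  rw [Finset.sum_smul]

lemma lm_g2_swap (i j : Fin 9) : S.g2 j i = -S.g2 i j := by
  unfold CS.g2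
  rw [← smul_neg, neg_sub]

lemma lmT_symm (β : Fin 16) (x y : X3) : lmT S β y x = lmT S β x y := by
  unfold lmT
  refine Finset.sum_congr rfl fun A _ => ?_
  rw [Finset.sum_comm]
  refine Finset.sum_congr rfl fun B _ => Finset.sum_congr rfl fun C _ => ?_
  rw [Finset.sum_comm]
  refine Finset.sum_congr rfl fun i _ => Finset.sum_congr rfl fun j _ => ?_
  rw [lm_eps_swap A B C, lm_g2_swap S i j, S.vec_neg, smul_neg, ← neg_smul]
  congr 1
  push_cast
  ring

lemma lmT_left (β : Fin 16) (a b : ℝ) (x x' y : X3) :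
    lmT S β (a • x + b • x') y = (a : ℂ) • lmT S β x y + (b : ℂ) • lmT S β x' y := by
  simp only [lmT, Finset.smul_sum, ← Finset.sum_add_distrib]
  refine Finset.sum_congr rfl fun A _ => Finset.sum_congr rfl fun B _ =>
    Finset.sum_congr rfl fun C _ => Finset.sum_congr rfl fun i _ =>
    Finset.sum_congr rfl fun j _ => ?_
  rw [smul_smul, smul_smul, ← add_smul]
  congr 1
  rw [PiLp.add_apply, PiLp.smul_apply, PiLp.smul_apply, smul_eq_mul, smul_eq_mul]
  push_cast
  ring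

lemma lmT_right (β : Fin 16) (a b : ℝ) (x x' y : X3) :
    lmT S β y (a • x + b • x') = (a : ℂ) • lmT S β y x + (b : ℂ) • lmT S β y x' := by
  rw [lmT_symm, lmT_left, lmT_symm S β y x, lmT_symm S β y x']

lemma lm_W_affine (β : Fin 16) (a b : ℝ) (ξ w : X3) :
    S.W β (a • ξ + b • w) = ((a ^ 2 : ℝ) : ℂ) • S.W β ξ + ((a * b : ℝ) : ℂ) • S.DW ξ β w +
      ((b ^ 2 : ℝ) : ℂ) • S.W β w := by
  rw [lm_W, lm_W, lm_W, lm_DW, lmT_left, lmT_right, lmT_right, lmT_symm S β ξ w]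
  push_cast
  module

lemma lm_MM_affine (β : Fin 16) (a b : ℝ) (ξ w : X3) :
    S.MM β (a • ξ + b • w) = (a : ℂ) • S.MM β ξ + (b : ℂ) • S.MM β w := by
  simp only [Setup.MM, Finset.smul_sum, ← Finset.sum_add_distrib]
  refine Finset.sum_congr rfl fun i _ => Finset.sum_congr rfl fun A _ => ?_
  rw [smul_smul, smul_smul, ← add_smul]
  congr 1
  rw [PiLp.add_apply, PiLp.smul_apply, PiLp.smul_apply, smul_eq_mul, smul_eq_mul]
  push_cast
  ring

lemma lm_contDiff_MM (β : Fin 16) : ContDiff ℝ ∞ (S.MM β) := by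
  unfold Setup.MM
  refine ContDiff.sum fun i _ => ContDiff.sum fun A _ => ?_
  exact (Setup.contDiff_ofReal (contDiff_const.mul (Setup.contDiff_coord _))).smul contDiff_const

lemma lm_contDiff_DW (ξ : X3) (β : Fin 16) : ContDiff ℝ ∞ (S.DW ξ β) := by
  unfold Setup.DW
  refine ContDiff.const_smul _ (ContDiff.sum fun A _ => ContDiff.sum fun B _ =>
    ContDiff.sum fun C _ => ContDiff.sum fun i _ => ContDiff.sum fun j _ => ?_)
  exact (contDiff_const.mul (Setup.contDiff_ofReal (Setup.contDiff_coord _))).smul contDiff_const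

lemma lm_MM_symm (β : Fin 16) (x : X3) (v w : F) :
    inner ℂ (S.MM β x v) w = inner ℂ v (S.MM β x w) := by
  have h : ∀ i, ∀ α β, ((S.g i * S.Gam) α β).im = 0 := fun i =>
    Setup.mul_im_zero (S.g_im i) S.Gam_real
  simp only [Setup.MM, _root_.sum_apply, _root_.smul_apply, sum_inner, inner_sum, inner_smul_left,
    inner_smul_right, S.vec_symm _ (h _), Complex.conj_ofReal]

lemma lm_DW_symm (ξ : X3) (β : Fin 16) (x : X3) (v w : F) :
    inner ℂ (S.DW ξ β x v) w = inner ℂ v (S.DW ξ β x w) := by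
  have hc : ∀ n : ℤ, (starRingEnd ℂ) (n : ℂ) = n := fun n => by simp
  simp only [Setup.DW, _root_.sum_apply, _root_.smul_apply, sum_inner, inner_sum, inner_smul_left,
    inner_smul_right, S.vec_symm _ (S.g2_im _ _), Complex.conj_ofReal, map_mul, hc]

end alg

/-! ### scaling -/

section scaling

variable (S : Setup F)

lemma lm_scl_contDiff {φ : X3 → F} (hφ : ContDiff ℝ ∞ φ) (m : ℝ) (ξ : X3) :
    ContDiff ℝ ∞ (scl m ξ φ) := by
  have h : ContDiff ℝ ∞ (fun w : X3 => m • ξ + (Real.sqrt m)⁻¹ • w) :=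
    contDiff_const.add (contDiff_id.const_smul _)
  exact hφ.comp h

lemma lm_pd_scl {φ : X3 → F} (hφ : ContDiff ℝ ∞ φ) (m : ℝ) (ξ : X3) (i : Fin 9) (A : Fin 3)
    (w : X3) : pd i A (scl m ξ φ) w =
      (((Real.sqrt m)⁻¹ : ℝ) : ℂ) • pd i A φ (m • ξ + (Real.sqrt m)⁻¹ • w) := by
  have h1 : HasFDerivAt (fun w : X3 => m • ξ + (Real.sqrt m)⁻¹ • w)
      ((Real.sqrt m)⁻¹ • ContinuousLinearMap.id ℝ X3) w :=
    ((hasFDerivAt_id w).const_smul (Real.sqrt m)⁻¹).const_add (m • ξ)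
  have h2 := ((hφ.differentiable (by simp)) (m • ξ + (Real.sqrt m)⁻¹ • w)).hasFDerivAt.comp w h1
  have h3 : fderiv ℝ (scl m ξ φ) w = _ := h2.fderiv
  rw [pd, h3, pd, ContinuousLinearMap.comp_apply, _root_.smul_apply,
    ContinuousLinearMap.id_apply, map_smul]
  exact (Complex.coe_smul _ _).symm

/-- the scaled supercharge -/
lemma lm_Qm_scl {φ : X3 → F} (hφ : ContDiff ℝ ∞ φ) {m : ℝ} (hm : 0 < m) {ξ : X3} {β : Fin 16}
    (hcr : S.W β ξ + S.MM β ξ = 0) (w : X3) :
    (((Real.sqrt m)⁻¹ : ℝ) : ℂ) • scl m ξ (S.Qm m β φ) w =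
      S.Qlin ξ β (scl m ξ φ) w +
        ((((Real.sqrt m)⁻¹) ^ 3 : ℝ) : ℂ) • S.W β w (scl m ξ φ w) := by
  have ht : 0 < Real.sqrt m := Real.sqrt_pos.2 hm
  have ht2 : Real.sqrt m ^ 2 = m := Real.sq_sqrt hm.le
  have htc : ((Real.sqrt m : ℝ) : ℂ) ≠ 0 := Complex.ofReal_ne_zero.2 ht.ne'
  have hmc : (m : ℂ) = ((Real.sqrt m : ℝ) : ℂ) ^ 2 := by
    rw [← Complex.ofReal_pow, ht2]
  have hW : S.W β ξ = -S.MM β ξ := eq_neg_of_add_eq_zero_left hcr
  have e1 : scl m ξ (S.Qm m β φ) w =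
      S.Qm m β φ (m • ξ + (Real.sqrt m)⁻¹ • w) := rfl
  have e2 : scl m ξ φ w = φ (m • ξ + (Real.sqrt m)⁻¹ • w) := rfl
  rw [e1, Setup.Qm, Setup.Q, Setup.Qlin, Setup.Q0, lm_W_affine, lm_MM_affine, hW, ← e2]
  simp only [lm_pd_scl hφ, map_smul, ← Finset.smul_sum]
  generalize (∑ i, ∑ A, (S.vec (S.g i) A β) (pd i A φ (m • ξ + (Real.sqrt m)⁻¹ • w))) = a
  simp only [_root_.add_apply, _root_.smul_apply, _root_.neg_apply]
  generalize scl m ξ φ w = v
  push_cast
  rw [hmc]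
  match_scalars <;> field_simp <;> ring

end scaling

end Vale.Agent.P353.U
end

section

/-! # P353, uniqueness for `N = 2`: local limits, `L²` estimates -/

open MeasureTheory Filter Topology
open scoped ContDiff

namespace Vale.Agent.P353.U

variable {F : Type*} [NormedAddCommGroup F] [InnerProductSpace ℂ F]

/-! ### local `L²` tools -/

lemma lm_intOn {f : X3 → ℝ} (hf : Continuous f) (s : ℝ) :
    IntegrableOn f (Metric.ball (0 : X3) s) :=
  (hf.continuousOn.integrableOn_compact (isCompact_closedBall 0 s)).mono_set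
    Metric.ball_subset_closedBall

lemma lm_cs {ζ f : X3 → F} {s : ℝ} (hζ : MemLp ζ 2 (volume : Measure X3))
    (hs : ∀ x, x ∉ Metric.ball (0 : X3) s → ζ x = 0)
    (hf : AEStronglyMeasurable f (volume : Measure X3))
    (hi : IntegrableOn (fun x => ‖f x‖ ^ 2) (Metric.ball (0 : X3) s)) :
    Integrable (fun x => inner ℂ (ζ x) (f x)) ∧
    ‖∫ x, inner ℂ (ζ x) (f x)‖ ≤ Real.sqrt (nsq ζ) *
      Real.sqrt (∫ x in Metric.ball (0 : X3) s, ‖f x‖ ^ 2) := by
  have hgm : AEStronglyMeasurable ((Metric.ball (0 : X3) s).indicator f)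
    (volume : Measure X3) := hf.indicator measurableSet_ball
  have hg2 : (fun x => ‖(Metric.ball (0 : X3) s).indicator f x‖ ^ 2) =
      (Metric.ball (0 : X3) s).indicator (fun x => ‖f x‖ ^ 2) := by
    funext x
    by_cases hx : x ∈ Metric.ball (0 : X3) s
    · rw [Set.indicator_of_mem hx, Set.indicator_of_mem hx]
    · rw [Set.indicator_of_notMem hx, Set.indicator_of_notMem hx]
      simp
  have hgL : MemLp ((Metric.ball (0 : X3) s).indicator f) 2 (volume : Measure X3) :=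
    (memLp_two_iff_integrable_sq_norm hgm).2
      (by rw [hg2]; exact (integrable_indicator_iff measurableSet_ball).2 hi)
  have he : (fun x => inner ℂ (ζ x) (f x)) =
      fun x => inner ℂ (ζ x) ((Metric.ball (0 : X3) s).indicator f x) := by
    funext x
    by_cases hx : x ∈ Metric.ball (0 : X3) s
    · rw [Set.indicator_of_mem hx]
    · rw [hs x hx, inner_zero_left, inner_zero_left]
  have hn : ∫ x, ‖(Metric.ball (0 : X3) s).indicator f x‖ ^ 2 =
      ∫ x in Metric.ball (0 : X3) s, ‖f x‖ ^ 2 := by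
    rw [hg2, integral_indicator measurableSet_ball]
  refine ⟨?_, ?_⟩
  · rw [he]; exact integrable_inner_memLp hζ hgL
  · rw [he, ← hn]; exact cs_inner hζ hgL

lemma lm_supp {ζ : X3 → F} (hζ : Setup.Tst ζ) :
    ∃ s : ℝ, 0 < s ∧ ∀ x, x ∉ Metric.ball (0 : X3) s → ζ x = 0 := by
  obtain ⟨C, r, -, hr, -, h⟩ := hζ.exists_bound
  refine ⟨r + 1, by linarith, fun x hx => h x ?_⟩
  rw [Metric.mem_ball, dist_zero_right, not_lt] at hx
  linarith

lemma lm_sub_sq {a b : F} : ‖a - b‖ ^ 2 ≤ 2 * ‖a‖ ^ 2 + 2 * ‖b‖ ^ 2 := by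
  have h1 := norm_sub_le a b
  have h2 := norm_nonneg (a - b)
  nlinarith [sq_nonneg (‖a‖ - ‖b‖)]

/-- weak limits from local strong limits -/
lemma lm_tend {v : ℕ → X3 → F} {u : X3 → F} (hv : ∀ k, Continuous (v k))
    (hu : StronglyMeasurable u)
    (hi : ∀ s : ℝ, 0 < s → IntegrableOn (fun x => ‖u x‖ ^ 2) (Metric.ball (0 : X3) s))
    (hl : ∀ s : ℝ, 0 < s → Tendsto (fun k => ∫ x in Metric.ball (0 : X3) s, ‖v k x - u x‖ ^ 2)
      atTop (𝓝 0)) {ζ : X3 → F} (hζ : Setup.Tst ζ) :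
    Tendsto (fun k => ∫ x, inner ℂ (ζ x) (v k x)) atTop (𝓝 (∫ x, inner ℂ (ζ x) (u x))) := by
  obtain ⟨s, hs0, hs⟩ := lm_supp hζ
  have hmem := hζ.memLp
  have hvi : ∀ k, IntegrableOn (fun x => ‖v k x‖ ^ 2) (Metric.ball (0 : X3) s) := fun k =>
    lm_intOn ((hv k).norm.pow 2) s
  have hdi : ∀ k, IntegrableOn (fun x => ‖v k x - u x‖ ^ 2) (Metric.ball (0 : X3) s) := by
    intro k
    refine Integrable.mono' (((hvi k).const_mul 2).add ((hi s hs0).const_mul 2)) ?_
      (Filter.Eventually.of_forall fun x => ?_)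
    · exact (((hv k).aestronglyMeasurable.sub hu.aestronglyMeasurable).norm.pow 2)
    · rw [Real.norm_of_nonneg (by positivity)]
      exact lm_sub_sq
  rw [tendsto_iff_norm_sub_tendsto_zero]
  have hb : ∀ k, ‖(∫ x, inner ℂ (ζ x) (v k x)) - ∫ x, inner ℂ (ζ x) (u x)‖ ≤
      Real.sqrt (nsq ζ) * Real.sqrt (∫ x in Metric.ball (0 : X3) s, ‖v k x - u x‖ ^ 2) := by
    intro k
    have i1 := (lm_cs hmem hs (hv k).aestronglyMeasurable (hvi k)).1
    have i2 := (lm_cs hmem hs hu.aestronglyMeasurable (hi s hs0)).1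
    have i3 := (lm_cs hmem hs ((hv k).aestronglyMeasurable.sub hu.aestronglyMeasurable)
      (hdi k)).2
    rw [← integral_sub i1 i2]
    simpa only [inner_sub_right, Pi.sub_apply] using i3
  refine squeeze_zero (fun k => norm_nonneg _) hb ?_
  have := ((Real.continuous_sqrt.tendsto 0).comp (hl s hs0)).const_mul (Real.sqrt (nsq ζ))
  rw [Real.sqrt_zero, mul_zero] at this
  exact this

/-- local norms tending to zero -/
lemma lm_null {v : ℕ → X3 → F} (hv : ∀ k, Continuous (v k))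
    (hl : ∀ s : ℝ, 0 < s → Tendsto (fun k => ∫ x in Metric.ball (0 : X3) s, ‖v k x‖ ^ 2)
      atTop (𝓝 0)) {ζ : X3 → F} (hζ : Setup.Tst ζ) :
    Tendsto (fun k => ∫ x, inner ℂ (ζ x) (v k x)) atTop (𝓝 0) := by
  have h := lm_tend (u := fun _ => (0 : F)) hv stronglyMeasurable_const
    (fun s _ => by simp) (fun s hs => by simpa using hl s hs) hζ
  simpa using h

/-! ### symmetry -/

section symm

variable (S : Setup F)

lemma lm_Qlin_eq (ξ : X3) (β : Fin 16) (u : X3 → F) (x : X3) :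
    S.Qlin ξ β u x = S.Q β u x + (S.MM β x + S.DW ξ β x - S.W β x) (u x) := by
  rw [Setup.Qlin, Setup.Q, Setup.Q0, _root_.sub_apply, _root_.add_apply]
  abel

lemma lm_contDiff_op (ξ : X3) (β : Fin 16) :
    ContDiff ℝ ∞ (fun x => S.MM β x + S.DW ξ β x - S.W β x) :=
  ((lm_contDiff_MM S β).add (lm_contDiff_DW S ξ β)).sub (S.contDiff_W β)

lemma lm_Tst_Qlin (ξ : X3) (β : Fin 16) {u : X3 → F} (hu : Setup.Tst u) :
    Setup.Tst (S.Qlin ξ β u) := by
  have h : S.Qlin ξ β u = fun x => S.Q β u x + (S.MM β x + S.DW ξ β x - S.W β x) (u x) :=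
    funext fun x => lm_Qlin_eq S ξ β u x
  rw [h]
  exact (hu.Q S β).add (Setup.Tst.clm (lm_contDiff_op S ξ β) hu)

lemma lm_Qlin_symm (ξ : X3) (β : Fin 16) {ζ v : X3 → F} (hζ : Setup.Tst ζ)
    (hv : ContDiff ℝ ∞ v) :
    ∫ x, inner ℂ (S.Qlin ξ β ζ x) (v x) = ∫ x, inner ℂ (ζ x) (S.Qlin ξ β v x) := by
  simp only [lm_Qlin_eq, inner_add_left, inner_add_right]
  rw [integral_add ((hζ.Q S β).inner_int hv.continuous)
    ((Setup.Tst.clm (lm_contDiff_op S ξ β) hζ).inner_int hv.continuous),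
    integral_add (hζ.inner_int (S.contDiff_Q β hv).continuous)
    (hζ.inner_int (Setup.contDiff_clm_apply' (lm_contDiff_op S ξ β) hv).continuous),
    Q_symm S β ζ v hζ hv]
  congr 1
  refine integral_congr_ae (Filter.Eventually.of_forall fun x => ?_)
  simp only [_root_.sub_apply, _root_.add_apply, inner_sub_left, inner_add_left, inner_sub_right,
    inner_add_right, lm_MM_symm, lm_DW_symm, S.W_symm]

end symm

end Vale.Agent.P353.U
end

section

/-! # P353, uniqueness for `N = 2`: local limits, gradient bounds -/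

open MeasureTheory Filter Topology
open scoped ContDiff

namespace Vale.Agent.P353.U

variable {F : Type*} [NormedAddCommGroup F] [InnerProductSpace ℂ F]

section grad

variable (S : Setup F)

lemma lm_Q0_eq (β : Fin 16) (u : X3 → F) (x : X3) : S.Q0 β u x = S.Q β u x - S.W β x (u x) := by
  rw [Setup.Q, Setup.Q0]; abel

lemma lm_Q0_cut (χ : X3 → ℝ) (β : Fin 16) (u : X3 → F) (x : X3) (hχ : DifferentiableAt ℝ χ x)
    (hu : DifferentiableAt ℝ u x) :
    S.Q0 β (fun y => ((χ y : ℝ) : ℂ) • u y) x = ((χ x : ℝ) : ℂ) • S.Q0 β u x +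
      S.gradOp χ β x (u x) := by
  rw [lm_Q0_eq, S.Q_cut χ β u x hχ hu, lm_Q0_eq, map_smul, smul_sub]
  abel

lemma lm_Q0_lin (ξ : X3) (β : Fin 16) (u : X3 → F) (x : X3) :
    S.Q0 β u x = S.Qlin ξ β u x - (S.MM β x (u x) + S.DW ξ β x (u x)) := by
  rw [Setup.Qlin]; abel

/-- value and derivatives of a cutoff function times `u` outside the support of the cutoff -/
lemma lm_cut_zero {χ : X3 → ℝ} {u : X3 → F} {R : ℝ} (h : ∀ x, R ≤ ‖x‖ → χ x = 0) {x : X3}
    (hx : R < ‖x‖) (β : Fin 16) : S.Q0 β (fun y => ((χ y : ℝ) : ℂ) • u y) x = 0 := by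
  have h1 : (fun y => ((χ y : ℝ) : ℂ) • u y) =ᶠ[𝓝 x] fun _ => (0 : F) := by
    have h2 : {y : X3 | R < ‖y‖} ∈ 𝓝 x := (isOpen_lt continuous_const continuous_norm).mem_nhds hx
    filter_upwards [h2] with y hy
    rw [h y (le_of_lt hy)]; simp
  have h3 : ∀ i A, pd i A (fun y => ((χ y : ℝ) : ℂ) • u y) x = 0 := by
    intro i A
    rw [pd, h1.fderiv_eq]; simp
  rw [Setup.Q0]
  simp only [h3, map_zero, Finset.sum_const_zero, smul_zero]

lemma lm_pd_cut_one {χ : X3 → ℝ} {u : X3 → F} {R : ℝ} (h : ∀ x, ‖x‖ ≤ R → χ x = 1) {x : X3}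
    (hx : ‖x‖ < R) (i : Fin 9) (A : Fin 3) :
    pd i A (fun y => ((χ y : ℝ) : ℂ) • u y) x = pd i A u x := by
  have h1 : (fun y => ((χ y : ℝ) : ℂ) • u y) =ᶠ[𝓝 x] u := by
    have h2 : {y : X3 | ‖y‖ < R} ∈ 𝓝 x := (isOpen_lt continuous_norm continuous_const).mem_nhds hx
    filter_upwards [h2] with y hy
    rw [h y (le_of_lt hy)]; simp
  rw [pd, pd, h1.fderiv_eq]

/-- local gradient bound -/
lemma lm_grad (h8 : A8Stmt S) (ξ : X3) (hcr : ∀ β, S.W β ξ + S.MM β ξ = 0) {s : ℝ}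
    (hs : 0 < s) : ∃ C : ℝ, 0 ≤ C ∧ ∀ m : ℝ, 1 ≤ m → ∀ φ : X3 → F, ContDiff ℝ ∞ φ →
      ∑ i, ∑ A, (∫ x in Metric.ball (0 : X3) s, ‖pd i A (scl m ξ φ) x‖ ^ 2) ≤
        C * (∑ β, (∫ x in Metric.ball (0 : X3) (3 * s), m⁻¹ * ‖scl m ξ (S.Qm m β φ) x‖ ^ 2) +
          ∫ x in Metric.ball (0 : X3) (3 * s), ‖scl m ξ φ x‖ ^ 2) := by
  obtain ⟨K, hK, hcut⟩ := exists_cut
  obtain ⟨χ, hχ, hc, hχ0, hχ1, hone, hzero, -, -⟩ := hcut s hs
  -- operator bounds
  have hop : ∀ β : Fin 16, ∃ C : ℝ, 0 ≤ C ∧ ∀ x ∈ Metric.closedBall (0 : X3) (3 * s),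
      ‖S.W β x‖ + ‖S.MM β x‖ + ‖S.DW ξ β x‖ + ‖S.gradOp χ β x‖ ≤ C := by
    intro β
    obtain ⟨C1, h1, hC1⟩ := S.gradOp_bound hχ hc β
    have hcont : Continuous fun x => ‖S.W β x‖ + ‖S.MM β x‖ + ‖S.DW ξ β x‖ :=
      (((S.contDiff_W β).continuous.norm).add (lm_contDiff_MM S β).continuous.norm).add
        (lm_contDiff_DW S ξ β).continuous.norm
    obtain ⟨C2, hC2⟩ := (isCompact_closedBall (0 : X3) (3 * s)).exists_bound_of_continuousOn
      hcont.continuousOn
    refine ⟨max (C2 + C1) 0, le_max_right _ _, fun x hx => le_trans ?_ (le_max_left _ _)⟩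
    have h3 := hC2 x hx
    rw [Real.norm_of_nonneg (by positivity)] at h3
    linarith [hC1 x]
  choose C0 hC0 hC0' using hop
  set C : ℝ := ∑ β, C0 β with hCdef
  have hCβ : ∀ β, C0 β ≤ C := fun β => Finset.single_le_sum (f := C0)
    (fun β _ => hC0 β) (Finset.mem_univ β)
  have hC : 0 ≤ C := Finset.sum_nonneg fun β _ => hC0 β
  refine ⟨2 + 32 * C ^ 2, by positivity, ?_⟩
  intro m hm φ hφ
  have hm0 : 0 < m := by linarith
  set u : X3 → F := scl m ξ φ with hu
  have huc : ContDiff ℝ ∞ u := lm_scl_contDiff hφ m ξ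
  set t : ℝ := (Real.sqrt m)⁻¹ with ht
  have hsq1 : 1 ≤ Real.sqrt m := by rw [Real.one_le_sqrt]; exact hm
  have ht0 : 0 ≤ t := by positivity
  have ht1 : t ≤ 1 := inv_le_one_of_one_le₀ hsq1
  have ht3 : t ^ 3 ≤ 1 := pow_le_one₀ ht0 ht1
  have ht2 : t ^ 2 = m⁻¹ := by rw [ht, inv_pow, Real.sq_sqrt hm0.le]
  -- the cutoff function
  have hv : Setup.Tst (fun y => ((χ y : ℝ) : ℂ) • u y) := by
    refine ⟨(Setup.contDiff_ofReal hχ).smul huc, hc.mono ?_⟩
    intro x hx
    simp only [Function.mem_support] at hx ⊢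
    intro h0
    exact hx (by rw [h0]; simp)
  have hA := h8 _ hv
  -- gradient on the small ball
  have hleft : ∑ i, ∑ A, (∫ x in Metric.ball (0 : X3) s, ‖pd i A u x‖ ^ 2) ≤
      ∑ i, ∑ A, nsq (pd i A (fun y => ((χ y : ℝ) : ℂ) • u y)) := by
    refine Finset.sum_le_sum fun i _ => Finset.sum_le_sum fun A _ => ?_
    have h1 : ∫ x in Metric.ball (0 : X3) s, ‖pd i A u x‖ ^ 2 =
        ∫ x in Metric.ball (0 : X3) s, ‖pd i A (fun y => ((χ y : ℝ) : ℂ) • u y) x‖ ^ 2 := by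
      refine setIntegral_congr_fun measurableSet_ball fun x hx => ?_
      rw [Metric.mem_ball, dist_zero_right] at hx
      rw [lm_pd_cut_one hone hx i A]
    rw [h1, nsq]
    exact setIntegral_le_integral ((hv.pd i A).norm_sq_int)
      (Filter.Eventually.of_forall fun x => by positivity)
  -- supercharges
  have hQ : ∀ β, nsq (S.Q0 β (fun y => ((χ y : ℝ) : ℂ) • u y)) ≤
      2 * (∫ x in Metric.ball (0 : X3) (3 * s), m⁻¹ * ‖scl m ξ (S.Qm m β φ) x‖ ^ 2) +
        2 * C ^ 2 * ∫ x in Metric.ball (0 : X3) (3 * s), ‖u x‖ ^ 2 := by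
    intro β
    have hE : ∀ x, S.Q0 β u x = ((t : ℝ) : ℂ) • scl m ξ (S.Qm m β φ) x -
        (((t ^ 3 : ℝ) : ℂ) • S.W β x (u x) + S.MM β x (u x) + S.DW ξ β x (u x)) := by
      intro x
      rw [lm_Q0_lin S ξ, lm_Qm_scl S hφ hm0 (hcr β) x]
      abel
    have hcE : Continuous fun x => scl m ξ (S.Qm m β φ) x := by
      have h1 : ContDiff ℝ ∞ (S.Qm m β φ) := by
        have : ContDiff ℝ ∞ (fun x => S.Q β φ x + (m : ℂ) • S.MM β x (φ x)) :=
          (S.contDiff_Q β hφ).add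
            ((Setup.contDiff_clm_apply' (lm_contDiff_MM S β) hφ).const_smul (m : ℂ))
        exact this
      exact (lm_scl_contDiff h1 m ξ).continuous
    have hout : ∀ x, x ∉ Metric.ball (0 : X3) (3 * s) →
        ‖S.Q0 β (fun y => ((χ y : ℝ) : ℂ) • u y) x‖ ^ 2 = 0 := by
      intro x hx
      rw [Metric.mem_ball, dist_zero_right, not_lt] at hx
      rw [lm_cut_zero S hzero (by linarith) β]
      simp
    have hin : nsq (S.Q0 β (fun y => ((χ y : ℝ) : ℂ) • u y)) =
        ∫ x in Metric.ball (0 : X3) (3 * s),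
          ‖S.Q0 β (fun y => ((χ y : ℝ) : ℂ) • u y) x‖ ^ 2 := by
      rw [nsq]
      exact (setIntegral_eq_integral_of_forall_compl_eq_zero hout).symm
    rw [hin, ← integral_const_mul, ← integral_const_mul, ← integral_add]
    · refine integral_mono_of_nonneg (Filter.Eventually.of_forall fun x => by positivity) ?_ ?_
      · exact ((lm_intOn ((continuous_const.mul (hcE.norm.pow 2))) _).const_mul 2).add
          ((lm_intOn (huc.continuous.norm.pow 2) _).const_mul _)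
      · refine (ae_restrict_iff' measurableSet_ball).2 (Filter.Eventually.of_forall fun x hx => ?_)
        have hb := hC0' β x (Metric.ball_subset_closedBall hx)
        have hbC := hb.trans (hCβ β)
        simp only
        rw [lm_Q0_cut S χ β u x (hχ.differentiable (by simp) x)
          (huc.differentiable (by simp) x), hE x]
        set e : F := ((t : ℝ) : ℂ) • scl m ξ (S.Qm m β φ) x with he
        have hne : ‖e‖ ^ 2 = m⁻¹ * ‖scl m ξ (S.Qm m β φ) x‖ ^ 2 := by
          rw [he, norm_smul, Complex.norm_real, Real.norm_of_nonneg ht0, mul_pow, ht2]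
        have h1 : ‖((χ x : ℝ) : ℂ) • (e - (((t ^ 3 : ℝ) : ℂ) • S.W β x (u x) + S.MM β x (u x) +
            S.DW ξ β x (u x))) + S.gradOp χ β x (u x)‖ ≤ ‖e‖ + C * ‖u x‖ := by
          have a1 : ‖((χ x : ℝ) : ℂ)‖ ≤ 1 := by
            rw [Complex.norm_real, Real.norm_of_nonneg (hχ0 x)]; exact hχ1 x
          have a2 : ‖((t ^ 3 : ℝ) : ℂ)‖ ≤ 1 := by
            rw [Complex.norm_real, Real.norm_of_nonneg (by positivity)]; exact ht3
          have b1 : ‖((t ^ 3 : ℝ) : ℂ) • S.W β x (u x)‖ ≤ ‖S.W β x‖ * ‖u x‖ := by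
            rw [norm_smul]
            calc ‖((t ^ 3 : ℝ) : ℂ)‖ * ‖S.W β x (u x)‖ ≤ 1 * (‖S.W β x‖ * ‖u x‖) :=
                  mul_le_mul a2 ((S.W β x).le_opNorm _) (norm_nonneg _) zero_le_one
              _ = _ := one_mul _
          have b2 := (S.MM β x).le_opNorm (u x)
          have b3 := (S.DW ξ β x).le_opNorm (u x)
          have b4 := (S.gradOp χ β x).le_opNorm (u x)
          have c1 : ‖e - (((t ^ 3 : ℝ) : ℂ) • S.W β x (u x) + S.MM β x (u x) +
              S.DW ξ β x (u x))‖ ≤ ‖e‖ + (‖S.W β x‖ + ‖S.MM β x‖ + ‖S.DW ξ β x‖) * ‖u x‖ := by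
            refine (norm_sub_le _ _).trans ?_
            have := norm_add_le (((t ^ 3 : ℝ) : ℂ) • S.W β x (u x) + S.MM β x (u x))
              (S.DW ξ β x (u x))
            have := norm_add_le (((t ^ 3 : ℝ) : ℂ) • S.W β x (u x)) (S.MM β x (u x))
            linarith
          have c2 : ‖((χ x : ℝ) : ℂ) • (e - (((t ^ 3 : ℝ) : ℂ) • S.W β x (u x) +
              S.MM β x (u x) + S.DW ξ β x (u x)))‖ ≤
              ‖e‖ + (‖S.W β x‖ + ‖S.MM β x‖ + ‖S.DW ξ β x‖) * ‖u x‖ := by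
            rw [norm_smul]
            refine le_trans ?_ c1
            calc ‖((χ x : ℝ) : ℂ)‖ * _ ≤ 1 * _ := mul_le_mul_of_nonneg_right a1 (norm_nonneg _)
              _ = _ := one_mul _
          have c3 := mul_le_mul_of_nonneg_right hbC (norm_nonneg (u x))
          refine (norm_add_le _ _).trans ?_
          linarith
        have h2 := pow_le_pow_left₀ (norm_nonneg _) h1 2
        refine h2.trans ?_
        rw [← hne]
        nlinarith [sq_nonneg (‖e‖ - C * ‖u x‖)]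
    · exact (lm_intOn ((continuous_const.mul (hcE.norm.pow 2))) _).const_mul 2
    · exact (lm_intOn (huc.continuous.norm.pow 2) _).const_mul _
  have hsum := Finset.sum_le_sum fun β (_ : β ∈ Finset.univ) => hQ β
  rw [hA, Finset.sum_add_distrib, ← Finset.mul_sum, Finset.sum_const, Finset.card_univ,
    Fintype.card_fin, nsmul_eq_mul] at hsum
  have n1 : 0 ≤ ∑ β, (∫ x in Metric.ball (0 : X3) (3 * s),
      m⁻¹ * ‖scl m ξ (S.Qm m β φ) x‖ ^ 2) :=
    Finset.sum_nonneg fun β _ => integral_nonneg fun x => by positivity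
  have n2 : 0 ≤ ∫ x in Metric.ball (0 : X3) (3 * s), ‖u x‖ ^ 2 :=
    integral_nonneg fun x => by positivity
  push_cast at hsum
  have n3 : 0 ≤ C ^ 2 * ∑ β, (∫ x in Metric.ball (0 : X3) (3 * s),
      m⁻¹ * ‖scl m ξ (S.Qm m β φ) x‖ ^ 2) := by positivity
  have n4 : 0 ≤ C ^ 2 * ∫ x in Metric.ball (0 : X3) (3 * s), ‖u x‖ ^ 2 := by positivity
  nlinarith

end grad

/-! ### adjoints -/

section adj

/-- `L` has a formal adjoint on test functions -/
def LmAdj (L : (X3 → F) → X3 → F) : Prop :=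
  (∀ v, ContDiff ℝ ∞ v → Continuous (L v)) ∧ ∀ ζ, Setup.Tst ζ → ∃ Z, Setup.Tst Z ∧
    ∀ v, ContDiff ℝ ∞ v → ∫ x, inner ℂ (ζ x) (L v x) = ∫ x, inner ℂ (Z x) (v x)

lemma LmAdj.zero : LmAdj (fun (_ : X3 → F) (_ : X3) => (0 : F)) := by
  refine ⟨fun v _ => continuous_const, fun ζ _ => ⟨fun _ => 0, ⟨contDiff_const, ?_⟩, ?_⟩⟩
  · exact HasCompactSupport.zero
  · intro v _; simp

lemma LmAdj.add {L L' : (X3 → F) → X3 → F} (h : LmAdj L) (h' : LmAdj L') :
    LmAdj (fun v x => L v x + L' v x) := by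
  refine ⟨fun v hv => (h.1 v hv).add (h'.1 v hv), fun ζ hζ => ?_⟩
  obtain ⟨Z, hZ, hZ'⟩ := h.2 ζ hζ
  obtain ⟨Y, hY, hY'⟩ := h'.2 ζ hζ
  refine ⟨fun x => Z x + Y x, hZ.add hY, fun v hv => ?_⟩
  simp only [inner_add_left, inner_add_right]
  rw [integral_add (hζ.inner_int (h.1 v hv)) (hζ.inner_int (h'.1 v hv)),
    integral_add (hZ.inner_int hv.continuous) (hY.inner_int hv.continuous), hZ' v hv, hY' v hv]

lemma LmAdj.sum {ι : Type*} (s : Finset ι) {L : ι → (X3 → F) → X3 → F}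
    (h : ∀ i, LmAdj (L i)) : LmAdj (fun v x => ∑ i ∈ s, L i v x) := by
  classical
  induction s using Finset.induction_on with
  | empty => simpa using LmAdj.zero
  | insert a s ha ih =>
    simp only [Finset.sum_insert ha]
    exact (h a).add ih

lemma LmAdj.smul {L : (X3 → F) → X3 → F} (c : ℂ) (h : LmAdj L) :
    LmAdj (fun v x => c • L v x) := by
  refine ⟨fun v hv => (h.1 v hv).const_smul c, fun ζ hζ => ?_⟩
  obtain ⟨Z, hZ, hZ'⟩ := h.2 ζ hζ
  refine ⟨fun x => (starRingEnd ℂ) c • Z x, ⟨hZ.1.const_smul _, hZ.2.mono ?_⟩, fun v hv => ?_⟩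
  · intro x hx
    simp only [Function.mem_support] at hx ⊢
    intro h0
    exact hx (by rw [h0, smul_zero])
  · simp only [inner_smul_left, inner_smul_right, RingHomCompTriple.comp_apply, RingHom.id_apply]
    rw [integral_const_mul, integral_const_mul, hZ' v hv]

lemma LmAdj.xpd (p : Fin 9 × Fin 3) (i : Fin 9) (A : Fin 3) :
    LmAdj (fun (v : X3 → F) x => ((x p : ℝ) : ℂ) • pd i A v x) := by
  refine ⟨fun v hv => ((Setup.contDiff_ofReal (Setup.contDiff_coord p)).continuous).smul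
    (contDiff_pd hv).continuous, fun ζ hζ => ?_⟩
  have h1 : Setup.Tst (fun x => ((x p : ℝ) : ℂ) • ζ x) :=
    Setup.Tst.rsmul (Setup.contDiff_coord p) hζ
  refine ⟨fun x => -pd i A (fun x => ((x p : ℝ) : ℂ) • ζ x) x, (h1.pd i A).neg, fun v hv => ?_⟩
  have h2 := integral_inner_pd (fun x => ((x p : ℝ) : ℂ) • ζ x) v (h1.1.of_le (by simp))
    (hv.of_le (by simp)) h1.2 i A
  simp only [inner_neg_left]
  rw [integral_neg, h2, neg_neg]
  refine integral_congr_ae (Filter.Eventually.of_forall fun x => ?_)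
  simp only [inner_smul_left, inner_smul_right, Complex.conj_ofReal]

lemma LmAdj.clm {T : F →L[ℂ] F} (hT : ∀ v w, inner ℂ (T v) w = inner ℂ v (T w)) :
    LmAdj (fun (v : X3 → F) x => T (v x)) := by
  refine ⟨fun v hv => T.continuous.comp hv.continuous, fun ζ hζ => ?_⟩
  refine ⟨fun x => T (ζ x), Setup.Tst.clm (T := fun _ => T) contDiff_const hζ, fun v hv => ?_⟩
  simp only [hT]

lemma lm_adj_G (S : Setup F) (C : Fin 3) : LmAdj (S.G C) := by
  have h : LmAdj (fun (u : X3 → F) x => (-Complex.I) • ∑ i, ∑ A, ∑ B,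
      ((eps C A B : ℂ) * (x (i, A) : ℂ)) • pd i B u x + S.cS C (u x)) := by
    refine LmAdj.add (LmAdj.smul _ (LmAdj.sum _ fun i => LmAdj.sum _ fun A =>
      LmAdj.sum _ fun B => ?_)) (LmAdj.clm (S.cS_symm C))
    have h1 := LmAdj.smul (F := F) (eps C A B : ℂ) (LmAdj.xpd (i, A) i B)
    simpa only [smul_smul] using h1
  exact h

end adj

end Vale.Agent.P353.U
end
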