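import Mathlib
import Vale.Agent.P353.BdU.B2
import Vale.Agent.P353.BdU.B11
import Vale.Agent.P353.BdU.B1

set_option linter.all false

section

/-! Task EX-25: the Hilbert space argument.

`N₁` = closure in `L²` of `{K.DD u : u core}`.  `Ψ = Ψ₀ - proj_{N₁} Ψ₀`.  For core `u, χ`:
`⟨K.DD u, K.flip.DD χ⟩ = -⟨u, flip.DD (flip.DD χ)⟩ = 0` (`DD_DD_core` for `K.flip`, `DD_adj`), so
`⟨Ψ, K.flip.DD χ⟩ = 0`; `⟨Ψ, K.DD χ⟩ = 0` by orthogonality.  `Ψ ≠ 0` since `Ξ ⟂ N₁` and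
`⟨Ξ, Ψ₀⟩ ≠ 0`.  Covariant functions form a closed subspace of `L²` containing the core. -/

open MeasureTheory Filter Topology
open scoped ContDiff ComplexConjugate

namespace Vale.Agent.P353.Ex

variable {F : Type*} [NormedAddCommGroup F] [InnerProductSpace ℂ F]

/-- abstract Hilbert space part -/
theorem hilbert_split {H : Type*} [NormedAddCommGroup H] [InnerProductSpace ℂ H] [CompleteSpace H]
    (S : Set H) (ψ ξ : H) (h : ∀ s ∈ S, inner ℂ ξ s = 0) (h3 : inner ℂ ξ ψ ≠ 0) :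
    ∃ Ψ p : H, Ψ = ψ - p ∧ p ∈ (Submodule.span ℂ S).topologicalClosure ∧
      (∀ s ∈ S, inner ℂ Ψ s = 0) ∧ Ψ ≠ 0 := by
  set N := (Submodule.span ℂ S).topologicalClosure with hN
  have hNc : IsClosed (N : Set H) := (Submodule.span ℂ S).isClosed_topologicalClosure
  have : CompleteSpace N := hNc.completeSpace_coe
  obtain ⟨p, hp, q, hq, hpq⟩ := N.exists_add_mem_mem_orthogonal ψ
  have hSN : ∀ s ∈ S, s ∈ N := fun s hs =>
    (Submodule.span ℂ S).le_topologicalClosure (Submodule.subset_span hs)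
  have hξ : N ≤ (ℂ ∙ ξ)ᗮ := by
    refine Submodule.topologicalClosure_minimal _ ?_ (Submodule.isClosed_orthogonal _)
    refine Submodule.span_le.2 fun s hs => ?_
    exact Submodule.mem_orthogonal_singleton_iff_inner_right.2 (h s hs)
  refine ⟨q, p, by rw [hpq]; abel, hp, ?_, ?_⟩
  · intro s hs
    exact (Submodule.mem_orthogonal' N q).1 hq s (hSN s hs)
  · rintro rfl
    apply h3
    rw [hpq, add_zero]
    exact Submodule.mem_orthogonal_singleton_iff_inner_right.1 (hξ hp)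

namespace Fk

variable (K : Fk F) [FiniteDimensional ℂ F]

/-- weak zero modes -/
def WeakZM (Ψ : Lp F 2 (volume : Measure X3)) : Prop :=
  (∀ U : SU2, ∀ᵐ x, Ψ (act U x) = K.S U (Ψ x)) ∧
    (∀ χ, K.Core χ → ∫ x, inner ℂ (Ψ x) (K.DD χ x) = 0) ∧
    (∀ χ, K.Core χ → ∫ x, inner ℂ (Ψ x) (K.flip.DD χ x) = 0)

theorem hilb_act_mp (U : SU2) : MeasurePreserving (act U) (volume : Measure X3) volume :=
  (actL U).measurePreserving

omit [FiniteDimensional ℂ F] in
theorem hilb_memLp {u : X3 → F} (hu : K.Core u) : MemLp (K.DD u) 2 (volume : Measure X3) :=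
  (K.tst_DD ⟨hu.1, hu.2.1⟩ : Setup.Tst (K.DD u)).memLp

omit [FiniteDimensional ℂ F] in
theorem hilb_inner (f : Lp F 2 (volume : Measure X3)) {g : X3 → F}
    (hg : MemLp g 2 (volume : Measure X3)) :
    inner ℂ f (hg.toLp g) = ∫ x, inner ℂ (f x) (g x) := by
  rw [L2.inner_def]
  refine integral_congr_ae ?_
  filter_upwards [hg.coeFn_toLp] with x hx
  rw [hx]

omit [FiniteDimensional ℂ F] in
theorem hilb_inner' {f g : X3 → F} (hf : MemLp f 2 (volume : Measure X3))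
    (hg : MemLp g 2 (volume : Measure X3)) :
    inner ℂ (hf.toLp f) (hg.toLp g) = ∫ x, inner ℂ (f x) (g x) := by
  rw [hilb_inner]
  refine integral_congr_ae ?_
  filter_upwards [hf.coeFn_toLp] with x hx
  rw [hx]

/-- covariant functions -/
noncomputable def hilbCov (U : SU2) : Submodule ℂ (Lp F 2 (volume : Measure X3)) :=
  LinearMap.ker (((Lp.compMeasurePreservingₗᵢ (E := F) (p := 2) ℂ (act U)
      (hilb_act_mp U)).toContinuousLinearMap -
    (K.S U).compLpL 2 (volume : Measure X3) :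
      Lp F 2 (volume : Measure X3) →L[ℂ] Lp F 2 (volume : Measure X3)) :
      Lp F 2 (volume : Measure X3) →ₗ[ℂ] Lp F 2 (volume : Measure X3))

omit [FiniteDimensional ℂ F] in
theorem hilb_mem_cov {U : SU2} {f : Lp F 2 (volume : Measure X3)} :
    f ∈ K.hilbCov U ↔ ∀ᵐ x, f (act U x) = K.S U (f x) := by
  unfold hilbCov
  rw [LinearMap.mem_ker]
  change Lp.compMeasurePreservingₗᵢ ℂ (act U) (hilb_act_mp U) f -
    (K.S U).compLpL 2 (volume : Measure X3) f = 0 ↔ _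
  rw [sub_eq_zero, Lp.ext_iff]
  have h1 : Lp.compMeasurePreservingₗᵢ ℂ (act U) (hilb_act_mp U) f =ᵐ[volume] f ∘ act U :=
    Lp.coeFn_compMeasurePreserving f (hilb_act_mp U)
  have h2 := (K.S U).coeFn_compLpL (p := 2) (μ := (volume : Measure X3)) f
  constructor
  · intro h
    filter_upwards [h, h1, h2] with x a b c
    rw [← c, ← a, b]
    rfl
  · intro h
    filter_upwards [h, h1, h2] with x a b c
    rw [b, c, ← a]
    rfl

omit [FiniteDimensional ℂ F] in
theorem hilb_cov_closed (U : SU2) : IsClosed (K.hilbCov U : Set (Lp F 2 (volume : Measure X3))) :=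
  ContinuousLinearMap.isClosed_ker _

theorem exists_weakZM (hG : K.Gauss) {Ψ₀ Ξ : X3 → F} (h0 : MemLp Ψ₀ 2 (volume : Measure X3))
    (hX : MemLp Ξ 2 (volume : Measure X3))
    (hc : ∀ U x, Ψ₀ (act U x) = K.S U (Ψ₀ x))
    (h1 : ∀ χ, K.Core χ → ∫ x, inner ℂ (Ψ₀ x) (K.flip.DD χ x) = 0)
    (h2 : ∀ χ, K.Core χ → ∫ x, inner ℂ (Ξ x) (K.DD χ x) = 0)
    (h3 : ∫ x, inner ℂ (Ξ x) (Ψ₀ x) ≠ 0) :
    ∃ Ψ : Lp F 2 (volume : Measure X3), K.WeakZM Ψ ∧ Ψ ≠ 0 := by
  have : CompleteSpace F := FiniteDimensional.complete ℂ F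
  have hGf : K.flip.Gauss := by
    intro u hu A x
    rw [K.flip_LL]
    exact hG u hu A x
  let S : Set (Lp F 2 (volume : Measure X3)) :=
    {f | ∃ (u : X3 → F) (hu : K.Core u), f = (K.hilb_memLp hu).toLp _}
  obtain ⟨Ψ, p, hΨ, hp, horth, hne⟩ := hilbert_split S (h0.toLp Ψ₀) (hX.toLp Ξ)
    (by
      rintro _ ⟨u, hu, rfl⟩
      rw [hilb_inner']
      exact h2 u hu)
    (by
      rw [hilb_inner']
      exact h3)
  refine ⟨Ψ, ⟨fun U => ?_, fun χ hχ => ?_, fun χ hχ => ?_⟩, hne⟩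
  · rw [← K.hilb_mem_cov, hΨ]
    refine Submodule.sub_mem _ ?_ ?_
    · rw [K.hilb_mem_cov]
      have ha := h0.coeFn_toLp
      have hb := (hilb_act_mp U).quasiMeasurePreserving.ae ha
      filter_upwards [ha, hb] with x hx hy
      rw [hx, hy, hc]
    · have : (Submodule.span ℂ S).topologicalClosure ≤ K.hilbCov U := by
        refine Submodule.topologicalClosure_minimal _ ?_ (K.hilb_cov_closed U)
        refine Submodule.span_le.2 ?_
        rintro _ ⟨u, hu, rfl⟩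
        refine K.hilb_mem_cov.2 ?_
        have ha := (K.hilb_memLp hu).coeFn_toLp
        have hb := (hilb_act_mp U).quasiMeasurePreserving.ae ha
        filter_upwards [ha, hb] with x hx hy
        rw [hx, hy]
        exact (K.core_DD hu).2.2 U x
      exact this hp
  · have h4 := horth _ ⟨χ, hχ, rfl⟩
    rwa [hilb_inner] at h4
  · have hfl : MemLp (K.flip.DD χ) 2 (volume : Measure X3) := K.flip.hilb_memLp (u := χ) hχ
    rw [← hilb_inner Ψ hfl, hΨ, inner_sub_left, hilb_inner', h1 χ hχ, zero_sub, neg_eq_zero]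
    have : (Submodule.span ℂ S).topologicalClosure ≤ (ℂ ∙ (hfl.toLp _))ᗮ := by
      refine Submodule.topologicalClosure_minimal _ ?_ (Submodule.isClosed_orthogonal _)
      refine Submodule.span_le.2 ?_
      rintro _ ⟨u, hu, rfl⟩
      refine Submodule.mem_orthogonal_singleton_iff_inner_left.2 ?_
      rw [hilb_inner', K.DD_adj hu.1 (K.flip.tst_DD ⟨hχ.1, hχ.2.1⟩)]
      have h5 : ∀ x, K.flip.DD (K.flip.DD χ) x = 0 := fun x => K.flip.DD_DD_core hGf hχ x
      simp only [h5, inner_zero_right, integral_zero, neg_zero]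
    exact Submodule.mem_orthogonal_singleton_iff_inner_left.1 (this hp)

end Fk

end Vale.Agent.P353.Ex
end

section

/-! # P353, uniqueness for `N = 2`: B3, the resolvent is compact -/

open MeasureTheory Filter Topology
open scoped ContDiff

namespace Vale.Agent.P353.U

variable {F : Type*} [NormedAddCommGroup F] [InnerProductSpace ℂ F]

/-- The distance in `L²` of the class of a test function to an element of `L²`. -/
lemma rcomp_dist {u : X3 → F} (hu : MemLp u 2 (volume : Measure X3))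
    (g : Lp F 2 (volume : Measure X3)) :
    dist (hu.toLp u) g = Real.sqrt (nsq (fun x => u x - g x)) := by
  have h1 : hu.toLp u - g = (hu.sub (Lp.memLp g)).toLp (u - (g : X3 → F)) := by
    rw [MemLp.toLp_sub hu (Lp.memLp g), Lp.toLp_coeFn]
  rw [dist_eq_norm, h1, norm_toLp]
  rfl

theorem rComp (S : Setup F) [CompleteSpace F] (hG : GRStmt F) (h0 : CoerStmt S) :
    RCompStmt S := by
  intro m hm R hR
  obtain ⟨c, C, hc, hC, hco⟩ := h0 m m hm
  rw [isCompactOperator_iff_exists_mem_nhds_isCompact_closure_image]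
  refine ⟨Metric.closedBall 0 1, Metric.closedBall_mem_nhds _ one_pos, ?_⟩
  rw [isCompact_iff_isSeqCompact]
  intro y hy
  -- a bound for the approximants
  set B : ℝ := ‖R‖ + 1 with hB
  have hB0 : 0 ≤ B := by positivity
  have hex : ∀ n : ℕ, ∃ u : X3 → F, ∃ hu : Setup.Tst u,
      dist (hu.memLp.toLp u) (y n) ≤ 2 / ((n : ℝ) + 1) ∧
      nsq u + (∫ x, ‖x‖ ^ 2 * ‖u x‖ ^ 2) + ∑ i, ∑ A, nsq (pd i A u) ≤ B + (C * B + B) / c := by
    intro n
    have hn : (0 : ℝ) < 1 / ((n : ℝ) + 1) := by positivity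
    obtain ⟨z, ⟨f, hf, rfl⟩, hz⟩ := Metric.mem_closure_iff.1 (hy n) _ hn
    rw [mem_closedBall_zero_iff] at hf
    obtain ⟨Φ, ⟨v, hv, hvl, hvQ⟩, -, hen⟩ := hR.2 f
    have hbd : nsq (R f) + ∑ β, nsq (Φ β) ≤ ‖R‖ := by
      rw [hen]
      refine (Complex.re_le_norm _).trans ((norm_inner_le_norm _ _).trans ?_)
      calc ‖R f‖ * ‖f‖ ≤ (‖R‖ * ‖f‖) * ‖f‖ :=
            mul_le_mul_of_nonneg_right (R.le_opNorm f) (norm_nonneg _)
        _ ≤ (‖R‖ * 1) * 1 := by gcongr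
        _ = ‖R‖ := by ring
    have hlim : Tendsto (fun k => nsq (v k) + ∑ β, nsq (S.Qm m β (v k))) atTop
        (𝓝 (nsq (R f) + ∑ β, nsq (Φ β))) :=
      hvl.lim_nsq.add (tendsto_finsetSum _ fun β _ => (hvQ β).lim_nsq)
    have h1 : ∀ᶠ k in atTop, nsq (v k) + ∑ β, nsq (S.Qm m β (v k)) < B :=
      hlim.eventually_lt_const (by rw [hB]; linarith)
    have h2 : ∀ᶠ k in atTop, nsq (fun x => v k x - (R f) x) < (1 / ((n : ℝ) + 1)) ^ 2 :=
      hvl.lim.eventually_lt_const (by positivity)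
    obtain ⟨k, hk1, hk2⟩ := (h1.and h2).exists
    refine ⟨v k, hv k, ?_, ?_⟩
    · have h3 : dist ((hv k).memLp.toLp (v k)) (R f) ≤ 1 / ((n : ℝ) + 1) := by
        rw [rcomp_dist]
        calc Real.sqrt (nsq (fun x => v k x - (R f) x))
            ≤ Real.sqrt ((1 / ((n : ℝ) + 1)) ^ 2) := Real.sqrt_le_sqrt hk2.le
          _ = 1 / ((n : ℝ) + 1) := Real.sqrt_sq hn.le
      have h4 := dist_triangle ((hv k).memLp.toLp (v k)) (R f) (y n)
      rw [dist_comm (R f) (y n)] at h4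
      have h5 : (2 : ℝ) / ((n : ℝ) + 1) = 1 / ((n : ℝ) + 1) + 1 / ((n : ℝ) + 1) := by ring
      rw [h5]
      linarith [hz.le]
    · have hQ0 : 0 ≤ ∑ β, nsq (S.Qm m β (v k)) := Finset.sum_nonneg fun β _ => nsq_nonneg _
      have hu0 := nsq_nonneg (v k)
      have hu1 : nsq (v k) ≤ B := by linarith
      have hu2 : ∑ β, nsq (S.Qm m β (v k)) ≤ B := by linarith
      have h3 := hco m le_rfl le_rfl (v k) (hv k)
      have h4 : (∫ x, ‖x‖ ^ 2 * ‖v k x‖ ^ 2) + ∑ i, ∑ A, nsq (pd i A (v k)) ≤ (C * B + B) / c := by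
        rw [le_div_iff₀ hc, mul_comm]
        exact h3.trans (add_le_add (mul_le_mul_of_nonneg_left hu1 hC) hu2)
      linarith
  choose u hu hd hbd using hex
  obtain ⟨φ, hφ, Ψ, hΨ⟩ := hG u _ hu hbd
  have hlim := hΨ.lim_toLp
  have key : Tendsto (y ∘ φ) atTop (𝓝 (hΨ.mem'.toLp Ψ)) := by
    rw [tendsto_iff_dist_tendsto_zero] at hlim ⊢
    have h1 : Tendsto (fun n : ℕ => 2 / ((n : ℝ) + 1)) atTop (𝓝 0) := by
      have := (tendsto_one_div_add_atTop_nhds_zero_nat (𝕜 := ℝ)).const_mul 2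
      rw [mul_zero] at this
      refine this.congr fun n => ?_
      ring
    have h2 : Tendsto (fun n : ℕ => 2 / ((φ n : ℝ) + 1)
        + dist ((hΨ.mem n).toLp (u (φ n))) (hΨ.mem'.toLp Ψ)) atTop (𝓝 0) := by
      have := (h1.comp hφ.tendsto_atTop).add hlim
      simpa using this
    refine squeeze_zero (fun n => dist_nonneg) (fun n => ?_) h2
    have h3 := dist_triangle (y (φ n)) ((hu (φ n)).memLp.toLp (u (φ n))) (hΨ.mem'.toLp Ψ)
    have h4 := hd (φ n)
    rw [dist_comm] at h4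
    exact h3.trans (add_le_add h4 le_rfl)
  exact ⟨hΨ.mem'.toLp Ψ, isClosed_closure.mem_of_tendsto key
    (Eventually.of_forall fun n => hy (φ n)), φ, hφ, key⟩

end Vale.Agent.P353.U
end

section

/-! # P353, uniqueness for `N = 2`: D-M3 (cancellation of the `1/ρ` terms) -/

open MeasureTheory Filter Topology
open scoped ContDiff

namespace Vale.Agent.P353.U

variable {F : Type*} [NormedAddCommGroup F] [InnerProductSpace ℂ F]

section fierz

variable (S : Setup F)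

/-- `∑ K_{αγδ} θ^A_α θ^D_γ θ^E_δ` -/
noncomputable def m3T (K : Fin 16 → Fin 16 → Fin 16 → ℂ) (A D E : Fin 3) : F →L[ℂ] F :=
  ∑ α, ∑ γ, ∑ δ, K α γ δ • (S.th α A * (S.th γ D * S.th δ E))

lemma m3_th_sw {A D : Fin 3} (h : A ≠ D) (α γ : Fin 16) :
    S.th α A * S.th γ D = -(S.th γ D * S.th α A) := by
  have := S.th_anti α A γ D
  rw [if_neg (fun h' => h h'.2)] at this
  exact eq_neg_of_add_eq_zero_left this

lemma m3_sum_rot {M : Type*} [AddCommMonoid M] (f : Fin 16 → Fin 16 → Fin 16 → M) :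
    ∑ α, ∑ γ, ∑ δ, f δ α γ = ∑ α, ∑ γ, ∑ δ, f α γ δ := by
  calc ∑ α, ∑ γ, ∑ δ, f δ α γ = ∑ α, ∑ δ, ∑ γ, f δ α γ :=
        Finset.sum_congr rfl fun α _ => Finset.sum_comm
    _ = ∑ δ, ∑ α, ∑ γ, f δ α γ := Finset.sum_comm

lemma m3T_cyc {A D E : Fin 3} (hAD : A ≠ D) (hAE : A ≠ E)
    (K : Fin 16 → Fin 16 → Fin 16 → ℂ) :
    m3T S K D E A = m3T S (fun α γ δ => K γ δ α) A D E := by
  unfold m3T
  have h : ∀ α γ δ, S.th α D * (S.th γ E * S.th δ A) = S.th δ A * (S.th α D * S.th γ E) := by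
    intro α γ δ
    rw [m3_th_sw S hAE.symm γ δ, mul_neg, ← mul_assoc, m3_th_sw S hAD.symm α δ, neg_mul, neg_neg,
      mul_assoc]
  simp only [h]
  exact m3_sum_rot (fun δ α γ => K α γ δ • (S.th δ A * (S.th α D * S.th γ E)))

lemma m3T_add (K L : Fin 16 → Fin 16 → Fin 16 → ℂ) (A D E : Fin 3) :
    m3T S K A D E + m3T S L A D E = m3T S (fun α γ δ => K α γ δ + L α γ δ) A D E := by
  simp only [m3T, add_smul, Finset.sum_add_distrib]

lemma m3T_vec_bil (N N' : Matrix (Fin 16) (Fin 16) ℂ) (β : Fin 16) (A D E : Fin 3) :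
    S.vec N A β * S.bil N' D E = m3T S (fun α γ δ => N β α * N' γ δ) A D E := by
  unfold CS.vec CS.bil m3T CS.vec
  rw [Finset.sum_mul_sum]
  refine Finset.sum_congr rfl fun α _ => Finset.sum_congr rfl fun γ _ => ?_
  rw [Finset.mul_sum, Finset.mul_sum]
  refine Finset.sum_congr rfl fun δ _ => ?_
  rw [mul_smul_comm, mul_smul_comm, smul_mul_assoc, smul_smul, mul_comm]

lemma m3T_sum {ι : Type*} (s : Finset ι) (K : ι → Fin 16 → Fin 16 → Fin 16 → ℂ) (A D E : Fin 3) :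
    ∑ i ∈ s, m3T S (K i) A D E = m3T S (fun α γ δ => ∑ i ∈ s, K i α γ δ) A D E := by
  simp only [m3T, Finset.sum_smul]
  rw [Finset.sum_comm]
  refine Finset.sum_congr rfl fun α _ => ?_
  rw [Finset.sum_comm]
  refine Finset.sum_congr rfl fun γ _ => ?_
  rw [Finset.sum_comm]

/-- Fierz identity for three different colours -/
lemma fierz3 (hF : F10Stmt S) (β : Fin 16) {A D E : Fin 3} (hAD : A ≠ D) (hDE : D ≠ E)
    (hAE : A ≠ E) :
    ∑ i, (S.vec (S.g i) A β * S.bil (S.g i) D E + S.vec (S.g i) D β * S.bil (S.g i) E A +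
      S.vec (S.g i) E β * S.bil (S.g i) A D) =
    S.th β A * S.bil 1 D E + S.th β D * S.bil 1 E A + S.th β E * S.bil 1 A D := by
  have h1 : ∀ A, S.th β A = S.vec 1 A β := fun A => (S.vec_one A β).symm
  have hc2 : ∀ K, m3T S K E A D = m3T S (fun α γ δ => K δ α γ) A D E := by
    intro K
    rw [m3T_cyc S hDE hAD.symm, m3T_cyc S hAD hAE]
  simp only [Finset.sum_add_distrib, h1, m3T_vec_bil, m3T_sum]
  simp only [m3T_cyc S hAD hAE, hc2, m3T_add]
  unfold m3T
  refine Finset.sum_congr rfl fun α _ => Finset.sum_congr rfl fun γ _ =>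
    Finset.sum_congr rfl fun δ _ => ?_
  congr 1
  have h := hF β α γ δ
  simp only [Finset.sum_add_distrib] at h
  have hs : ∀ (i : Fin 9) (a b : Fin 16), S.g i a b = S.g i b a := fun i a b => by
    have := congrFun (congrFun (S.g_symm i) b) a
    simpa [Matrix.transpose_apply] using this
  have e1 : ∑ i, S.g i β γ * S.g i δ α = ∑ i, S.g i γ β * S.g i α δ :=
    Finset.sum_congr rfl fun i _ => by rw [hs i β γ, hs i δ α]
  have e2 : ∑ i, S.g i β δ * S.g i α γ = ∑ i, S.g i α γ * S.g i β δ :=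
    Finset.sum_congr rfl fun i _ => mul_comm _ _
  beta_reduce
  rw [e1, e2]
  simp only [Matrix.one_apply, ite_mul, one_mul, zero_mul, ← ite_and]
  have c1 : (if β = γ ∧ δ = α then (1 : ℂ) else 0) = if γ = β ∧ α = δ then 1 else 0 := by
    congr 1
    exact propext ⟨fun h => ⟨h.1.symm, h.2.symm⟩, fun h => ⟨h.1.symm, h.2.symm⟩⟩
  have c2 : (if β = δ ∧ α = γ then (1 : ℂ) else 0) = if α = γ ∧ β = δ then 1 else 0 := by
    congr 1
    exact propext and_comm
  rw [c1, c2]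
  linear_combination h

end fierz

section closed

/-- linear algebra: the bilinears in the transverse vacuum -/
lemma m3_closed {M : Type*} [AddCommGroup M] [Module ℂ M] (n : Fin 3 → ℂ)
    (hn : n 0 ^ 2 + n 1 ^ 2 + n 2 ^ 2 = 1) (a b : Fin 3 → Fin 3 → M) (v : M)
    (ha : ∀ A B, a A B + a B A = if A = B then (16 : ℂ) • v else 0)
    (hb : ∀ A B, b A B + b B A = 0)
    (h0 : ∀ A B, a A B - n B • ∑ D, n D • a A D =
      Complex.I • ∑ C, ∑ D, ((eps B C D : ℂ) * n C) • b A D) :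
    (∀ A, ∑ D, ∑ E, (eps A D E : ℂ) • a D E =
      (-2 : ℂ) • ∑ D, ∑ E, ((eps A D E : ℂ) * n D) • ∑ G, n G • a E G) ∧
    (∀ A, ∑ D, ∑ E, (eps A D E : ℂ) • b D E = (2 * Complex.I) • ∑ D, n D • a A D) ∧
    ∑ D, n D • ∑ E, n E • a D E = (8 : ℂ) • v := by
  have hI := Complex.I_mul_I
  -- symmetric parts
  have a00 : a 0 0 = (8 : ℂ) • v := by
    have h := ha 0 0
    rw [if_pos rfl] at h
    linear_combination (norm := module) (1 / 2 : ℂ) • h
  have a11 : a 1 1 = (8 : ℂ) • v := by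
    have h := ha 1 1
    rw [if_pos rfl] at h
    linear_combination (norm := module) (1 / 2 : ℂ) • h
  have a22 : a 2 2 = (8 : ℂ) • v := by
    have h := ha 2 2
    rw [if_pos rfl] at h
    linear_combination (norm := module) (1 / 2 : ℂ) • h
  have a10 : a 1 0 = -a 0 1 := by
    have h := ha 0 1
    rw [if_neg (by decide)] at h
    linear_combination (norm := module) h
  have a20 : a 2 0 = -a 0 2 := by
    have h := ha 0 2
    rw [if_neg (by decide)] at h
    linear_combination (norm := module) h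
  have a21 : a 2 1 = -a 1 2 := by
    have h := ha 1 2
    rw [if_neg (by decide)] at h
    linear_combination (norm := module) h
  have b00 : b 0 0 = 0 := by
    linear_combination (norm := module) (1 / 2 : ℂ) • hb 0 0
  have b11 : b 1 1 = 0 := by
    linear_combination (norm := module) (1 / 2 : ℂ) • hb 1 1
  have b22 : b 2 2 = 0 := by
    linear_combination (norm := module) (1 / 2 : ℂ) • hb 2 2
  have b10 : b 1 0 = -b 0 1 := by
    linear_combination (norm := module) hb 0 1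
  have b02 : b 0 2 = -b 2 0 := by
    linear_combination (norm := module) hb 0 2
  have b21 : b 2 1 = -b 1 2 := by
    linear_combination (norm := module) hb 1 2
  have g := fun A B => h0 A B
  simp only [Fin.sum_univ_three] at g ⊢
  have g00 := g 0 0
  have g01 := g 0 1
  have g02 := g 0 2
  have g10 := g 1 0
  have g11 := g 1 1
  have g12 := g 1 2
  have g20 := g 2 0
  have g21 := g 2 1
  have g22 := g 2 2
  simp [eps, a00, a11, a22, a10, a20, a21, b00, b11, b22, b10, b02, b21] at g00 g01 g02 g10 g11 g12 g20 g21 g22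
  obtain ⟨α0, hα0⟩ : ∃ x, x = (8 * n 0) • v + n 1 • a 0 1 + n 2 • a 0 2 := ⟨_, rfl⟩
  obtain ⟨α1, hα1⟩ : ∃ x, x = (8 * n 1) • v - n 0 • a 0 1 + n 2 • a 1 2 := ⟨_, rfl⟩
  obtain ⟨α2, hα2⟩ : ∃ x, x = (8 * n 2) • v - n 0 • a 0 2 - n 1 • a 1 2 := ⟨_, rfl⟩
  obtain ⟨c0, hc0⟩ : ∃ x, x = α0 + Complex.I • b 1 2 := ⟨_, rfl⟩
  obtain ⟨c1, hc1⟩ : ∃ x, x = α1 + Complex.I • b 2 0 := ⟨_, rfl⟩
  obtain ⟨c2, hc2⟩ : ∃ x, x = α2 + Complex.I • b 0 1 := ⟨_, rfl⟩
  have hsum : n 0 • c0 + n 1 • c1 + n 2 • c2 = 0 := by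
    rw [hc0, hc1, hc2, hα0, hα1, hα2]
    linear_combination (norm := module) (1 / 2 : ℂ) • (g00 + g11 + g22) + ((12 : ℂ) * hn) • v
  have d01 : n 0 • c0 - n 1 • c1 = 0 := by
    rw [hc0, hc1, hα0, hα1]
    linear_combination (norm := module) (-1 : ℂ) • (g00 - g11)
  have d02 : n 0 • c0 - n 2 • c2 = 0 := by
    rw [hc0, hc2, hα0, hα2]
    linear_combination (norm := module) (-1 : ℂ) • (g00 - g22)
  have z0 : n 0 • c0 = 0 := by
    linear_combination (norm := module) (1 / 3 : ℂ) • (hsum + d01 + d02)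
  have z1 : n 1 • c1 = 0 := by
    linear_combination (norm := module) z0 - d01
  have z2 : n 2 • c2 = 0 := by
    linear_combination (norm := module) z0 - d02
  have e01 : n 1 • c0 + n 0 • c1 = 0 := by
    rw [hc0, hc1, hα0, hα1]
    linear_combination (norm := module) (-1 : ℂ) • (g01 + g10)
  have e02 : n 2 • c0 + n 0 • c2 = 0 := by
    rw [hc0, hc2, hα0, hα2]
    linear_combination (norm := module) (-1 : ℂ) • (g02 + g20)
  have e12 : n 2 • c1 + n 1 • c2 = 0 := by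
    rw [hc1, hc2, hα1, hα2]
    linear_combination (norm := module) (-1 : ℂ) • (g12 + g21)
  have k0 : c0 = 0 := by
    linear_combination (norm := module) n 0 • z0 + n 1 • e01 - n 0 • z1 + n 2 • e02 - n 0 • z2 +
      (-hn) • c0
  have k1 : c1 = 0 := by
    linear_combination (norm := module) n 1 • z1 + n 0 • e01 - n 1 • z0 + n 2 • e12 - n 1 • z2 +
      (-hn) • c1
  have k2 : c2 = 0 := by
    linear_combination (norm := module) n 2 • z2 + n 0 • e02 - n 2 • z0 + n 1 • e12 - n 2 • z1 +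
      (-hn) • c2
  rw [hc0] at k0
  rw [hc1] at k1
  rw [hc2] at k2
  have B0 : b 1 2 = Complex.I • α0 := by
    linear_combination (norm := module) (-Complex.I) • k0 + hI • b 1 2
  have B1 : b 2 0 = Complex.I • α1 := by
    linear_combination (norm := module) (-Complex.I) • k1 + hI • b 2 0
  have B2 : b 0 1 = Complex.I • α2 := by
    linear_combination (norm := module) (-Complex.I) • k2 + hI • b 0 1
  have A01 : a 0 1 = n 1 • α0 - n 0 • α1 := by
    have h : a 0 1 - n 1 • α0 = (Complex.I * n 0) • b 2 0 := by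
      rw [hα0]
      linear_combination (norm := module) g01
    rw [B1] at h
    linear_combination (norm := module) h + (n 0 * hI) • α1
  have A02 : a 0 2 = n 2 • α0 - n 0 • α2 := by
    have h : a 0 2 - n 2 • α0 = (Complex.I * n 0) • b 0 1 := by
      rw [hα0]
      linear_combination (norm := module) g02
    rw [B2] at h
    linear_combination (norm := module) h + (n 0 * hI) • α2
  have A12 : a 1 2 = n 2 • α1 - n 1 • α2 := by
    have h : a 1 2 - n 2 • α1 = (Complex.I * n 1) • b 0 1 := by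
      rw [hα1]
      linear_combination (norm := module) g12
    rw [B2] at h
    linear_combination (norm := module) h + (n 1 * hI) • α2
  have s0 : n 0 • a 0 0 + n 1 • a 0 1 + n 2 • a 0 2 = α0 := by
    rw [hα0, a00]; module
  have s1 : n 0 • a 1 0 + n 1 • a 1 1 + n 2 • a 1 2 = α1 := by
    rw [hα1, a11, a10]; module
  have s2 : n 0 • a 2 0 + n 1 • a 2 1 + n 2 • a 2 2 = α2 := by
    rw [hα2, a22, a20, a21]; module
  rw [s0, s1, s2]
  refine ⟨?_, ?_, ?_⟩
  · intro A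
    rw [a00, a11, a22, a10, a20, a21, A01, A02, A12]
    fin_cases A <;> simp [eps] <;> module
  · intro A
    rw [b00, b11, b22, b10, b02, b21, B0, B1, B2]
    fin_cases A
    · simp only [Fin.zero_eta, s0]
      simp [eps]
      module
    · simp only [Fin.mk_one, s1]
      simp [eps]
      module
    · simp only [Fin.reduceFinMk, s2]
      simp [eps]
      module
  · rw [hα0, hα1, hα2]
    linear_combination (norm := module) ((8 : ℂ) * hn) • v

end closed

section vac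

variable (S : Setup F)

/-- `ŷ̸` -/
noncomputable def yhm (y : Fin 9 → ℝ) : Matrix (Fin 16) (Fin 16) ℂ :=
  ∑ i, ((y i / ry y : ℝ) : ℂ) • S.g i

lemma ry_sq {y : Fin 9 → ℝ} : ry y ^ 2 = ∑ i, y i ^ 2 :=
  Real.sq_sqrt (Finset.sum_nonneg fun _ _ => sq_nonneg _)

lemma yhm_sq {y : Fin 9 → ℝ} (hy : 0 < ry y) : yhm S y * yhm S y = 1 := by
  have h1 : yhm S y * yhm S y = ∑ i, ∑ j,
      (((y i / ry y : ℝ) : ℂ) * ((y j / ry y : ℝ) : ℂ)) • (S.g i * S.g j) := by
    simp only [yhm, Finset.sum_mul_sum, smul_mul_smul_comm]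
  have h2 : yhm S y * yhm S y = ∑ i, ∑ j,
      (((y i / ry y : ℝ) : ℂ) * ((y j / ry y : ℝ) : ℂ)) • (S.g j * S.g i) := by
    rw [h1, Finset.sum_comm]
    refine Finset.sum_congr rfl fun i _ => Finset.sum_congr rfl fun j _ => ?_
    rw [mul_comm]
  have h3 : (2 : ℂ) • (yhm S y * yhm S y) = ∑ i, ∑ j,
      (((y i / ry y : ℝ) : ℂ) * ((y j / ry y : ℝ) : ℂ)) •
        (if i = j then (2 : Matrix (Fin 16) (Fin 16) ℂ) else 0) := by
    rw [two_smul]
    nth_rewrite 1 [h1]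
    rw [h2]
    simp only [← Finset.sum_add_distrib, ← smul_add, S.g_anti]
  have h4 : ∑ i, ((y i / ry y : ℝ) : ℂ) * ((y i / ry y : ℝ) : ℂ) = 1 := by
    have : ∑ i, (y i / ry y) * (y i / ry y) = 1 := by
      have e : ∀ i, (y i / ry y) * (y i / ry y) = y i ^ 2 / ry y ^ 2 := fun i => by ring
      simp only [e, ← Finset.sum_div, ← ry_sq]
      exact div_self (by positivity)
    exact_mod_cast this
  have h5 : (2 : ℂ) • (yhm S y * yhm S y) = (2 : ℂ) • (1 : Matrix (Fin 16) (Fin 16) ℂ) := by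
    rw [h3]
    simp only [smul_ite, smul_zero, Finset.sum_ite_eq, Finset.mem_univ, if_true,
      ← Finset.sum_smul, h4]
    rw [one_smul, two_smul]
    norm_num
  have h6 := congrArg (fun X => (1 / 2 : ℂ) • X) h5
  simpa only [smul_smul, show (1 / 2 : ℂ) * 2 = 1 by norm_num, one_smul] using h6

lemma yhm_transpose (y : Fin 9 → ℝ) : (yhm S y).transpose = yhm S y := by
  simp only [yhm, Matrix.transpose_sum, Matrix.transpose_smul, S.g_symm]

lemma yhm_trace (y : Fin 9 → ℝ) : (yhm S y).trace = 0 := by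
  simp only [yhm, Matrix.trace_sum, Matrix.trace_smul, S.trace_g, smul_zero,
    Finset.sum_const_zero]

lemma vt_vec {n : Fin 3 → ℝ} {y : Fin 9 → ℝ} (hy : 0 < ry y) {v : F} (h : S.VT n y v)
    (N : Matrix (Fin 16) (Fin 16) ℂ) (A : Fin 3) (β : Fin 16) :
    S.vec N A β v - (n A : ℂ) • ∑ D, (n D : ℂ) • S.vec N D β v =
      Complex.I • ∑ C, ∑ D, ((eps A C D : ℂ) * (n C : ℂ)) • S.vec (N * yhm S y) D β v := by
  have hr : ((ry y : ℝ) : ℂ) ≠ 0 := by exact_mod_cast hy.ne'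
  have h1 : ∀ α, S.th α A v - (n A : ℂ) • S.thn n α v =
      Complex.I • ∑ C, ∑ D, ((eps A C D : ℂ) * (n C : ℂ)) • S.vec (yhm S y) D α v := by
    intro α
    have h2 := h A α
    have h3 : ∀ D, ((ry y : ℝ) : ℂ) • S.vec (yhm S y) D α v =
        ∑ i, (y i : ℂ) • S.vec (S.g i) D α v := by
      intro D
      simp only [yhm, S.vec_sum, S.vec_smul, _root_.sum_apply, _root_.smul_apply,
        Finset.smul_sum, smul_smul]
      refine Finset.sum_congr rfl fun i _ => ?_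
      congr 1
      push_cast
      field_simp
    have h4 : ∑ B, ∑ C, ∑ i, ((eps A B C : ℂ) * (n B : ℂ) * (y i : ℂ)) • S.vec (S.g i) C α v =
        ((ry y : ℝ) : ℂ) • ∑ C, ∑ D, ((eps A C D : ℂ) * (n C : ℂ)) • S.vec (yhm S y) D α v := by
      simp only [Finset.smul_sum]
      refine Finset.sum_congr rfl fun B _ => Finset.sum_congr rfl fun C _ => ?_
      rw [smul_comm, h3, Finset.smul_sum]
      simp only [smul_smul]
    rw [h4, smul_comm] at h2
    exact smul_right_injective F hr h2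
  have h5 : S.vec N A β v = ∑ γ, N β γ • S.th γ A v := by
    simp only [CS.vec, _root_.sum_apply, _root_.smul_apply]
  have h6 : ∑ D, (n D : ℂ) • S.vec N D β v = ∑ γ, N β γ • S.thn n γ v := by
    simp only [CS.vec, Setup.thn, _root_.sum_apply, _root_.smul_apply, Finset.smul_sum]
    rw [Finset.sum_comm]
    refine Finset.sum_congr rfl fun γ _ => Finset.sum_congr rfl fun D _ => ?_
    rw [smul_comm]
  have h7 : ∑ C, ∑ D, ((eps A C D : ℂ) * (n C : ℂ)) • S.vec (N * yhm S y) D β v =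
      ∑ γ, N β γ • ∑ C, ∑ D, ((eps A C D : ℂ) * (n C : ℂ)) • S.vec (yhm S y) D γ v := by
    simp only [S.vec_mul, _root_.sum_apply, _root_.smul_apply, Finset.smul_sum]
    calc _ = ∑ C, ∑ γ, ∑ D, ((eps A C D : ℂ) * (n C : ℂ)) • N β γ • S.vec (yhm S y) D γ v :=
          Finset.sum_congr rfl fun C _ => Finset.sum_comm
      _ = _ := by
          rw [Finset.sum_comm]
          refine Finset.sum_congr rfl fun γ _ => Finset.sum_congr rfl fun C _ =>
            Finset.sum_congr rfl fun D _ => ?_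
          rw [smul_comm]
  rw [h5, h6, h7, Finset.smul_sum, ← Finset.sum_sub_distrib, Finset.smul_sum]
  refine Finset.sum_congr rfl fun γ _ => ?_
  rw [smul_comm, ← smul_sub, h1, smul_comm]

lemma bil_apply (N : Matrix (Fin 16) (Fin 16) ℂ) (A B : Fin 3) (v : F) :
    S.bil N A B v = ∑ α, S.th α A (S.vec N B α v) := by
  simp only [CS.bil, _root_.sum_apply, mul_apply_eq_comp]

lemma bil_vac {n : Fin 3 → ℝ} {y : Fin 9 → ℝ} (hy : 0 < ry y) {v : F} (h : S.VT n y v)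
    (N : Matrix (Fin 16) (Fin 16) ℂ) (A B : Fin 3) :
    S.bil N A B v - (n B : ℂ) • ∑ D, (n D : ℂ) • S.bil N A D v =
      Complex.I • ∑ C, ∑ D, ((eps B C D : ℂ) * (n C : ℂ)) • S.bil (N * yhm S y) A D v := by
  have h1 := fun α => congrArg (S.th α A) (vt_vec S hy h N B α)
  have h2 := Finset.sum_congr rfl (fun α (_ : α ∈ (Finset.univ : Finset (Fin 16))) => h1 α)
  simp only [map_sub, map_smul, map_sum] at h2
  rw [Finset.sum_sub_distrib, ← Finset.smul_sum, ← Finset.smul_sum] at h2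
  simp only [bil_apply]
  rw [Finset.sum_comm] at h2
  simp only [← Finset.smul_sum] at h2
  rw [h2]
  congr 1
  rw [Finset.sum_comm]
  refine Finset.sum_congr rfl fun C _ => ?_
  rw [Finset.sum_comm]
  simp only [Finset.smul_sum]

/-- colour identity used for `XX` -/
lemma m3_colour {M : Type*} [AddCommGroup M] [Module ℂ M] (n : Fin 3 → ℂ) (c : Fin 3 → Fin 3 → M)
    (A : Fin 3) :
    n A • ∑ B, ∑ C, ∑ D, ((eps B C D : ℂ) * n C) • c B D -
      ∑ D, ∑ E, ∑ C, ((eps D E C : ℂ) * ((if C = A then 1 else 0) - n C * n A)) • c D E =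
    -∑ D, ∑ E, (eps A D E : ℂ) • c D E := by
  simp only [Fin.sum_univ_three]
  fin_cases A <;> simp [eps] <;> module

/-- closed form of `XX v` in the transverse vacuum -/
lemma XX_vac {n : Fin 3 → ℝ} {y : Fin 9 → ℝ} (hy : 0 < ry y) {v : F} (h : S.VT n y v)
    (i : Fin 9) (A : Fin 3) :
    S.XX n y i A v = ((1 / ry y : ℝ) : ℂ) • (
      (-(Complex.I / 4)) • (∑ k, (((if k = i then 1 else 0) -
          (y k / ry y) * (y i / ry y) : ℝ) : ℂ) • ∑ D, ∑ E, (eps A D E : ℂ) • S.bil (S.g k) D E v) +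
      ((y i / ry y : ℝ) : ℂ) • ∑ B, ∑ D, ((((if B = A then 1 else 0) - n B * n A) * n D : ℝ) : ℂ) •
        S.bil 1 B D v) := by
  have hr : ry y ≠ 0 := hy.ne'
  have hrc : ((ry y : ℝ) : ℂ) ≠ 0 := by exact_mod_cast hr
  have hκ : (S.κ : ℂ) ≠ 0 := by exact_mod_cast S.κ_pos.ne'
  -- first term
  have t1 : ((n A / (4 * ry y ^ 2) : ℝ) : ℂ) • (∑ B, ∑ D, ∑ k, ∑ j,
      ((((if B = D then 1 else 0) - n B * n D) *
        ((if k = i then 1 else 0) - y k * y i / ry y ^ 2) * y j : ℝ) : ℂ) •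
        S.bil (S.g k * S.g j) B D v) =
      ((1 / ry y : ℝ) : ℂ) • (Complex.I / 4) • ∑ k, (((if k = i then 1 else 0) -
          (y k / ry y) * (y i / ry y) : ℝ) : ℂ) • ((n A : ℂ) • ∑ B, ∑ C, ∑ D,
            ((eps B C D : ℂ) * (n C : ℂ)) • S.bil (S.g k) B D v) := by
    have e1 : ∀ B D k, ∑ j, ((((if B = D then 1 else 0) - n B * n D) *
        ((if k = i then 1 else 0) - y k * y i / ry y ^ 2) * y j : ℝ) : ℂ) •
        S.bil (S.g k * S.g j) B D v =
        ((ry y : ℝ) : ℂ) • (((if k = i then 1 else 0) -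
          (y k / ry y) * (y i / ry y) : ℝ) : ℂ) • ((((if B = D then 1 else 0) - n B * n D : ℝ) : ℂ) •
          S.bil (S.g k * yhm S y) B D v) := by
      intro B D k
      simp only [yhm, Finset.mul_sum, Matrix.mul_smul, S.bil_sum, S.bil_smul, _root_.sum_apply,
        _root_.smul_apply, Finset.smul_sum, smul_smul, ← Complex.ofReal_mul]
      refine Finset.sum_congr rfl fun j _ => ?_
      congr 2
      field_simp
    have e2 : ∀ B k, ∑ D, (((if B = D then 1 else 0) - n B * n D : ℝ) : ℂ) •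
        S.bil (S.g k * yhm S y) B D v =
        Complex.I • ∑ C, ∑ D, ((eps B C D : ℂ) * (n C : ℂ)) • S.bil (S.g k) B D v := by
      intro B k
      have h1 := bil_vac S hy h (S.g k * yhm S y) B B
      rw [mul_assoc, yhm_sq S hy, mul_one] at h1
      rw [← h1]
      simp only [Complex.ofReal_sub, sub_smul, Finset.sum_sub_distrib, Complex.ofReal_mul,
        mul_smul, Finset.smul_sum]
      congr 1
      rw [Finset.sum_eq_single B]
      · simp
      · intro D _ hD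
        simp [Ne.symm hD]
      · intro h; exact absurd (Finset.mem_univ _) h
    simp only [e1]
    calc _ = ((n A / (4 * ry y ^ 2) : ℝ) : ℂ) • (∑ k, ∑ B, ((ry y : ℝ) : ℂ) •
          (((if k = i then 1 else 0) - (y k / ry y) * (y i / ry y) : ℝ) : ℂ) • ∑ D,
            ((((if B = D then 1 else 0) - n B * n D : ℝ) : ℂ) •
              S.bil (S.g k * yhm S y) B D v)) := by
          congr 1
          rw [Finset.sum_comm]
          simp only [Finset.smul_sum]
          calc _ = ∑ D, ∑ k, ∑ B, ((ry y : ℝ) : ℂ) •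
                (((if k = i then 1 else 0) - (y k / ry y) * (y i / ry y) : ℝ) : ℂ) •
                ((((if B = D then 1 else 0) - n B * n D : ℝ) : ℂ) •
                  S.bil (S.g k * yhm S y) B D v) :=
                Finset.sum_congr rfl fun D _ => Finset.sum_comm
            _ = _ := by
                rw [Finset.sum_comm]
                exact Finset.sum_congr rfl fun k _ => Finset.sum_comm
      _ = _ := by
          simp only [e2]
          simp only [Finset.smul_sum, smul_smul]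
          refine Finset.sum_congr rfl fun k _ => Finset.sum_congr rfl fun B _ =>
            Finset.sum_congr rfl fun C _ => Finset.sum_congr rfl fun D _ => ?_
          congr 1
          push_cast
          field_simp
  -- third term
  have t3 : ((1 / (2 * S.κ * ry y) : ℝ) : ℂ) • S.Fx (cone
      (fun B => (if B = A then 1 else 0) - n B * n A)
      (fun k => (if k = i then 1 else 0) - y k * y i / ry y ^ 2)) v =
      ((1 / ry y : ℝ) : ℂ) • (Complex.I / 4) • ∑ k, (((if k = i then 1 else 0) -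
          (y k / ry y) * (y i / ry y) : ℝ) : ℂ) • (∑ D, ∑ E, ∑ C,
            ((eps D E C : ℂ) * ((if C = A then 1 else 0) - (n C : ℂ) * (n A : ℂ))) •
              S.bil (S.g k) D E v) := by
    simp only [Setup.Fx, cone, _root_.smul_apply, _root_.sum_apply, Finset.smul_sum, smul_smul]
    refine Finset.sum_congr rfl fun k _ => Finset.sum_congr rfl fun D _ =>
      Finset.sum_congr rfl fun E _ => Finset.sum_congr rfl fun C _ => ?_
    congr 1
    have ei : (((if C = A then 1 else 0 : ℝ)) : ℂ) = if C = A then 1 else 0 := by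
      split_ifs <;> simp
    push_cast
    rw [ei]
    field_simp
    ring
  have e0 : S.XX n y i A v = ((n A / (4 * ry y ^ 2) : ℝ) : ℂ) • (∑ B, ∑ D, ∑ k, ∑ j,
      ((((if B = D then 1 else 0) - n B * n D) *
        ((if k = i then 1 else 0) - y k * y i / ry y ^ 2) * y j : ℝ) : ℂ) •
        S.bil (S.g k * S.g j) B D v) +
      ((y i / ry y ^ 2 : ℝ) : ℂ) • (∑ B, ∑ D,
      ((((if B = A then 1 else 0) - n B * n A) * n D : ℝ) : ℂ) • S.bil 1 B D v) -
      ((1 / (2 * S.κ * ry y) : ℝ) : ℂ) • S.Fx (cone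
      (fun B => (if B = A then 1 else 0) - n B * n A)
      (fun k => (if k = i then 1 else 0) - y k * y i / ry y ^ 2)) v := by
    simp only [Setup.XX, _root_.sub_apply, _root_.add_apply, _root_.smul_apply, _root_.sum_apply]
  have hcol := fun k => m3_colour (fun A => ((n A : ℝ) : ℂ)) (fun B D => S.bil (S.g k) B D v) A
  beta_reduce at hcol
  rw [e0, t1, t3, add_sub_right_comm, ← smul_sub, ← smul_sub, ← Finset.sum_sub_distrib, smul_add]
  simp only [← smul_sub, hcol]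
  congr 1
  · congr 1
    simp only [smul_neg, Finset.sum_neg_distrib, neg_smul]
  · rw [smul_smul]
    congr 1
    push_cast
    field_simp

lemma vec_bil_one (P : Matrix (Fin 16) (Fin 16) ℂ) (A : Fin 3) (β : Fin 16) (D E : Fin 3) (w : F) :
    S.vec P A β (S.bil 1 D E w) = S.bil 1 D E (S.vec P A β w) +
      ((if A = D then S.vec P E β w else 0) - (if A = E then S.vec P D β w else 0)) := by
  have hb : S.bil 1 D E = ∑ δ, S.vec 1 D δ * S.vec 1 E δ := by
    rw [S.sum_vec_mul_vec]; simp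
  have h1 : ∀ δ, S.vec P A β * (S.vec 1 D δ * S.vec 1 E δ) -
      S.vec 1 D δ * S.vec 1 E δ * S.vec P A β =
      (if A = D then (P β δ) • S.vec 1 E δ else 0) -
      (if A = E then (P β δ) • S.vec 1 D δ else 0) := by
    intro δ
    have e1 := S.vec_anti P 1 A D β δ
    have e2 := S.vec_anti P 1 A E β δ
    have : S.vec P A β * (S.vec 1 D δ * S.vec 1 E δ) -
      S.vec 1 D δ * S.vec 1 E δ * S.vec P A β =
      (S.vec P A β * S.vec 1 D δ + S.vec 1 D δ * S.vec P A β) * S.vec 1 E δ -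
      S.vec 1 D δ * (S.vec P A β * S.vec 1 E δ + S.vec 1 E δ * S.vec P A β) := by
      noncomm_ring
    rw [this, e1, e2, Matrix.transpose_one, mul_one]
    by_cases h : A = D <;> by_cases h' : A = E <;> simp [h, h']
  have key : S.vec P A β * S.bil 1 D E - S.bil 1 D E * S.vec P A β =
      (if A = D then S.vec P E β else 0) - (if A = E then S.vec P D β else 0) := by
    rw [hb, Finset.mul_sum, Finset.sum_mul, ← Finset.sum_sub_distrib]
    rw [Finset.sum_congr rfl fun δ _ => h1 δ, Finset.sum_sub_distrib]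
    congr 1
    · by_cases h : A = D
      · simp only [h, if_true, CS.vec_one]; rfl
      · simp [h]
    · by_cases h : A = E
      · simp only [h, if_true, CS.vec_one]; rfl
      · simp [h]
  have h2 := congrArg (fun T : F →L[ℂ] F => T w) key
  have h3 : S.vec P A β (S.bil 1 D E w) - S.bil 1 D E (S.vec P A β w) =
      (if A = D then S.vec P E β w else 0) - (if A = E then S.vec P D β w else 0) := by
    have e : ∀ (c : Prop) [Decidable c] (T : F →L[ℂ] F), (if c then T else 0) w =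
        if c then T w else 0 := by
      intro c _ T
      split_ifs <;> rfl
    simpa only [_root_.sub_apply, mul_apply_eq_comp, e] using h2
  rw [← h3]
  abel

lemma fierz_sum (hF : F10Stmt S) (β : Fin 16) (v : F) :
    ∑ A, ∑ D, ∑ E, (eps A D E : ℂ) • ∑ i, S.vec (S.g i) A β (S.bil (S.g i) D E v) =
      ∑ A, ∑ D, ∑ E, (eps A D E : ℂ) • S.th β A (S.bil 1 D E v) := by
  have h : ∀ A D E : Fin 3, A ≠ D → D ≠ E → A ≠ E →
      ∑ i, S.vec (S.g i) A β (S.bil (S.g i) D E v) + ∑ i, S.vec (S.g i) D β (S.bil (S.g i) E A v) +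
        ∑ i, S.vec (S.g i) E β (S.bil (S.g i) A D v) =
      S.th β A (S.bil 1 D E v) + S.th β D (S.bil 1 E A v) + S.th β E (S.bil 1 A D v) := by
    intro A D E h1 h2 h3
    have h4 := congrArg (fun T : F →L[ℂ] F => T v) (fierz3 S hF β h1 h2 h3)
    simpa only [_root_.sum_apply, _root_.add_apply, mul_apply_eq_comp,
      Finset.sum_add_distrib] using h4
  have f1 := h 0 1 2 (by decide) (by decide) (by decide)
  have f2 := h 0 2 1 (by decide) (by decide) (by decide)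
  have e : ∀ X : Fin 3 → Fin 3 → Fin 3 → F, ∑ A, ∑ D, ∑ E, (eps A D E : ℂ) • X A D E =
      (X 0 1 2 + X 1 2 0 + X 2 0 1) - (X 0 2 1 + X 2 1 0 + X 1 0 2) := by
    intro X
    simp only [Fin.sum_univ_three]
    simp [eps]
    abel
  rw [e, e, f1, f2]

lemma sum_Pk (y : Fin 9 → ℝ) (A D E : Fin 3) (β : Fin 16) (v : F) :
    ∑ i, ∑ k, (((if k = i then 1 else 0) - (y k / ry y) * (y i / ry y) : ℝ) : ℂ) •
      S.vec (S.g i) A β (S.bil (S.g k) D E v) =
    ∑ i, S.vec (S.g i) A β (S.bil (S.g i) D E v) -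
      S.vec (yhm S y) A β (S.bil (yhm S y) D E v) := by
  have e1 : S.vec (yhm S y) A β (S.bil (yhm S y) D E v) = ∑ i, ∑ k,
      ((y k / ry y * (y i / ry y) : ℝ) : ℂ) • S.vec (S.g i) A β (S.bil (S.g k) D E v) := by
    simp only [yhm, S.vec_sum, S.vec_smul, S.bil_sum, S.bil_smul, _root_.sum_apply,
      _root_.smul_apply, map_sum, map_smul, Finset.smul_sum, smul_smul, ← Complex.ofReal_mul]
    rw [Finset.sum_comm]
  rw [e1]
  simp only [Complex.ofReal_sub, sub_smul, Finset.sum_sub_distrib]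
  congr 1
  refine Finset.sum_congr rfl fun i _ => ?_
  rw [Finset.sum_eq_single i]
  · simp
  · intro k _ hk
    simp [hk]
  · intro h; exact absurd (Finset.mem_univ _) h

/-- the final cancellation -/
lemma m3_final {n : Fin 3 → ℝ} (hn : ∑ A, n A ^ 2 = 1) {y : Fin 9 → ℝ} (hy : 0 < ry y) {v : F}
    (h : S.VT n y v) (β : Fin 16) :
    (-(Complex.I / 4)) • (∑ A, ∑ D, ∑ E, (eps A D E : ℂ) • S.th β A (S.bil 1 D E v) -
      ∑ A, ∑ D, ∑ E, (eps A D E : ℂ) • S.vec (yhm S y) A β (S.bil (yhm S y) D E v)) +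
    ∑ A, ∑ B, ∑ D, ((((if B = A then 1 else 0) - n B * n A) * n D : ℝ) : ℂ) •
      S.vec (yhm S y) A β (S.bil 1 B D v) +
    (3 : ℂ) • ∑ A, (n A : ℂ) • S.vec (yhm S y) A β v = 0 := by
  have hI := Complex.I_mul_I
  have hn' : (n 0 : ℂ) ^ 2 + (n 1 : ℂ) ^ 2 + (n 2 : ℂ) ^ 2 = 1 := by
    rw [Fin.sum_univ_three] at hn
    exact_mod_cast hn
  have hsw : ∀ A B (w : F), S.bil 1 A B w + S.bil 1 B A w = if A = B then (16 : ℂ) • w else 0 := by
    intro A B w
    have h1 := congrArg (fun T : F →L[ℂ] F => T w) (S.bil_swap 1 A B)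
    rw [Matrix.transpose_one, Matrix.trace_one, Fintype.card_fin] at h1
    by_cases hAB : A = B
    · rw [if_pos hAB] at h1 ⊢
      simp only [_root_.sub_apply, _root_.smul_apply, one_apply_eq_self] at h1
      rw [h1]
      push_cast
      module
    · rw [if_neg hAB] at h1 ⊢
      simp only [_root_.sub_apply, _root_.zero_apply] at h1
      rw [h1]
      module
  have hsb : ∀ A B, S.bil (yhm S y) A B v + S.bil (yhm S y) B A v = 0 := by
    intro A B
    have h1 := congrArg (fun T : F →L[ℂ] F => T v) (S.bil_swap (yhm S y) A B)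
    rw [yhm_transpose, yhm_trace] at h1
    simp only [zero_smul, ite_self, zero_sub, _root_.neg_apply] at h1
    rw [h1]
    module
  obtain ⟨F1, F2, F3⟩ := m3_closed (fun A => ((n A : ℝ) : ℂ)) hn' (fun A B => S.bil 1 A B v)
    (fun A B => S.bil (yhm S y) A B v) v (fun A B => hsw A B v) hsb (fun A B => by
      have h1 := bil_vac S hy h 1 A B
      rw [one_mul] at h1
      exact h1)
  -- notation
  obtain ⟨X, hX⟩ : ∃ X, X = ∑ D, (n D : ℂ) • S.vec (yhm S y) D β v := ⟨_, rfl⟩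
  obtain ⟨Bx, hBx⟩ : ∃ Bx : Fin 3 → F →L[ℂ] F, ∀ E w, Bx E w = ∑ D, (n D : ℂ) • S.bil 1 E D w :=
    ⟨fun E => ∑ D, (n D : ℂ) • S.bil 1 E D, fun E w => by
      simp only [_root_.sum_apply, _root_.smul_apply]⟩
  have hi : ∀ (P : Matrix (Fin 16) (Fin 16) ℂ) (A E : Fin 3),
      S.vec P A β (∑ D, (n D : ℂ) • S.bil 1 E D v) = Bx E (S.vec P A β v) +
        ((if A = E then ∑ D, (n D : ℂ) • S.vec P D β v else 0) - (n A : ℂ) • S.vec P E β v) := by
    intro P A E
    simp only [map_sum, map_smul, vec_bil_one, hBx, smul_add, smul_sub, Finset.sum_add_distrib,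
      Finset.sum_sub_distrib, smul_ite, smul_zero]
    congr 2
    · by_cases hAE : A = E <;> simp [hAE]
    · simp
  have h8 : ∀ w, ∑ E, (n E : ℂ) • Bx E w = (8 : ℂ) • w := by
    intro w
    have g00 := hsw 0 0 w
    have g11 := hsw 1 1 w
    have g22 := hsw 2 2 w
    have g01 := hsw 0 1 w
    have g02 := hsw 0 2 w
    have g12 := hsw 1 2 w
    rw [if_pos rfl] at g00 g11 g22
    rw [if_neg (by decide)] at g01 g02 g12
    simp only [hBx, Fin.sum_univ_three]
    linear_combination (norm := module) ((n 0 : ℂ) ^ 2 / 2) • g00 + ((n 1 : ℂ) ^ 2 / 2) • g11 +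
      ((n 2 : ℂ) ^ 2 / 2) • g22 + ((n 0 : ℂ) * (n 1 : ℂ)) • g01 + ((n 0 : ℂ) * (n 2 : ℂ)) • g02 +
      ((n 1 : ℂ) * (n 2 : ℂ)) • g12 + ((8 : ℂ) * hn') • w
  have hIII : ∀ E, ∑ A, ∑ D, ((eps A D E : ℂ) * (n D : ℂ)) • S.th β A v =
      Complex.I • (S.vec (yhm S y) E β v - (n E : ℂ) • X) := by
    intro E
    have h1 := vt_vec S hy h (yhm S y) E β
    rw [yhm_sq S hy, ← hX] at h1
    simp only [CS.vec_one] at h1
    rw [h1, smul_smul, hI, neg_one_smul, ← Finset.sum_neg_distrib, Finset.sum_comm]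
    refine Finset.sum_congr rfl fun C _ => ?_
    rw [← Finset.sum_neg_distrib]
    refine Finset.sum_congr rfl fun D _ => ?_
    have he : ∀ A D E : Fin 3, eps A D E = -eps E D A := by decide
    rw [he D C E, ← neg_smul]
    push_cast
    congr 1
    ring
  have hT1 : ∑ A, ∑ D, ∑ E, (eps A D E : ℂ) • S.th β A (S.bil 1 D E v) =
      (-2 : ℂ) • ∑ A, ∑ D, ∑ E, ((eps A D E : ℂ) * (n D : ℂ)) •
        S.th β A (∑ G, (n G : ℂ) • S.bil 1 E G v) := by
    rw [Finset.smul_sum]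
    refine Finset.sum_congr rfl fun A _ => ?_
    have h1 := congrArg (S.th β A) (F1 A)
    simpa only [map_sum, map_smul] using h1
  have hT2 : ∑ A, ∑ D, ∑ E, (eps A D E : ℂ) • S.vec (yhm S y) A β (S.bil (yhm S y) D E v) =
      (2 * Complex.I) • ∑ A, S.vec (yhm S y) A β (∑ G, (n G : ℂ) • S.bil 1 A G v) := by
    rw [Finset.smul_sum]
    refine Finset.sum_congr rfl fun A _ => ?_
    have h1 := congrArg (S.vec (yhm S y) A β) (F2 A)
    simpa only [map_sum, map_smul] using h1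
  have hT3 : ∑ A, ∑ B, ∑ D, ((((if B = A then 1 else 0) - n B * n A) * n D : ℝ) : ℂ) •
      S.vec (yhm S y) A β (S.bil 1 B D v) =
      ∑ A, S.vec (yhm S y) A β (∑ G, (n G : ℂ) • S.bil 1 A G v) - (8 : ℂ) • X := by
    have h1 : ∀ A, ∑ B, ∑ D, ((((if B = A then 1 else 0) - n B * n A) * n D : ℝ) : ℂ) •
        S.vec (yhm S y) A β (S.bil 1 B D v) =
        S.vec (yhm S y) A β (∑ G, (n G : ℂ) • S.bil 1 A G v) -
          (n A : ℂ) • S.vec (yhm S y) A β (∑ B, (n B : ℂ) • ∑ G, (n G : ℂ) • S.bil 1 B G v) := by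
      intro A
      have h2 : ∀ B, ∑ D, ((((if B = A then 1 else 0) - n B * n A) * n D : ℝ) : ℂ) •
          S.vec (yhm S y) A β (S.bil 1 B D v) =
          (if B = A then S.vec (yhm S y) A β (∑ G, (n G : ℂ) • S.bil 1 B G v) else 0) -
            ((n A : ℂ) * (n B : ℂ)) • S.vec (yhm S y) A β (∑ G, (n G : ℂ) • S.bil 1 B G v) := by
        intro B
        simp only [map_sum, map_smul, Finset.smul_sum]
        by_cases hBA : B = A
        · simp only [if_pos hBA]
          rw [← Finset.sum_sub_distrib]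
          refine Finset.sum_congr rfl fun D _ => ?_
          push_cast
          module
        · simp only [if_neg hBA, zero_sub]
          rw [← Finset.sum_neg_distrib]
          refine Finset.sum_congr rfl fun D _ => ?_
          push_cast
          module
      simp only [h2, Finset.sum_sub_distrib]
      congr 1
      · simp
      · rw [map_sum, Finset.smul_sum]
        refine Finset.sum_congr rfl fun B _ => ?_
        rw [map_smul, smul_smul]
    simp only [h1, F3, Finset.sum_sub_distrib, map_smul]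
    congr 1
    rw [hX, Finset.smul_sum]
    refine Finset.sum_congr rfl fun A _ => ?_
    rw [smul_comm]
  have hSA : ∑ A, ∑ D, ∑ E, ((eps A D E : ℂ) * (n D : ℂ)) •
      S.th β A (∑ G, (n G : ℂ) • S.bil 1 E G v) =
      Complex.I • ∑ E, Bx E (S.vec (yhm S y) E β v) - (8 * Complex.I) • X := by
    have h1 : ∀ A E, S.th β A (∑ G, (n G : ℂ) • S.bil 1 E G v) = Bx E (S.th β A v) +
        ((if A = E then ∑ D, (n D : ℂ) • S.th β D v else 0) - (n A : ℂ) • S.th β E v) := by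
      intro A E
      have h2 := hi 1 A E
      simpa only [CS.vec_one] using h2
    have h2 : ∑ A, ∑ D, ∑ E, ((eps A D E : ℂ) * (n D : ℂ)) •
        S.th β A (∑ G, (n G : ℂ) • S.bil 1 E G v) =
        ∑ E, Bx E (∑ A, ∑ D, ((eps A D E : ℂ) * (n D : ℂ)) • S.th β A v) := by
      simp only [h1, map_sum, map_smul]
      simp only [Fin.sum_univ_three]
      simp [eps]
      module
    rw [h2]
    simp only [hIII, map_smul, map_sub, smul_sub, Finset.sum_sub_distrib]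
    congr 1
    · rw [Finset.smul_sum]
    · rw [← Finset.smul_sum, h8, smul_smul, mul_comm]
  have hSB : ∑ A, S.vec (yhm S y) A β (∑ G, (n G : ℂ) • S.bil 1 A G v) =
      ∑ E, Bx E (S.vec (yhm S y) E β v) + (2 : ℂ) • X := by
    simp only [hi, if_true, ← hX]
    rw [Finset.sum_add_distrib, Finset.sum_sub_distrib, ← hX, Finset.sum_const, Finset.card_univ,
      Fintype.card_fin]
    congr 1
    rw [← Nat.cast_smul_eq_nsmul ℂ]
    push_cast
    module
  rw [hT1, hT2, hT3, hSA, hSB, ← hX]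
  linear_combination (norm := module) hI • (∑ E, Bx E (S.vec (yhm S y) E β v)) -
    ((3 : ℂ) * hI) • X

theorem m3 (hF : F10Stmt S) : M3Stmt S := by
  intro n y hn hy v h β
  have hr : ry y ≠ 0 := hy.ne'
  have hrc : ((ry y : ℝ) : ℂ) ≠ 0 := by exact_mod_cast hr
  have h1 := m3_final S hn hy h β
  have hB : ((3 / ry y ^ 2 : ℝ) : ℂ) • S.B β (cone n y) v = ((1 / ry y : ℝ) : ℂ) •
      ((3 : ℂ) • ∑ A, (n A : ℂ) • S.vec (yhm S y) A β v) := by
    simp only [Setup.B, cone, yhm, S.vec_sum, S.vec_smul, _root_.sum_apply, _root_.smul_apply,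
      Finset.smul_sum, smul_smul]
    rw [Finset.sum_comm]
    refine Finset.sum_congr rfl fun A _ => Finset.sum_congr rfl fun i _ => ?_
    congr 1
    push_cast
    field_simp
  have hX : ∑ i, ∑ A, S.vec (S.g i) A β (S.XX n y i A v) = ((1 / ry y : ℝ) : ℂ) • (
      (-(Complex.I / 4)) • (∑ A, ∑ D, ∑ E, (eps A D E : ℂ) • S.th β A (S.bil 1 D E v) -
      ∑ A, ∑ D, ∑ E, (eps A D E : ℂ) • S.vec (yhm S y) A β (S.bil (yhm S y) D E v)) +
    ∑ A, ∑ B, ∑ D, ((((if B = A then 1 else 0) - n B * n A) * n D : ℝ) : ℂ) •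
      S.vec (yhm S y) A β (S.bil 1 B D v)) := by
    have e1 : ∑ A, ∑ D, ∑ E, (eps A D E : ℂ) • S.th β A (S.bil 1 D E v) -
        ∑ A, ∑ D, ∑ E, (eps A D E : ℂ) • S.vec (yhm S y) A β (S.bil (yhm S y) D E v) =
        ∑ A, ∑ D, ∑ E, (eps A D E : ℂ) • ∑ i, ∑ k, (((if k = i then 1 else 0) -
          (y k / ry y) * (y i / ry y) : ℝ) : ℂ) • S.vec (S.g i) A β (S.bil (S.g k) D E v) := by
      rw [← fierz_sum S hF]
      simp only [← Finset.sum_sub_distrib, ← smul_sub, sum_Pk]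
    have e2 : ∑ A, ∑ B, ∑ D, ((((if B = A then 1 else 0) - n B * n A) * n D : ℝ) : ℂ) •
        S.vec (yhm S y) A β (S.bil 1 B D v) =
        ∑ i, ∑ A, ((y i / ry y : ℝ) : ℂ) • S.vec (S.g i) A β
          (∑ B, ∑ D, ((((if B = A then 1 else 0) - n B * n A) * n D : ℝ) : ℂ) •
            S.bil 1 B D v) := by
      rw [Finset.sum_comm (s := (Finset.univ : Finset (Fin 9)))]
      refine Finset.sum_congr rfl fun A _ => ?_
      have e3 : ∀ w, S.vec (yhm S y) A β w =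
          ∑ i, ((y i / ry y : ℝ) : ℂ) • S.vec (S.g i) A β w := by
        intro w
        simp only [yhm, S.vec_sum, S.vec_smul, _root_.sum_apply, _root_.smul_apply]
      rw [← e3]
      simp only [map_sum, map_smul]
    have e4 : ∑ A, ∑ D, ∑ E, (eps A D E : ℂ) • ∑ i, ∑ k, (((if k = i then 1 else 0) -
          (y k / ry y) * (y i / ry y) : ℝ) : ℂ) • S.vec (S.g i) A β (S.bil (S.g k) D E v) =
        ∑ i, ∑ A, S.vec (S.g i) A β (∑ k, (((if k = i then 1 else 0) -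
          (y k / ry y) * (y i / ry y) : ℝ) : ℂ) • ∑ D, ∑ E, (eps A D E : ℂ) •
            S.bil (S.g k) D E v) := by
      rw [Finset.sum_comm (s := (Finset.univ : Finset (Fin 9)))]
      refine Finset.sum_congr rfl fun A _ => ?_
      simp only [map_sum, map_smul, Finset.smul_sum]
      calc _ = ∑ D, ∑ i, ∑ E, ∑ k, (eps A D E : ℂ) • (((if k = i then 1 else 0) -
          (y k / ry y) * (y i / ry y) : ℝ) : ℂ) • S.vec (S.g i) A β (S.bil (S.g k) D E v) :=
            Finset.sum_congr rfl fun D _ => Finset.sum_comm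
        _ = ∑ i, ∑ D, ∑ E, ∑ k, (eps A D E : ℂ) • (((if k = i then 1 else 0) -
          (y k / ry y) * (y i / ry y) : ℝ) : ℂ) • S.vec (S.g i) A β (S.bil (S.g k) D E v) :=
            Finset.sum_comm
        _ = ∑ i, ∑ D, ∑ k, ∑ E, (eps A D E : ℂ) • (((if k = i then 1 else 0) -
          (y k / ry y) * (y i / ry y) : ℝ) : ℂ) • S.vec (S.g i) A β (S.bil (S.g k) D E v) :=
            Finset.sum_congr rfl fun i _ => Finset.sum_congr rfl fun D _ => Finset.sum_comm
        _ = ∑ i, ∑ k, ∑ D, ∑ E, (eps A D E : ℂ) • (((if k = i then 1 else 0) -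
          (y k / ry y) * (y i / ry y) : ℝ) : ℂ) • S.vec (S.g i) A β (S.bil (S.g k) D E v) :=
            Finset.sum_congr rfl fun i _ => Finset.sum_comm
        _ = _ := by
            refine Finset.sum_congr rfl fun i _ => Finset.sum_congr rfl fun k _ =>
              Finset.sum_congr rfl fun D _ => Finset.sum_congr rfl fun E _ => ?_
            rw [smul_comm]
    rw [e1, e2, e4, Finset.smul_sum, ← Finset.sum_add_distrib, Finset.smul_sum]
    refine Finset.sum_congr rfl fun i _ => ?_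
    rw [Finset.smul_sum, ← Finset.sum_add_distrib, Finset.smul_sum]
    refine Finset.sum_congr rfl fun A _ => ?_
    rw [XX_vac S hy h, map_smul, map_add, map_smul, map_smul]
  rw [hX, hB, ← smul_add, h1, smul_zero]

end vac

end Vale.Agent.P353.U
end

section

/-! # P353, uniqueness for `N = 2`: the vacuum on the cone (D-1) -/

open MeasureTheory Filter Topology
open scoped ContDiff Matrix

namespace Vale.Agent.P353

variable {F : Type*} [NormedAddCommGroup F] [InnerProductSpace ℂ F]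

/-! ### algebra of an involution -/

section Inv

variable {R : Type*} [Ring R] [Algebra ℂ R] {G : R}

lemma o1_pp (h : G * G = 1) :
    ((1 / 2 : ℂ) • (1 + G)) * ((1 / 2 : ℂ) • (1 + G)) = (1 / 2 : ℂ) • (1 + G) := by
  have e : (1 + G) * (1 + G) = (2 : ℂ) • (1 + G) := by
    rw [two_smul, add_mul, mul_add, mul_add, h]; simp only [one_mul, mul_one]; abel
  rw [smul_mul_smul_comm, e, smul_smul]
  norm_num

lemma o1_mm (h : G * G = 1) :
    ((1 / 2 : ℂ) • (1 - G)) * ((1 / 2 : ℂ) • (1 - G)) = (1 / 2 : ℂ) • (1 - G) := by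
  have e : (1 - G) * (1 - G) = (2 : ℂ) • (1 - G) := by
    rw [two_smul, sub_mul, mul_sub, mul_sub, h]; simp only [one_mul, mul_one]; abel
  rw [smul_mul_smul_comm, e, smul_smul]
  norm_num

lemma o1_pm (h : G * G = 1) :
    ((1 / 2 : ℂ) • (1 + G)) * ((1 / 2 : ℂ) • (1 - G)) = 0 := by
  have e : (1 + G) * (1 - G) = 0 := by
    rw [add_mul, mul_sub, mul_sub, h]; simp only [one_mul, mul_one]; abel
  rw [smul_mul_smul_comm, e, smul_zero]

lemma o1_mp (h : G * G = 1) :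
    ((1 / 2 : ℂ) • (1 - G)) * ((1 / 2 : ℂ) • (1 + G)) = 0 := by
  have e : (1 - G) * (1 + G) = 0 := by
    rw [sub_mul, mul_add, mul_add, h]; simp only [one_mul, mul_one]; abel
  rw [smul_mul_smul_comm, e, smul_zero]

end Inv

lemma o1_sum {E : Type*} [AddCommMonoid E] (D : Fin 3) (x : Fin 3 → E) :
    ∑ A : Fin 3, ∑ B : Fin 3, ((if D = A then x B else 0) + (if D = B then x A else 0)) =
      ∑ B, x B + ∑ B, x B := by
  simp only [Finset.sum_add_distrib]
  congr 1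
  · rw [Finset.sum_comm]
    simp
  · simp

lemma o1_abs {R : Type*} [Ring R] [Algebra ℂ R] (v : R) (b : Fin 3 → Fin 3 → R) (D : Fin 3)
    (x : Fin 3 → R)
    (h : ∀ A B, v * b A B - b A B * v = (if D = A then x B else 0) + (if D = B then x A else 0)) :
    v * ((1 / 2 : ℂ) • ∑ A, ∑ B, b A B) - ((1 / 2 : ℂ) • ∑ A, ∑ B, b A B) * v = ∑ B, x B := by
  have hs : v * (∑ A, ∑ B, b A B) - (∑ A, ∑ B, b A B) * v = ∑ B, x B + ∑ B, x B := by
    rw [← o1_sum D x, Finset.mul_sum, Finset.sum_mul, ← Finset.sum_sub_distrib]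
    refine Finset.sum_congr rfl fun A _ => ?_
    rw [Finset.mul_sum, Finset.sum_mul, ← Finset.sum_sub_distrib]
    exact Finset.sum_congr rfl fun B _ => h A B
  rw [mul_smul_comm, smul_mul_assoc, ← smul_sub, hs, ← two_smul ℂ, smul_smul]
  norm_num

namespace CS

variable {R : Type*} [Ring R] [Algebra ℂ R] (S : CS R)

/-- `[(Mθ^D)_δ, θ^A N θ^B]` -/
lemma o1_comm (M N : Matrix (Fin 16) (Fin 16) ℂ) (D A B : Fin 3) (δ : Fin 16) :
    S.vec M D δ * S.bil N A B - S.bil N A B * S.vec M D δ =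
      (if D = A then S.vec (M * N) B δ else 0) - (if D = B then S.vec (M * Nᵀ) A δ else 0) := by
  have hb : S.bil N A B = ∑ γ, S.vec 1 A γ * S.vec N B γ := by
    rw [S.sum_vec_mul_vec]; simp
  rw [hb, Finset.mul_sum, Finset.sum_mul, ← Finset.sum_sub_distrib]
  have h1 : ∀ γ, S.vec M D δ * (S.vec 1 A γ * S.vec N B γ) -
      S.vec 1 A γ * S.vec N B γ * S.vec M D δ =
      (if D = A then (M δ γ) • S.vec N B γ else 0) -
        (if D = B then ((M * Nᵀ) δ γ) • S.vec 1 A γ else 0) := by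
    intro γ
    have e1 := S.vec_anti M 1 D A δ γ
    have e2 := S.vec_anti M N D B δ γ
    have : S.vec M D δ * (S.vec 1 A γ * S.vec N B γ) -
      S.vec 1 A γ * S.vec N B γ * S.vec M D δ =
      (S.vec M D δ * S.vec 1 A γ + S.vec 1 A γ * S.vec M D δ) * S.vec N B γ -
      S.vec 1 A γ * (S.vec M D δ * S.vec N B γ + S.vec N B γ * S.vec M D δ) := by
      noncomm_ring
    rw [this, e1, e2]
    congr 1
    · split_ifs <;> simp
    · split_ifs <;> simp
  rw [Finset.sum_congr rfl fun γ _ => h1 γ, Finset.sum_sub_distrib]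
  congr 1
  · split_ifs
    · rw [S.vec_mul]
    · simp
  · split_ifs
    · simp only [vec_one]; rfl
    · simp

/-- `Z = ½ ∑ b^A K^{AB} b^B`, `b = P_+ θ` -/
noncomputable def o1Zc (Pm Pp : Matrix (Fin 16) (Fin 16) ℂ)
    (K : Fin 3 → Fin 3 → Matrix (Fin 16) (Fin 16) ℂ) : R :=
  (1 / 2 : ℂ) • ∑ A, ∑ B, S.bil (Pm * (K A B * Pp)) A B

/-- `X = K b` -/
noncomputable def o1Xc (Pp : Matrix (Fin 16) (Fin 16) ℂ)
    (K : Fin 3 → Fin 3 → Matrix (Fin 16) (Fin 16) ℂ) (D : Fin 3) (δ : Fin 16) : R :=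
  ∑ B, S.vec (K D B * Pp) B δ

variable {Pm Pp : Matrix (Fin 16) (Fin 16) ℂ} {K : Fin 3 → Fin 3 → Matrix (Fin 16) (Fin 16) ℂ}

lemma o1_aZc (h1 : Pm * Pm = Pm) (h2 : Pp * Pp = Pp) (h3 : Ppᵀ = Pm) (h4 : Pmᵀ = Pp)
    (hK1 : ∀ A B, (K A B)ᵀ = -K B A) (hK2 : ∀ A B, Pm * K A B = K A B * Pp)
    (D : Fin 3) (δ : Fin 16) :
    S.vec Pm D δ * S.o1Zc Pm Pp K - S.o1Zc Pm Pp K * S.vec Pm D δ = S.o1Xc Pp K D δ := by
  have e1 : ∀ A B, Pm * (Pm * (K A B * Pp)) = K A B * Pp := by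
    intro A B
    rw [← mul_assoc, h1, ← mul_assoc, hK2, mul_assoc, h2]
  have e2 : ∀ A B, Pm * (Pm * (K A B * Pp))ᵀ = -(K B A * Pp) := by
    intro A B
    rw [Matrix.transpose_mul, Matrix.transpose_mul, h3, h4, hK1, mul_neg, neg_mul,
      mul_neg, hK2, mul_assoc (K B A), h2, ← mul_assoc, hK2, mul_assoc, h2]
  refine o1_abs _ (fun A B => S.bil (Pm * (K A B * Pp)) A B) D
    (fun B => S.vec (K D B * Pp) B δ) fun A B => ?_
  rw [S.o1_comm, e1, e2, S.vec_neg, sub_eq_add_neg]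
  congr 1
  · split_ifs with h
    · rw [h]
    · rfl
  · split_ifs with h
    · rw [neg_neg, h]
    · rw [neg_zero]

lemma o1_XZc (h : Pp * Pm = 0) (h3 : Ppᵀ = Pm) (D : Fin 3) (δ : Fin 16) :
    S.o1Xc Pp K D δ * S.o1Zc Pm Pp K = S.o1Zc Pm Pp K * S.o1Xc Pp K D δ := by
  have hc : ∀ (M N : Matrix (Fin 16) (Fin 16) ℂ) (E A B : Fin 3),
      Commute (S.vec (M * Pp) E δ) (S.bil (Pm * (N * Pp)) A B) := by
    intro M N E A B
    refine sub_eq_zero.mp ?_
    rw [S.o1_comm]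
    have e1 : M * Pp * (Pm * (N * Pp)) = 0 := by
      rw [mul_assoc, ← mul_assoc Pp, h, zero_mul, mul_zero]
    have e2 : M * Pp * (Pm * (N * Pp))ᵀ = 0 := by
      rw [Matrix.transpose_mul, Matrix.transpose_mul, h3, mul_assoc, ← mul_assoc Pp,
        ← mul_assoc Pp, h, zero_mul, zero_mul, mul_zero]
    rw [e1, e2]
    simp [S.vec_zero]
  rw [o1Xc, o1Zc]
  exact (Commute.sum_left _ _ _ fun E _ => Commute.sum_right _ _ _ fun A _ =>
    Commute.sum_right _ _ _ fun B _ => hc (K D E) (K A B) E A B).smul_right _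

end CS

namespace Setup

variable (S : Setup F)

/-- `P_+` -/
noncomputable def o1Pp : Matrix (Fin 16) (Fin 16) ℂ := (1 / 2 : ℂ) • (1 + Complex.I • S.Gam)

/-- `P_-` -/
noncomputable def o1Pm : Matrix (Fin 16) (Fin 16) ℂ := (1 / 2 : ℂ) • (1 - Complex.I • S.Gam)

lemma o1_IG : (Complex.I • S.Gam) * (Complex.I • S.Gam) = 1 := by
  rw [smul_mul_smul_comm, Complex.I_mul_I, Gam_sq, neg_smul, one_smul, neg_neg]

lemma o1_Pp_Pp : S.o1Pp * S.o1Pp = S.o1Pp := o1_pp S.o1_IG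
lemma o1_Pm_Pm : S.o1Pm * S.o1Pm = S.o1Pm := o1_mm S.o1_IG
lemma o1_Pp_Pm : S.o1Pp * S.o1Pm = 0 := o1_pm S.o1_IG
lemma o1_Pp_T : S.o1Ppᵀ = S.o1Pm := by
  simp only [o1Pp, o1Pm, Matrix.transpose_smul, Matrix.transpose_add, Matrix.transpose_one,
    Gam_transpose, smul_neg, sub_eq_add_neg]

lemma o1_Pm_T : S.o1Pmᵀ = S.o1Pp := by
  rw [← o1_Pp_T, Matrix.transpose_transpose]

lemma o1_Pm_add_Pp : S.o1Pm + S.o1Pp = 1 := by
  rw [o1Pm, o1Pp, ← smul_add]
  have : (1 - Complex.I • S.Gam) + (1 + Complex.I • S.Gam) =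
      (2 : ℂ) • (1 : Matrix (Fin 16) (Fin 16) ℂ) := by
    rw [two_smul]; abel
  rw [this, smul_smul]
  norm_num

lemma o1_am (A : Fin 3) (α : Fin 16) : S.am A α = S.vec S.o1Pm A α := by
  rw [am, o1Pm, S.vec_smul, S.vec_sub, S.vec_smul, S.vec_one]

lemma o1_bm (A : Fin 3) (α : Fin 16) : S.bm A α = S.vec S.o1Pp A α := by
  rw [bm, o1Pp, S.vec_smul, S.vec_add, S.vec_smul, S.vec_one]

lemma o1_adj (A : Fin 3) (α : Fin 16) (v w : F) :
    inner ℂ (S.am A α v) w = inner ℂ v (S.bm A α w) := by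
  have h1 : ∀ a b, (S.Gam a b).im = 0 := S.Gam_real
  simp only [am, bm, _root_.smul_apply, _root_.sub_apply, _root_.add_apply, inner_smul_left,
    inner_smul_right, inner_sub_left, inner_add_right, S.th_sa, S.vec_symm _ h1, Complex.conj_I,
    map_div₀, map_one, map_ofNat]
  ring

lemma o1_bilb (N : Matrix (Fin 16) (Fin 16) ℂ) (A B : Fin 3) :
    S.bilb N A B = S.bil (S.o1Pm * (N * S.o1Pp)) A B := by
  rw [← o1_Pp_T, ← S.sum_vec_mul_vec, bilb]
  refine Finset.sum_congr rfl fun α _ => ?_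
  rw [S.vec_mul, Finset.mul_sum]
  refine Finset.sum_congr rfl fun β _ => ?_
  rw [o1_bm, o1_bm, mul_smul_comm]

/-! ### the general Bogoliubov state -/

variable {K : Fin 3 → Fin 3 → Matrix (Fin 16) (Fin 16) ℂ}

lemma o1_aZ (hK1 : ∀ A B, (K A B)ᵀ = -K B A) (hK2 : ∀ A B, S.o1Pm * K A B = K A B * S.o1Pp)
    (D : Fin 3) (δ : Fin 16) :
    S.vec S.o1Pm D δ * S.o1Zc S.o1Pm S.o1Pp K - S.o1Zc S.o1Pm S.o1Pp K * S.vec S.o1Pm D δ =
      S.o1Xc S.o1Pp K D δ := by
  have h := S.o1_aZc S.o1_Pm_Pm S.o1_Pp_Pp S.o1_Pp_T S.o1_Pm_T hK1 hK2 D δ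
  generalize S.o1Zc S.o1Pm S.o1Pp K = Z at h ⊢
  generalize S.vec S.o1Pm D δ = V at h ⊢
  generalize S.o1Xc S.o1Pp K D δ = X at h ⊢
  exact h

lemma o1_XZ (D : Fin 3) (δ : Fin 16) : S.o1Xc S.o1Pp K D δ * S.o1Zc S.o1Pm S.o1Pp K =
    S.o1Zc S.o1Pm S.o1Pp K * S.o1Xc S.o1Pp K D δ := by
  have h := S.o1_XZc (K := K) S.o1_Pp_Pm S.o1_Pp_T D δ
  generalize S.o1Zc S.o1Pm S.o1Pp K = Z at h ⊢
  generalize S.o1Xc S.o1Pp K D δ = X at h ⊢
  exact h

/-- exponential lemma -/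
lemma o1_exp [CompleteSpace F] {a X Z : F →L[ℂ] F} (h1 : a * Z - Z * a = X) (h2 : X * Z = Z * X)
    {Ω : F} (h3 : a Ω = 0) : a (NormedSpace.exp Z Ω) = X (NormedSpace.exp Z Ω) := by
  have ha : a * Z = Z * a + X := by rw [← h1]; abel
  have hn : ∀ n : ℕ, a ((Z ^ (n + 1)) Ω) = ((n + 1 : ℕ) : ℂ) • X ((Z ^ n) Ω) := by
    intro n
    induction n with
    | zero =>
      have : a (Z Ω) = Z (a Ω) + X Ω := congrArg (fun T : F →L[ℂ] F => T Ω) ha
      simp [this, h3]
    | succ n ih =>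
      have e1 : a ((Z ^ (n + 1 + 1)) Ω) = Z (a ((Z ^ (n + 1)) Ω)) + X ((Z ^ (n + 1)) Ω) := by
        have := congrArg (fun T : F →L[ℂ] F => T ((Z ^ (n + 1)) Ω)) ha
        rw [pow_succ' Z (n + 1)]
        exact this
      have e2 : Z (X ((Z ^ n) Ω)) = X ((Z ^ (n + 1)) Ω) := by
        have := congrArg (fun T : F →L[ℂ] F => T ((Z ^ n) Ω)) h2
        rw [pow_succ' Z n]
        exact this.symm
      rw [e1, ih, map_smul, e2]
      push_cast
      rw [add_smul ((n : ℂ) + 1), one_smul]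
  have hs : HasSum (fun n : ℕ => ((n.factorial : ℂ)⁻¹) • Z ^ n) (NormedSpace.exp Z) :=
    NormedSpace.exp_series_hasSum_exp' Z
  have hA := (a.comp (ContinuousLinearMap.apply ℂ F Ω)).hasSum hs
  have hX := (X.comp (ContinuousLinearMap.apply ℂ F Ω)).hasSum hs
  simp only [ContinuousLinearMap.comp_apply, ContinuousLinearMap.apply_apply] at hA hX
  have hA' := (hasSum_nat_add_iff' (f := fun n : ℕ => a (((n.factorial : ℂ)⁻¹ • Z ^ n) Ω)) 1).mpr hA
  simp only [Finset.range_one, Finset.sum_singleton] at hA'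
  have e0 : a (((Nat.factorial 0 : ℂ)⁻¹ • Z ^ 0) Ω) = 0 := by simp [h3]
  rw [e0, sub_zero] at hA'
  refine hA'.unique (hX.congr fun s => Finset.sum_congr rfl fun n _ => ?_)
  beta_reduce
  rw [_root_.smul_apply, _root_.smul_apply, map_smul, map_smul, hn, smul_smul]
  congr 1
  rw [Nat.factorial_succ]
  push_cast
  have h4 : ((n : ℂ) + 1) ≠ 0 := by exact_mod_cast Nat.succ_ne_zero n
  rw [mul_inv, mul_comm ((n : ℂ) + 1)⁻¹, mul_assoc, inv_mul_cancel₀ h4, mul_one]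

/-- pairing lemma -/
lemma o1_inner [CompleteSpace F] {Z : F →L[ℂ] F} {Ω : F} (h : ∀ v, inner ℂ Ω (Z v) = 0) :
    inner ℂ Ω (NormedSpace.exp Z Ω) = inner ℂ Ω Ω := by
  have hs : HasSum (fun n : ℕ => ((n.factorial : ℂ)⁻¹) • Z ^ n) (NormedSpace.exp Z) :=
    NormedSpace.exp_series_hasSum_exp' Z
  have hA := ((innerSL ℂ Ω).comp (ContinuousLinearMap.apply ℂ F Ω)).hasSum hs
  have h0 : HasSum (fun n : ℕ => ((innerSL ℂ Ω).comp (ContinuousLinearMap.apply ℂ F Ω))
      (((n.factorial : ℂ)⁻¹) • Z ^ n)) (((innerSL ℂ Ω).comp (ContinuousLinearMap.apply ℂ F Ω))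
      (((Nat.factorial 0 : ℂ)⁻¹) • Z ^ 0)) := by
    refine hasSum_single 0 fun n hn => ?_
    obtain ⟨k, rfl⟩ := Nat.exists_eq_succ_of_ne_zero hn
    rw [map_smul, pow_succ']
    have : ((innerSL ℂ Ω).comp (ContinuousLinearMap.apply ℂ F Ω)) (Z * Z ^ k) =
      inner ℂ Ω (Z ((Z ^ k) Ω)) := rfl
    rw [Nat.succ_eq_add_one] at *
    rw [this, h, smul_zero]
  have h1 := hA.unique h0
  have e1 : ((innerSL ℂ Ω).comp (ContinuousLinearMap.apply ℂ F Ω)) (NormedSpace.exp Z) =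
    inner ℂ Ω (NormedSpace.exp Z Ω) := rfl
  have e2 : ((innerSL ℂ Ω).comp (ContinuousLinearMap.apply ℂ F Ω))
      (((Nat.factorial 0 : ℂ)⁻¹) • Z ^ 0) = inner ℂ Ω Ω := by
    simp
  rw [← e1, h1, e2]

/-- the annihilation operators on the state -/
lemma o1_state [CompleteSpace F] (hK1 : ∀ A B, (K A B)ᵀ = -K B A)
    (hK2 : ∀ A B, S.o1Pm * K A B = K A B * S.o1Pp) {Ω : F} (hΩ : ∀ A α, S.am A α Ω = 0)
    (D : Fin 3) (δ : Fin 16) :
    S.vec S.o1Pm D δ (NormedSpace.exp (S.o1Zc S.o1Pm S.o1Pp K) Ω) =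
      S.o1Xc S.o1Pp K D δ (NormedSpace.exp (S.o1Zc S.o1Pm S.o1Pp K) Ω) := by
  refine o1_exp (S.o1_aZ hK1 hK2 D δ) (S.o1_XZ D δ) ?_
  rw [← o1_am]
  exact hΩ D δ

/-- `(Mθ^D)_δ` on the state -/
lemma o1_vec {w : F} (hw : ∀ D γ, S.vec S.o1Pm D γ w = S.o1Xc S.o1Pp K D γ w)
    (M : Matrix (Fin 16) (Fin 16) ℂ) (D : Fin 3) (δ : Fin 16) :
    S.vec M D δ w = ∑ B, S.vec (M * (K D B + if D = B then 1 else 0) * S.o1Pp) B δ w := by
  have h1 : ∀ γ, S.th γ D w = ∑ B, S.vec ((K D B + if D = B then 1 else 0) * S.o1Pp) B γ w := by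
    intro γ
    have e1 : S.th γ D w = S.vec S.o1Pm D γ w + S.vec S.o1Pp D γ w := by
      rw [← _root_.add_apply, ← S.vec_add, o1_Pm_add_Pp, S.vec_one]
    rw [e1, hw, CS.o1Xc, _root_.sum_apply]
    simp only [add_mul, S.vec_add, _root_.add_apply, Finset.sum_add_distrib]
    congr 1
    rw [Finset.sum_eq_single D]
    · rw [if_pos rfl, one_mul]
    · intro B _ hB
      rw [if_neg hB.symm, zero_mul, S.vec_zero]; rfl
    · intro h; exact absurd (Finset.mem_univ D) h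
  have h2 : S.vec M D δ w = ∑ γ, M δ γ • S.th γ D w := by
    rw [CS.vec, _root_.sum_apply]; rfl
  rw [h2]
  simp only [h1, Finset.smul_sum]
  rw [Finset.sum_comm]
  refine Finset.sum_congr rfl fun B _ => ?_
  rw [mul_assoc, S.vec_mul, _root_.sum_apply]
  rfl

lemma o1_vw_smul (c : ℂ) (N : Matrix (Fin 16) (Fin 16) ℂ) (B : Fin 3) (δ : Fin 16) (w : F) :
    S.vec (c • N) B δ w = c • S.vec N B δ w := by
  rw [S.vec_smul]; rfl

lemma o1_vw_sum {ι : Type*} (s : Finset ι) (N : ι → Matrix (Fin 16) (Fin 16) ℂ) (B : Fin 3)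
    (δ : Fin 16) (w : F) : S.vec (∑ i ∈ s, N i) B δ w = ∑ i ∈ s, S.vec (N i) B δ w := by
  rw [S.vec_sum, _root_.sum_apply]

lemma o1_collect {w : F} (hw : ∀ D γ, S.vec S.o1Pm D γ w = S.o1Xc S.o1Pp K D γ w)
    (M : Matrix (Fin 16) (Fin 16) ℂ) (r : ℂ) (c : Fin 3 → ℂ) (δ : Fin 16) :
    r • ∑ D, c D • S.vec M D δ w =
      ∑ B, S.vec ((r • ∑ D, c D • (M * (K D B + if D = B then 1 else 0))) * S.o1Pp) B δ w := by
  have e1 : ∀ D, c D • S.vec M D δ w =
      ∑ B, S.vec ((c D • (M * (K D B + if D = B then 1 else 0))) * S.o1Pp) B δ w := by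
    intro D
    rw [S.o1_vec hw M D δ, Finset.smul_sum]
    refine Finset.sum_congr rfl fun B _ => ?_
    rw [smul_mul_assoc, o1_vw_smul]
  rw [Finset.sum_congr rfl fun D _ => e1 D, Finset.sum_comm, Finset.smul_sum]
  refine Finset.sum_congr rfl fun B _ => ?_
  rw [smul_mul_assoc, o1_vw_smul, Finset.sum_mul, o1_vw_sum]

/-! ### bilinears of `b` -/

lemma o1_bilb_smul (c : ℂ) (N : Matrix (Fin 16) (Fin 16) ℂ) (A B : Fin 3) :
    S.bilb (c • N) A B = c • S.bilb N A B := by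
  simp only [bilb, Finset.smul_sum, Matrix.smul_apply, smul_eq_mul, mul_smul]

lemma o1_bilb_sub (N N' : Matrix (Fin 16) (Fin 16) ℂ) (A B : Fin 3) :
    S.bilb (N - N') A B = S.bilb N A B - S.bilb N' A B := by
  simp only [bilb, Matrix.sub_apply, sub_smul, Finset.sum_sub_distrib]

lemma o1_bilb_sum {ι : Type*} (s : Finset ι) (N : ι → Matrix (Fin 16) (Fin 16) ℂ) (A B : Fin 3) :
    S.bilb (∑ i ∈ s, N i) A B = ∑ i ∈ s, S.bilb (N i) A B := by
  simp only [bilb, Matrix.sum_apply, Finset.sum_smul]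
  calc _ = ∑ α, ∑ i ∈ s, ∑ β, N i α β • (S.bm A α * S.bm B β) :=
        Finset.sum_congr rfl fun α _ => Finset.sum_comm
    _ = _ := Finset.sum_comm

lemma o1_Zc_eq (K : Fin 3 → Fin 3 → Matrix (Fin 16) (Fin 16) ℂ) :
    S.o1Zc S.o1Pm S.o1Pp K = (1 / 2 : ℂ) • ∑ A, ∑ B, S.bilb (K A B) A B := by
  rw [CS.o1Zc]
  simp only [← o1_bilb]

lemma o1_inner_Z {Ω : F} (hΩ : ∀ A α, S.am A α Ω = 0)
    (K : Fin 3 → Fin 3 → Matrix (Fin 16) (Fin 16) ℂ) (v : F) :
    inner ℂ Ω (S.o1Zc S.o1Pm S.o1Pp K v) = 0 := by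
  have hb : ∀ (A B : Fin 3) (α β : Fin 16), inner ℂ Ω (S.bm A α (S.bm B β v)) = 0 := by
    intro A B α β
    rw [← o1_adj, hΩ, inner_zero_left]
  rw [o1_Zc_eq, _root_.smul_apply, inner_smul_right, _root_.sum_apply, inner_sum]
  rw [Finset.sum_eq_zero, mul_zero]
  intro A _
  rw [_root_.sum_apply, inner_sum]
  refine Finset.sum_eq_zero fun B _ => ?_
  rw [bilb, _root_.sum_apply, inner_sum]
  refine Finset.sum_eq_zero fun α _ => ?_
  rw [_root_.sum_apply, inner_sum]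
  refine Finset.sum_eq_zero fun β _ => ?_
  rw [_root_.smul_apply, inner_smul_right, mul_apply_eq_comp, hb, mul_zero]

end Setup

/-! ### the cone -/

/-- `E_{AB} = ∑_C ε_{ACB} n_C` -/
noncomputable def o1E (n : Fin 3 → ℝ) (A B : Fin 3) : ℝ := ∑ C, (eps A C B : ℝ) * n C

/-- the projection orthogonal to `n` -/
noncomputable def o1P (n : Fin 3 → ℝ) (A B : Fin 3) : ℝ := (if A = B then 1 else 0) - n A * n B

section EP

variable {n : Fin 3 → ℝ}

lemma o1E_swap (A B : Fin 3) : o1E n A B = -o1E n B A := by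
  fin_cases A <;> fin_cases B <;> simp [o1E, Fin.sum_univ_three, eps] <;> ring

lemma o1P_swap (A B : Fin 3) : o1P n A B = o1P n B A := by
  unfold o1P
  rw [mul_comm (n A)]
  congr 1
  by_cases h : A = B
  · rw [h]
  · rw [if_neg h, if_neg (Ne.symm h)]

lemma o1_nE (B : Fin 3) : ∑ A, n A * o1E n A B = 0 := by
  fin_cases B <;> simp [o1E, Fin.sum_univ_three, eps] <;> ring

lemma o1_nP (hn : ∑ A, n A ^ 2 = 1) (B : Fin 3) : ∑ A, n A * o1P n A B = 0 := by
  have e : ∑ A, n A * o1P n A B = n B - n B * ∑ A, n A ^ 2 := by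
    simp only [o1P, mul_sub, Finset.sum_sub_distrib, mul_ite, mul_one, mul_zero,
      Finset.sum_ite_eq', Finset.mem_univ, if_true, Finset.mul_sum]
    congr 1
    exact Finset.sum_congr rfl fun A _ => by ring
  rw [e, hn]; ring

lemma o1_PE (A B : Fin 3) : ∑ C, o1P n A C * o1E n C B = o1E n A B := by
  have e : ∑ C, o1P n A C * o1E n C B = o1E n A B - n A * ∑ C, n C * o1E n C B := by
    simp only [o1P, sub_mul, Finset.sum_sub_distrib, ite_mul, one_mul, zero_mul,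
      Finset.sum_ite_eq, Finset.mem_univ, if_true, Finset.mul_sum, mul_assoc]
  rw [e, o1_nE]; ring

lemma o1_PP (hn : ∑ A, n A ^ 2 = 1) (A B : Fin 3) : ∑ C, o1P n A C * o1P n C B = o1P n A B := by
  have e : ∑ C, o1P n A C * o1P n C B = o1P n A B - n A * ∑ C, n C * o1P n C B := by
    simp only [o1P, sub_mul, Finset.sum_sub_distrib, ite_mul, one_mul, zero_mul,
      Finset.sum_ite_eq, Finset.mem_univ, if_true, Finset.mul_sum, mul_assoc]
  rw [e, o1_nP hn]; ring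

lemma o1_EP (A B : Fin 3) : ∑ C, o1E n A C * o1P n C B = o1E n A B := by
  have h := o1_PE (n := n) B A
  rw [o1E_swap A B, ← h, ← Finset.sum_neg_distrib]
  refine Finset.sum_congr rfl fun C _ => ?_
  rw [o1E_swap A C, o1P_swap C B]; ring

lemma o1_EE (hn : ∑ A, n A ^ 2 = 1) (A B : Fin 3) : ∑ C, o1E n A C * o1E n C B = -o1P n A B := by
  rw [Fin.sum_univ_three] at hn
  fin_cases A <;> fin_cases B <;> simp [o1E, o1P, Fin.sum_univ_three, eps] <;>
    first | linear_combination hn | linear_combination -hn | ring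

end EP

/-- parts of `y` in `I3` and `I6` -/
noncomputable def o1y3 (y : Fin 9 → ℝ) (i : Fin 9) : ℝ := if i.val < 3 then y i else 0
noncomputable def o1y6 (y : Fin 9 → ℝ) (i : Fin 9) : ℝ := if 3 ≤ i.val then y i else 0

lemma o1_y_add (y : Fin 9 → ℝ) (i : Fin 9) : o1y3 y i + o1y6 y i = y i := by
  unfold o1y3 o1y6
  split_ifs with h1 h2
  · omega
  · ring
  · ring
  · omega

lemma o1_y36 (y : Fin 9 → ℝ) : ∑ i, o1y3 y i * o1y6 y i = 0 := by
  refine Finset.sum_eq_zero fun i _ => ?_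
  unfold o1y3 o1y6
  split_ifs with h1 h2
  · omega
  · ring
  · ring
  · ring

lemma o1_y_sq (y : Fin 9 → ℝ) : ∑ i, o1y3 y i * o1y3 y i + ∑ i, o1y6 y i * o1y6 y i =
    ∑ i, y i ^ 2 := by
  rw [← Finset.sum_add_distrib]
  refine Finset.sum_congr rfl fun i _ => ?_
  unfold o1y3 o1y6
  split_ifs with h1 h2
  · omega
  · ring
  · ring
  · omega

lemma o1_rho6 {n : Fin 3 → ℝ} (hn : ∑ A, n A ^ 2 = 1) (y : Fin 9 → ℝ) :
    rho6sq (cone n y) = ∑ i, o1y6 y i * o1y6 y i := by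
  unfold rho6sq
  refine Finset.sum_congr rfl fun i _ => ?_
  unfold o1y6
  split_ifs with h
  · have : ∀ A, (cone n y) (i, A) ^ 2 = y i * y i * n A ^ 2 := by
      intro A
      simp only [cone]
      ring
    simp only [this, ← Finset.mul_sum, hn, mul_one]
  · simp

lemma o1_ry (y : Fin 9 → ℝ) : ry y ^ 2 = ∑ i, y i ^ 2 := by
  unfold ry
  exact Real.sq_sqrt (Finset.sum_nonneg fun i _ => sq_nonneg _)

lemma o1_norm {n : Fin 3 → ℝ} (hn : ∑ A, n A ^ 2 = 1) (y : Fin 9 → ℝ) : ‖cone n y‖ = ry y := by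
  unfold ry
  rw [EuclideanSpace.norm_eq]
  congr 1
  rw [Fintype.sum_prod_type]
  refine Finset.sum_congr rfl fun i _ => ?_
  have : ∀ A, ‖(cone n y) (i, A)‖ ^ 2 = y i ^ 2 * n A ^ 2 := by
    intro A
    rw [Real.norm_eq_abs, sq_abs]
    simp only [cone]
    ring
  simp only [this, ← Finset.mul_sum, hn, mul_one]

namespace CS

variable {R : Type*} [Ring R] [Algebra ℂ R] (S : CS R)

/-- `u̸` -/
noncomputable def o1G (u : Fin 9 → ℝ) : Matrix (Fin 16) (Fin 16) ℂ := ∑ i, ((u i : ℝ) : ℂ) • S.g i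

lemma o1G_T (u : Fin 9 → ℝ) : (S.o1G u)ᵀ = S.o1G u := by
  simp only [o1G, Matrix.transpose_sum, Matrix.transpose_smul, S.g_symm]

lemma o1G_anti (u w : Fin 9 → ℝ) : S.o1G u * S.o1G w + S.o1G w * S.o1G u =
    ((2 * ∑ i, u i * w i : ℝ) : ℂ) • (1 : Matrix (Fin 16) (Fin 16) ℂ) := by
  have h1 : S.o1G u * S.o1G w = ∑ i, ∑ j, ((u i : ℂ) * (w j : ℂ)) • (S.g i * S.g j) := by
    rw [o1G, o1G, Finset.sum_mul_sum]
    simp only [smul_mul_smul_comm]
  have h2 : S.o1G w * S.o1G u = ∑ i, ∑ j, ((u i : ℂ) * (w j : ℂ)) • (S.g j * S.g i) := by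
    rw [o1G, o1G, Finset.sum_mul_sum, Finset.sum_comm]
    refine Finset.sum_congr rfl fun i _ => Finset.sum_congr rfl fun j _ => ?_
    rw [smul_mul_smul_comm, mul_comm (w j : ℂ)]
  rw [h1, h2, ← Finset.sum_add_distrib]
  simp only [← Finset.sum_add_distrib, ← smul_add, S.g_anti]
  have h3 : ∀ i j : Fin 9, ((u i : ℂ) * (w j : ℂ)) •
      (if i = j then (2 : Matrix (Fin 16) (Fin 16) ℂ) else 0) =
      if i = j then (2 * ((u i : ℂ) * (w i : ℂ))) • (1 : Matrix (Fin 16) (Fin 16) ℂ) else 0 := by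
    intro i j
    split_ifs with h
    · subst h
      have : (2 : Matrix (Fin 16) (Fin 16) ℂ) = (2 : ℂ) • 1 := by
        rw [two_smul]; norm_num
      rw [this, smul_smul, mul_comm]
    · rw [smul_zero]
  simp only [h3, Finset.sum_ite_eq, Finset.mem_univ, if_true]
  rw [← Finset.sum_smul, ← Finset.mul_sum]
  push_cast
  rfl

end CS

/-- the final matrix identity in a general algebra -/
lemma o1_fin {R : Type*} [Ring R] [Algebra ℂ R] {Y3 Y6 : R} {r s3 s6 e p : ℂ}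
    (h66 : Y6 * Y6 = s6 • 1) (h33 : Y3 * Y3 = s3 • 1) (h36 : Y3 * Y6 = -(Y6 * Y3))
    (hs : s3 + s6 = r ^ 2) (h6 : s6 ≠ 0) :
    Complex.I • ((Y3 + Y6) * ((1 / s6) • ((-(Complex.I * r * p)) • Y6 - e • (Y6 * Y3)) + e • 1)) =
      r • ((1 / s6) • ((Complex.I * r * e) • Y6 - p • (Y6 * Y3)) + p • (1 : R)) := by
  have a1 : (Y3 + Y6) * Y6 = -(Y6 * Y3) + s6 • 1 := by rw [add_mul, h36, h66]
  have a2 : (Y3 + Y6) * (Y6 * Y3) = -(s3 • Y6) + s6 • Y3 := by
    rw [← mul_assoc, a1, add_mul, neg_mul, mul_assoc, h33, mul_smul_comm, mul_one, smul_mul_assoc,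
      one_mul]
  have hs3 : s3 = r ^ 2 - s6 := by rw [← hs]; ring
  rw [mul_add, mul_smul_comm, mul_smul_comm, mul_one, mul_sub, mul_smul_comm, mul_smul_comm, a1,
    a2, hs3]
  have hI : Complex.I ^ 2 = -1 := Complex.I_sq
  match_scalars
  · field_simp
    linear_combination (r * p) * hI
  · field_simp
    linear_combination (-(r * p)) * hI
  · field_simp
    ring
  · field_simp
    ring

section Mod

variable {E : Type*} [AddCommGroup E] [Module ℂ E]

lemma o1_t1 (n : Fin 3 → ℝ) (y : Fin 9 → ℝ) (β : Fin 9 → Fin 3 → Fin 3 → E) :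
    (∑ a : Fin 9, ∑ A, ∑ B, ∑ C,
      (if 3 ≤ a.val then (eps A C B : ℂ) * ((cone n y) (a, C) : ℂ) else 0) • β a A B) =
      ∑ A, ∑ B, (o1E n A B : ℂ) • ∑ a, (o1y6 y a : ℂ) • β a A B := by
  have e1 : ∀ (a : Fin 9) (A B : Fin 3), (∑ C,
    (if 3 ≤ a.val then (eps A C B : ℂ) * ((cone n y) (a, C) : ℂ) else 0) • β a A B) =
      (o1E n A B : ℂ) • ((o1y6 y a : ℂ) • β a A B) := by
    intro a A B
    rw [← Finset.sum_smul, smul_smul]
    congr 1
    unfold o1y6 o1E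
    split_ifs with h
    · push_cast
      rw [Finset.sum_mul]
      refine Finset.sum_congr rfl fun C _ => ?_
      simp only [cone]
      push_cast
      ring
    · simp
  simp only [e1]
  rw [Finset.sum_comm]
  refine Finset.sum_congr rfl fun A _ => ?_
  rw [Finset.sum_comm]
  refine Finset.sum_congr rfl fun B _ => ?_
  rw [← Finset.smul_sum]

lemma o1_t2 {n : Fin 3 → ℝ} (hn : ∑ A, n A ^ 2 = 1) (y : Fin 9 → ℝ)
    (β : Fin 9 → Fin 9 → Fin 3 → Fin 3 → E) :
    (∑ a : Fin 9, ∑ i : Fin 9, ∑ A, ∑ B,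
      (if 3 ≤ a.val ∧ i.val < 3 then
        (if A = B then ∑ D, ((cone n y) (a, D) : ℂ) * ((cone n y) (i, D) : ℂ) else 0) -
          ((cone n y) (a, A) : ℂ) * ((cone n y) (i, B) : ℂ) else 0) • β a i A B) =
      ∑ A, ∑ B, (o1P n A B : ℂ) • ∑ a, ∑ i, ((o1y6 y a : ℂ) * (o1y3 y i : ℂ)) • β a i A B := by
  have hn' : ∑ A, (n A : ℂ) ^ 2 = 1 := by
    have := congrArg (fun x : ℝ => (x : ℂ)) hn
    push_cast at this
    exact this
  have e1 : ∀ (a i : Fin 9) (A B : Fin 3),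
    (if 3 ≤ a.val ∧ i.val < 3 then
      (if A = B then ∑ D, ((cone n y) (a, D) : ℂ) * ((cone n y) (i, D) : ℂ) else 0) -
        ((cone n y) (a, A) : ℂ) * ((cone n y) (i, B) : ℂ) else 0) =
      (o1P n A B : ℂ) * ((o1y6 y a : ℂ) * (o1y3 y i : ℂ)) := by
    intro a i A B
    have e2 : ∑ D, ((cone n y) (a, D) : ℂ) * ((cone n y) (i, D) : ℂ) = (y a : ℂ) * (y i : ℂ) := by
      have : ∀ D, ((cone n y) (a, D) : ℂ) * ((cone n y) (i, D) : ℂ) =
          (y a : ℂ) * (y i : ℂ) * (n D : ℂ) ^ 2 := by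
        intro D
        simp only [cone]
        push_cast
        ring
      simp only [this, ← Finset.mul_sum, hn', mul_one]
    rw [e2]
    unfold o1y6 o1y3 o1P
    by_cases h3 : 3 ≤ a.val
    · by_cases h4 : i.val < 3
      · rw [if_pos ⟨h3, h4⟩, if_pos h3, if_pos h4]
        simp only [cone]
        push_cast
        split_ifs <;> push_cast <;> ring
      · rw [if_neg (fun h => h4 h.2), if_neg h4]
        simp
    · rw [if_neg (fun h => h3 h.1), if_neg h3]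
      simp
  simp only [e1, mul_smul]
  calc _ = ∑ a : Fin 9, ∑ A, ∑ B, ∑ i : Fin 9, (o1P n A B : ℂ) • (o1y6 y a : ℂ) •
        (o1y3 y i : ℂ) • β a i A B := by
        refine Finset.sum_congr rfl fun a _ => ?_
        rw [Finset.sum_comm]
        refine Finset.sum_congr rfl fun A _ => ?_
        rw [Finset.sum_comm]
    _ = ∑ A, ∑ B, ∑ a : Fin 9, ∑ i : Fin 9, (o1P n A B : ℂ) • (o1y6 y a : ℂ) •
        (o1y3 y i : ℂ) • β a i A B := by
        rw [Finset.sum_comm]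
        refine Finset.sum_congr rfl fun A _ => ?_
        rw [Finset.sum_comm]
    _ = _ := by
        refine Finset.sum_congr rfl fun A _ => Finset.sum_congr rfl fun B _ => ?_
        simp only [← Finset.smul_sum]

lemma o1_t3 (n : Fin 3 → ℝ) (y : Fin 9 → ℝ) {r s6 : ℝ} (hr : (r : ℂ) ≠ 0) (h6 : (s6 : ℂ) ≠ 0)
    (β : Fin 9 → Fin 3 → Fin 3 → E) (β' : Fin 9 → Fin 9 → Fin 3 → Fin 3 → E) :
    (1 / 2 : ℂ) • ∑ A, ∑ B, (1 / (s6 : ℂ)) • (
        (Complex.I * (r : ℂ) * (o1E n A B : ℂ)) • (∑ a, (o1y6 y a : ℂ) • β a A B) -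
        (o1P n A B : ℂ) • ∑ a, ∑ i, ((o1y6 y a : ℂ) * (o1y3 y i : ℂ)) • β' a i A B) =
      ((r ^ 2 / (2 * s6) : ℝ) : ℂ) • ((Complex.I * ((1 / r : ℝ) : ℂ)) •
        (∑ A, ∑ B, (o1E n A B : ℂ) • ∑ a, (o1y6 y a : ℂ) • β a A B) -
        ((1 / r ^ 2 : ℝ) : ℂ) • ∑ A, ∑ B, (o1P n A B : ℂ) •
          ∑ a, ∑ i, ((o1y6 y a : ℂ) * (o1y3 y i : ℂ)) • β' a i A B) := by
  have e : ∑ A, ∑ B, (1 / (s6 : ℂ)) • (
        (Complex.I * (r : ℂ) * (o1E n A B : ℂ)) • (∑ a, (o1y6 y a : ℂ) • β a A B) -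
        (o1P n A B : ℂ) • ∑ a, ∑ i, ((o1y6 y a : ℂ) * (o1y3 y i : ℂ)) • β' a i A B) =
      (1 / (s6 : ℂ)) • ((Complex.I * (r : ℂ)) •
        (∑ A, ∑ B, (o1E n A B : ℂ) • ∑ a, (o1y6 y a : ℂ) • β a A B) -
        ∑ A, ∑ B, (o1P n A B : ℂ) •
          ∑ a, ∑ i, ((o1y6 y a : ℂ) * (o1y3 y i : ℂ)) • β' a i A B) := by
    rw [Finset.smul_sum, ← Finset.sum_sub_distrib, Finset.smul_sum]
    refine Finset.sum_congr rfl fun A _ => ?_
    rw [Finset.smul_sum, ← Finset.sum_sub_distrib, Finset.smul_sum]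
    refine Finset.sum_congr rfl fun B _ => ?_
    rw [mul_smul (Complex.I * (r : ℂ))]
  rw [e]
  generalize ∑ A, ∑ B, (o1E n A B : ℂ) • ∑ a, (o1y6 y a : ℂ) • β a A B = T1
  generalize ∑ A, ∑ B, (o1P n A B : ℂ) •
          ∑ a, ∑ i, ((o1y6 y a : ℂ) * (o1y3 y i : ℂ)) • β' a i A B = T2
  rw [smul_sub, smul_sub, smul_sub, smul_smul, smul_smul, smul_smul, smul_smul, smul_smul]
  congr 2
  · push_cast
    field_simp
  · push_cast
    field_simp

end Mod

namespace Setup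

variable (S : Setup F)

lemma o1G3_Gam (y : Fin 9 → ℝ) : S.o1G (o1y3 y) * S.Gam = S.Gam * S.o1G (o1y3 y) := by
  rw [CS.o1G, Finset.sum_mul, Finset.mul_sum]
  refine Finset.sum_congr rfl fun i _ => ?_
  rw [smul_mul_assoc, mul_smul_comm]
  by_cases h : i.val < 3
  · rw [S.g_Gam_comm h]
  · have : o1y3 y i = 0 := by rw [o1y3, if_neg h]
    rw [this, Complex.ofReal_zero, zero_smul, zero_smul]

lemma o1G6_Gam (y : Fin 9 → ℝ) : S.o1G (o1y6 y) * S.Gam = -(S.Gam * S.o1G (o1y6 y)) := by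
  rw [CS.o1G, Finset.sum_mul, Finset.mul_sum, ← Finset.sum_neg_distrib]
  refine Finset.sum_congr rfl fun i _ => ?_
  rw [smul_mul_assoc, mul_smul_comm]
  by_cases h : 3 ≤ i.val
  · rw [S.g_Gam_anti h, smul_neg]
  · have : o1y6 y i = 0 := by rw [o1y6, if_neg h]
    rw [this, Complex.ofReal_zero, zero_smul, zero_smul, neg_zero]

lemma o1_Pp_Y3 (y : Fin 9 → ℝ) : S.o1Pp * S.o1G (o1y3 y) = S.o1G (o1y3 y) * S.o1Pp := by
  rw [o1Pp, smul_mul_assoc, mul_smul_comm, add_mul, mul_add, smul_mul_assoc, mul_smul_comm,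
    o1G3_Gam, one_mul, mul_one]

lemma o1_Pm_Y6 (y : Fin 9 → ℝ) : S.o1Pm * S.o1G (o1y6 y) = S.o1G (o1y6 y) * S.o1Pp := by
  rw [o1Pp, o1Pm, smul_mul_assoc, mul_smul_comm, sub_mul, mul_add, smul_mul_assoc, mul_smul_comm,
    o1G6_Gam, one_mul, mul_one, smul_neg, sub_eq_add_neg]

/-- the kernel `K` -/
noncomputable def o1K (n : Fin 3 → ℝ) (y : Fin 9 → ℝ) (A B : Fin 3) :
    Matrix (Fin 16) (Fin 16) ℂ :=
  (1 / ((∑ i, o1y6 y i * o1y6 y i : ℝ) : ℂ)) • (
    (Complex.I * (ry y : ℂ) * (o1E n A B : ℂ)) • S.o1G (o1y6 y) -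
      (o1P n A B : ℂ) • (S.o1G (o1y6 y) * S.o1G (o1y3 y)))

lemma o1_Y66 (y : Fin 9 → ℝ) : S.o1G (o1y6 y) * S.o1G (o1y6 y) =
    ((∑ i, o1y6 y i * o1y6 y i : ℝ) : ℂ) • 1 := by
  have h := S.o1G_anti (o1y6 y) (o1y6 y)
  rw [← two_smul ℂ] at h
  have h2 := congrArg (fun M => (1 / 2 : ℂ) • M) h
  simp only [smul_smul] at h2
  rw [show (1 / 2 : ℂ) * 2 = 1 by norm_num, one_smul] at h2
  rw [h2]
  congr 1
  push_cast
  ring

lemma o1_Y33 (y : Fin 9 → ℝ) : S.o1G (o1y3 y) * S.o1G (o1y3 y) =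
    ((∑ i, o1y3 y i * o1y3 y i : ℝ) : ℂ) • 1 := by
  have h := S.o1G_anti (o1y3 y) (o1y3 y)
  rw [← two_smul ℂ] at h
  have h2 := congrArg (fun M => (1 / 2 : ℂ) • M) h
  simp only [smul_smul] at h2
  rw [show (1 / 2 : ℂ) * 2 = 1 by norm_num, one_smul] at h2
  rw [h2]
  congr 1
  push_cast
  ring

lemma o1_Y36 (y : Fin 9 → ℝ) : S.o1G (o1y3 y) * S.o1G (o1y6 y) =
    -(S.o1G (o1y6 y) * S.o1G (o1y3 y)) := by
  have h := S.o1G_anti (o1y3 y) (o1y6 y)
  rw [o1_y36, mul_zero, Complex.ofReal_zero, zero_smul] at h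
  exact eq_neg_of_add_eq_zero_left h

lemma o1K_T (n : Fin 3 → ℝ) (y : Fin 9 → ℝ) (A B : Fin 3) : (S.o1K n y A B)ᵀ = -S.o1K n y B A := by
  rw [o1K, o1K, Matrix.transpose_smul, Matrix.transpose_sub, Matrix.transpose_smul,
    Matrix.transpose_smul, Matrix.transpose_mul, S.o1G_T, S.o1G_T, o1_Y36, o1E_swap A B,
    o1P_swap A B, ← smul_neg]
  congr 1
  push_cast
  simp only [mul_neg, neg_smul, smul_neg]
  abel

lemma o1K_Pm (n : Fin 3 → ℝ) (y : Fin 9 → ℝ) (A B : Fin 3) :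
    S.o1Pm * S.o1K n y A B = S.o1K n y A B * S.o1Pp := by
  have e1 : S.o1Pm * (S.o1G (o1y6 y) * S.o1G (o1y3 y)) =
      S.o1G (o1y6 y) * S.o1G (o1y3 y) * S.o1Pp := by
    rw [← mul_assoc, o1_Pm_Y6, mul_assoc, o1_Pp_Y3, ← mul_assoc]
  rw [o1K, mul_smul_comm, smul_mul_assoc, mul_sub, sub_mul, mul_smul_comm, smul_mul_assoc,
    mul_smul_comm, smul_mul_assoc, e1, o1_Pm_Y6]

/-- `Y = Y3 + Y6` -/
lemma o1_Y (y : Fin 9 → ℝ) : S.o1G (o1y3 y) + S.o1G (o1y6 y) = S.o1G y := by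
  rw [CS.o1G, CS.o1G, CS.o1G, ← Finset.sum_add_distrib]
  refine Finset.sum_congr rfl fun i _ => ?_
  rw [← add_smul, ← Complex.ofReal_add, o1_y_add]

lemma o1_mat {n : Fin 3 → ℝ} (hn : ∑ A, n A ^ 2 = 1) {y : Fin 9 → ℝ}
    (h6 : 0 < ∑ i, o1y6 y i * o1y6 y i) (A B : Fin 3) :
    (ry y : ℂ) • ∑ D, ((o1P n A D : ℝ) : ℂ) • ((1 : Matrix (Fin 16) (Fin 16) ℂ) *
      (S.o1K n y D B + if D = B then 1 else 0)) =
    Complex.I • ∑ D, ((o1E n A D : ℝ) : ℂ) • (S.o1G y *
      (S.o1K n y D B + if D = B then 1 else 0)) := by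
  have hs : ((∑ i, o1y3 y i * o1y3 y i : ℝ) : ℂ) + ((∑ i, o1y6 y i * o1y6 y i : ℝ) : ℂ) =
      (ry y : ℂ) ^ 2 := by
    rw [← Complex.ofReal_add, o1_y_sq, ← o1_ry]
    push_cast; rfl
  have h6' : ((∑ i, o1y6 y i * o1y6 y i : ℝ) : ℂ) ≠ 0 := by exact_mod_cast h6.ne'
  have hf := o1_fin (e := (o1E n A B : ℂ)) (p := (o1P n A B : ℂ)) (S.o1_Y66 y) (S.o1_Y33 y)
    (S.o1_Y36 y) hs h6'
  have c1 : ∑ D, ((o1P n A D : ℝ) : ℂ) * ((o1E n D B : ℝ) : ℂ) = (o1E n A B : ℂ) := by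
    rw [← o1_PE A B]; push_cast; rfl
  have c2 : ∑ D, ((o1P n A D : ℝ) : ℂ) * ((o1P n D B : ℝ) : ℂ) = (o1P n A B : ℂ) := by
    rw [← o1_PP hn A B]; push_cast; rfl
  have c3 : ∑ D, ((o1E n A D : ℝ) : ℂ) * ((o1E n D B : ℝ) : ℂ) = -(o1P n A B : ℂ) := by
    rw [← Complex.ofReal_neg, ← o1_EE hn A B]; push_cast; rfl
  have c4 : ∑ D, ((o1E n A D : ℝ) : ℂ) * ((o1P n D B : ℝ) : ℂ) = (o1E n A B : ℂ) := by
    rw [← o1_EP A B]; push_cast; rfl
  -- general summation
  have hsum : ∀ c : Fin 3 → ℂ, ∑ D, c D • (S.o1K n y D B + if D = B then 1 else 0) =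
      (1 / ((∑ i, o1y6 y i * o1y6 y i : ℝ) : ℂ)) • (
        (Complex.I * (ry y : ℂ) * ∑ D, c D * (o1E n D B : ℂ)) • S.o1G (o1y6 y) -
        (∑ D, c D * (o1P n D B : ℂ)) • (S.o1G (o1y6 y) * S.o1G (o1y3 y))) +
        c B • (1 : Matrix (Fin 16) (Fin 16) ℂ) := by
    intro c
    simp only [smul_add, Finset.sum_add_distrib, smul_ite, smul_zero, Finset.sum_ite_eq',
      Finset.mem_univ, if_true]
    congr 1
    rw [Finset.mul_sum, Finset.sum_smul, Finset.sum_smul, ← Finset.sum_sub_distrib,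
      Finset.smul_sum]
    refine Finset.sum_congr rfl fun D _ => ?_
    rw [o1K, smul_comm, smul_sub, smul_smul, smul_smul]
    congr 3
    ring
  have l1 : ∑ D, ((o1P n A D : ℝ) : ℂ) • ((1 : Matrix (Fin 16) (Fin 16) ℂ) *
      (S.o1K n y D B + if D = B then 1 else 0)) =
      ∑ D, ((o1P n A D : ℝ) : ℂ) • (S.o1K n y D B + if D = B then 1 else 0) := by
    simp only [one_mul]
  have l2 : ∑ D, ((o1E n A D : ℝ) : ℂ) • (S.o1G y *
      (S.o1K n y D B + if D = B then 1 else 0)) =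
      S.o1G y * ∑ D, ((o1E n A D : ℝ) : ℂ) • (S.o1K n y D B + if D = B then 1 else 0) := by
    rw [Finset.mul_sum]
    exact Finset.sum_congr rfl fun D _ => (mul_smul_comm _ _ _).symm
  rw [l1, l2, hsum, hsum, c1, c2, c3, c4, ← S.o1_Y y, ← hf, mul_neg]

lemma o1_bv_smul (c : ℂ) (N : Matrix (Fin 16) (Fin 16) ℂ) (A B : Fin 3) (v : F) :
    S.bilb (c • N) A B v = c • S.bilb N A B v := by
  rw [o1_bilb_smul]; rfl

lemma o1_bv_sub (N N' : Matrix (Fin 16) (Fin 16) ℂ) (A B : Fin 3) (v : F) :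
    S.bilb (N - N') A B v = S.bilb N A B v - S.bilb N' A B v := by
  rw [o1_bilb_sub]; rfl

lemma o1_bv_G (u : Fin 9 → ℝ) (A B : Fin 3) (v : F) :
    S.bilb (S.o1G u) A B v = ∑ a, (u a : ℂ) • S.bilb (S.g a) A B v := by
  rw [CS.o1G, o1_bilb_sum, _root_.sum_apply]
  refine Finset.sum_congr rfl fun a _ => ?_
  rw [o1_bv_smul]

lemma o1_bv_GG (u w : Fin 9 → ℝ) (A B : Fin 3) (v : F) :
    S.bilb (S.o1G u * S.o1G w) A B v =
      ∑ a, ∑ i, ((u a : ℂ) * (w i : ℂ)) • S.bilb (S.g a * S.g i) A B v := by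
  rw [CS.o1G, CS.o1G, Finset.sum_mul_sum, o1_bilb_sum, _root_.sum_apply]
  refine Finset.sum_congr rfl fun a _ => ?_
  rw [o1_bilb_sum, _root_.sum_apply]
  refine Finset.sum_congr rfl fun i _ => ?_
  rw [smul_mul_smul_comm, o1_bv_smul]

/-- `Z(n⊗y) = ½ bKb` -/
lemma o1_ZZ {n : Fin 3 → ℝ} (hn : ∑ A, n A ^ 2 = 1) {y : Fin 9 → ℝ}
    (h6 : 0 < ∑ i, o1y6 y i * o1y6 y i) :
    S.ZZ (cone n y) = S.o1Zc S.o1Pm S.o1Pp (S.o1K n y) := by
  have hr2 : (∑ i, o1y6 y i * o1y6 y i) ≤ ry y ^ 2 := by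
    rw [o1_ry, ← o1_y_sq]
    have : 0 ≤ ∑ i, o1y3 y i * o1y3 y i := Finset.sum_nonneg fun i _ => mul_self_nonneg _
    linarith
  have hr : ry y ≠ 0 := by
    intro h
    rw [h] at hr2
    norm_num at hr2
    linarith
  have h6' : ((∑ i, o1y6 y i * o1y6 y i : ℝ) : ℂ) ≠ 0 := by exact_mod_cast h6.ne'
  have hr' : (ry y : ℂ) ≠ 0 := by exact_mod_cast hr
  refine ContinuousLinearMap.ext fun v => ?_
  have k1 : ∀ A B, S.bilb (S.o1K n y A B) A B v =
      (1 / ((∑ i, o1y6 y i * o1y6 y i : ℝ) : ℂ)) • (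
        (Complex.I * (ry y : ℂ) * (o1E n A B : ℂ)) •
          (∑ a, (o1y6 y a : ℂ) • S.bilb (S.g a) A B v) -
        (o1P n A B : ℂ) • ∑ a, ∑ i, ((o1y6 y a : ℂ) * (o1y3 y i : ℂ)) •
          S.bilb (S.g a * S.g i) A B v) := by
    intro A B
    rw [o1K, o1_bv_smul, o1_bv_sub, o1_bv_smul, o1_bv_smul, o1_bv_G, o1_bv_GG]
  have k2 : S.o1Zc S.o1Pm S.o1Pp (S.o1K n y) v =
      (1 / 2 : ℂ) • ∑ A, ∑ B, S.bilb (S.o1K n y A B) A B v := by
    rw [o1_Zc_eq, _root_.smul_apply, _root_.sum_apply]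
    simp only [_root_.sum_apply]
  have k3 := o1_t3 n y hr' h6' (fun a A B => S.bilb (S.g a) A B v)
    (fun a i A B => S.bilb (S.g a * S.g i) A B v)
  rw [k2]
  simp only [k1]
  rw [k3, ← o1_t1, ← o1_t2 hn, ZZ, o1_rho6 hn, o1_norm hn, _root_.smul_apply, _root_.sub_apply,
    _root_.smul_apply, _root_.smul_apply]
  simp only [_root_.sum_apply, _root_.smul_apply]

/-- the state at a cone point -/
lemma o1_om [CompleteSpace F] {n : Fin 3 → ℝ} (hn : ∑ A, n A ^ 2 = 1) {y : Fin 9 → ℝ}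
    (h6 : 0 < ∑ i, o1y6 y i * o1y6 y i) {Ω : F} (hΩ : ∀ A α, S.am A α Ω = 0)
    (D : Fin 3) (δ : Fin 16) :
    S.vec S.o1Pm D δ (S.om Ω (cone n y)) = S.o1Xc S.o1Pp (S.o1K n y) D δ (S.om Ω (cone n y)) := by
  rw [om, S.o1_ZZ hn h6, map_smul, map_smul, S.o1_state (S.o1K_T n y) (S.o1K_Pm n y) hΩ]

end Setup

namespace U

/-- **D-1** -/
theorem om1 (S : Setup F) [FiniteDimensional ℂ F] : Om1Stmt S := by
  intro Ω hΩ n y hn h6
  have : CompleteSpace F := FiniteDimensional.complete ℂ F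
  rw [o1_rho6 hn] at h6
  have hw : ∀ D γ, S.vec S.o1Pm D γ (S.om Ω (cone n y)) =
      S.o1Xc S.o1Pp (S.o1K n y) D γ (S.om Ω (cone n y)) := fun D γ => S.o1_om hn h6 hΩ D γ
  refine ⟨?_, ?_, ?_⟩
  · intro A α
    generalize S.om Ω (cone n y) = w at hw ⊢
    have hl : S.th α A w - ((n A : ℝ) : ℂ) • S.thn n α w =
        ∑ D, ((o1P n A D : ℝ) : ℂ) • S.vec 1 D α w := by
      rw [Setup.thn, _root_.sum_apply, Finset.smul_sum]
      simp only [o1P, Complex.ofReal_sub, sub_smul, Finset.sum_sub_distrib, S.vec_one]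
      congr 1
      · rw [Finset.sum_eq_single A]
        · rw [if_pos rfl, Complex.ofReal_one, one_smul]
        · intro B _ hB
          rw [if_neg hB.symm, Complex.ofReal_zero, zero_smul]
        · intro h; exact absurd (Finset.mem_univ A) h
      · refine Finset.sum_congr rfl fun B _ => ?_
        rw [_root_.smul_apply, smul_smul, Complex.ofReal_mul]
    have hr : ∑ B, ∑ C, ∑ i, ((eps A B C : ℂ) * (n B : ℂ) * (y i : ℂ)) • S.vec (S.g i) C α w =
        ∑ C, ((o1E n A C : ℝ) : ℂ) • S.vec (S.o1G y) C α w := by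
      rw [Finset.sum_comm]
      refine Finset.sum_congr rfl fun C _ => ?_
      have : S.vec (S.o1G y) C α w = ∑ i, (y i : ℂ) • S.vec (S.g i) C α w := by
        rw [CS.o1G, S.o1_vw_sum]
        refine Finset.sum_congr rfl fun i _ => ?_
        rw [S.o1_vw_smul]
      rw [this, o1E]
      push_cast
      rw [Finset.sum_smul]
      refine Finset.sum_congr rfl fun B _ => ?_
      rw [Finset.smul_sum]
      refine Finset.sum_congr rfl fun i _ => ?_
      rw [smul_smul]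
    rw [hl, hr, S.o1_collect hw 1 _ (fun D => ((o1P n A D : ℝ) : ℂ)),
      S.o1_collect hw (S.o1G y) _ (fun D => ((o1E n A D : ℝ) : ℂ))]
    refine Finset.sum_congr rfl fun B _ => ?_
    rw [S.o1_mat hn h6]
  · intro α
    generalize S.om Ω (cone n y) = w at hw ⊢
    have hz : ∑ A, ((n A : ℝ) : ℂ) • S.vec S.o1Pm A α w = 0 := by
      simp only [hw, CS.o1Xc, _root_.sum_apply, Finset.smul_sum]
      rw [Finset.sum_comm]
      refine Finset.sum_eq_zero fun B _ => ?_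
      have hK : ∑ A, ((n A : ℝ) : ℂ) • (S.o1K n y A B * S.o1Pp) = 0 := by
        have e1 : ∑ A, ((n A : ℝ) : ℂ) * ((o1E n A B : ℝ) : ℂ) = 0 := by
          have := congrArg (fun x : ℝ => (x : ℂ)) (o1_nE (n := n) B)
          push_cast at this
          exact this
        have e2 : ∑ A, ((n A : ℝ) : ℂ) * ((o1P n A B : ℝ) : ℂ) = 0 := by
          have := congrArg (fun x : ℝ => (x : ℂ)) (o1_nP hn B)
          push_cast at this
          exact this
        have e3 : ∑ A, ((n A : ℝ) : ℂ) • S.o1K n y A B =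
            (1 / ((∑ i, o1y6 y i * o1y6 y i : ℝ) : ℂ)) • (
              (Complex.I * (ry y : ℂ) * ∑ A, (n A : ℂ) * (o1E n A B : ℂ)) • S.o1G (o1y6 y) -
              (∑ A, (n A : ℂ) * (o1P n A B : ℂ)) • (S.o1G (o1y6 y) * S.o1G (o1y3 y))) := by
          rw [Finset.mul_sum, Finset.sum_smul, Finset.sum_smul, ← Finset.sum_sub_distrib,
            Finset.smul_sum]
          refine Finset.sum_congr rfl fun D _ => ?_
          rw [Setup.o1K, smul_comm, smul_sub, smul_smul, smul_smul]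
          congr 3
          ring
        simp only [← smul_mul_assoc]
        rw [← Finset.sum_mul, e3, e1, e2, mul_zero, zero_smul, zero_smul, sub_zero, smul_zero,
          zero_mul]
      have hK2 := congrArg (fun M => S.vec M B α w) hK
      simp only [S.o1_vw_sum, S.o1_vw_smul, S.vec_zero] at hK2
      exact hK2
    have h2 : ∀ A, (2 : ℂ) • S.vec S.o1Pm A α w = S.th α A w - Complex.I • S.vec S.Gam A α w := by
      intro A
      rw [← S.o1_am, Setup.am, _root_.smul_apply, smul_smul, _root_.sub_apply, _root_.smul_apply]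
      norm_num
    have h3 : S.thn n α w - Complex.I • ∑ A, ((n A : ℝ) : ℂ) • S.vec S.Gam A α w =
        (2 : ℂ) • ∑ A, ((n A : ℝ) : ℂ) • S.vec S.o1Pm A α w := by
      rw [Setup.thn, _root_.sum_apply, Finset.smul_sum, Finset.smul_sum,
        ← Finset.sum_sub_distrib]
      refine Finset.sum_congr rfl fun A _ => ?_
      rw [smul_comm (2 : ℂ), h2, smul_sub, _root_.smul_apply, smul_comm Complex.I]
    rw [hz, smul_zero] at h3
    exact sub_eq_zero.mp h3
  · rw [Setup.om, inner_smul_right, S.o1_ZZ hn h6, Setup.o1_inner (S.o1_inner_Z hΩ _),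
      inner_self_eq_norm_sq_to_K, o1_norm hn]
    push_cast
    rfl

end U

end Vale.Agent.P353
end
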