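import Mathlib
import Vale.Agent.P353.BdU.B2
import Vale.Agent.P353.BdU.B5
import Vale.Agent.P353.BdU.B12

set_option linter.all false

section

/-! # P353: the matrix inequality `‖cof Y - Y‖² ≥ c min(‖Y‖², dist(Y, SO(3))²)` -/

namespace Vale.Agent.P353.Wells

open Matrix

/-- squared Frobenius norm -/
def fr (M : Matrix (Fin 3) (Fin 3) ℝ) : ℝ := ∑ i, ∑ j, (M i j) ^ 2

lemma fr_eq (M : Matrix (Fin 3) (Fin 3) ℝ) : fr M = (Mᵀ * M).trace := by
  unfold fr
  rw [Finset.sum_comm]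
  simp only [Matrix.trace, Matrix.diag, Matrix.mul_apply, Matrix.transpose_apply]
  refine Finset.sum_congr rfl fun i _ => Finset.sum_congr rfl fun j _ => ?_
  ring

lemma fr_nonneg (M : Matrix (Fin 3) (Fin 3) ℝ) : 0 ≤ fr M :=
  Finset.sum_nonneg fun _ _ => Finset.sum_nonneg fun _ _ => sq_nonneg _

lemma fr_orth {O : Matrix (Fin 3) (Fin 3) ℝ} (hO : Oᵀ * O = 1) (M : Matrix (Fin 3) (Fin 3) ℝ) :
    fr (O * M) = fr M := by
  rw [fr_eq, fr_eq, Matrix.transpose_mul, Matrix.mul_assoc, ← Matrix.mul_assoc Oᵀ O M, hO,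
    Matrix.one_mul]

open scoped MatrixOrder in
/-- polar decomposition -/
lemma polar (Y : Matrix (Fin 3) (Fin 3) ℝ) (hd : 0 < Y.det) :
    ∃ O : Matrix (Fin 3) (Fin 3) ℝ, Oᵀ * O = 1 ∧ O.det = 1 ∧ fr (Y - O) ≤ fr (Yᵀ * Y - 1) := by
  have hA : (Yᵀ * Y).PosSemidef := by
    have := Matrix.posSemidef_conjTranspose_mul_self Y
    rwa [Matrix.conjTranspose_eq_transpose_of_trivial] at this
  set T := CFC.sqrt (Yᵀ * Y) with hT
  have hTp : T.PosSemidef := (CFC.sqrt_nonneg (Yᵀ * Y)).posSemidef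
  have hTT : T * T = Yᵀ * Y := CFC.sqrt_mul_sqrt_self _ hA.nonneg
  have hTs : Tᵀ = T := by
    have := hTp.1
    rwa [Matrix.IsHermitian, Matrix.conjTranspose_eq_transpose_of_trivial] at this
  have hdet : T.det * T.det = Y.det * Y.det := by
    rw [← Matrix.det_mul, hTT, Matrix.det_mul, Matrix.det_transpose]
  have hT0 : 0 ≤ T.det := hTp.det_nonneg
  have hTd : T.det = Y.det := by nlinarith
  have hu : IsUnit T.det := by rw [hTd]; exact hd.ne'.isUnit
  have hOO : (Y * T⁻¹)ᵀ * (Y * T⁻¹) = 1 := by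
    rw [Matrix.transpose_mul, Matrix.transpose_nonsing_inv, hTs, Matrix.mul_assoc,
      ← Matrix.mul_assoc Yᵀ, ← hTT, Matrix.mul_assoc T T, Matrix.mul_nonsing_inv _ hu,
      Matrix.mul_one, Matrix.nonsing_inv_mul _ hu]
  refine ⟨Y * T⁻¹, hOO, ?_, ?_⟩
  · rw [Matrix.det_mul, Matrix.det_nonsing_inv, hTd, Ring.mul_inverse_cancel _ hd.ne'.isUnit]
  · have h1 : Y - Y * T⁻¹ = (Y * T⁻¹) * (T - 1) := by
      rw [Matrix.mul_sub, Matrix.mul_one, Matrix.mul_assoc, Matrix.nonsing_inv_mul _ hu,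
        Matrix.mul_one]
    rw [h1, fr_orth hOO]
    set M := T - 1 with hM
    have h2 : Yᵀ * Y - 1 = T * M + M := by
      rw [hM, Matrix.mul_sub, hTT, Matrix.mul_one]; abel
    have hMs : Mᵀ = M := by rw [hM, Matrix.transpose_sub, hTs, Matrix.transpose_one]
    have h3 : fr (T * M + M) = fr (T * M) + fr M + 2 * (Mᵀ * T * M).trace := by
      rw [fr_eq, fr_eq, fr_eq, Matrix.transpose_add, Matrix.transpose_mul, Matrix.add_mul,
        Matrix.mul_add, Matrix.mul_add, Matrix.trace_add, Matrix.trace_add, Matrix.trace_add, hTs,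
        ← Matrix.mul_assoc Mᵀ T M]
      ring
    have h4 : 0 ≤ (Mᵀ * T * M).trace := by
      have := hTp.conjTranspose_mul_mul_same M
      rw [Matrix.conjTranspose_eq_transpose_of_trivial] at this
      exact this.trace_nonneg
    rw [h2, h3]
    have := fr_nonneg (T * M)
    linarith

/-- final step of the real inequality -/
lemma aux2 {n d p q D : ℝ} (hn4 : n ≤ 4) (hD : 0 ≤ D) (hq0 : 0 ≤ q) (hq : q ≤ n * D)
    (hp : p ^ 2 ≤ n * D) (h3 : 400 * D ≤ n)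
    (e : 3 * d * (d - 1) = p * (1 + 2 * d) + D - (p ^ 2 - q) / 2)
    (hb1 : -(n * D / 2) ≤ (p ^ 2 - q) / 2) (hb2 : (p ^ 2 - q) / 2 ≤ n * D / 2)
    (g1 : d ≤ 6 / 5) (g2 : 21 / 25 ≤ d) :
    3 * (d - 1) ^ 2 - 2 * (d - 1) * p + q ≤ 400 * D := by
  have hnD : n * D ≤ 4 * D := mul_le_mul_of_nonneg_right hn4 hD
  have hp4 : p ^ 2 ≤ 4 * D := hp.trans hnD
  have k5 : q ≤ 4 * D := hq.trans hnD
  have hDD : D ^ 2 ≤ 1 / 100 * D := by
    have : D ≤ 1 / 100 := by linarith only [h3, hn4]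
    have := mul_le_mul_of_nonneg_right this hD
    rw [sq]; exact this
  -- `(3 d (d - 1))² ≤ C D`
  set r := D - (p ^ 2 - q) / 2 with hr
  have hr1 : r ≤ 3 * D := by linarith only [hr, hb1, hnD]
  have hr2 : -(3 * D) ≤ r := by linarith only [hr, hb2, hnD, hD]
  have hr3 : r ^ 2 ≤ (3 * D) ^ 2 := sq_le_sq' hr2 hr1
  have e' : 3 * d * (d - 1) = p * (1 + 2 * d) + r := by rw [e, hr]; ring
  have k2 : (3 * d * (d - 1)) ^ 2 ≤ 2 * (p ^ 2 * (1 + 2 * d) ^ 2) + 2 * r ^ 2 := by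
    rw [e']
    have := sq_nonneg (p * (1 + 2 * d) - r)
    linarith only [this, (by ring : (p * (1 + 2 * d) + r) ^ 2
      = 2 * (p ^ 2 * (1 + 2 * d) ^ 2) + 2 * r ^ 2 - (p * (1 + 2 * d) - r) ^ 2)]
  have k21 : (1 + 2 * d) ^ 2 ≤ 12 := by
    have h0 : (0:ℝ) ≤ 1 + 2 * d := by linarith only [g2]
    have h1 : 1 + 2 * d ≤ 17 / 5 := by linarith only [g1]
    have := pow_le_pow_left₀ h0 h1 2
    linarith only [this, (by norm_num : ((17:ℝ) / 5) ^ 2 ≤ 12)]
  have k22 : p ^ 2 * (1 + 2 * d) ^ 2 ≤ (4 * D) * 12 :=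
    mul_le_mul hp4 k21 (sq_nonneg _) (by linarith only [hD])
  have k3 : (3 * d * (d - 1)) ^ 2 ≤ 99 * D := by
    have : (3 * D) ^ 2 = 9 * D ^ 2 := by ring
    linarith only [k2, k22, hr3, this, hDD, hD]
  have k4 : 6 * (d - 1) ^ 2 ≤ 99 * D := by
    have h9 : (6:ℝ) ≤ (3 * d) ^ 2 := by
      have := pow_le_pow_left₀ (by norm_num : (0:ℝ) ≤ 63 / 25) (by linarith only [g2] :
        (63:ℝ) / 25 ≤ 3 * d) 2
      linarith only [this, (by norm_num : (6:ℝ) ≤ (63 / 25) ^ 2)]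
    have := mul_le_mul_of_nonneg_right h9 (sq_nonneg (d - 1))
    have h8 : (3 * d) ^ 2 * (d - 1) ^ 2 = (3 * d * (d - 1)) ^ 2 := by ring
    linarith only [this, h8, k3]
  have := sq_nonneg (d - 1 + p)
  have h7 : (d - 1 + p) ^ 2 = (d - 1) ^ 2 + 2 * (d - 1) * p + p ^ 2 := by ring
  linarith only [this, h7, k4, hp4, k5, hD]

/-- the real inequality -/
lemma aux {n d p q D : ℝ} (hn : 0 ≤ n) (hD : 0 ≤ D) (hq0 : 0 ≤ q) (hq : q ≤ n * D)
    (hp : p ^ 2 ≤ n * D) (h1 : n = 3 * d - p)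
    (h2 : 3 * d ^ 2 - 3 * d = p + D + 2 * d * p - (p ^ 2 - q) / 2) (h3 : 400 * D < n) :
    0 < d ∧ 3 * (d - 1) ^ 2 - 2 * (d - 1) * p + q ≤ 400 * D := by
  have hn' : 0 < n := by linarith only [h3, hD]
  have hnD0 : n * D ≤ n * (n / 400) := mul_le_mul_of_nonneg_left (by linarith only [h3]) hn
  have hp1 : p ^ 2 ≤ (n / 20) ^ 2 := by
    have : (n / 20) ^ 2 = n * (n / 400) := by ring
    linarith only [this, hnD0, hp]
  obtain ⟨hp2, hp3⟩ := abs_le_of_sq_le_sq' hp1 (by linarith only [hn])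
  have hd0 : 19 / 60 * n ≤ d := by linarith only [h1, hp2]
  have hd : 0 < d := by linarith only [hd0, hn']
  have hnd : n ≤ 60 / 19 * d := by linarith only [hd0]
  have ha1 : -(3 / 19 * d) ≤ p := by linarith only [hp2, hnd]
  have ha2 : p ≤ 3 / 19 * d := by linarith only [hp3, hnd]
  have hDd : D ≤ 3 / 380 * d := by linarith only [h3, hnd]
  have hnD : n * D ≤ 1 / 40 * d ^ 2 := by
    have h := mul_le_mul hnd hDd hD (by linarith only [hd] : (0:ℝ) ≤ 60 / 19 * d)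
    have h' : 60 / 19 * d * (3 / 380 * d) = 180 / 7220 * d ^ 2 := by ring
    have hd2 : 0 ≤ d ^ 2 := sq_nonneg d
    linarith only [h, h', hd2]
  have hb1 : -(n * D / 2) ≤ (p ^ 2 - q) / 2 := by
    have := sq_nonneg p
    linarith only [this, hq]
  have hb2 : (p ^ 2 - q) / 2 ≤ n * D / 2 := by linarith only [hp, hq0]
  -- bounds for `d`
  have e : 3 * d * (d - 1) = p * (1 + 2 * d) + D - (p ^ 2 - q) / 2 := by linarith only [h2]
  have m1 : p * (1 + 2 * d) ≤ 3 / 19 * d * (1 + 2 * d) :=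
    mul_le_mul_of_nonneg_right ha2 (by linarith only [hd])
  have m2 : -(3 / 19 * d) * (1 + 2 * d) ≤ p * (1 + 2 * d) :=
    mul_le_mul_of_nonneg_right ha1 (by linarith only [hd])
  have hd2 : 0 ≤ d ^ 2 := sq_nonneg d
  have e1 : d * (d - 1) ≤ d * (1 / 18 + 3 / 25 * d) := by
    linarith only [e, m1, hDd, hb1, hnD, hd2, hd]
  have e2 : d * (-(1 / 18 + 3 / 25 * d)) ≤ d * (d - 1) := by
    linarith only [e, m2, hD, hb2, hnD, hd2, hd]
  have f1 : d - 1 ≤ 1 / 18 + 3 / 25 * d := le_of_mul_le_mul_left e1 hd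
  have f2 : -(1 / 18 + 3 / 25 * d) ≤ d - 1 := le_of_mul_le_mul_left e2 hd
  have g1 : d ≤ 6 / 5 := by linarith only [f1]
  have g2 : 21 / 25 ≤ d := by linarith only [f2]
  have hn4 : n ≤ 4 := by linarith only [hnd, g1]
  refine ⟨hd, ?_⟩
  exact aux2 hn4 hD hq0 hq hp (by linarith only [h3]) e hb1 hb2 g1 g2

/-- the two alternatives -/
theorem wells (Y : Matrix (Fin 3) (Fin 3) ℝ) :
    fr Y ≤ 400 * fr (Y.adjugateᵀ - Y) ∨ ∃ O : Matrix (Fin 3) (Fin 3) ℝ, Oᵀ * O = 1 ∧ O.det = 1 ∧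
      fr (Y - O) ≤ 400 * fr (Y.adjugateᵀ - Y) := by
  set E := Y.adjugateᵀ - Y with hE
  rcases le_or_gt (fr Y) (400 * fr E) with h | h
  · exact Or.inl h
  right
  set d := Y.det with hd
  set P := Yᵀ * E with hP
  have hPe : P = d • (1 : Matrix (Fin 3) (Fin 3) ℝ) - Yᵀ * Y := by
    rw [hP, hE, Matrix.mul_sub, ← Matrix.transpose_mul, Matrix.adjugate_mul, Matrix.transpose_smul,
      Matrix.transpose_one]
  have hn : fr Y = (Yᵀ * Y).trace := fr_eq Y
  have hp : P.trace = 3 * d - fr Y := by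
    rw [hPe, Matrix.trace_sub, Matrix.trace_smul, Matrix.trace_one, hn]
    simp only [Fintype.card_fin, smul_eq_mul]
    push_cast; ring
  have hq : fr P ≤ fr Y * fr E := by
    have h1 : ∀ i j, (P i j) ^ 2 ≤ (∑ k, (Y k i) ^ 2) * ∑ k, (E k j) ^ 2 := by
      intro i j
      rw [hP, Matrix.mul_apply]
      exact Finset.sum_mul_sq_le_sq_mul_sq _ _ _
    calc fr P ≤ ∑ i, ∑ j, (∑ k, (Y k i) ^ 2) * ∑ k, (E k j) ^ 2 :=
          Finset.sum_le_sum fun i _ => Finset.sum_le_sum fun j _ => h1 i j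
      _ = fr Y * fr E := by
          rw [← Finset.sum_mul_sum, Finset.sum_comm (f := fun i k => (Y k i) ^ 2),
            Finset.sum_comm (f := fun i k => (E k i) ^ 2)]
          rfl
  have hp2 : P.trace ^ 2 ≤ fr Y * fr E := by
    have h1 : P.trace = ∑ x : Fin 3 × Fin 3, Y x.2 x.1 * E x.2 x.1 := by
      rw [Fintype.sum_prod_type]
      rfl
    have h2 : fr Y = ∑ x : Fin 3 × Fin 3, (Y x.2 x.1) ^ 2 := by
      rw [Fintype.sum_prod_type, Finset.sum_comm]; rfl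
    have h3 : fr E = ∑ x : Fin 3 × Fin 3, (E x.2 x.1) ^ 2 := by
      rw [Fintype.sum_prod_type, Finset.sum_comm]; rfl
    rw [h1, h2, h3]
    exact Finset.sum_mul_sq_le_sq_mul_sq _ _ _
  have hqe : fr P = 3 * d ^ 2 - 2 * d * fr Y + fr (Yᵀ * Y) := by
    rw [hPe, hn]
    generalize Yᵀ * Y = G
    simp only [fr, Fin.sum_univ_three, Matrix.trace, Matrix.diag, Matrix.sub_apply,
      Matrix.smul_apply, Matrix.one_apply, smul_eq_mul]
    simp
    ring
  have hDe : fr E = (fr Y ^ 2 - fr (Yᵀ * Y)) / 2 - 6 * d + fr Y := by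
    rw [hE, hd, Matrix.det_fin_three, Matrix.adjugate_fin_three]
    simp only [fr, Fin.sum_univ_three, Matrix.sub_apply, Matrix.transpose_apply, Matrix.mul_apply,
      Matrix.of_apply, Matrix.cons_val', Matrix.cons_val_zero, Matrix.cons_val_one,
      Matrix.cons_val]
    ring
  obtain ⟨hdp, hfin⟩ := aux (n := fr Y) (d := d) (p := P.trace) (q := fr P) (D := fr E)
    (fr_nonneg _) (fr_nonneg _) (fr_nonneg _) hq hp2 (by linarith)
    (by rw [hqe, hDe, hp]; ring) h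
  obtain ⟨O, hO1, hO2, hO3⟩ := polar Y hdp
  refine ⟨O, hO1, hO2, hO3.trans (le_trans (le_of_eq ?_) hfin)⟩
  rw [hqe, hp, hn]
  generalize Yᵀ * Y = G
  simp only [fr, Fin.sum_univ_three, Matrix.trace, Matrix.diag, Matrix.sub_apply, Matrix.one_apply]
  simp
  ring

end Vale.Agent.P353.Wells
end

section

/-! # P353, B-V: lower bound of the BMN potential -/

open MeasureTheory Filter Topology
open scoped ContDiff

namespace Vale.Agent.P353.U

variable {F : Type*} [NormedAddCommGroup F] [InnerProductSpace ℂ F]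

open Wells

lemma FF_0 (S : Setup F) (i j : Fin 9) (x : X3) :
    S.FF 0 i j x = S.κ * (x (i, 1) * x (j, 2) - x (i, 2) * x (j, 1)) := by
  have h : ∀ B C : Fin 3, ((eps 0 B C : ℤ) : ℝ) =
      (![![0, 0, 0], ![0, 0, 1], ![0, -1, 0]] : Fin 3 → Fin 3 → ℝ) B C := by
    intro B C; fin_cases B <;> fin_cases C <;> norm_num [eps]
  unfold Setup.FF
  congr 1
  simp only [h, Fin.sum_univ_three]
  simp
  ring

lemma FF_1 (S : Setup F) (i j : Fin 9) (x : X3) :
    S.FF 1 i j x = S.κ * (x (i, 2) * x (j, 0) - x (i, 0) * x (j, 2)) := by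
  have h : ∀ B C : Fin 3, ((eps 1 B C : ℤ) : ℝ) =
      (![![0, 0, -1], ![0, 0, 0], ![1, 0, 0]] : Fin 3 → Fin 3 → ℝ) B C := by
    intro B C; fin_cases B <;> fin_cases C <;> norm_num [eps]
  unfold Setup.FF
  congr 1
  simp only [h, Fin.sum_univ_three]
  simp
  ring

lemma FF_2 (S : Setup F) (i j : Fin 9) (x : X3) :
    S.FF 2 i j x = S.κ * (x (i, 0) * x (j, 1) - x (i, 1) * x (j, 0)) := by
  have h : ∀ B C : Fin 3, ((eps 2 B C : ℤ) : ℝ) =
      (![![0, 1, 0], ![-1, 0, 0], ![0, 0, 0]] : Fin 3 → Fin 3 → ℝ) B C := by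
    intro B C; fin_cases B <;> fin_cases C <;> norm_num [eps]
  unfold Setup.FF
  congr 1
  simp only [h, Fin.sum_univ_three]
  simp
  ring

lemma det3_eq (x : X3) : det3 x =
    x (0, 0) * (x (1, 1) * x (2, 2) - x (1, 2) * x (2, 1))
    + x (0, 1) * (x (1, 2) * x (2, 0) - x (1, 0) * x (2, 2))
    + x (0, 2) * (x (1, 0) * x (2, 1) - x (1, 1) * x (2, 0)) := by
  have h : ∀ A B C : Fin 3, ((eps A B C : ℤ) : ℝ) =
      (![![![0, 0, 0], ![0, 0, 1], ![0, -1, 0]], ![![0, 0, -1], ![0, 0, 0], ![1, 0, 0]],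
        ![![0, 1, 0], ![-1, 0, 0], ![0, 0, 0]]] : Fin 3 → Fin 3 → Fin 3 → ℝ) A B C := by
    intro A B C; fin_cases A <;> fin_cases B <;> fin_cases C <;> norm_num [eps]
  simp only [det3, h, Fin.sum_univ_three]
  simp
  ring

/-- six terms of a double sum -/
lemma six_le (f : Fin 9 → Fin 9 → ℝ) (hf : ∀ i j, 0 ≤ f i j) :
    f 0 1 + f 1 0 + f 1 2 + f 2 1 + f 2 0 + f 0 2 ≤ ∑ i, ∑ j, f i j := by
  rw [← Fintype.sum_prod_type' f]
  have h : ∑ p ∈ ({(0, 1), (1, 0), (1, 2), (2, 1), (2, 0), (0, 2)} : Finset (Fin 9 × Fin 9)),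
      f p.1 p.2 ≤ ∑ p : Fin 9 × Fin 9, f p.1 p.2 :=
    Finset.sum_le_sum_of_subset_of_nonneg (Finset.subset_univ _) fun p _ _ => hf _ _
  refine le_trans (le_of_eq ?_) h
  rw [Finset.sum_insert (by decide), Finset.sum_insert (by decide), Finset.sum_insert (by decide),
    Finset.sum_insert (by decide), Finset.sum_insert (by decide), Finset.sum_singleton]
  ring

/-- the `I6` part of the squared norm -/
def z6 (x : X3) : ℝ := ∑ i : Fin 6, ∑ A, x (⟨i.val + 3, by omega⟩, A) ^ 2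

lemma z6_nonneg (x : X3) : 0 ≤ z6 x :=
  Finset.sum_nonneg fun _ _ => Finset.sum_nonneg fun _ _ => sq_nonneg _

/-- splitting of a sum over `Fin 9` -/
lemma split9 (f : Fin 9 → ℝ) : ∑ i, f i = (f 0 + f 1 + f 2) + ∑ i : Fin 6, f ⟨i.val + 3, by omega⟩ := by
  simp only [Fin.sum_univ_succ, Fin.sum_univ_zero]
  simp
  ring

/-- the matrix `Y` -/
noncomputable def YY (t : ℝ) (x : X3) : Matrix (Fin 3) (Fin 3) ℝ :=
  Matrix.of fun A k => -t * x (ci k, A)

lemma vm_ge (S : Setup F) {m : ℝ} (hm : 0 < m) (x : X3) :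
    m ^ 2 / 2 * z6 x + 8 * m ^ 4 / S.κ ^ 2 *
      fr ((YY (S.κ / (2 * m)) x).adjugate.transpose - YY (S.κ / (2 * m)) x) ≤ S.Vm m x := by
  have hκ := S.κ_pos
  have h1 : (1 / 4) * ∑ A, ((S.FF A 0 1 x) ^ 2 + (S.FF A 1 0 x) ^ 2 + (S.FF A 1 2 x) ^ 2
      + (S.FF A 2 1 x) ^ 2 + (S.FF A 2 0 x) ^ 2 + (S.FF A 0 2 x) ^ 2) ≤ S.V x := by
    unfold Setup.V
    refine mul_le_mul_of_nonneg_left (Finset.sum_le_sum fun A _ => ?_) (by norm_num)
    exact six_le (fun i j => (S.FF A i j x) ^ 2) fun i j => sq_nonneg _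
  have h2 : ∑ i, ∑ A, (aw i * x (i, A)) ^ 2 =
      4 * (∑ A, (x (0, A) ^ 2 + x (1, A) ^ 2 + x (2, A) ^ 2)) + z6 x := by
    rw [split9]
    have e0 : aw 0 = 2 := by simp [aw]
    have e1 : aw 1 = 2 := by simp [aw]
    have e2 : aw 2 = 2 := by simp [aw]
    have e3 : ∀ i : Fin 6, aw ⟨i.val + 3, by omega⟩ = 1 := by intro i; simp [aw]
    simp only [e0, e1, e2, e3, one_mul, Fin.sum_univ_three]
    unfold z6
    simp only [Fin.sum_univ_three]
    ring
  have h3 : S.Vm m x = S.V x + 6 * m * S.κ * det3 x + m ^ 2 / 2 *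
      (4 * (∑ A, (x (0, A) ^ 2 + x (1, A) ^ 2 + x (2, A) ^ 2)) + z6 x) := by
    rw [← h2]; rfl
  have h4 : (1 / 4) * ∑ A, ((S.FF A 0 1 x) ^ 2 + (S.FF A 1 0 x) ^ 2 + (S.FF A 1 2 x) ^ 2
      + (S.FF A 2 1 x) ^ 2 + (S.FF A 2 0 x) ^ 2 + (S.FF A 0 2 x) ^ 2)
      + 6 * m * S.κ * det3 x + m ^ 2 / 2 *
      (4 * (∑ A, (x (0, A) ^ 2 + x (1, A) ^ 2 + x (2, A) ^ 2))) =
      8 * m ^ 4 / S.κ ^ 2 *
      fr ((YY (S.κ / (2 * m)) x).adjugate.transpose - YY (S.κ / (2 * m)) x) := by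
    have c0 : ci 0 = 0 := rfl
    have c1 : ci 1 = 1 := rfl
    have c2 : ci 2 = 2 := rfl
    rw [Matrix.adjugate_fin_three, det3_eq]
    simp only [Fin.sum_univ_three, FF_0, FF_1, FF_2, fr, YY, Matrix.sub_apply,
      Matrix.transpose_apply, Matrix.of_apply, Matrix.cons_val', Matrix.cons_val_zero,
      Matrix.cons_val_one, Matrix.cons_val, c0, c1, c2]
    field_simp
    ring
  rw [h3, ← h4]
  nlinarith

lemma norm_split (x : X3) : ‖x‖ ^ 2 =
    (∑ A, (x (0, A) ^ 2 + x (1, A) ^ 2 + x (2, A) ^ 2)) + z6 x := by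
  rw [EuclideanSpace.real_norm_sq_eq, Fintype.sum_prod_type, split9]
  unfold z6
  simp only [Fin.sum_univ_three]
  ring

lemma norm_YY {t : ℝ} (ht : 0 < t) (x : X3) : ‖x‖ ^ 2 = 1 / t ^ 2 * fr (YY t x) + z6 x := by
  rw [norm_split]
  have c0 : ci 0 = 0 := rfl
  have c1 : ci 1 = 1 := rfl
  have c2 : ci 2 = 2 := rfl
  congr 1
  simp only [Fin.sum_univ_three, fr, YY, Matrix.of_apply, c0, c1, c2]
  field_simp

lemma z6_sub_ro (S : Setup F) (m : ℝ) (O : Matrix (Fin 3) (Fin 3) ℝ) (x : X3) :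
    z6 (x - ro O (m • S.xi0)) = z6 x := by
  unfold z6
  refine Finset.sum_congr rfl fun i _ => Finset.sum_congr rfl fun A _ => ?_
  have h : ∀ B : Fin 3, (⟨i.val + 3, by omega⟩ : Fin 9) ≠ ci B := by
    intro B hB
    have := congrArg Fin.val hB
    simp only [ci] at this
    omega
  have h2 : (ro O (m • S.xi0)) (⟨i.val + 3, by omega⟩, A) = 0 := by
    simp only [ro, Setup.xi0, PiLp.smul_apply, h, if_false, smul_zero, mul_zero,
      Finset.sum_const_zero]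
  rw [PiLp.sub_apply, h2, sub_zero]

lemma YY_sub_ro (S : Setup F) {m : ℝ} (hm : 0 < m) (O : Matrix (Fin 3) (Fin 3) ℝ) (x : X3) :
    YY (S.κ / (2 * m)) (x - ro O (m • S.xi0)) = YY (S.κ / (2 * m)) x - O := by
  have hκ := S.κ_pos
  ext A k
  have h2 : (ro O (m • S.xi0)) (ci k, A) = -(2 * m / S.κ) * O A k := by
    have h3 : ∀ B : Fin 3, ci k = ci B ↔ k = B := by
      intro B
      constructor
      · intro h
        have := congrArg Fin.val h
        simp only [ci] at this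
        exact Fin.ext this
      · rintro rfl; rfl
    simp only [ro, Setup.xi0, PiLp.smul_apply, h3, smul_eq_mul, mul_ite, mul_zero]
    rw [Finset.sum_ite_eq Finset.univ k]
    simp only [Finset.mem_univ, if_true]
    ring
  simp only [YY, Matrix.of_apply, Matrix.sub_apply, PiLp.sub_apply, h2]
  field_simp
  ring

/-- **B-V** -/
theorem vBound (S : Setup F) : VBoundStmt S := by
  refine ⟨1 / 200, by norm_num, fun m hm x => ?_⟩
  have hκ := S.κ_pos
  set t := S.κ / (2 * m) with ht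
  have ht0 : 0 < t := by positivity
  set f := fr ((YY t x).adjugate.transpose - YY t x) with hf
  have hf0 : 0 ≤ f := fr_nonneg _
  have hV := vm_ge S hm x
  rw [← ht, ← hf] at hV
  have hdm0 : 0 ≤ S.dm m x := le_min (norm_nonneg _) Metric.infDist_nonneg
  -- bound of the distance
  have hd : S.dm m x ^ 2 ≤ 1 / t ^ 2 * (400 * f) + z6 x := by
    rcases wells (YY t x) with h | ⟨O, hO1, hO2, h⟩
    · have h1 : S.dm m x ^ 2 ≤ ‖x‖ ^ 2 := pow_le_pow_left₀ hdm0 (min_le_left _ _) 2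
      rw [norm_YY ht0] at h1
      have := mul_le_mul_of_nonneg_left h (by positivity : 0 ≤ 1 / t ^ 2)
      rw [← hf] at this
      linarith
    · have hmem : ro O (m • S.xi0) ∈ S.Orb m := ⟨O, hO1, hO2, rfl⟩
      have h1 : S.dm m x ^ 2 ≤ ‖x - ro O (m • S.xi0)‖ ^ 2 := by
        refine pow_le_pow_left₀ hdm0 ((min_le_right _ _).trans ?_) 2
        rw [← dist_eq_norm]
        exact Metric.infDist_le_dist_of_mem hmem
      rw [norm_YY ht0, z6_sub_ro, ht, YY_sub_ro S hm, ← ht] at h1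
      have := mul_le_mul_of_nonneg_left h (by positivity : 0 ≤ 1 / t ^ 2)
      rw [← hf] at this
      linarith
  have hz := z6_nonneg x
  have e : 1 / 200 * m ^ 2 * (1 / t ^ 2 * (400 * f)) = 8 * m ^ 4 / S.κ ^ 2 * f := by
    rw [ht]
    field_simp
    ring
  calc 1 / 200 * m ^ 2 * S.dm m x ^ 2
      ≤ 1 / 200 * m ^ 2 * (1 / t ^ 2 * (400 * f) + z6 x) :=
        mul_le_mul_of_nonneg_left hd (by positivity)
    _ = 8 * m ^ 4 / S.κ ^ 2 * f + 1 / 200 * (m ^ 2 * z6 x) := by rw [mul_add, e]; ring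
    _ ≤ m ^ 2 / 2 * z6 x + 8 * m ^ 4 / S.κ ^ 2 * f := by
        have : 0 ≤ m ^ 2 * z6 x := by positivity
        linarith
    _ ≤ S.Vm m x := hV

end Vale.Agent.P353.U
end

section

/-! # P353, uniqueness for `N = 2`: `LowDimStmt` (task B9) -/

open MeasureTheory Filter Topology
open scoped ContDiff

namespace Vale.Agent.P353.U

open Setup

universe u

variable {F : Type u} [NormedAddCommGroup F] [InnerProductSpace ℂ F]

lemma inner_Lp_eq (f g : Lp F 2 (volume : Measure X3)) :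
    (inner ℂ f g : ℂ) = ∫ x, inner ℂ (f x) (g x) := L2.inner_def f g

lemma inner_toLp_left {a : X3 → F} (ha : MemLp a 2 (volume : Measure X3))
    (g : Lp F 2 (volume : Measure X3)) :
    (inner ℂ (ha.toLp a) g : ℂ) = ∫ x, inner ℂ (a x) (g x) := by
  rw [inner_Lp_eq]
  refine integral_congr_ae ?_
  filter_upwards [ha.coeFn_toLp] with x hx
  rw [hx]

lemma inner_toLp_right {a : X3 → F} (ha : MemLp a 2 (volume : Measure X3))
    (g : Lp F 2 (volume : Measure X3)) :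
    (inner ℂ g (ha.toLp a) : ℂ) = ∫ x, inner ℂ (g x) (a x) := by
  rw [inner_Lp_eq]
  refine integral_congr_ae ?_
  filter_upwards [ha.coeFn_toLp] with x hx
  rw [hx]

lemma nsq_Lp (f : Lp F 2 (volume : Measure X3)) : nsq f = ‖f‖ ^ 2 := by
  have h := norm_toLp (Lp.memLp f)
  rw [Lp.toLp_coeFn] at h
  rw [h, Real.sq_sqrt (nsq_nonneg _)]

omit [InnerProductSpace ℂ F] in
lemma nsq_congr {f g : X3 → F} (h : f =ᵐ[volume] g) : nsq f = nsq g := by
  refine integral_congr_ae ?_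
  filter_upwards [h] with x hx
  rw [hx]

omit [InnerProductSpace ℂ F] in
lemma ae_zero_of_nsq {f : X3 → F} (hf : MemLp f 2 (volume : Measure X3)) (h : nsq f = 0) :
    f =ᵐ[volume] fun _ => 0 := by
  have h1 := (integral_eq_zero_iff_of_nonneg (fun x => by positivity)
    (memLp_norm_sq_int hf)).mp h
  filter_upwards [h1] with x hx
  simpa using hx

/-- generators of the orthogonal complement of the weakly invariant functions -/
def invGen (S : Setup F) : Set (Lp F 2 (volume : Measure X3)) :=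
  {h | (∃ C ζ, ∃ hζ : Tst ζ, h = (Tst.G S hζ C).memLp.toLp _) ∨
    ∃ k l ζ, Same k l ∧ ∃ hζ : Tst ζ, h = (Tst.J S hζ k l).memLp.toLp _}

/-- closed space of weakly invariant `L²` functions -/
noncomputable def KI (S : Setup F) : Submodule ℂ (Lp F 2 (volume : Measure X3)) :=
  (Submodule.span ℂ (invGen S))ᗮ

lemma mem_KI {S : Setup F} {f : Lp F 2 (volume : Measure X3)} : f ∈ KI S ↔ S.wG f ∧ S.wJ f := by
  constructor
  · intro h
    have h1 : ∀ g ∈ invGen S, inner ℂ g f = 0 := fun g hg =>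
      (Submodule.mem_orthogonal _ _).mp h g (Submodule.subset_span hg)
    constructor
    · intro C ζ hζ
      have := h1 _ (Or.inl ⟨C, ζ, hζ, rfl⟩)
      rwa [inner_toLp_left] at this
    · intro k l hkl ζ hζ
      have := h1 _ (Or.inr ⟨k, l, ζ, hkl, hζ, rfl⟩)
      rwa [inner_toLp_left] at this
  · rintro ⟨hG, hJ⟩
    refine (Submodule.mem_orthogonal _ _).mpr fun g hg => ?_
    induction hg using Submodule.span_induction with
    | mem g hg =>
      rcases hg with ⟨C, ζ, hζ, rfl⟩ | ⟨k, l, ζ, hkl, hζ, rfl⟩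
      · rw [inner_toLp_left]; exact hG C ζ hζ
      · rw [inner_toLp_left]; exact hJ k l hkl ζ hζ
    | zero => exact inner_zero_left _
    | add a b _ _ ha hb => rw [inner_add_left, ha, hb, add_zero]
    | smul c a _ ha => rw [inner_smul_left, ha, mul_zero]

lemma Inv_mem_KI {S : Setup F} {v : X3 → F} (hv : S.Inv v) : hv.1.memLp.toLp v ∈ KI S := by
  refine mem_KI.mpr ⟨fun C ζ hζ => ?_, fun k l hkl ζ hζ => ?_⟩
  · rw [← inner_toLp_left (Tst.G S hζ C).memLp, inner_toLp_right]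
    have h2 := G_symm S C ζ v hζ hv.1.1
    have h3 : ∫ x, inner ℂ (((Tst.G S hζ C).memLp.toLp (S.G C ζ) : Lp F 2 (volume : Measure X3)) x)
      (v x) = ∫ x, inner ℂ (S.G C ζ x) (v x) := by
      refine integral_congr_ae ?_
      filter_upwards [(Tst.G S hζ C).memLp.coeFn_toLp] with x hx
      rw [hx]
    rw [h3, h2]
    simp [hv.2.1]
  · rw [← inner_toLp_left (Tst.J S hζ k l).memLp, inner_toLp_right]
    have h2 := J_symm S k l ζ v hζ hv.1.1
    have h3 : ∫ x, inner ℂ (((Tst.J S hζ k l).memLp.toLp (S.J k l ζ) :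
        Lp F 2 (volume : Measure X3)) x) (v x) = ∫ x, inner ℂ (S.J k l ζ x) (v x) := by
      refine integral_congr_ae ?_
      filter_upwards [(Tst.J S hζ k l).memLp.coeFn_toLp] with x hx
      rw [hx]
    rw [h3, h2]
    simp [hv.2.2 k l hkl]

lemma KI_closed (S : Setup F) : IsClosed (KI S : Set (Lp F 2 (volume : Measure X3))) :=
  Submodule.isClosed_orthogonal _

/-- exact invariant zero modes as fixed points of the resolvent -/
noncomputable def EE (S : Setup F)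
    (R : Lp F 2 (volume : Measure X3) →L[ℂ] Lp F 2 (volume : Measure X3)) :
    Submodule ℂ (Lp F 2 (volume : Measure X3)) where
  carrier := {f | f ∈ KI S ∧ R f = f}
  add_mem' := by
    rintro a b ⟨ha, ha'⟩ ⟨hb, hb'⟩
    exact ⟨(KI S).add_mem ha hb, by rw [map_add, ha', hb']⟩
  zero_mem' := ⟨(KI S).zero_mem, map_zero R⟩
  smul_mem' := by
    rintro c a ⟨ha, ha'⟩
    exact ⟨(KI S).smul_mem c ha, by rw [map_smul, ha']⟩

lemma re_inner_self_Lp (f : Lp F 2 (volume : Measure X3)) : (inner ℂ f f : ℂ).re = ‖f‖ ^ 2 := by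
  rw [inner_self_eq_norm_sq_to_K]
  norm_cast

lemma EE_Em {S : Setup F} {m : ℝ}
    {R : Lp F 2 (volume : Measure X3) →L[ℂ] Lp F 2 (volume : Measure X3)} (hR : S.IsRes m R)
    {f : Lp F 2 (volume : Measure X3)} (hf : f ∈ EE S R) : S.Em m f := by
  obtain ⟨hK, hfix⟩ := hf
  obtain ⟨hG, hJ⟩ := mem_KI.mp hK
  refine ⟨Lp.memLp f, hG, hJ, fun β ζ hζ => ?_⟩
  obtain ⟨Φ, hS, -, h3⟩ := hR.2 f
  rw [hfix, re_inner_self_Lp, nsq_Lp] at h3
  have h4 : ∑ β, nsq (Φ β) = 0 := by linarith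
  have h5 : nsq (Φ β) = 0 :=
    (Finset.sum_eq_zero_iff_of_nonneg fun b _ => nsq_nonneg (Φ b)).mp h4 β (Finset.mem_univ _)
  have hw := hS.wQ β ζ hζ
  rw [hfix] at hw
  rw [hw]
  obtain ⟨w, -, -, hL⟩ := hS
  have h6 := ae_zero_of_nsq (hL β).mem' h5
  refine integral_congr_ae ?_
  filter_upwards [h6] with x hx
  rw [hx]

/-- an eigenvector of the resolvent is a weak eigenfunction of `∑ Q_β²` -/
lemma wE_of_eig {S : Setup F} {m : ℝ}
    {R : Lp F 2 (volume : Measure X3) →L[ℂ] Lp F 2 (volume : Measure X3)} (hR : S.IsRes m R)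
    {w : Lp F 2 (volume : Measure X3)} {μ : ℝ} (hμ : 0 < μ) (hw : R w = (μ : ℂ) • w) :
    S.wE m (1 / μ - 1) w := by
  intro ζ hζ
  obtain ⟨Φ, hS, h2, -⟩ := hR.2 w
  have h1 := h2 ζ hζ
  have hRw : ∀ f : X3 → F, MemLp f 2 (volume : Measure X3) →
      ∫ x, inner ℂ (f x) ((R w) x) = (μ : ℂ) * ∫ x, inner ℂ (f x) (w x) := by
    intro f hf
    rw [← inner_toLp_left hf, ← inner_toLp_left hf, hw, inner_smul_right]
  have h3 : ∀ β, ∫ x, inner ℂ (S.Qm m β ζ x) (Φ β x) =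
      ∫ x, inner ℂ (S.Qm m β (S.Qm m β ζ) x) ((R w) x) := fun β =>
    (hS.wQ β _ (hζ.Qm S m β)).symm
  simp only [h3] at h1
  have h4 : ∀ β, ∫ x, inner ℂ (S.Qm m β (S.Qm m β ζ) x) ((R w) x) =
      (μ : ℂ) * ∫ x, inner ℂ (S.Qm m β (S.Qm m β ζ) x) (w x) := fun β =>
    hRw _ ((hζ.Qm S m β).Qm S m β).memLp
  simp only [h4] at h1
  rw [hRw ζ hζ.memLp] at h1
  have h5 : ∫ x, inner ℂ (∑ β, S.Qm m β (S.Qm m β ζ) x) (w x) =
      ∑ β, ∫ x, inner ℂ (S.Qm m β (S.Qm m β ζ) x) (w x) := by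
    simp only [sum_inner]
    rw [integral_finsetSum]
    intro β _
    exact integrable_inner_memLp ((hζ.Qm S m β).Qm S m β).memLp (Lp.memLp w)
  rw [h5]
  rw [← Finset.mul_sum] at h1
  have hμ' : (μ : ℂ) ≠ 0 := by exact_mod_cast hμ.ne'
  push_cast
  field_simp
  linear_combination h1

/-- Rayleigh quotient bound for the resolvent -/
lemma rayleigh {S : Setup F} {m c : ℝ} (hc : 0 < c)
    {R : Lp F 2 (volume : Measure X3) →L[ℂ] Lp F 2 (volume : Measure X3)} (hR : S.IsRes m R)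
    {v : X3 → F} (hv : Tst v) (hlt : ∑ β, nsq (S.Qm m β v) < c * nsq v) :
    1 / (1 + c) * ‖hv.memLp.toLp v‖ ^ 2 <
      (inner ℂ (R (hv.memLp.toLp v)) (hv.memLp.toLp v) : ℂ).re := by
  set f := hv.memLp.toLp v with hf
  obtain ⟨Φ, hS, h2, h3⟩ := hR.2 f
  have h1 := h2 v hv
  have hN : ‖f‖ ^ 2 = nsq v := by
    rw [hf, norm_toLp, Real.sq_sqrt (nsq_nonneg _)]
  have h4 : (∫ x, inner ℂ (v x) (f x)).re = nsq v := by
    rw [← inner_toLp_left hv.memLp, ← hf, re_inner_self_Lp, hN]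
  obtain ⟨w, -, -, hL⟩ := hS
  have hy : ∀ {a b : X3 → F}, MemLp a 2 (volume : Measure X3) → MemLp b 2 (volume : Measure X3) →
      2 * (∫ x, inner ℂ (a x) (b x)).re ≤ 1 / (1 + c) * nsq a + (1 + c) * nsq b := by
    intro a b ha hb
    have e1 : (∫ x, inner ℂ (a x) (b x)).re ≤ Real.sqrt (nsq a) * Real.sqrt (nsq b) :=
      (Complex.re_le_norm _).trans (cs_inner ha hb)
    have e2 : 2 * (Real.sqrt (nsq a) * Real.sqrt (nsq b)) ≤
        1 / (1 + c) * nsq a + (1 + c) * nsq b := by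
      have ea := Real.sq_sqrt (nsq_nonneg a)
      have eb := Real.sq_sqrt (nsq_nonneg b)
      have hc1 : (0 : ℝ) < 1 + c := by linarith
      have e3 : 0 ≤ (Real.sqrt (nsq a) - (1 + c) * Real.sqrt (nsq b)) ^ 2 / (1 + c) := by
        positivity
      have e4 : (Real.sqrt (nsq a) - (1 + c) * Real.sqrt (nsq b)) ^ 2 / (1 + c) =
          1 / (1 + c) * (Real.sqrt (nsq a)) ^ 2 + (1 + c) * (Real.sqrt (nsq b)) ^ 2 -
            2 * (Real.sqrt (nsq a) * Real.sqrt (nsq b)) := by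
        field_simp
        ring
      rw [e4, ea, eb] at e3
      linarith
    linarith
  have h5 := hy hv.memLp (Lp.memLp (R f))
  have h6 : ∑ β, 2 * (∫ x, inner ℂ (S.Qm m β v x) (Φ β x)).re ≤
      ∑ β, (1 / (1 + c) * nsq (S.Qm m β v) + (1 + c) * nsq (Φ β)) :=
    Finset.sum_le_sum fun β _ => hy (hv.Qm S m β).memLp (hL β).mem'
  rw [Finset.sum_add_distrib, ← Finset.mul_sum, ← Finset.mul_sum, ← Finset.mul_sum] at h6
  have h7 := congrArg Complex.re h1
  rw [Complex.add_re, Complex.re_sum, h4] at h7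
  have h8 : 2 * nsq v ≤ 1 / (1 + c) * (nsq v + ∑ β, nsq (S.Qm m β v)) +
      (1 + c) * (nsq (R f) + ∑ β, nsq (Φ β)) := by
    rw [mul_add, mul_add]
    linarith
  rw [h3] at h8
  have hc1 : (0 : ℝ) < 1 + c := by linarith
  have h9 : 1 / (1 + c) * (nsq v + ∑ β, nsq (S.Qm m β v)) < nsq v := by
    rw [div_mul_eq_mul_div, one_mul, div_lt_iff₀ hc1]
    linarith
  rw [hN, div_mul_eq_mul_div, one_mul, div_lt_iff₀ hc1]
  linarith

theorem lowDim [CompleteSpace F] (S : Setup F) (h1 : ResStmt S) (h3 : RCompStmt S)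
    (h4 : RInvStmt S) (h5 : EigStmt.{u}) (_h6 : WEStmt S) (h7 : GapStmt S) : LowDimStmt S := by
  intro m hm hlow
  obtain ⟨v, hv, hvlt⟩ := hlow
  obtain ⟨R, hR⟩ := h1 m
  have h8m : (0 : ℝ) < 8 * m := by positivity
  by_cases hrk : ((3 : ℕ) : Cardinal) ≤ Module.rank ℂ (EE S R)
  · obtain ⟨g, hg⟩ := natCast_le_rank_iff.mp hrk
    refine ⟨fun j => ((g j : Lp F 2 (volume : Measure X3)) : X3 → F),
      fun j => EE_Em hR (g j).2, fun a ha => ?_⟩
    have hne : ∑ j, a j • g j ≠ 0 := by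
      intro h0
      apply ha
      funext j
      exact (Fintype.linearIndependent_iff.mp hg) a h0 j
    have hne' : (∑ j, a j • (g j : Lp F 2 (volume : Measure X3))) ≠ 0 := by
      intro h0
      apply hne
      apply Subtype.ext
      simpa using h0
    have hae : (fun x => ∑ j, a j • (g j : Lp F 2 (volume : Measure X3)) x) =ᵐ[volume]
        ((∑ j, a j • (g j : Lp F 2 (volume : Measure X3)) : Lp F 2 (volume : Measure X3)) :
          X3 → F) := by
      have e0 := Lp.coeFn_smul (a 0) (g 0 : Lp F 2 (volume : Measure X3))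
      have e1 := Lp.coeFn_smul (a 1) (g 1 : Lp F 2 (volume : Measure X3))
      have e2 := Lp.coeFn_smul (a 2) (g 2 : Lp F 2 (volume : Measure X3))
      have e3 := Lp.coeFn_add (a 0 • (g 0 : Lp F 2 (volume : Measure X3)))
        (a 1 • (g 1 : Lp F 2 (volume : Measure X3)))
      have e4 := Lp.coeFn_add (a 0 • (g 0 : Lp F 2 (volume : Measure X3)) +
        a 1 • (g 1 : Lp F 2 (volume : Measure X3))) (a 2 • (g 2 : Lp F 2 (volume : Measure X3)))
      simp only [Fin.sum_univ_three]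
      filter_upwards [e0, e1, e2, e3, e4] with x x0 x1 x2 x3 x4
      rw [x4, Pi.add_apply, x3, Pi.add_apply, x0, x1, x2]
      rfl
    rw [nsq_congr hae, nsq_Lp]
    have := norm_pos_iff.mpr hne'
    positivity
  · exfalso
    rw [not_le] at hrk
    have hfin : Module.Finite ℂ (EE S R) := by
      rw [← Module.rank_lt_aleph0_iff]
      exact hrk.trans (Cardinal.natCast_lt_aleph0)
    have hfr : Module.finrank ℂ (EE S R) < 3 := Module.finrank_lt_of_rank_lt hrk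
    let T : (Fin 3 → ℂ) →ₗ[ℂ] (EE S R) :=
      ((EE S R).orthogonalProjectionOnto.toLinearMap).comp
        (Fintype.linearCombination ℂ fun j => (hv j).1.memLp.toLp (v j))
    have hker : LinearMap.ker T ≠ ⊥ := by
      apply LinearMap.ker_ne_bot_of_finrank_lt
      simpa using hfr
    obtain ⟨a, haT, ha⟩ := Submodule.exists_mem_ne_zero_of_ne_bot hker
    have hu : Tst (fun x => ∑ j, a j • v j x) := Tst.sum _ fun j => (hv j).1.cst _
    set f : Lp F 2 (volume : Measure X3) := hu.memLp.toLp _ with hf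
    have hfsum : f = ∑ j, a j • (hv j).1.memLp.toLp (v j) := by
      rw [Fin.sum_univ_three, hf, ← MemLp.toLp_const_smul, ← MemLp.toLp_const_smul,
        ← MemLp.toLp_const_smul, ← MemLp.toLp_add, ← MemLp.toLp_add]
      refine MemLp.toLp_congr _ _ (Filter.Eventually.of_forall fun x => ?_)
      change (∑ j, a j • v j x) = _
      rw [Fin.sum_univ_three]
      rfl
    have hfK : f ∈ KI S := by
      rw [hfsum]
      exact Submodule.sum_mem _ fun j _ => (KI S).smul_mem _ (Inv_mem_KI (hv j))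
    have hfE : f ∈ (EE S R)ᗮ := by
      rw [← Submodule.orthogonalProjectionOnto_eq_zero_iff, hfsum]
      have := LinearMap.mem_ker.mp haT
      simpa [T, Fintype.linearCombination_apply] using this
    have hray := rayleigh h8m hR hu (hvlt a ha)
    rw [← hf] at hray
    let K : Submodule ℂ (Lp F 2 (volume : Measure X3)) := KI S ⊓ (EE S R)ᗮ
    have hKcl : IsClosed (K : Set (Lp F 2 (volume : Measure X3))) :=
      (KI_closed S).inter (Submodule.isClosed_orthogonal _)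
    have hKinv : ∀ g ∈ K, R g ∈ K := by
      rintro g ⟨hg1, hg2⟩
      refine ⟨?_, ?_⟩
      · obtain ⟨hG, hJ⟩ := mem_KI.mp hg1
        exact mem_KI.mpr (h4 m hm R hR g hG hJ)
      · refine (Submodule.mem_orthogonal _ _).mpr fun e he => ?_
        rw [← hR.1, he.2]
        exact (Submodule.mem_orthogonal _ _).mp hg2 e he
    obtain ⟨μ, hμ, w, hwK, hw0, hw⟩ := h5 (Lp F 2 (volume : Measure X3)) R hR.1
      (h3 m hm R hR) K hKcl hKinv (1 / (1 + 8 * m)) (by positivity) f ⟨hfK, hfE⟩ hray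
    have hμ0 : 0 < μ := lt_of_le_of_lt (by positivity) hμ
    have hnw : 0 < ‖w‖ ^ 2 := by
      have := norm_pos_iff.mpr hw0
      positivity
    have hμ1 : μ ≤ 1 := by
      obtain ⟨Φ, -, -, e3⟩ := hR.2 w
      rw [nsq_Lp, hw, norm_smul, inner_smul_left, Complex.conj_ofReal, Complex.re_ofReal_mul,
        re_inner_self_Lp, mul_pow, Complex.norm_real, Real.norm_eq_abs, sq_abs] at e3
      have e4 : 0 ≤ ∑ β, nsq (Φ β) := Finset.sum_nonneg fun b _ => nsq_nonneg _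
      have e5 : μ ^ 2 * ‖w‖ ^ 2 ≤ μ * ‖w‖ ^ 2 := by linarith
      have e6 : μ ^ 2 ≤ μ := le_of_mul_le_mul_right e5 hnw
      nlinarith
    have hwE := wE_of_eig hR hμ0 hw
    rcases eq_or_lt_of_le hμ1 with h | h
    · have hwEE : w ∈ EE S R := ⟨hwK.1, by rw [hw, h]; simp⟩
      have := (Submodule.mem_orthogonal _ _).mp hwK.2 w hwEE
      exact hw0 (inner_self_eq_zero.mp this)
    · have he0 : 0 < 1 / μ - 1 := by
        rw [sub_pos, lt_div_iff₀ hμ0]; linarith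
      have he1 : 1 / μ - 1 < 8 * m := by
        rw [div_lt_iff₀ (by positivity)] at hμ
        rw [sub_lt_iff_lt_add, div_lt_iff₀ hμ0]
        linarith
      obtain ⟨hG, hJ⟩ := mem_KI.mp hwK.1
      have := h7 m _ hm he0 he1 w (Lp.memLp w) hG hJ hwE
      rw [nsq_Lp] at this
      linarith

end Vale.Agent.P353.U
end

section

open Matrix

namespace Vale.Agent.P353

variable {F : Type*} [NormedAddCommGroup F] [InnerProductSpace ℂ F]

namespace Setup

variable {S : Setup F} {E : Fin 9 → ℝ} {v : F}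

/-! ### the gauge part -/

lemma bil_one_swap {A B : Fin 3} (hAB : A ≠ B) (w : F) : S.bil 1 A B w = -S.bil 1 B A w := by
  rw [S.bil_swap_app 1 A B, if_neg hAB, Matrix.transpose_one, zero_sub]

lemma cS_app (C : Fin 3) (w : F) : S.cS C w = (-Complex.I / 2) • ∑ D, ∑ E, (eps C D E : ℂ) •
    S.bil 1 D E w := by
  simp only [cS, _root_.smul_apply, _root_.sum_apply]

lemma cS2_app (w : F) : S.cS 2 w = (-Complex.I) • S.bil 1 0 1 w := by
  have h : eps 2 0 0 = 0 ∧ eps 2 0 1 = 1 ∧ eps 2 0 2 = 0 ∧ eps 2 1 0 = -1 ∧ eps 2 1 1 = 0 ∧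
      eps 2 1 2 = 0 ∧ eps 2 2 0 = 0 ∧ eps 2 2 1 = 0 ∧ eps 2 2 2 = 0 := by decide
  obtain ⟨h1, h2, h3, h4, h5, h6, h7, h8, h9⟩ := h
  rw [cS_app]
  simp only [Fin.sum_univ_three, h1, h2, h3, h4, h5, h6, h7, h8, h9]
  rw [bil_one_swap (show (1 : Fin 3) ≠ 0 by decide)]
  push_cast
  module

lemma cS0_app (w : F) : S.cS 0 w = (-Complex.I) • S.bil 1 1 2 w := by
  have h : eps 0 0 0 = 0 ∧ eps 0 0 1 = 0 ∧ eps 0 0 2 = 0 ∧ eps 0 1 0 = 0 ∧ eps 0 1 1 = 0 ∧
      eps 0 1 2 = 1 ∧ eps 0 2 0 = 0 ∧ eps 0 2 1 = -1 ∧ eps 0 2 2 = 0 := by decide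
  obtain ⟨h1, h2, h3, h4, h5, h6, h7, h8, h9⟩ := h
  rw [cS_app]
  simp only [Fin.sum_univ_three, h1, h2, h3, h4, h5, h6, h7, h8, h9]
  rw [bil_one_swap (show (2 : Fin 3) ≠ 1 by decide)]
  push_cast
  module

lemma cS1_app (w : F) : S.cS 1 w = (-Complex.I) • S.bil 1 2 0 w := by
  have h : eps 1 0 0 = 0 ∧ eps 1 0 1 = 0 ∧ eps 1 0 2 = -1 ∧ eps 1 1 0 = 0 ∧ eps 1 1 1 = 0 ∧
      eps 1 1 2 = 0 ∧ eps 1 2 0 = 1 ∧ eps 1 2 1 = 0 ∧ eps 1 2 2 = 0 := by decide
  obtain ⟨h1, h2, h3, h4, h5, h6, h7, h8, h9⟩ := h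
  rw [cS_app]
  simp only [Fin.sum_univ_three, h1, h2, h3, h4, h5, h6, h7, h8, h9]
  rw [bil_one_swap (show (0 : Fin 3) ≠ 2 by decide)]
  push_cast
  module

lemma gE_trace : (S.gE E).trace = 0 := by
  simp only [gE, Matrix.trace_sum, Matrix.trace_smul, S.toCS.trace_g, smul_zero,
    Finset.sum_const_zero]

lemma bil_gE11 (w : F) : S.bil (S.gE E) 1 1 w = 0 := by
  have h := S.bil_swap_app (S.gE E) 1 1 w
  simp only [if_true, gE_trace, zero_smul, zero_sub, S.gE_symm] at h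
  have h2 : (2 : ℂ) • S.bil (S.gE E) 1 1 w = 0 := by
    rw [two_smul]; nth_rewrite 1 [h]; simp
  simpa using h2

lemma Vac.cS2 (h : S.Vac E v) : S.cS 2 v = 0 := by
  rw [cS2_app, bil_apply]
  have h1 : ∀ α, S.th α 0 (S.vec 1 1 α v) = Complex.I • S.th α 1 (S.vec (S.gE E) 1 α v) := by
    intro α
    have e1 := S.vec_anti_app 1 1 0 1 α α v
    simp only [show ¬((0 : Fin 3) = 1) by decide, if_false, zero_sub, ← th_eq_vec] at e1
    rw [← th_eq_vec, e1, h α, map_smul]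
    module
  rw [Finset.sum_congr rfl fun α _ => h1 α, ← Finset.smul_sum, ← bil_apply, bil_gE11]
  simp

lemma Vac.norm21 (h : S.Vac E v) (hE : ∑ i, E i ^ 2 = 1) (N : Matrix (Fin 16) (Fin 16) ℂ)
    (hN : ∀ α β, (N α β).im = 0) (hNN : N * Nᵀ = 1) :
    inner ℂ (S.bil N 2 1 v) (S.bil N 2 1 v) = 4 * inner ℂ v v := by
  have h1 : ∀ α β, inner ℂ (S.th α 2 (S.vec N 1 α v)) (S.th β 2 (S.vec N 1 β v)) =
      (1 / 2) * (N * Nᵀ) α β * inner ℂ v (S.th α 2 (S.th β 2 v)) := by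
    intro α β
    rw [S.th_symm, S.vec_symm N hN]
    have e1 : ∀ w, S.vec N 1 α (S.th α 2 (S.th β 2 w)) = S.th α 2 (S.th β 2 (S.vec N 1 α w)) := by
      intro w
      simp only [th_eq_vec]
      rw [vec2_anti 1 N 1 (by decide) β α w, map_neg, vec2_anti 1 N 1 (by decide) α α, neg_neg]
    rw [e1]
    have e2 := h.two_pt hE (comm_vec22 1 1 α β) N N hN α β
    simp only [ContinuousLinearMap.comp_apply, ← th_eq_vec] at e2
    exact e2
  have h2 : inner ℂ (S.bil N 2 1 v) (S.bil N 2 1 v) =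
      ∑ α, ∑ β, inner ℂ (S.th α 2 (S.vec N 1 α v)) (S.th β 2 (S.vec N 1 β v)) := by
    rw [bil_apply, sum_inner]
    refine Finset.sum_congr rfl fun α _ => ?_
    rw [inner_sum]
  rw [h2]
  simp only [h1, hNN, Matrix.one_apply, mul_ite, mul_one, mul_zero, ite_mul, zero_mul,
    Finset.sum_ite_eq, Finset.mem_univ, if_true]
  rw [← Finset.mul_sum, ← inner_sum]
  have h3 := S.bil_one_app 2 v
  rw [bil_apply] at h3
  simp only [← th_eq_vec] at h3
  rw [h3, inner_smul_right]; ring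

lemma one_im (α β : Fin 16) : ((1 : Matrix (Fin 16) (Fin 16) ℂ) α β).im = 0 := by
  rw [Matrix.one_apply]; split_ifs <;> simp

lemma Vac.cS0_norm (h : S.Vac E v) (hE : ∑ i, E i ^ 2 = 1) :
    inner ℂ (S.cS 0 v) (S.cS 0 v) = 4 * inner ℂ v v := by
  rw [cS0_app, bil_one_swap (show (1 : Fin 3) ≠ 2 by decide), ← h.norm21 hE 1 one_im (by simp),
    inner_smul_left, inner_smul_right, inner_neg_left, inner_neg_right]
  simp only [map_neg, Complex.conj_I, neg_neg]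
  have := Complex.I_mul_I
  linear_combination (-inner ℂ (S.bil 1 2 1 v) (S.bil 1 2 1 v)) * this

lemma Vac.bil120 (h : S.Vac E v) : S.bil 1 2 0 v = (-Complex.I) • S.bil (S.gE E) 2 1 v := by
  rw [bil_apply, bil_apply, Finset.smul_sum]
  refine Finset.sum_congr rfl fun α _ => ?_
  rw [← th_eq_vec, h α, map_smul]

lemma Vac.cS1_norm (h : S.Vac E v) (hE : ∑ i, E i ^ 2 = 1) :
    inner ℂ (S.cS 1 v) (S.cS 1 v) = 4 * inner ℂ v v := by
  rw [cS1_app, h.bil120, ← h.norm21 hE (S.gE E) (S.gE_im E) (by rw [S.gE_symm, S.gE_sq E hE]),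
    inner_smul_left, inner_smul_right, inner_smul_left, inner_smul_right]
  simp only [map_neg, Complex.conj_I, neg_neg]
  have := Complex.I_mul_I
  linear_combination ((Complex.I * Complex.I - 1) * inner ℂ (S.bil (S.gE E) 2 1 v)
    (S.bil (S.gE E) 2 1 v)) * this

/-- expectation of `O1` -/
lemma Vac.O1 (h : S.Vac E v) (hE : ∑ i, E i ^ 2 = 1) :
    inner ℂ v (S.O1 v) = 56 * inner ℂ v v := by
  have h1 : inner ℂ v (S.O1 v) = 2 * ∑ k, ∑ l, inner ℂ (S.Skl k l v) (S.Skl k l v) +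
      ∑ C, inner ℂ (S.cS C v) (S.cS C v) - 88 * inner ℂ v v := by
    rw [O1_apply]
    simp only [inner_sub_right, inner_add_right, inner_smul_right, inner_sum,
      ← Setup.Skl_eq S, ← Setup.cS_eq S, S.Skl_symm, S.cS_symm]
  rw [h1, h.sum_Skl hE, Fin.sum_univ_three, h.cS0_norm hE, h.cS1_norm hE, h.cS2, inner_zero_left]
  ring

/-! ### the boundary operator -/

/-- standard-form coordinates -/
def XE (E : Fin 9 → ℝ) : Fin 9 → Fin 3 → ℂ := fun j A => if A = 2 then (E j : ℂ) else 0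

lemma XE_sum {M : Type*} [AddCommGroup M] [Module ℂ M] (j : Fin 9) (f : Fin 3 → M) :
    ∑ A, XE E j A • f A = (E j : ℂ) • f 2 := by
  simp only [XE, ite_smul, zero_smul, Finset.sum_ite_eq', Finset.mem_univ, if_true]

lemma vec_gE_app (A : Fin 3) (β : Fin 16) (w : F) :
    S.vec (S.gE E) A β w = ∑ i, (E i : ℂ) • S.vec (S.g i) A β w := by
  simp only [gE, S.toCS.vec_sum, S.toCS.vec_smul, _root_.sum_apply, _root_.smul_apply]

lemma Bv_XE (β : Fin 16) (w : F) : S.toCS.Bv (XE E) β w = S.vec (S.gE E) 2 β w := by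
  rw [vec_gE_app]
  simp only [CS.Bv, XE_sum, _root_.sum_apply, _root_.smul_apply]

lemma MS_XE (β : Fin 16) (w : F) : S.toCS.MS (XE E) β w =
    ∑ j, ∑ l, (E j : ℂ) • S.vec (S.g l) 2 β (S.Skl j l w) := by
  simp only [CS.MS, XE_sum, _root_.sum_apply, mul_apply_eq_comp, _root_.smul_apply,
    ← Setup.Skl_eq S]

lemma MI_XE (β : Fin 16) (w : F) : S.toCS.MI (XE E) β w =
    ∑ k, ∑ l, S.vec (S.g2 k l * S.gE E) 2 β (S.Skl k l w) := by
  have h : ∀ k l y, ∑ j, (E j : ℂ) • S.vec (S.g2 k l * S.g j) 2 β y =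
      S.vec (S.g2 k l * S.gE E) 2 β y := by
    intro k l y
    simp only [gE, Finset.mul_sum, mul_smul_comm, S.toCS.vec_sum, S.toCS.vec_smul,
      _root_.sum_apply, _root_.smul_apply]
  simp only [CS.MI, XE_sum, _root_.sum_apply, mul_apply_eq_comp, _root_.smul_apply,
    ← Setup.Skl_eq S, h]

lemma MG_XE (β : Fin 16) (w : F) : S.toCS.MG (XE E) β w =
    S.vec (S.gE E) 0 β (S.cS 1 w) - S.vec (S.gE E) 1 β (S.cS 0 w) := by
  have h0 : eps 2 0 0 = 0 ∧ eps 2 0 1 = 1 ∧ eps 2 0 2 = 0 ∧ eps 2 1 0 = -1 ∧ eps 2 1 1 = 0 ∧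
      eps 2 1 2 = 0 ∧ eps 2 2 0 = 0 ∧ eps 2 2 1 = 0 ∧ eps 2 2 2 = 0 := by decide
  obtain ⟨h1, h2, h3, h4, h5, h6, h7, h8, h9⟩ := h0
  rw [S.toCS.MG_eq]
  simp only [XE_sum, _root_.sum_apply, mul_apply_eq_comp, _root_.smul_apply,
    ← Setup.cS_eq S]
  simp only [Fin.sum_univ_three, h1, h2, h3, h4, h5, h6, h7, h8, h9]
  rw [vec_gE_app, vec_gE_app, ← Finset.sum_sub_distrib]
  refine Finset.sum_congr rfl fun j _ => ?_
  push_cast
  module

lemma sum_B_MS (w : F) : ∑ β, S.toCS.Bv (XE E) β (S.toCS.MS (XE E) β w) =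
    ∑ j, ∑ l, (E j : ℂ) • S.bil (S.gE E * S.g l) 2 2 (S.Skl j l w) := by
  simp only [Bv_XE, MS_XE, map_sum, map_smul]
  rw [Finset.sum_comm]
  refine Finset.sum_congr rfl fun j _ => ?_
  rw [Finset.sum_comm]
  refine Finset.sum_congr rfl fun l _ => ?_
  rw [← Finset.smul_sum, sum_vec_vec, S.gE_symm]

lemma sum_B_MI (w : F) : ∑ β, S.toCS.Bv (XE E) β (S.toCS.MI (XE E) β w) =
    ∑ k, ∑ l, S.bil (S.gE E * (S.g2 k l * S.gE E)) 2 2 (S.Skl k l w) := by
  simp only [Bv_XE, MI_XE, map_sum]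
  rw [Finset.sum_comm]
  refine Finset.sum_congr rfl fun j _ => ?_
  rw [Finset.sum_comm]
  refine Finset.sum_congr rfl fun l _ => ?_
  rw [sum_vec_vec, S.gE_symm]

lemma sum_B_MG (hE : ∑ i, E i ^ 2 = 1) (w : F) :
    ∑ β, S.toCS.Bv (XE E) β (S.toCS.MG (XE E) β w) =
    S.bil 1 2 0 (S.cS 1 w) - S.bil 1 2 1 (S.cS 0 w) := by
  simp only [Bv_XE, MG_XE, map_sub, Finset.sum_sub_distrib]
  rw [sum_vec_vec, sum_vec_vec, S.gE_symm, S.gE_sq E hE]

lemma sum_B_B (hE : ∑ i, E i ^ 2 = 1) (w : F) :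
    ∑ β, S.toCS.Bv (XE E) β (S.toCS.Bv (XE E) β w) = (8 : ℂ) • w := by
  simp only [Bv_XE]
  rw [sum_vec_vec, S.gE_symm, S.gE_sq E hE, bil_one_app]

/-- `w_l = ∑_k E_k a_{kl}` -/
noncomputable def wl (S : Setup F) (E : Fin 9 → ℝ) (v : F) (l : Fin 9) : F :=
  ∑ k, (E k : ℂ) • S.sp 2 k l v

lemma sp_swap (A : Fin 3) (k l : Fin 9) (w : F) : S.sp A k l w = -S.sp A l k w := by
  rw [sp, sp, S.toCS.g2_antisymm k l, bil_neg_app, smul_neg]

lemma sum_E_sp (k : Fin 9) : ∑ l, (E l : ℂ) • S.sp 2 k l v = -S.wl E v k := by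
  rw [wl, ← Finset.sum_neg_distrib]
  refine Finset.sum_congr rfl fun l _ => ?_
  rw [sp_swap, smul_neg]

lemma bil_g2_app (k l : Fin 9) (w : F) : S.bil (S.g2 k l) 2 2 w = (4 * Complex.I) • S.sp 2 k l w := by
  rw [sp, smul_smul]
  have : 4 * Complex.I * (-Complex.I / 4) = 1 := by
    have := Complex.I_mul_I
    linear_combination -this
  rw [this, one_smul]

lemma bil_gg_app (k l : Fin 9) (w : F) : S.bil (S.g k * S.g l) 2 2 w =
    (4 * Complex.I) • S.sp 2 k l w + (if k = l then (8 : ℂ) else 0) • w := by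
  have h : S.g k * S.g l = S.g2 k l + (if k = l then (1 : ℂ) else 0) • 1 := by
    rw [S.toCS.g2_eq]; abel
  rw [h, bil_add_app, bil_g2_app, bil_smul_app, bil_one_app, smul_smul]
  congr 2
  split_ifs <;> simp

lemma bil_gEg_app (l : Fin 9) (w : F) : S.bil (S.gE E * S.g l) 2 2 w =
    (4 * Complex.I) • ∑ k, (E k : ℂ) • S.sp 2 k l w + (8 * (E l : ℂ)) • w := by
  have h : S.gE E * S.g l = ∑ k, (E k : ℂ) • (S.g k * S.g l) := by
    simp only [gE, Finset.sum_mul, smul_mul_assoc]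
  rw [h, S.toCS.bil_sum]
  simp only [S.toCS.bil_smul, _root_.sum_apply, _root_.smul_apply, bil_gg_app, smul_add,
    Finset.sum_add_distrib]
  congr 1
  · rw [Finset.smul_sum]
    refine Finset.sum_congr rfl fun k _ => ?_
    rw [smul_comm]
  · simp only [ite_smul, zero_smul, smul_ite, smul_zero, Finset.sum_ite_eq', Finset.mem_univ,
      if_true, smul_smul]
    congr 1; ring

lemma gE_g2_gE (hE : ∑ i, E i ^ 2 = 1) (p q : Fin 9) : S.gE E * (S.g2 p q * S.gE E) =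
    S.g2 p q + (2 * (E q : ℂ)) • (S.gE E * S.g p) - (2 * (E p : ℂ)) • (S.gE E * S.g q) := by
  have h1 : S.g2 p q * S.gE E = S.gE E * S.g2 p q +
      (2 : ℂ) • ((E q : ℂ) • S.g p - (E p : ℂ) • S.g q) := by
    have : ∀ j, S.g2 p q * ((E j : ℂ) • S.g j) = (E j : ℂ) • (S.g j * S.g2 p q) +
        (2 : ℂ) • ((if q = j then (E j : ℂ) • S.g p else 0) -
          (if p = j then (E j : ℂ) • S.g q else 0)) := by
      intro j
      rw [mul_smul_comm, S.toCS.g2_mul_g, smul_add]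
      congr 1
      by_cases h1 : q = j <;> by_cases h2 : p = j <;> simp [h1, h2] <;> module
    rw [gE, Finset.mul_sum, Finset.sum_mul]
    simp only [this, Finset.sum_add_distrib, ← Finset.smul_sum, Finset.sum_sub_distrib,
      Finset.sum_ite_eq, Finset.mem_univ, if_true, smul_mul_assoc]
  rw [h1, mul_add, ← mul_assoc, S.gE_sq E hE, one_mul, mul_smul_comm, mul_sub, mul_smul_comm,
    mul_smul_comm]
  module

lemma bil_EgE_app (hE : ∑ i, E i ^ 2 = 1) (k l : Fin 9) (w : F) :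
    S.bil (S.gE E * (S.g2 k l * S.gE E)) 2 2 w =
    (4 * Complex.I) • (S.sp 2 k l w + (2 * (E l : ℂ)) • ∑ j, (E j : ℂ) • S.sp 2 j k w -
      (2 * (E k : ℂ)) • ∑ j, (E j : ℂ) • S.sp 2 j l w) := by
  rw [gE_g2_gE hE, bil_sub_app, bil_add_app, bil_smul_app, bil_smul_app, bil_gEg_app, bil_gEg_app,
    bil_g2_app]
  module

/-! ### expectations -/

lemma inner_v_spsp (i j k l : Fin 9) : inner ℂ v (S.sp 2 i j (S.sp 2 k l v)) =
    inner ℂ (S.sp 2 i j v) (S.sp 2 k l v) := (sp_adj 2 i j v _).symm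

/-- `∑ ‖w_l‖²` -/
noncomputable def WW (S : Setup F) (E : Fin 9 → ℝ) (v : F) : ℂ :=
  ∑ l, inner ℂ (S.wl E v l) (S.wl E v l)

lemma Vac.E1 (h : S.Vac E v) (hE : ∑ i, E i ^ 2 = 1) :
    inner ℂ v (∑ β, S.toCS.Bv (XE E) β (S.toCS.MS (XE E) β v)) = (4 * Complex.I) * WW S E v := by
  rw [sum_B_MS]
  have h1 : ∀ j l, inner ℂ v ((E j : ℂ) • S.bil (S.gE E * S.g l) 2 2 (S.Skl j l v)) =
      (4 * Complex.I) * ∑ k, (E j : ℂ) * (E k : ℂ) * inner ℂ (S.sp 2 k l v) (S.sp 2 j l v) +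
      8 * ((E j : ℂ) * (E l : ℂ) * inner ℂ v (S.sp 2 j l v)) := by
    intro j l
    rw [h.Skl_eq, map_add, smul_add, inner_add_right, inner_smul_right, inner_smul_right,
      h.cross hE, mul_zero, add_zero, bil_gEg_app, inner_add_right, inner_smul_right,
      inner_smul_right, inner_sum]
    simp only [inner_smul_right, inner_v_spsp, Finset.mul_sum, mul_add]
    congr 1
    · refine Finset.sum_congr rfl fun k _ => ?_
      ring
    · ring
  simp only [inner_sum, h1, Finset.sum_add_distrib, ← Finset.mul_sum]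
  have h2 : ∑ j, ∑ l, (E j : ℂ) * (E l : ℂ) * inner ℂ v (S.sp 2 j l v) = 0 := by
    have e1 : ∑ j, ∑ l, (E j : ℂ) * (E l : ℂ) * inner ℂ v (S.sp 2 j l v) =
        -∑ j, ∑ l, (E j : ℂ) * (E l : ℂ) * inner ℂ v (S.sp 2 j l v) := by
      conv_lhs => rw [Finset.sum_comm]
      rw [← Finset.sum_neg_distrib]
      refine Finset.sum_congr rfl fun j _ => ?_
      rw [← Finset.sum_neg_distrib]
      refine Finset.sum_congr rfl fun l _ => ?_
      rw [sp_swap 2 l j, inner_neg_right]; ring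
    have e2 : (2 : ℂ) * ∑ j, ∑ l, (E j : ℂ) * (E l : ℂ) * inner ℂ v (S.sp 2 j l v) = 0 := by
      linear_combination e1
    simpa using e2
  have h3 : ∑ j, ∑ l, ∑ k, (E j : ℂ) * (E k : ℂ) * inner ℂ (S.sp 2 k l v) (S.sp 2 j l v) =
      WW S E v := by
    rw [Finset.sum_comm, WW]
    refine Finset.sum_congr rfl fun l _ => ?_
    rw [wl, sum_inner]
    simp only [inner_sum, inner_smul_left, inner_smul_right, Complex.conj_ofReal]
    rw [Finset.sum_comm]
    refine Finset.sum_congr rfl fun j _ => Finset.sum_congr rfl fun k _ => ?_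
    ring
  rw [h2, h3]; ring

lemma Vac.E2 (h : S.Vac E v) (hE : ∑ i, E i ^ 2 = 1) :
    inner ℂ v (∑ β, S.toCS.Bv (XE E) β (S.toCS.MI (XE E) β v)) =
      (4 * Complex.I) * (36 * inner ℂ v v - 4 * WW S E v) := by
  rw [sum_B_MI]
  have h1 : ∀ k l, inner ℂ v (S.bil (S.gE E * (S.g2 k l * S.gE E)) 2 2 (S.Skl k l v)) =
      (4 * Complex.I) * (inner ℂ (S.sp 2 k l v) (S.sp 2 k l v) +
        2 * inner ℂ (S.wl E v k) ((E l : ℂ) • S.sp 2 k l v) -
        2 * inner ℂ (S.wl E v l) ((E k : ℂ) • S.sp 2 k l v)) := by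
    intro k l
    rw [h.Skl_eq, map_add, inner_add_right, h.cross hE, add_zero, bil_EgE_app hE,
      inner_smul_right, inner_sub_right, inner_add_right, inner_smul_right, inner_smul_right,
      inner_sum, inner_sum, inner_smul_right, inner_smul_right, wl, wl, sum_inner, sum_inner]
    simp only [inner_smul_right, inner_smul_left, inner_v_spsp, Complex.conj_ofReal]
    ring
  simp only [inner_sum, h1, ← Finset.mul_sum, Finset.sum_add_distrib, Finset.sum_sub_distrib,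
    sum_a]
  have h2 : ∑ k, ∑ l, inner ℂ (S.wl E v k) ((E l : ℂ) • S.sp 2 k l v) = -WW S E v := by
    rw [WW, ← Finset.sum_neg_distrib]
    refine Finset.sum_congr rfl fun k _ => ?_
    rw [← inner_sum, sum_E_sp, inner_neg_right]
  have h3 : ∑ k, ∑ l, inner ℂ (S.wl E v l) ((E k : ℂ) • S.sp 2 k l v) = WW S E v := by
    rw [WW, Finset.sum_comm]
    refine Finset.sum_congr rfl fun k _ => ?_
    rw [← inner_sum, wl]
  rw [h2, h3]; ring

lemma Vac.E3 (h : S.Vac E v) (hE : ∑ i, E i ^ 2 = 1) :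
    inner ℂ v (∑ β, S.toCS.Bv (XE E) β (S.toCS.MG (XE E) β v)) =
      Complex.I * (8 * inner ℂ v v) := by
  rw [sum_B_MG hE, inner_sub_right]
  have h1 : inner ℂ v (S.bil 1 2 0 (S.cS 1 v)) = Complex.I * (4 * inner ℂ v v) := by
    have e1 := S.bil_adj 1 one_im 0 2 v (S.cS 1 v)
    rw [Matrix.transpose_one] at e1
    have e2 : S.bil 1 0 2 v = (-Complex.I) • S.cS 1 v := by
      rw [bil_one_swap (show (0 : Fin 3) ≠ 2 by decide), cS1_app, smul_smul]
      have := Complex.I_mul_I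
      have h4 : -Complex.I * -Complex.I = -1 := by linear_combination this
      rw [h4, neg_smul, one_smul]
    rw [← e1, e2, inner_smul_left, ← h.cS1_norm hE]
    simp
  have h2 : inner ℂ v (S.bil 1 2 1 (S.cS 0 v)) = -Complex.I * (4 * inner ℂ v v) := by
    have e1 := S.bil_adj 1 one_im 1 2 v (S.cS 0 v)
    rw [Matrix.transpose_one] at e1
    have e2 : S.bil 1 1 2 v = Complex.I • S.cS 0 v := by
      rw [cS0_app, smul_smul]
      have := Complex.I_mul_I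
      have h4 : Complex.I * -Complex.I = 1 := by linear_combination -this
      rw [h4, one_smul]
    rw [← e1, e2, inner_smul_left, ← h.cS0_norm hE]
    simp
  rw [h1, h2]; ring

/-- expectation of the boundary operator in the standard frame -/
lemma Vac.Bd (h : S.Vac E v) (hE : ∑ i, E i ^ 2 = 1) :
    inner ℂ v (Complex.I • ∑ β, S.toCS.Bv (XE E) β (S.toCS.Mv (XE E) β v)) =
      (1 / 27) * (-144 * inner ℂ v v + (52 / 3) * WW S E v) := by
  have h1 : ∑ β, S.toCS.Bv (XE E) β (S.toCS.Mv (XE E) β v) = (1 / 27 : ℂ) •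
      (∑ β, S.toCS.Bv (XE E) β (S.toCS.MS (XE E) β v)
      + (5 : ℂ) • ∑ β, S.toCS.Bv (XE E) β (S.toCS.MG (XE E) β v)
      + (4 / 3 : ℂ) • ∑ β, S.toCS.Bv (XE E) β (S.toCS.MI (XE E) β v)
      - (11 * Complex.I) • ∑ β, S.toCS.Bv (XE E) β (S.toCS.Bv (XE E) β v)) := by
    simp only [CS.Mv, _root_.smul_apply, _root_.add_apply, _root_.sub_apply, map_smul, map_add,
      map_sub, ← Finset.smul_sum, Finset.sum_add_distrib, Finset.sum_sub_distrib]
  rw [h1]
  simp only [inner_smul_right, inner_add_right, inner_sub_right]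
  rw [h.E1 hE, h.E2 hE, h.E3 hE, sum_B_B hE, inner_smul_right]
  have := Complex.I_mul_I
  linear_combination ((1/27) * ((4 * WW S E v) + 5 * (8 * inner ℂ v v) +
    (4/3) * 4 * (36 * inner ℂ v v - 4 * WW S E v) - 88 * inner ℂ v v)) * this

/-- `∑ ‖w_l‖² ≤ (1/2) ∑ ‖a_{kl}‖²` -/
lemma WW_le (hE : ∑ i, E i ^ 2 = 1) : (WW S E v).re ≤ 18 * ‖v‖ ^ 2 := by
  have hn : ∀ y : F, (inner ℂ y y : ℂ) = ((‖y‖ ^ 2 : ℝ) : ℂ) := by
    intro y; rw [inner_self_eq_norm_sq_to_K]; push_cast; rfl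
  -- `A'_{kl} = a_{kl} - E_k w_l + E_l w_k`
  have h0 : 0 ≤ ∑ k, ∑ l, ‖S.sp 2 k l v - (E k : ℂ) • S.wl E v l + (E l : ℂ) • S.wl E v k‖ ^ 2 :=
    Finset.sum_nonneg fun _ _ => Finset.sum_nonneg fun _ _ => by positivity
  have hWre : (WW S E v) = ((∑ l, ‖S.wl E v l‖ ^ 2 : ℝ) : ℂ) := by
    rw [WW]; push_cast
    refine Finset.sum_congr rfl fun l _ => ?_
    rw [hn]; push_cast; rfl
  have hEw : ∑ l, (E l : ℂ) • S.wl E v l = 0 := by
    have e1 : ∑ l, (E l : ℂ) • S.wl E v l = -∑ l, (E l : ℂ) • S.wl E v l := by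
      have e2 : ∑ l, (E l : ℂ) • S.wl E v l = ∑ l, ∑ k, ((E l : ℂ) * (E k : ℂ)) • S.sp 2 k l v := by
        simp only [wl, Finset.smul_sum, smul_smul]
      rw [e2]
      conv_lhs => rw [Finset.sum_comm]
      rw [← Finset.sum_neg_distrib]
      refine Finset.sum_congr rfl fun j _ => ?_
      rw [← Finset.sum_neg_distrib]
      refine Finset.sum_congr rfl fun l _ => ?_
      rw [sp_swap 2 j l, smul_neg, mul_comm]
    have e3 : (2 : ℂ) • ∑ l, (E l : ℂ) • S.wl E v l = 0 := by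
      rw [two_smul]; nth_rewrite 1 [e1]; simp
    simpa using e3
  have hE' : ∑ i, (E i : ℂ) * (E i : ℂ) = 1 := by
    have : ∑ i, (E i : ℂ) * (E i : ℂ) = ((∑ i, E i ^ 2 : ℝ) : ℂ) := by
      push_cast; refine Finset.sum_congr rfl fun i _ => by ring
    rw [this, hE]; simp
  have hsum : ((∑ k, ∑ l, ‖S.sp 2 k l v - (E k : ℂ) • S.wl E v l + (E l : ℂ) • S.wl E v k‖ ^ 2 : ℝ)
      : ℂ) = 36 * inner ℂ v v - 2 * WW S E v := by
    have e0 : ∀ k l, inner ℂ (S.sp 2 k l v - (E k : ℂ) • S.wl E v l + (E l : ℂ) • S.wl E v k)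
        (S.sp 2 k l v - (E k : ℂ) • S.wl E v l + (E l : ℂ) • S.wl E v k) =
        inner ℂ (S.sp 2 k l v) (S.sp 2 k l v)
        - inner ℂ ((E k : ℂ) • S.sp 2 k l v) (S.wl E v l)
        + inner ℂ ((E l : ℂ) • S.sp 2 k l v) (S.wl E v k)
        - inner ℂ (S.wl E v l) ((E k : ℂ) • S.sp 2 k l v)
        + inner ℂ (S.wl E v k) ((E l : ℂ) • S.sp 2 k l v)
        + (E k : ℂ) * (E k : ℂ) * inner ℂ (S.wl E v l) (S.wl E v l)
        + (E l : ℂ) * (E l : ℂ) * inner ℂ (S.wl E v k) (S.wl E v k)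
        - inner ℂ ((E l : ℂ) • S.wl E v l) ((E k : ℂ) • S.wl E v k)
        - inner ℂ ((E k : ℂ) • S.wl E v k) ((E l : ℂ) • S.wl E v l) := by
      intro k l
      simp only [inner_add_left, inner_add_right, inner_sub_left, inner_sub_right,
        inner_smul_left, inner_smul_right, Complex.conj_ofReal]
      ring
    push_cast
    have e1 : ∀ k l, ((‖S.sp 2 k l v - (E k : ℂ) • S.wl E v l + (E l : ℂ) • S.wl E v k‖ : ℝ) : ℂ) ^ 2
        = inner ℂ (S.sp 2 k l v - (E k : ℂ) • S.wl E v l + (E l : ℂ) • S.wl E v k)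
        (S.sp 2 k l v - (E k : ℂ) • S.wl E v l + (E l : ℂ) • S.wl E v k) := by
      intro k l; rw [hn]; push_cast; rfl
    simp only [e1, e0, Finset.sum_add_distrib, Finset.sum_sub_distrib, sum_a]
    have f1 : ∑ k, ∑ l, inner ℂ ((E k : ℂ) • S.sp 2 k l v) (S.wl E v l) = WW S E v := by
      rw [WW, Finset.sum_comm]
      refine Finset.sum_congr rfl fun k _ => ?_
      rw [← sum_inner, wl]
    have f2 : ∑ k, ∑ l, inner ℂ ((E l : ℂ) • S.sp 2 k l v) (S.wl E v k) = -WW S E v := by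
      rw [WW, ← Finset.sum_neg_distrib]
      refine Finset.sum_congr rfl fun k _ => ?_
      rw [← sum_inner, sum_E_sp, inner_neg_left]
    have f3 : ∑ k, ∑ l, inner ℂ (S.wl E v l) ((E k : ℂ) • S.sp 2 k l v) = WW S E v := by
      rw [WW, Finset.sum_comm]
      refine Finset.sum_congr rfl fun k _ => ?_
      rw [← inner_sum, wl]
    have f4 : ∑ k, ∑ l, inner ℂ (S.wl E v k) ((E l : ℂ) • S.sp 2 k l v) = -WW S E v := by
      rw [WW, ← Finset.sum_neg_distrib]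
      refine Finset.sum_congr rfl fun k _ => ?_
      rw [← inner_sum, sum_E_sp, inner_neg_right]
    have f5 : ∑ k, ∑ l, (E k : ℂ) * (E k : ℂ) * inner ℂ (S.wl E v l) (S.wl E v l) = WW S E v := by
      simp only [← Finset.mul_sum, ← Finset.sum_mul, hE', one_mul, WW]
    have f6 : ∑ k, ∑ l, (E l : ℂ) * (E l : ℂ) * inner ℂ (S.wl E v k) (S.wl E v k) = WW S E v := by
      simp only [← Finset.sum_mul, hE', one_mul, WW]
    have f7 : ∑ k, ∑ l, inner ℂ ((E l : ℂ) • S.wl E v l) ((E k : ℂ) • S.wl E v k) = 0 := by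
      simp only [← sum_inner, hEw, inner_zero_left, Finset.sum_const_zero]
    have f8 : ∑ k, ∑ l, inner ℂ ((E k : ℂ) • S.wl E v k) ((E l : ℂ) • S.wl E v l) = 0 := by
      simp only [← inner_sum, hEw, inner_zero_right, Finset.sum_const_zero]
    rw [f1, f2, f3, f4, f5, f6, f7, f8]
    ring
  rw [hn, hWre] at hsum
  rw [hWre, Complex.ofReal_re]
  have h3 : (∑ k, ∑ l, ‖S.sp 2 k l v - (E k : ℂ) • S.wl E v l + (E l : ℂ) • S.wl E v k‖ ^ 2 : ℝ) =
      36 * ‖v‖ ^ 2 - 2 * ∑ l, ‖S.wl E v l‖ ^ 2 := by exact_mod_cast hsum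
  linarith

end Setup
end Vale.Agent.P353
end

section

open Matrix MeasureTheory

namespace Vale.Agent.P353

variable {F : Type*} [NormedAddCommGroup F] [InnerProductSpace ℂ F]

/-! ### frames -/

/-- a unit vector orthogonal to `n` -/
lemma exists_orth (n : Fin 3 → ℝ) :
    ∃ e : Fin 3 → ℝ, ∑ A, e A ^ 2 = 1 ∧ ∑ A, e A * n A = 0 := by
  by_cases h : n 0 ^ 2 + n 1 ^ 2 = 0
  · refine ⟨![1, 0, 0], ?_, ?_⟩
    · simp [Fin.sum_univ_three]
    · have h0 : n 0 = 0 := by nlinarith [sq_nonneg (n 0), sq_nonneg (n 1)]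
      simp [Fin.sum_univ_three, h0]
  · have hpos : 0 < n 0 ^ 2 + n 1 ^ 2 := lt_of_le_of_ne (by positivity) (Ne.symm h)
    set r := Real.sqrt (n 0 ^ 2 + n 1 ^ 2) with hr
    have hr2 : r ^ 2 = n 0 ^ 2 + n 1 ^ 2 := Real.sq_sqrt hpos.le
    have hr0 : r ≠ 0 := by
      intro h0; rw [h0] at hr2; nlinarith
    refine ⟨![-n 1 / r, n 0 / r, 0], ?_, ?_⟩
    · simp only [Fin.sum_univ_three, Matrix.cons_val_zero, Matrix.cons_val_one, Matrix.cons_val]
      field_simp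
      rw [hr2]; ring
    · simp only [Fin.sum_univ_three, Matrix.cons_val_zero, Matrix.cons_val_one, Matrix.cons_val]
      field_simp
      ring

/-- matrix of a right-handed orthonormal frame -/
def frame (e n : Fin 3 → ℝ) : Matrix (Fin 3) (Fin 3) ℝ :=
  ![e, ![n 1 * e 2 - n 2 * e 1, n 2 * e 0 - n 0 * e 2, n 0 * e 1 - n 1 * e 0], n]

lemma frame_0 (e n : Fin 3 → ℝ) (C : Fin 3) : frame e n 0 C = e C := rfl
lemma frame_2 (e n : Fin 3 → ℝ) (C : Fin 3) : frame e n 2 C = n C := rfl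
lemma frame_10 (e n : Fin 3 → ℝ) : frame e n 1 0 = n 1 * e 2 - n 2 * e 1 := rfl
lemma frame_11 (e n : Fin 3 → ℝ) : frame e n 1 1 = n 2 * e 0 - n 0 * e 2 := rfl
lemma frame_12 (e n : Fin 3 → ℝ) : frame e n 1 2 = n 0 * e 1 - n 1 * e 0 := rfl

lemma frame_orth (e n : Fin 3 → ℝ) (he : ∑ A, e A ^ 2 = 1) (hn : ∑ A, n A ^ 2 = 1)
    (hen : ∑ A, e A * n A = 0) : frame e n * (frame e n)ᵀ = 1 := by
  rw [Fin.sum_univ_three] at he hn hen
  ext i j
  simp only [Matrix.mul_apply, Fin.sum_univ_three, Matrix.transpose_apply, Matrix.one_apply]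
  fin_cases i <;> fin_cases j <;>
    simp only [Fin.zero_eta, Fin.mk_one, Fin.reduceFinMk, frame_0, frame_2, frame_10, frame_11,
      frame_12, if_true, Fin.reduceEq, if_false]
  · linear_combination he
  · ring
  · linear_combination hen
  · ring
  · linear_combination (n 0 ^ 2 + n 1 ^ 2 + n 2 ^ 2) * he + hn -
      (e 0 * n 0 + e 1 * n 1 + e 2 * n 2) * hen
  · ring
  · linear_combination hen
  · ring
  · linear_combination hn

lemma frame_special (e n : Fin 3 → ℝ) (he : ∑ A, e A ^ 2 = 1) (hn : ∑ A, n A ^ 2 = 1)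
    (hen : ∑ A, e A * n A = 0) :
    CS.IsSpecial ((frame e n).map (fun r : ℝ => (r : ℂ))) := by
  rw [Fin.sum_univ_three] at he hn hen
  have hc : ∀ i j, ((frame e n).map (fun r : ℝ => (r : ℂ))) i j = ((frame e n i j : ℝ) : ℂ) :=
    fun _ _ => rfl
  have key : ∀ C D E : Fin 3, ∑ A, ∑ B, (eps C A B : ℝ) * (frame e n A D * frame e n B E) =
      ∑ F, frame e n C F * (eps F D E : ℝ) := by
    have he0 : ∀ f : Fin 3 → Fin 3 → ℝ, ∑ B, ∑ C, (eps 0 B C : ℝ) * f B C = f 1 2 - f 2 1 := by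
      intro f
      have h : eps 0 0 0 = 0 ∧ eps 0 0 1 = 0 ∧ eps 0 0 2 = 0 ∧ eps 0 1 0 = 0 ∧ eps 0 1 1 = 0 ∧
          eps 0 1 2 = 1 ∧ eps 0 2 0 = 0 ∧ eps 0 2 1 = -1 ∧ eps 0 2 2 = 0 := by decide
      obtain ⟨h1, h2, h3, h4, h5, h6, h7, h8, h9⟩ := h
      simp only [Fin.sum_univ_three, h1, h2, h3, h4, h5, h6, h7, h8, h9]
      push_cast; ring
    have he1 : ∀ f : Fin 3 → Fin 3 → ℝ, ∑ B, ∑ C, (eps 1 B C : ℝ) * f B C = f 2 0 - f 0 2 := by
      intro f
      have h : eps 1 0 0 = 0 ∧ eps 1 0 1 = 0 ∧ eps 1 0 2 = -1 ∧ eps 1 1 0 = 0 ∧ eps 1 1 1 = 0 ∧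
          eps 1 1 2 = 0 ∧ eps 1 2 0 = 1 ∧ eps 1 2 1 = 0 ∧ eps 1 2 2 = 0 := by decide
      obtain ⟨h1, h2, h3, h4, h5, h6, h7, h8, h9⟩ := h
      simp only [Fin.sum_univ_three, h1, h2, h3, h4, h5, h6, h7, h8, h9]
      push_cast; ring
    have he2 : ∀ f : Fin 3 → Fin 3 → ℝ, ∑ B, ∑ C, (eps 2 B C : ℝ) * f B C = f 0 1 - f 1 0 := by
      intro f
      have h : eps 2 0 0 = 0 ∧ eps 2 0 1 = 1 ∧ eps 2 0 2 = 0 ∧ eps 2 1 0 = -1 ∧ eps 2 1 1 = 0 ∧
          eps 2 1 2 = 0 ∧ eps 2 2 0 = 0 ∧ eps 2 2 1 = 0 ∧ eps 2 2 2 = 0 := by decide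
      obtain ⟨h1, h2, h3, h4, h5, h6, h7, h8, h9⟩ := h
      simp only [Fin.sum_univ_three, h1, h2, h3, h4, h5, h6, h7, h8, h9]
      push_cast; ring
    have hv : (eps 0 0 0 : ℝ) = 0 ∧ (eps 0 0 1 : ℝ) = 0 ∧ (eps 0 0 2 : ℝ) = 0 ∧
        (eps 0 1 0 : ℝ) = 0 ∧ (eps 0 1 1 : ℝ) = 0 ∧ (eps 0 1 2 : ℝ) = 1 ∧ (eps 0 2 0 : ℝ) = 0 ∧
        (eps 0 2 1 : ℝ) = -1 ∧ (eps 0 2 2 : ℝ) = 0 := by
      have h : eps 0 0 0 = 0 ∧ eps 0 0 1 = 0 ∧ eps 0 0 2 = 0 ∧ eps 0 1 0 = 0 ∧ eps 0 1 1 = 0 ∧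
          eps 0 1 2 = 1 ∧ eps 0 2 0 = 0 ∧ eps 0 2 1 = -1 ∧ eps 0 2 2 = 0 := by decide
      exact_mod_cast h
    have hv1 : (eps 1 0 0 : ℝ) = 0 ∧ (eps 1 0 1 : ℝ) = 0 ∧ (eps 1 0 2 : ℝ) = -1 ∧
        (eps 1 1 0 : ℝ) = 0 ∧ (eps 1 1 1 : ℝ) = 0 ∧ (eps 1 1 2 : ℝ) = 0 ∧ (eps 1 2 0 : ℝ) = 1 ∧
        (eps 1 2 1 : ℝ) = 0 ∧ (eps 1 2 2 : ℝ) = 0 := by
      have h : eps 1 0 0 = 0 ∧ eps 1 0 1 = 0 ∧ eps 1 0 2 = -1 ∧ eps 1 1 0 = 0 ∧ eps 1 1 1 = 0 ∧
          eps 1 1 2 = 0 ∧ eps 1 2 0 = 1 ∧ eps 1 2 1 = 0 ∧ eps 1 2 2 = 0 := by decide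
      exact_mod_cast h
    have hv2 : (eps 2 0 0 : ℝ) = 0 ∧ (eps 2 0 1 : ℝ) = 1 ∧ (eps 2 0 2 : ℝ) = 0 ∧
        (eps 2 1 0 : ℝ) = -1 ∧ (eps 2 1 1 : ℝ) = 0 ∧ (eps 2 1 2 : ℝ) = 0 ∧ (eps 2 2 0 : ℝ) = 0 ∧
        (eps 2 2 1 : ℝ) = 0 ∧ (eps 2 2 2 : ℝ) = 0 := by
      have h : eps 2 0 0 = 0 ∧ eps 2 0 1 = 1 ∧ eps 2 0 2 = 0 ∧ eps 2 1 0 = -1 ∧ eps 2 1 1 = 0 ∧
          eps 2 1 2 = 0 ∧ eps 2 2 0 = 0 ∧ eps 2 2 1 = 0 ∧ eps 2 2 2 = 0 := by decide
      exact_mod_cast h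
    obtain ⟨a1, a2, a3, a4, a5, a6, a7, a8, a9⟩ := hv
    obtain ⟨b1, b2, b3, b4, b5, b6, b7, b8, b9⟩ := hv1
    obtain ⟨c1, c2, c3, c4, c5, c6, c7, c8, c9⟩ := hv2
    intro C D E
    fin_cases C
    · simp only [Fin.zero_eta, he0]
      fin_cases D <;> fin_cases E <;>
        simp only [Fin.zero_eta, Fin.mk_one, Fin.reduceFinMk, Fin.sum_univ_three, frame_0, frame_2,
          frame_10, frame_11, frame_12, a1, a2, a3, a4, a5, a6, a7, a8, a9,
          b1, b2, b3, b4, b5, b6, b7, b8, b9, c1, c2, c3, c4, c5, c6, c7, c8, c9]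
      · ring
      · linear_combination e 2 * hn - n 2 * hen
      · linear_combination -e 1 * hn + n 1 * hen
      · linear_combination -e 2 * hn + n 2 * hen
      · ring
      · linear_combination e 0 * hn - n 0 * hen
      · linear_combination e 1 * hn - n 1 * hen
      · linear_combination -e 0 * hn + n 0 * hen
      · ring
    · simp only [Fin.mk_one, he1]
      fin_cases D <;> fin_cases E <;>
        simp only [Fin.zero_eta, Fin.mk_one, Fin.reduceFinMk, Fin.sum_univ_three, frame_0, frame_2,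
          frame_10, frame_11, frame_12, a1, a2, a3, a4, a5, a6, a7, a8, a9,
          b1, b2, b3, b4, b5, b6, b7, b8, b9, c1, c2, c3, c4, c5, c6, c7, c8, c9] <;> ring
    · simp only [Fin.reduceFinMk, he2]
      fin_cases D <;> fin_cases E <;>
        simp only [Fin.zero_eta, Fin.mk_one, Fin.reduceFinMk, Fin.sum_univ_three, frame_0, frame_2,
          frame_10, frame_11, frame_12, a1, a2, a3, a4, a5, a6, a7, a8, a9,
          b1, b2, b3, b4, b5, b6, b7, b8, b9, c1, c2, c3, c4, c5, c6, c7, c8, c9]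
      · ring
      · linear_combination n 2 * he - e 2 * hen
      · linear_combination -n 1 * he + e 1 * hen
      · linear_combination -n 2 * he + e 2 * hen
      · ring
      · linear_combination n 0 * he - e 0 * hen
      · linear_combination n 1 * he - e 1 * hen
      · linear_combination -n 0 * he + e 0 * hen
      · ring
  intro C D E
  simp only [hc]
  exact_mod_cast key C D E

namespace Setup

variable (S : Setup F) {E : Fin 9 → ℝ}

lemma map_orth {O : Matrix (Fin 3) (Fin 3) ℝ} (hO : O * Oᵀ = 1) :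
    (O.map (fun r : ℝ => (r : ℂ))) * (O.map (fun r : ℝ => (r : ℂ)))ᵀ = 1 := by
  have h := congrArg (fun M : Matrix (Fin 3) (Fin 3) ℝ => M.map (Complex.ofRealHom : ℝ →+* ℂ)) hO
  simp only [Matrix.map_mul] at h
  have h1 : (1 : Matrix (Fin 3) (Fin 3) ℝ).map (Complex.ofRealHom : ℝ →+* ℂ) = 1 :=
    Matrix.map_one _ (map_zero _) (map_one _)
  rw [h1] at h
  exact h

/-- the setup rotated by `O` -/
noncomputable def rotS (O : Matrix (Fin 3) (Fin 3) ℝ) (hO : O * Oᵀ = 1) : Setup F where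
  toCS := S.toCS.rot (O.map (fun r : ℝ => (r : ℂ))) (map_orth hO)
  κ := S.κ
  κ_pos := S.κ_pos
  g_real := S.g_real
  th_sa := by
    intro α A v w
    have h : ∀ y, (S.toCS.rot (O.map (fun r : ℝ => (r : ℂ))) (map_orth hO)).th α A y =
        ∑ C, ((O A C : ℝ) : ℂ) • S.th α C y := by
      intro y
      simp only [CS.rot, _root_.sum_apply, _root_.smul_apply, Matrix.map_apply]
    rw [h, h, sum_inner, inner_sum]
    refine Finset.sum_congr rfl fun C _ => ?_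
    rw [inner_smul_left, inner_smul_right, Complex.conj_ofReal, S.th_sa]

variable {S}

lemma Fx_eq (x : X3) : S.Fx x = S.toCS.Fv (S.κ : ℂ) (Xc x) := by
  ext v
  simp only [Fx, CS.Fv, Xc, _root_.sum_apply, _root_.smul_apply]

lemma Bd_app (x : X3) (v : F) : Bd S x v =
    Complex.I • ∑ β, S.toCS.Bv (Xc x) β (S.toCS.Mv (Xc x) β v) := by
  simp only [Bd, _root_.sum_apply, _root_.smul_apply, mul_apply_eq_comp, B_eq, Mult_eq]

/-- rank-one points -/
lemma rank_one (x : X3) (hx : ‖x‖ = 1) (hV : S.V x = 0) :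
    ∃ (E : Fin 9 → ℝ) (n : Fin 3 → ℝ), ∑ i, E i ^ 2 = 1 ∧ ∑ A, n A ^ 2 = 1 ∧
      ∀ i A, x (i, A) = E i * n A := by
  have hFF : ∀ A i j, S.FF A i j x = 0 := by
    have h4 : ∑ A, ∑ i, ∑ j, (S.FF A i j x) ^ 2 = 0 := by
      unfold V at hV; linarith
    intro A i j
    have n2 : ∀ A i, 0 ≤ ∑ j, (S.FF A i j x) ^ 2 := fun _ _ => Finset.sum_nonneg fun _ _ => sq_nonneg _
    have n1 : ∀ A, 0 ≤ ∑ i, ∑ j, (S.FF A i j x) ^ 2 := fun _ => Finset.sum_nonneg fun _ _ => n2 _ _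
    have z1 := (Finset.sum_eq_zero_iff_of_nonneg fun a _ => n1 a).mp h4 A (Finset.mem_univ _)
    have z2 := (Finset.sum_eq_zero_iff_of_nonneg fun a _ => n2 A a).mp z1 i (Finset.mem_univ _)
    have z3 := (Finset.sum_eq_zero_iff_of_nonneg fun a _ => sq_nonneg (S.FF A i a x)).mp z2 j
      (Finset.mem_univ _)
    simpa using z3
  have hκ : (S.κ : ℂ) ≠ 0 := by exact_mod_cast S.κ_pos.ne'
  have h0 : ∀ i j, x (i, 1) * x (j, 2) = x (i, 2) * x (j, 1) := by
    intro i j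
    have h := S.FF_eq 0 i j x
    rw [hFF, Complex.ofReal_zero, CS.FFc_0] at h
    have h2 := (mul_eq_zero.mp h.symm).resolve_left hκ
    simp only [Xc] at h2
    have h3 : x (i, 1) * x (j, 2) - x (i, 2) * x (j, 1) = 0 := by
      apply Complex.ofReal_injective; push_cast; exact h2
    linarith
  have h1 : ∀ i j, x (i, 2) * x (j, 0) = x (i, 0) * x (j, 2) := by
    intro i j
    have h := S.FF_eq 1 i j x
    rw [hFF, Complex.ofReal_zero, CS.FFc_1] at h
    have h2 := (mul_eq_zero.mp h.symm).resolve_left hκ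
    simp only [Xc] at h2
    have h3 : x (i, 2) * x (j, 0) - x (i, 0) * x (j, 2) = 0 := by
      apply Complex.ofReal_injective; push_cast; exact h2
    linarith
  have h2 : ∀ i j, x (i, 0) * x (j, 1) = x (i, 1) * x (j, 0) := by
    intro i j
    have h := S.FF_eq 2 i j x
    rw [hFF, Complex.ofReal_zero, CS.FFc_2] at h
    have h2 := (mul_eq_zero.mp h.symm).resolve_left hκ
    simp only [Xc] at h2
    have h3 : x (i, 0) * x (j, 1) - x (i, 1) * x (j, 0) = 0 := by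
      apply Complex.ofReal_injective; push_cast; exact h2
    linarith
  have hcr : ∀ i j A B, x (i, A) * x (j, B) = x (i, B) * x (j, A) := by
    intro i j A B
    fin_cases A <;> fin_cases B <;> simp only [Fin.zero_eta, Fin.mk_one, Fin.reduceFinMk]
    · exact h2 i j
    · exact (h1 i j).symm
    · exact (h2 i j).symm
    · exact h0 i j
    · exact h1 i j
    · exact (h0 i j).symm
  have hsum : ∑ i, ∑ A, x (i, A) ^ 2 = 1 := by
    have h := EuclideanSpace.norm_sq_eq x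
    rw [hx] at h
    simp only [Real.norm_eq_abs, sq_abs, Fintype.sum_prod_type] at h
    linarith
  obtain ⟨i0, hi0⟩ : ∃ i0, ∑ A, x (i0, A) ^ 2 ≠ 0 := by
    by_contra hcon
    push Not at hcon
    simp only [hcon, Finset.sum_const_zero] at hsum
    exact zero_ne_one hsum
  have hpos : 0 < ∑ A, x (i0, A) ^ 2 :=
    lt_of_le_of_ne (Finset.sum_nonneg fun _ _ => sq_nonneg _) (Ne.symm hi0)
  set r := Real.sqrt (∑ A, x (i0, A) ^ 2) with hr
  have hr2 : r ^ 2 = ∑ A, x (i0, A) ^ 2 := Real.sq_sqrt hpos.le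
  have hrp : 0 < r := Real.sqrt_pos.mpr hpos
  set n : Fin 3 → ℝ := fun A => x (i0, A) / r with hn
  have hn1 : ∑ A, n A ^ 2 = 1 := by
    simp only [hn, div_pow, ← Finset.sum_div]
    rw [← hr2]; field_simp
  have hxn : ∀ j A, x (j, A) = (∑ B, x (j, B) * n B) * n A := by
    intro j A
    have h : ∀ B, x (j, B) * n B * n A = x (j, A) * n B ^ 2 := by
      intro B
      simp only [hn]
      have := hcr j i0 B A
      field_simp
      linear_combination (x (i0, B)) * this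
    rw [Finset.sum_mul, Finset.sum_congr rfl fun B _ => h B, ← Finset.mul_sum, hn1, mul_one]
  refine ⟨fun j => ∑ B, x (j, B) * n B, n, ?_, hn1, hxn⟩
  have h3 : ∀ j, (∑ B, x (j, B) * n B) ^ 2 = ∑ A, x (j, A) ^ 2 := by
    intro j
    have : ∑ A, x (j, A) ^ 2 = ∑ A, ((∑ B, x (j, B) * n B) * n A) ^ 2 := by
      refine Finset.sum_congr rfl fun A _ => ?_
      rw [← hxn]
    rw [this]
    simp only [mul_pow, ← Finset.mul_sum, hn1, mul_one]
  simp only [h3, hsum]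

lemma Fv_XE (κ : ℂ) (w : F) : S.toCS.Fv κ (XE E) w = (Complex.I * κ) • S.bil (S.gE E) 0 1 w := by
  have h0 : eps 2 0 0 = 0 ∧ eps 2 0 1 = 1 ∧ eps 2 0 2 = 0 ∧ eps 2 1 0 = -1 ∧ eps 2 1 1 = 0 ∧
      eps 2 1 2 = 0 ∧ eps 2 2 0 = 0 ∧ eps 2 2 1 = 0 ∧ eps 2 2 2 = 0 := by decide
  obtain ⟨h1, h2, h3, h4, h5, h6, h7, h8, h9⟩ := h0
  rw [S.toCS.Fv_eq]
  simp only [XE_sum, _root_.sum_apply, _root_.smul_apply]
  simp only [Fin.sum_univ_three, h1, h2, h3, h4, h5, h6, h7, h8, h9]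
  have e1 : ∀ j, S.bil (S.g j) 1 0 w = -S.bil (S.g j) 0 1 w := by
    intro j
    have h := S.bil_swap_app (S.g j) 1 0 w
    simp only [show ¬((1 : Fin 3) = 0) by decide, if_false, zero_sub, S.g_symm] at h
    exact h
  have e2 : S.bil (S.gE E) 0 1 w = ∑ j, (E j : ℂ) • S.bil (S.g j) 0 1 w := by
    simp only [gE, S.toCS.bil_sum, S.toCS.bil_smul, _root_.sum_apply, _root_.smul_apply]
  rw [e2, Finset.smul_sum, Finset.smul_sum]
  refine Finset.sum_congr rfl fun j _ => ?_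
  rw [e1]
  push_cast
  module

/-- the vacuum bound in the standard frame -/
lemma std_vacuum (hE : ∑ i, E i ^ 2 = 1) (κ : ℝ) (v : F) :
    (inner ℂ v (S.toCS.Fv (κ : ℂ) (XE E) v)).re + 8 * κ * ‖v‖ ^ 2 =
      κ / 2 * ∑ α, ‖S.th α 0 v - (-Complex.I) • S.vec (S.gE E) 1 α v‖ ^ 2 := by
  have hn : ∀ y : F, (inner ℂ y y : ℂ) = ((‖y‖ ^ 2 : ℝ) : ℂ) := by
    intro y; rw [inner_self_eq_norm_sq_to_K]; push_cast; rfl
  have hC : ((κ / 2 * ∑ α, ‖S.th α 0 v - (-Complex.I) • S.vec (S.gE E) 1 α v‖ ^ 2 : ℝ) : ℂ) =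
      (κ / 2 : ℂ) * (16 * inner ℂ v v + 2 * (Complex.I * inner ℂ v (S.bil (S.gE E) 0 1 v))) := by
    have e1 : ∀ α, ((‖S.th α 0 v - (-Complex.I) • S.vec (S.gE E) 1 α v‖ ^ 2 : ℝ) : ℂ) =
        inner ℂ v (S.th α 0 (S.vec 1 0 α v)) +
        Complex.I * inner ℂ v (S.th α 0 (S.vec (S.gE E) 1 α v)) -
        Complex.I * inner ℂ v (S.vec (S.gE E) 1 α (S.vec 1 0 α v)) +
        inner ℂ v (S.vec (S.gE E) 1 α (S.vec (S.gE E) 1 α v)) := by
      intro α
      rw [← hn, inner_sub_left, inner_sub_right, inner_sub_right, inner_smul_left,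
        inner_smul_left, inner_smul_right, inner_smul_right, S.th_symm, S.th_symm,
        S.vec_symm _ (S.gE_im E), S.vec_symm _ (S.gE_im E), ← th_eq_vec]
      simp only [map_neg, Complex.conj_I, neg_neg]
      have := Complex.I_mul_I
      linear_combination (-inner ℂ v ((S.vec (S.gE E) 1 α) ((S.vec (S.gE E) 1 α) v))) * this
    push_cast at e1 ⊢
    simp only [e1, Finset.sum_add_distrib, Finset.sum_sub_distrib, ← Finset.mul_sum, ← inner_sum]
    have f1 : ∑ α, S.th α 0 (S.vec 1 0 α v) = (8 : ℂ) • v := by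
      rw [← bil_apply, bil_one_app]
    have f2 : ∑ α, S.th α 0 (S.vec (S.gE E) 1 α v) = S.bil (S.gE E) 0 1 v := by
      rw [← bil_apply]
    have f3 : ∑ α, S.vec (S.gE E) 1 α (S.vec 1 0 α v) = -S.bil (S.gE E) 0 1 v := by
      rw [sum_vec_vec, mul_one, S.gE_symm]
      have h := S.bil_swap_app (S.gE E) 1 0 v
      simp only [show ¬((1 : Fin 3) = 0) by decide, if_false, zero_sub, S.gE_symm] at h
      exact h
    have f4 : ∑ α, S.vec (S.gE E) 1 α (S.vec (S.gE E) 1 α v) = (8 : ℂ) • v := by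
      rw [sum_vec_vec, S.gE_symm, S.gE_sq E hE, bil_one_app]
    rw [f1, f2, f3, f4, inner_smul_right, inner_neg_right]
    ring
  have hR : (inner ℂ v (S.toCS.Fv (κ : ℂ) (XE E) v)).re + 8 * κ * ‖v‖ ^ 2 =
      ((κ / 2 : ℂ) * (16 * inner ℂ v v + 2 * (Complex.I * inner ℂ v (S.bil (S.gE E) 0 1 v)))).re := by
    rw [Fv_XE, inner_smul_right, hn v]
    have : (κ / 2 : ℂ) * (16 * ((‖v‖ ^ 2 : ℝ) : ℂ) + 2 * (Complex.I *
        inner ℂ v (S.bil (S.gE E) 0 1 v))) = ((8 * κ * ‖v‖ ^ 2 : ℝ) : ℂ) +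
        Complex.I * κ * inner ℂ v (S.bil (S.gE E) 0 1 v) := by
      push_cast; ring
    rw [this, Complex.add_re, Complex.ofReal_re]
    ring
  rw [hR, ← hC, Complex.ofReal_re]

/-- the vacuum theorem -/
theorem vacuum (S : Setup F) (x : X3) (hx : ‖x‖ = 1) (hV : S.V x = 0) (v : F) :
    0 ≤ (inner ℂ v (S.Fx x v)).re + 8 * S.κ * ‖v‖ ^ 2 ∧
    ((inner ℂ v (S.Fx x v)).re + 8 * S.κ * ‖v‖ ^ 2 = 0 →
      56 * ‖v‖ ^ 2 ≤ (inner ℂ v (S.O1 v)).re ∧
      (inner ℂ v (Bd S x v)).re ≤ 56 / 9 * ‖v‖ ^ 2) := by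
  obtain ⟨E, n, hE, hn, hxE⟩ := rank_one (S := S) x hx hV
  obtain ⟨e, he, hen⟩ := exists_orth n
  have hO := frame_orth e n he hn hen
  have hsp := frame_special e n he hn hen
  set S' := S.rotS (frame e n) hO with hS'
  have hX : CS.rotX ((frame e n).map (fun r : ℝ => (r : ℂ))) (Xc x) = XE E := by
    funext j A
    simp only [CS.rotX, Matrix.map_apply, Xc, hxE, XE]
    have hrow := congrFun (congrFun hO A) 2
    rw [Matrix.mul_apply, Matrix.one_apply] at hrow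
    simp only [Matrix.transpose_apply, frame_2] at hrow
    have : ∑ D, ((frame e n A D : ℝ) : ℂ) * ((E j * n D : ℝ) : ℂ) =
        (E j : ℂ) * ((∑ D, frame e n A D * n D : ℝ) : ℂ) := by
      push_cast
      rw [Finset.mul_sum]
      refine Finset.sum_congr rfl fun D _ => ?_
      ring
    rw [this, hrow]
    split_ifs <;> simp
  have hF : ∀ w, S.Fx x w = S'.toCS.Fv (S.κ : ℂ) (XE E) w := by
    intro w
    rw [Fx_eq, ← hX]
    have := S.toCS.rot_Fv _ (map_orth hO) hsp (S.κ : ℂ) (Xc x)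
    exact congrArg (fun T : F →L[ℂ] F => T w) this.symm
  have hB : ∀ β w, S.toCS.Bv (Xc x) β w = S'.toCS.Bv (XE E) β w := by
    intro β w
    rw [← hX]
    have := S.toCS.rot_Bv _ (map_orth hO) (Xc x) β
    exact congrArg (fun T : F →L[ℂ] F => T w) this.symm
  have hM : ∀ β w, S.toCS.Mv (Xc x) β w = S'.toCS.Mv (XE E) β w := by
    intro β w
    rw [← hX]
    have := S.toCS.rot_Mv _ (map_orth hO) hsp (Xc x) β
    exact congrArg (fun T : F →L[ℂ] F => T w) this.symm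
  have hO1 : ∀ w, S.O1 w = S'.O1 w := by
    intro w
    rw [O1_apply, O1_apply]
    have h1 : ∀ k l y, S.toCS.Sk k l y = S'.toCS.Sk k l y := by
      intro k l y
      exact congrArg (fun T : F →L[ℂ] F => T y) (S.toCS.rot_Sk _ (map_orth hO) k l).symm
    have hTo : S'.toCS = S.toCS.rot _ (map_orth hO) := rfl
    have h2 : ∑ C, S.toCS.sG C (S.toCS.sG C w) = ∑ C, S'.toCS.sG C (S'.toCS.sG C w) := by
      have := congrArg (fun T : F →L[ℂ] F => T w) (S.toCS.rot_CG _ (map_orth hO) hsp)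
      simp only [_root_.sum_apply, mul_apply_eq_comp] at this
      rw [hTo]
      exact this.symm
    have h3 : ∑ k, ∑ l, S.toCS.Sk k l (S.toCS.Sk k l w) =
        ∑ k, ∑ l, S'.toCS.Sk k l (S'.toCS.Sk k l w) :=
      Finset.sum_congr rfl fun k _ => Finset.sum_congr rfl fun l _ => by
        rw [h1 k l, h1 k l w]
    rw [h2, h3]
  have hvac := std_vacuum (S := S') hE S.κ v
  rw [hF, hO1, Bd_app]
  simp only [hB, hM]
  rw [hvac]
  have hκ := S.κ_pos
  refine ⟨mul_nonneg (by positivity) (Finset.sum_nonneg fun _ _ => sq_nonneg _), fun h0 => ?_⟩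
  have hVac : S'.Vac E v := by
    intro α
    have h1 : ∑ α, ‖S'.th α 0 v - (-Complex.I) • S'.vec (S'.gE E) 1 α v‖ ^ 2 = 0 := by
      rcases mul_eq_zero.mp h0 with h | h
      · linarith
      · exact h
    have h2 := (Finset.sum_eq_zero_iff_of_nonneg fun a _ => sq_nonneg _).mp h1 α
      (Finset.mem_univ _)
    have h3 : S'.th α 0 v - (-Complex.I) • S'.vec (S'.gE E) 1 α v = 0 := by
      simpa using h2
    exact sub_eq_zero.mp h3
  have hnv : (inner ℂ v v : ℂ) = ((‖v‖ ^ 2 : ℝ) : ℂ) := by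
    rw [inner_self_eq_norm_sq_to_K]; push_cast; rfl
  constructor
  · rw [hVac.O1 hE, hnv]
    have : (56 : ℂ) * ((‖v‖ ^ 2 : ℝ) : ℂ) = ((56 * ‖v‖ ^ 2 : ℝ) : ℂ) := by push_cast; ring
    rw [this, Complex.ofReal_re]
  · rw [hVac.Bd hE, hnv]
    have hW := WW_le (S := S') (v := v) hE
    have : ((1 / 27 : ℂ) * (-144 * ((‖v‖ ^ 2 : ℝ) : ℂ) + 52 / 3 * WW S' E v)).re =
        (1 / 27) * (-144 * ‖v‖ ^ 2 + 52 / 3 * (WW S' E v).re) := by
      have : (1 / 27 : ℂ) * (-144 * ((‖v‖ ^ 2 : ℝ) : ℂ) + 52 / 3 * WW S' E v) =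
          ((-144 / 27 * ‖v‖ ^ 2 : ℝ) : ℂ) + ((52 / 81 : ℝ) : ℂ) * WW S' E v := by
        push_cast; ring
      rw [this, Complex.add_re, Complex.ofReal_re, Complex.re_ofReal_mul]
      ring
    rw [this]
    linarith

theorem vacuumStmt (S : Setup F) : VacuumStmt S := fun x hx hV v => S.vacuum x hx hV v

end Setup
end Vale.Agent.P353
end
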