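import Mathlib
import Vale.Agent.P353.BdU.B5
import Vale.Agent.P353.BdU.B2
import Vale.Agent.P353.BdU.B3

set_option linter.all false

section

open MeasureTheory Filter Topology
open scoped ContDiff

namespace Vale.Agent.P353

/-! ### the Clifford module is finite dimensional -/

section FD

variable {N d : ℕ} {F : Type*} [NormedAddCommGroup F] [InnerProductSpace ℂ F] (M : Model N d F)

/-- the span of the products of a list of generators applied to `v` -/
noncomputable def genSub (v : F) : List (Fin 16 × Fin d) → Submodule ℂ F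
  | [] => Submodule.span ℂ {v}
  | a :: l => genSub v l ⊔ (genSub v l).map (M.θ a.1 a.2 : F →ₗ[ℂ] F)

lemma genSub_fd (v : F) (l : List (Fin 16 × Fin d)) : FiniteDimensional ℂ (genSub M v l) := by
  induction l with
  | nil => exact FiniteDimensional.span_singleton ℂ v
  | cons a l ih => 
    rw [genSub]
    infer_instance

lemma mem_genSub (v : F) (l : List (Fin 16 × Fin d)) : v ∈ genSub M v l := by
  induction l with
  | nil => exact Submodule.mem_span_singleton_self v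
  | cons a l ih => exact Submodule.mem_sup_left ih

lemma theta_sq (α : Fin 16) (A : Fin d) (w : F) : M.θ α A (M.θ α A w) = (1 / 2 : ℂ) • w := by
  have h := congrArg (fun T : F →L[ℂ] F => T w) (M.θ_anticomm α A α A)
  simp only [_root_.add_apply, mul_apply_eq_comp, and_self, if_true, one_apply_eq_self] at h
  conv_rhs => rw [← h]
  rw [smul_add, ← add_smul]
  norm_num

lemma genSub_inv (v : F) (l : List (Fin 16 × Fin d)) :
    ∀ b ∈ l, ∀ w ∈ genSub M v l, M.θ b.1 b.2 w ∈ genSub M v l := by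
  induction l with
  | nil => intro b hb; simp at hb
  | cons a l ih =>
    intro b hb w hw
    rw [genSub, Submodule.mem_sup] at hw
    obtain ⟨w1, hw1, w2', hw2', rfl⟩ := hw
    obtain ⟨w2, hw2, rfl⟩ := Submodule.mem_map.mp hw2'
    rw [map_add]
    rw [genSub]
    change M.θ b.1 b.2 w1 + M.θ b.1 b.2 (M.θ a.1 a.2 w2) ∈ _
    by_cases hba : b = a
    · subst hba
      rw [theta_sq]
      refine Submodule.add_mem _ ?_ ?_
      · exact Submodule.mem_sup_right (Submodule.mem_map.mpr ⟨w1, hw1, rfl⟩)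
      · exact Submodule.mem_sup_left (Submodule.smul_mem _ _ hw2)
    · have hbl : b ∈ l := by
        rcases List.mem_cons.mp hb with h | h
        · exact absurd h hba
        · exact h
      have h := congrArg (fun T : F →L[ℂ] F => T w2) (M.θ_anticomm b.1 b.2 a.1 a.2)
      have hne : ¬ (b.1 = a.1 ∧ b.2 = a.2) := fun hh => hba (Prod.ext hh.1 hh.2)
      simp only [_root_.add_apply, mul_apply_eq_comp, if_neg hne, _root_.zero_apply] at h
      have h2 : M.θ b.1 b.2 (M.θ a.1 a.2 w2) = -(M.θ a.1 a.2 (M.θ b.1 b.2 w2)) :=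
        eq_neg_of_add_eq_zero_left h
      rw [h2]
      refine Submodule.add_mem _ ?_ (Submodule.neg_mem _ ?_)
      · exact Submodule.mem_sup_left (ih b hbl w1 hw1)
      · exact Submodule.mem_sup_right (Submodule.mem_map.mpr ⟨_, ih b hbl w2 hw2, rfl⟩)

include M in
theorem Model.finiteDimensional : FiniteDimensional ℂ F := by
  obtain ⟨v, hv⟩ := M.nontrivial
  set l := (Finset.univ : Finset (Fin 16 × Fin d)).toList with hl
  have hinv : ∀ α A, ∀ w ∈ genSub M v l, M.θ α A w ∈ genSub M v l := by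
    intro α A w hw
    exact genSub_inv M v l (α, A) (by rw [hl, Finset.mem_toList]; exact Finset.mem_univ _) w hw
  rcases M.θ_irreducible _ hinv with h | h
  · exfalso
    have := mem_genSub M v l
    rw [h, Submodule.mem_bot] at this
    exact hv this
  · have h1 := genSub_fd M v l
    rw [h] at h1
    exact Module.finite_def.mpr ((Submodule.fg_iff_finiteDimensional _).mpr h1)

end FD

/-! ### the abstract setup attached to a model -/

variable {F : Type*} [NormedAddCommGroup F] [InnerProductSpace ℂ F] (M : Model 2 3 F)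

/-- the sign of the structure constant -/
noncomputable def sgnM : ℝ := if 0 < M.f 0 1 2 then 1 else -1

lemma sgnM_sq : sgnM M * sgnM M = 1 := by
  unfold sgnM; split_ifs <;> norm_num

lemma sgnM_mul_pos : 0 < sgnM M * M.f 0 1 2 := by
  have h := f_sq M
  unfold sgnM
  split_ifs with hh
  · linarith
  · push Not at hh
    have : M.f 0 1 2 ≠ 0 := by
      intro h0; rw [h0] at h; norm_num at h
    have : M.f 0 1 2 < 0 := lt_of_le_of_ne hh this
    linarith

/-- the real matrix as a complex one with a sign -/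
noncomputable def gC (i : Fin 9) : Matrix (Fin 16) (Fin 16) ℂ :=
  Matrix.of fun α β => ((sgnM M * M.γ i α β : ℝ) : ℂ)

lemma gC_mul (i j : Fin 9) (α β : Fin 16) : (gC M i * gC M j) α β =
    (((M.γ i * M.γ j) α β : ℝ) : ℂ) := by
  simp only [Matrix.mul_apply, gC, Matrix.of_apply]
  push_cast
  refine Finset.sum_congr rfl fun k _ => ?_
  have h : ((sgnM M : ℝ) : ℂ) * ((sgnM M : ℝ) : ℂ) = 1 := by
    rw [← Complex.ofReal_mul, sgnM_sq]; simp
  linear_combination (M.γ i α k : ℂ) * (M.γ j k β : ℂ) * h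

/-- the abstract setup of a model -/
noncomputable def Model.toSetup : Setup F where
  g := gC M
  g_symm := by
    intro i
    ext α β
    have h := congrArg (fun m : Matrix (Fin 16) (Fin 16) ℝ => m α β) (M.γ_symm i)
    simp only [Matrix.transpose_apply] at h
    simp [gC, h]
  g_anti := by
    intro i j
    ext α β
    rw [Matrix.add_apply, gC_mul, gC_mul]
    have h := congrArg (fun m : Matrix (Fin 16) (Fin 16) ℝ => m α β) (M.γ_anticomm i j)
    simp only [Matrix.add_apply] at h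
    rw [← Complex.ofReal_add, h]
    by_cases hij : i = j
    · rw [if_pos hij, if_pos hij]
      by_cases hab : α = β
      · subst hab
        have e1 : (2 : Matrix (Fin 16) (Fin 16) ℝ) α α = 2 := by
          have : (2 : Matrix (Fin 16) (Fin 16) ℝ) = 1 + 1 := by norm_num
          rw [this, Matrix.add_apply, Matrix.one_apply_eq]; norm_num
        have e2 : (2 : Matrix (Fin 16) (Fin 16) ℂ) α α = 2 := by
          have : (2 : Matrix (Fin 16) (Fin 16) ℂ) = 1 + 1 := by norm_num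
          rw [this, Matrix.add_apply, Matrix.one_apply_eq]; norm_num
        rw [e1, e2]; simp
      · have e1 : (2 : Matrix (Fin 16) (Fin 16) ℝ) α β = 0 := by
          have : (2 : Matrix (Fin 16) (Fin 16) ℝ) = 1 + 1 := by norm_num
          rw [this, Matrix.add_apply, Matrix.one_apply_ne hab]; norm_num
        have e2 : (2 : Matrix (Fin 16) (Fin 16) ℂ) α β = 0 := by
          have : (2 : Matrix (Fin 16) (Fin 16) ℂ) = 1 + 1 := by norm_num
          rw [this, Matrix.add_apply, Matrix.one_apply_ne hab]; norm_num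
        rw [e1, e2]; simp
    · rw [if_neg hij, if_neg hij]; simp
  th := M.θ
  th_anti := M.θ_anticomm
  κ := sgnM M * M.f 0 1 2
  κ_pos := sgnM_mul_pos M
  g_real := by
    intro i α β
    simp [gC]
  th_sa := M.θ_selfAdjoint

lemma toSetup_g2 (i j : Fin 9) (α β : Fin 16) : (M.toSetup).g2 i j α β =
    ((M.γ2 i j α β : ℝ) : ℂ) := by
  change ((1 / 2 : ℂ) • (gC M i * gC M j - gC M j * gC M i)) α β = _
  rw [Matrix.smul_apply, Matrix.sub_apply, gC_mul, gC_mul, Model.γ2, Matrix.smul_apply,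
    Matrix.sub_apply]
  simp

/-- the supercharges agree up to a sign -/
lemma toSetup_Q (β : Fin 16) (u : X3 → F) (x : X3) :
    (M.toSetup).Q β u x = ((sgnM M : ℝ) : ℂ) • M.Q β u x := by
  rw [Setup.Q, Model.Q, smul_add]
  congr 1
  · rw [smul_comm]
    congr 1
    rw [Finset.smul_sum]
    refine Finset.sum_congr rfl fun i _ => ?_
    rw [Finset.sum_comm, Finset.smul_sum]
    refine Finset.sum_congr rfl fun A _ => ?_
    rw [CS.vec, _root_.sum_apply, Finset.smul_sum]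
    refine Finset.sum_congr rfl fun γ _ => ?_
    rw [_root_.smul_apply, smul_smul]
    congr 1
    change ((sgnM M * M.γ i β γ : ℝ) : ℂ) = _
    push_cast; ring
  · rw [Setup.W, _root_.smul_apply, smul_comm]
    have e : ((1 / 2 : ℝ) : ℂ) = (1 / 2 : ℂ) := by norm_num
    rw [e]
    congr 1
    simp only [_root_.sum_apply, Finset.smul_sum]
    -- both sides as sums over A, i, j, γ
    have h1 : ∀ A i j, (((M.toSetup).FF A i j x : ℝ) : ℂ) • (M.toSetup).vec ((M.toSetup).g2 i j) A β (u x) =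
        ∑ B, ∑ C, ∑ γ, ((sgnM M : ℝ) : ℂ) •
          (((M.f A B C * x (i, B) * x (j, C) * M.γ2 i j β γ : ℝ) : ℂ) • M.θ γ A (u x)) := by
      intro A i j
      have hF : (((M.toSetup).FF A i j x : ℝ) : ℂ) =
          ∑ B, ∑ C, ((sgnM M : ℝ) : ℂ) * ((M.f A B C * x (i, B) * x (j, C) : ℝ) : ℂ) := by
        change ((((sgnM M * M.f 0 1 2) * ∑ B, ∑ C, (eps A B C : ℝ) * x (i, B) * x (j, C)) : ℝ) : ℂ) = _
        push_cast
        rw [Finset.mul_sum]
        refine Finset.sum_congr rfl fun B _ => ?_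
        rw [Finset.mul_sum]
        refine Finset.sum_congr rfl fun C _ => ?_
        rw [f_eq_eps M A B C]
        push_cast
        ring
      rw [hF, CS.vec, _root_.sum_apply, Finset.sum_smul]
      refine Finset.sum_congr rfl fun B _ => ?_
      rw [Finset.sum_smul]
      refine Finset.sum_congr rfl fun C _ => ?_
      rw [Finset.smul_sum]
      refine Finset.sum_congr rfl fun γ _ => ?_
      rw [_root_.smul_apply, smul_smul, smul_smul, toSetup_g2]
      congr 1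
      push_cast
      ring
    simp only [_root_.smul_apply]
    simp only [h1]
    refine Finset.sum_congr rfl fun A _ => ?_
    calc _ = ∑ i, ∑ B, ∑ j, ∑ C, ∑ γ, ((sgnM M : ℝ) : ℂ) •
          (((M.f A B C * x (i, B) * x (j, C) * M.γ2 i j β γ : ℝ) : ℂ) • M.θ γ A (u x)) :=
          Finset.sum_congr rfl fun i _ => Finset.sum_comm
      _ = ∑ B, ∑ i, ∑ j, ∑ C, ∑ γ, ((sgnM M : ℝ) : ℂ) •
          (((M.f A B C * x (i, B) * x (j, C) * M.γ2 i j β γ : ℝ) : ℂ) • M.θ γ A (u x)) :=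
          Finset.sum_comm
      _ = ∑ B, ∑ i, ∑ C, ∑ j, ∑ γ, ((sgnM M : ℝ) : ℂ) •
          (((M.f A B C * x (i, B) * x (j, C) * M.γ2 i j β γ : ℝ) : ℂ) • M.θ γ A (u x)) :=
          Finset.sum_congr rfl fun B _ => Finset.sum_congr rfl fun i _ => Finset.sum_comm
      _ = _ := Finset.sum_congr rfl fun B _ => Finset.sum_comm

/-- the gauge generators annihilate the core -/
lemma toSetup_G [FiniteDimensional ℂ F] {u : X3 → F} (hu : M.IsCore u) (C : Fin 3) (x : X3) :
    (M.toSetup).G C u x = 0 := by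
  have h := gauss_law M u hu C x
  have h0 : M.f 0 1 2 ≠ 0 := by
    intro h0
    have := f_sq M
    rw [h0] at this; norm_num at this
  have e1 : ∑ A, ∑ B, ∑ i, ((M.f C A B * x (i, A) : ℝ) : ℂ) • pd i B u x =
      ((M.f 0 1 2 : ℝ) : ℂ) • ∑ i, ∑ A, ∑ B, ((eps C A B : ℂ) * (x (i, A) : ℂ)) • pd i B u x := by
    calc _ = ∑ A, ∑ i, ∑ B, ((M.f C A B * x (i, A) : ℝ) : ℂ) • pd i B u x :=
          Finset.sum_congr rfl fun A _ => Finset.sum_comm
      _ = ∑ i, ∑ A, ∑ B, ((M.f C A B * x (i, A) : ℝ) : ℂ) • pd i B u x := Finset.sum_comm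
      _ = _ := by
        simp only [Finset.smul_sum, smul_smul]
        refine Finset.sum_congr rfl fun i _ => Finset.sum_congr rfl fun A _ =>
          Finset.sum_congr rfl fun B _ => ?_
        congr 1
        rw [f_eq_eps M C A B]
        push_cast
        ring
  have e2 : ∑ A, ∑ B, ∑ α, ((M.f C A B / 2 : ℝ) : ℂ) • M.θ α A (M.θ α B (u x)) =
      ((M.f 0 1 2 : ℝ) : ℂ) • ((1 / 2 : ℂ) • ∑ D, ∑ E, (eps C D E : ℂ) •
        (M.toSetup).bil 1 D E (u x)) := by
    simp only [Finset.smul_sum, smul_smul]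
    refine Finset.sum_congr rfl fun D _ => Finset.sum_congr rfl fun E _ => ?_
    rw [CS.bil, _root_.sum_apply, Finset.smul_sum]
    refine Finset.sum_congr rfl fun α _ => ?_
    rw [CS.vec_one, mul_apply_eq_comp, f_eq_eps M C D E]
    change _ = _ • M.θ α D (M.θ α E (u x))
    congr 1
    push_cast
    ring
  rw [e1, e2, ← smul_add, smul_eq_zero] at h
  have h2 := h.resolve_left (by exact_mod_cast h0)
  rw [Setup.G, Setup.cS, _root_.smul_apply]
  simp only [_root_.sum_apply, _root_.smul_apply]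
  have h3 : ∀ a b : F, a + (1 / 2 : ℂ) • b = 0 → (-Complex.I) • a + (-Complex.I / 2) • b = 0 := by
    intro a b hab
    have : (-Complex.I) • a + (-Complex.I / 2) • b = (-Complex.I) • (a + (1 / 2 : ℂ) • b) := by
      rw [smul_add, smul_smul]; congr 2; ring
    rw [this, hab, smul_zero]
  exact h3 _ _ h2

end Vale.Agent.P353
end

section

/-! # P353, uniqueness for `N = 2`: the fermionic mass term at `ξ₀` (task C-N1) -/

open MeasureTheory Filter Topology
open scoped ContDiff Matrix Kronecker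

namespace Vale.Agent.P353.U

variable {F : Type*} [NormedAddCommGroup F] [InnerProductSpace ℂ F]

/-- the index set of the 48 fermions -/
abbrev N1I : Type := Fin 16 × Fin 3

variable (S : Setup F)

/-- `θ(z)` -/
noncomputable def n1_l (z : N1I → ℂ) : F →L[ℂ] F := ∑ p, z p • S.th p.1 p.2

/-- `∑ K_{pq} θ_p θ_q` -/
noncomputable def n1_q (K : Matrix N1I N1I ℂ) : F →L[ℂ] F :=
  ∑ p, ∑ q, K p q • (S.th p.1 p.2 * S.th q.1 q.2)

lemma n1_q_add (K L : Matrix N1I N1I ℂ) : n1_q S (K + L) = n1_q S K + n1_q S L := by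
  simp only [n1_q, Matrix.add_apply, add_smul, Finset.sum_add_distrib]

lemma n1_q_smul (c : ℂ) (K : Matrix N1I N1I ℂ) : n1_q S (c • K) = c • n1_q S K := by
  simp only [n1_q, Matrix.smul_apply, smul_eq_mul, mul_smul, Finset.smul_sum]

lemma n1_q_neg (K : Matrix N1I N1I ℂ) : n1_q S (-K) = -n1_q S K := by
  simp only [n1_q, Matrix.neg_apply, neg_smul, Finset.sum_neg_distrib]

lemma n1_q_sub (K L : Matrix N1I N1I ℂ) : n1_q S (K - L) = n1_q S K - n1_q S L := by
  rw [sub_eq_add_neg, n1_q_add, n1_q_neg, ← sub_eq_add_neg]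

lemma n1_q_tr (K : Matrix N1I N1I ℂ) :
    n1_q S K + n1_q S Kᵀ = K.trace • (1 : F →L[ℂ] F) := by
  have h1 : n1_q S Kᵀ = ∑ p, ∑ q, K p q • (S.th q.1 q.2 * S.th p.1 p.2) := by
    unfold n1_q
    rw [Finset.sum_comm]
    rfl
  rw [h1]
  unfold n1_q
  rw [← Finset.sum_add_distrib, Matrix.trace, Finset.sum_smul]
  refine Finset.sum_congr rfl fun p _ => ?_
  rw [← Finset.sum_add_distrib]
  rw [Finset.sum_eq_single p]
  · rw [← smul_add, S.th_anti, if_pos ⟨rfl, rfl⟩, Matrix.diag_apply]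
  · intro q _ hq
    rw [← smul_add, S.th_anti, if_neg, smul_zero]
    rintro ⟨h1, h2⟩
    exact hq (Prod.ext h1.symm h2.symm)
  · intro h
    exact absurd (Finset.mem_univ p) h

lemma n1_q_symm {K : Matrix N1I N1I ℂ} (hK : Kᵀ = K) :
    n1_q S K = (K.trace / 2) • (1 : F →L[ℂ] F) := by
  have h := n1_q_tr S K
  rw [hK, ← two_smul ℂ] at h
  calc n1_q S K = (1 / 2 : ℂ) • ((2 : ℂ) • n1_q S K) := by rw [smul_smul]; norm_num
    _ = (K.trace / 2) • (1 : F →L[ℂ] F) := by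
        rw [h, smul_smul]
        congr 1
        ring

/-- products of linear expressions -/
lemma n1_q_sandwich {m : ℕ} (N M : Matrix (Fin m) N1I ℂ) (X : Matrix (Fin m) (Fin m) ℂ) :
    ∑ α, ∑ β, X α β • (n1_l S (N α) * n1_l S (M β)) = n1_q S (Nᵀ * X * M) := by
  have h1 : ∀ α β, X α β • (n1_l S (N α) * n1_l S (M β)) =
      ∑ p, ∑ q, (N α p * X α β * M β q) • (S.th p.1 p.2 * S.th q.1 q.2) := by
    intro α β
    unfold n1_l
    rw [Finset.sum_mul, Finset.smul_sum]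
    refine Finset.sum_congr rfl fun p _ => ?_
    rw [Finset.mul_sum, Finset.smul_sum]
    refine Finset.sum_congr rfl fun q _ => ?_
    rw [smul_mul_smul_comm, smul_smul]
    congr 1
    ring
  have h2 : n1_q S (Nᵀ * X * M) =
      ∑ p, ∑ q, ∑ β, ∑ α, (N α p * X α β * M β q) • (S.th p.1 p.2 * S.th q.1 q.2) := by
    unfold n1_q
    refine Finset.sum_congr rfl fun p _ => Finset.sum_congr rfl fun q _ => ?_
    rw [Matrix.mul_apply, Finset.sum_smul]
    refine Finset.sum_congr rfl fun β _ => ?_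
    rw [Matrix.mul_apply, Finset.sum_mul, Finset.sum_smul]
    rfl
  rw [h2]
  simp_rw [h1]
  calc ∑ α, ∑ β, ∑ p, ∑ q, (N α p * X α β * M β q) • (S.th p.1 p.2 * S.th q.1 q.2)
      = ∑ β, ∑ α, ∑ p, ∑ q, (N α p * X α β * M β q) • (S.th p.1 p.2 * S.th q.1 q.2) :=
        Finset.sum_comm
    _ = ∑ β, ∑ p, ∑ α, ∑ q, (N α p * X α β * M β q) • (S.th p.1 p.2 * S.th q.1 q.2) :=
        Finset.sum_congr rfl fun β _ => Finset.sum_comm
    _ = ∑ p, ∑ β, ∑ α, ∑ q, (N α p * X α β * M β q) • (S.th p.1 p.2 * S.th q.1 q.2) :=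
        Finset.sum_comm
    _ = ∑ p, ∑ β, ∑ q, ∑ α, (N α p * X α β * M β q) • (S.th p.1 p.2 * S.th q.1 q.2) :=
        Finset.sum_congr rfl fun p _ => Finset.sum_congr rfl fun β _ => Finset.sum_comm
    _ = ∑ p, ∑ q, ∑ β, ∑ α, (N α p * X α β * M β q) • (S.th p.1 p.2 * S.th q.1 q.2) :=
        Finset.sum_congr rfl fun p _ => Finset.sum_comm

lemma n1_l_apply (z : N1I → ℂ) (v : F) : n1_l S z v = ∑ p, z p • S.th p.1 p.2 v := by
  unfold n1_l
  rw [_root_.sum_apply]
  rfl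

lemma n1_q_apply (K : Matrix N1I N1I ℂ) (v : F) :
    n1_q S K v = ∑ p, ∑ q, K p q • S.th p.1 p.2 (S.th q.1 q.2 v) := by
  unfold n1_q
  rw [_root_.sum_apply]
  refine Finset.sum_congr rfl fun p _ => ?_
  rw [_root_.sum_apply]
  rfl

/-- `n1_q (Kᴴ K) v` as a sum over the rows of `K` -/
lemma n1_q_rows (K : Matrix N1I N1I ℂ) (v : F) :
    n1_q S (Kᴴ * K) v = ∑ p, n1_l S (fun q => star (K p q)) (n1_l S (K p) v) := by
  rw [n1_q_apply]
  have h1 : ∀ p, n1_l S (fun q => star (K p q)) (n1_l S (K p) v) =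
      ∑ q, ∑ r, (star (K p q) * K p r) • S.th q.1 q.2 (S.th r.1 r.2 v) := by
    intro p
    rw [n1_l_apply]
    refine Finset.sum_congr rfl fun q _ => ?_
    rw [n1_l_apply, map_sum, Finset.smul_sum]
    refine Finset.sum_congr rfl fun r _ => ?_
    rw [map_smul, smul_smul]
  rw [Finset.sum_congr rfl fun p _ => h1 p]
  have h2 : ∀ q r, (Kᴴ * K) q r • S.th q.1 q.2 (S.th r.1 r.2 v) =
      ∑ p, (star (K p q) * K p r) • S.th q.1 q.2 (S.th r.1 r.2 v) := by
    intro q r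
    rw [Matrix.mul_apply, Finset.sum_smul]
    rfl
  calc ∑ q, ∑ r, (Kᴴ * K) q r • S.th q.1 q.2 (S.th r.1 r.2 v)
      = ∑ q, ∑ r, ∑ p, (star (K p q) * K p r) • S.th q.1 q.2 (S.th r.1 r.2 v) :=
        Finset.sum_congr rfl fun q _ => Finset.sum_congr rfl fun r _ => h2 q r
    _ = ∑ q, ∑ p, ∑ r, (star (K p q) * K p r) • S.th q.1 q.2 (S.th r.1 r.2 v) :=
        Finset.sum_congr rfl fun q _ => Finset.sum_comm
    _ = ∑ p, ∑ q, ∑ r, (star (K p q) * K p r) • S.th q.1 q.2 (S.th r.1 r.2 v) :=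
        Finset.sum_comm

lemma n1_l_adj (z : N1I → ℂ) (v w : F) :
    inner ℂ v (n1_l S (fun q => star (z q)) w) = inner ℂ (n1_l S z v) w := by
  rw [n1_l_apply, n1_l_apply, inner_sum, sum_inner]
  refine Finset.sum_congr rfl fun p _ => ?_
  rw [inner_smul_right, inner_smul_left, ← S.th_sa]
  rfl

lemma n1_q_inner (K : Matrix N1I N1I ℂ) (v : F) :
    (inner ℂ v (n1_q S (Kᴴ * K) v)).re = ∑ p, ‖n1_l S (K p) v‖ ^ 2 := by
  rw [n1_q_rows, inner_sum, Complex.re_sum]
  refine Finset.sum_congr rfl fun p _ => ?_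
  rw [n1_l_adj, inner_self_eq_norm_sq_to_K]
  norm_cast

/-! ### the matrices -/

/-- the coefficients of `χ` -/
noncomputable def n1_T : Matrix (Fin 16) N1I ℂ := fun α q => S.g (ci q.2) α q.1

/-- `Γ ⊗ 1` -/
noncomputable def n1_Gh : Matrix N1I N1I ℂ := S.Gam ⊗ₖ (1 : Matrix (Fin 3) (Fin 3) ℂ)

/-- the projection on the trace part -/
noncomputable def n1_P : Matrix N1I N1I ℂ := (1 / 3 : ℂ) • ((n1_T S)ᵀ * n1_T S)

/-- `iΓ ⊗ 1` -/
noncomputable def n1_G : Matrix N1I N1I ℂ := Complex.I • n1_Gh S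

lemma n1_TT : n1_T S * (n1_T S)ᵀ = (3 : ℂ) • (1 : Matrix (Fin 16) (Fin 16) ℂ) := by
  have h1 : n1_T S * (n1_T S)ᵀ = ∑ A : Fin 3, S.g (ci A) * S.g (ci A) := by
    ext α β
    rw [Matrix.mul_apply, Matrix.sum_apply, Fintype.sum_prod_type_right]
    refine Finset.sum_congr rfl fun A _ => ?_
    rw [Matrix.mul_apply]
    refine Finset.sum_congr rfl fun γ _ => ?_
    show S.g (ci A) α γ * S.g (ci A) β γ = S.g (ci A) α γ * S.g (ci A) γ β
    congr 1
    have := congrFun (congrFun (S.g_symm (ci A)) γ) β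
    rw [Matrix.transpose_apply] at this
    exact this
  rw [h1]
  simp_rw [S.g_sq']
  rw [Finset.sum_const, Finset.card_univ, Fintype.card_fin, ← Nat.cast_smul_eq_nsmul ℂ]
  norm_num

lemma n1_T_Gh : n1_T S * n1_Gh S = S.Gam * n1_T S := by
  ext α ⟨β, B⟩
  rw [Matrix.mul_apply, Fintype.sum_prod_type_right, Finset.sum_eq_single B]
  · have h := congrFun (congrFun (S.g_Gam_comm (i := ci B) (by simp [ci])) α) β
    rw [Matrix.mul_apply] at h
    rw [Matrix.mul_apply] at h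
    rw [Matrix.mul_apply]
    refine Eq.trans (Finset.sum_congr rfl fun γ _ => ?_) h
    show S.g (ci B) α γ * (S.Gam γ β * (1 : Matrix (Fin 3) (Fin 3) ℂ) B B) = _
    rw [Matrix.one_apply_eq, mul_one]
  · intro A _ hA
    refine Finset.sum_eq_zero fun γ _ => ?_
    show S.g (ci A) α γ * (S.Gam γ β * (1 : Matrix (Fin 3) (Fin 3) ℂ) A B) = 0
    rw [Matrix.one_apply_ne hA, mul_zero, mul_zero]
  · intro h
    exact absurd (Finset.mem_univ B) h

lemma n1_Gh_sq : n1_Gh S * n1_Gh S = -1 := by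
  unfold n1_Gh
  rw [← Matrix.mul_kronecker_mul, S.Gam_sq, Matrix.one_mul]
  ext ⟨α, A⟩ ⟨β, B⟩
  by_cases h1 : α = β <;> by_cases h2 : A = B <;>
    simp [Matrix.kroneckerMap_apply, h1, h2]

lemma n1_Gh_tr : (n1_Gh S)ᵀ = -n1_Gh S := by
  unfold n1_Gh
  ext ⟨α, A⟩ ⟨β, B⟩
  have h := congrFun (congrFun S.Gam_transpose α) β
  rw [Matrix.transpose_apply, Matrix.neg_apply] at h
  by_cases h2 : A = B
  · simp [Matrix.kroneckerMap_apply, h, h2]
  · simp [Matrix.kroneckerMap_apply, Matrix.one_apply_ne h2, Matrix.one_apply_ne (Ne.symm h2)]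

lemma n1_Tt_Gh : n1_Gh S * (n1_T S)ᵀ = (n1_T S)ᵀ * S.Gam := by
  have h := congrArg Matrix.transpose (n1_T_Gh S)
  rw [Matrix.transpose_mul, Matrix.transpose_mul, n1_Gh_tr, S.Gam_transpose, Matrix.neg_mul,
    Matrix.mul_neg, neg_inj] at h
  exact h

lemma n1_PP : n1_P S * n1_P S = n1_P S := by
  unfold n1_P
  rw [Matrix.smul_mul, Matrix.mul_smul]
  have h : (n1_T S)ᵀ * n1_T S * ((n1_T S)ᵀ * n1_T S) =
      (n1_T S)ᵀ * (n1_T S * (n1_T S)ᵀ) * n1_T S := by simp only [Matrix.mul_assoc]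
  rw [h, n1_TT, Matrix.mul_smul, Matrix.mul_one, Matrix.smul_mul, smul_smul, smul_smul]
  norm_num

lemma n1_PG : n1_P S * n1_G S = n1_G S * n1_P S := by
  unfold n1_P n1_G
  rw [Matrix.smul_mul, Matrix.mul_smul, Matrix.smul_mul, Matrix.mul_smul, smul_comm]
  congr 2
  rw [Matrix.mul_assoc, n1_T_Gh, ← Matrix.mul_assoc, ← n1_Tt_Gh, Matrix.mul_assoc]

lemma n1_GG : n1_G S * n1_G S = 1 := by
  unfold n1_G
  rw [Matrix.smul_mul, Matrix.mul_smul, n1_Gh_sq, smul_smul, Complex.I_mul_I]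
  simp

lemma n1_P_tr : (n1_P S)ᵀ = n1_P S := by
  unfold n1_P
  rw [Matrix.transpose_smul, Matrix.transpose_mul, Matrix.transpose_transpose]

lemma n1_G_tr : (n1_G S)ᵀ = -n1_G S := by
  unfold n1_G
  rw [Matrix.transpose_smul, n1_Gh_tr, smul_neg]

lemma n1_T_star : (n1_T S)ᴴ = (n1_T S)ᵀ := by
  ext p α
  rw [Matrix.conjTranspose_apply, Matrix.transpose_apply]
  exact Complex.conj_eq_iff_im.2 (S.g_real _ _ _)

lemma n1_Tt_star : ((n1_T S)ᵀ)ᴴ = n1_T S := by
  rw [← n1_T_star, Matrix.conjTranspose_conjTranspose]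

lemma n1_P_star : (n1_P S)ᴴ = n1_P S := by
  unfold n1_P
  rw [Matrix.conjTranspose_smul, Matrix.conjTranspose_mul, n1_Tt_star, n1_T_star]
  congr 1
  norm_num

lemma n1_Gh_star : (n1_Gh S)ᴴ = -n1_Gh S := by
  rw [← n1_Gh_tr]
  ext ⟨α, A⟩ ⟨β, B⟩
  rw [Matrix.conjTranspose_apply, Matrix.transpose_apply]
  refine Complex.conj_eq_iff_im.2 ?_
  show (S.Gam β α * (1 : Matrix (Fin 3) (Fin 3) ℂ) B A).im = 0
  rw [Complex.mul_im, S.Gam_real, Matrix.one_apply]
  split_ifs <;> simp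

lemma n1_G_star : (n1_G S)ᴴ = n1_G S := by
  unfold n1_G
  rw [Matrix.conjTranspose_smul, n1_Gh_star, smul_neg, ← neg_smul]
  congr 1
  simp

lemma n1_P_trace : (n1_P S).trace = 16 := by
  unfold n1_P
  rw [Matrix.trace_smul, Matrix.trace_mul_comm, n1_TT, Matrix.trace_smul, Matrix.trace_one]
  norm_num

/-- the reflection whose `+1` eigenspace is the isotropic space -/
noncomputable def n1_R : Matrix N1I N1I ℂ := n1_G S - (2 : ℂ) • (n1_G S * n1_P S)

/-- projection, trace free part -/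
noncomputable def n1_K1 : Matrix N1I N1I ℂ :=
  (1 / 2 : ℂ) • (1 - n1_P S - n1_G S + n1_G S * n1_P S)

/-- projection, trace part -/
noncomputable def n1_K2 : Matrix N1I N1I ℂ := (1 / 2 : ℂ) • (n1_P S + n1_G S * n1_P S)

lemma n1_GPG : n1_G S * n1_P S * n1_G S = n1_P S := by
  rw [Matrix.mul_assoc, n1_PG, ← Matrix.mul_assoc, n1_GG, Matrix.one_mul]

lemma n1_GPP : n1_G S * n1_P S * n1_P S = n1_G S * n1_P S := by
  rw [Matrix.mul_assoc, n1_PP]

lemma n1_PGP : n1_P S * (n1_G S * n1_P S) = n1_G S * n1_P S := by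
  rw [← Matrix.mul_assoc, n1_PG, Matrix.mul_assoc, n1_PP]

lemma n1_GGP : n1_G S * (n1_G S * n1_P S) = n1_P S := by
  rw [← Matrix.mul_assoc, n1_GG, Matrix.one_mul]

lemma n1_GPGP : n1_G S * n1_P S * (n1_G S * n1_P S) = n1_P S := by
  rw [← Matrix.mul_assoc, n1_GPG, n1_PP]

lemma n1_K1_sq : n1_K1 S * n1_K1 S = n1_K1 S := by
  unfold n1_K1
  rw [Matrix.smul_mul, Matrix.mul_smul, smul_smul]
  have h : (1 - n1_P S - n1_G S + n1_G S * n1_P S) * (1 - n1_P S - n1_G S + n1_G S * n1_P S) =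
      (2 : ℂ) • (1 - n1_P S - n1_G S + n1_G S * n1_P S) := by
    simp only [Matrix.mul_add, Matrix.mul_sub, Matrix.add_mul, Matrix.sub_mul, Matrix.one_mul,
      Matrix.mul_one, n1_PP, n1_PG, n1_GG, n1_GPG, n1_GPP, n1_PGP, n1_GGP, n1_GPGP, two_smul]
    abel
  rw [h, smul_smul]
  norm_num

lemma n1_K2_sq : n1_K2 S * n1_K2 S = n1_K2 S := by
  unfold n1_K2
  rw [Matrix.smul_mul, Matrix.mul_smul, smul_smul]
  have h : (n1_P S + n1_G S * n1_P S) * (n1_P S + n1_G S * n1_P S) =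
      (2 : ℂ) • (n1_P S + n1_G S * n1_P S) := by
    simp only [Matrix.mul_add, Matrix.add_mul, n1_PP, n1_GPP, n1_PGP, n1_GPGP, two_smul]
    abel
  rw [h, smul_smul]
  norm_num

lemma n1_GP_star : (n1_G S * n1_P S)ᴴ = n1_G S * n1_P S := by
  rw [Matrix.conjTranspose_mul, n1_P_star, n1_G_star, n1_PG]

lemma n1_GP_tr : (n1_G S * n1_P S)ᵀ = -(n1_G S * n1_P S) := by
  rw [Matrix.transpose_mul, n1_P_tr, n1_G_tr, Matrix.mul_neg, n1_PG]

lemma n1_half_star : star (1 / 2 : ℂ) = 1 / 2 := by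
  rw [star_div₀, star_one]
  congr 1
  exact Complex.conj_eq_iff_im.2 (by simp)

lemma n1_K1_star : (n1_K1 S)ᴴ = n1_K1 S := by
  unfold n1_K1
  rw [Matrix.conjTranspose_smul, n1_half_star, Matrix.conjTranspose_add,
    Matrix.conjTranspose_sub, Matrix.conjTranspose_sub, Matrix.conjTranspose_one, n1_P_star,
    n1_G_star, n1_GP_star]

lemma n1_K2_star : (n1_K2 S)ᴴ = n1_K2 S := by
  unfold n1_K2
  rw [Matrix.conjTranspose_smul, n1_half_star, Matrix.conjTranspose_add, n1_P_star, n1_GP_star]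

lemma n1_R_tr : (n1_R S)ᵀ = -n1_R S := by
  unfold n1_R
  rw [Matrix.transpose_sub, Matrix.transpose_smul, n1_G_tr, n1_GP_tr, smul_neg]
  abel

lemma n1_R_star : (n1_R S)ᴴ = n1_R S := by
  unfold n1_R
  rw [Matrix.conjTranspose_sub, Matrix.conjTranspose_smul, n1_G_star, n1_GP_star]
  congr 2
  exact Complex.conj_eq_iff_im.2 (by simp)

lemma n1_R_sq : n1_R S * n1_R S = 1 := by
  unfold n1_R
  simp only [Matrix.mul_sub, Matrix.sub_mul, Matrix.smul_mul, Matrix.mul_smul, n1_GG, n1_GPG,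
    n1_GGP, n1_GPGP]
  module

lemma n1_K1_R : n1_K1 S * n1_R S = -n1_K1 S := by
  unfold n1_K1 n1_R
  rw [Matrix.smul_mul, ← smul_neg]
  congr 1
  simp only [Matrix.mul_sub, Matrix.add_mul, Matrix.sub_mul, Matrix.one_mul, Matrix.mul_smul,
    n1_PG, n1_GG, n1_GPG, n1_PGP, n1_GGP, n1_GPGP]
  module

lemma n1_K2_R : n1_K2 S * n1_R S = -n1_K2 S := by
  unfold n1_K2 n1_R
  rw [Matrix.smul_mul, ← smul_neg]
  congr 1
  simp only [Matrix.mul_sub, Matrix.add_mul, Matrix.mul_smul,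
    n1_PG, n1_GPG, n1_PGP, n1_GPGP]
  module

lemma n1_K_add : n1_K1 S + n1_K2 S = (1 / 2 : ℂ) • (1 - n1_R S) := by
  unfold n1_K1 n1_K2 n1_R
  rw [← smul_add]
  congr 1
  rw [two_smul]
  abel

/-! ### the mass term -/

lemma n1_FG : S.FG = n1_q S (n1_G S) := by
  unfold n1_G
  rw [n1_q_smul]
  unfold Setup.FG CS.tot CS.bil CS.vec n1_q
  congr 1
  rw [Fintype.sum_prod_type_right]
  refine Finset.sum_congr rfl fun A _ => Finset.sum_congr rfl fun α _ => ?_
  rw [Fintype.sum_prod_type_right, Finset.sum_eq_single A, Finset.mul_sum]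
  · refine Finset.sum_congr rfl fun β _ => ?_
    show _ = (S.Gam α β * (1 : Matrix (Fin 3) (Fin 3) ℂ) A A) • _
    rw [Matrix.one_apply_eq, mul_one, mul_smul_comm]
  · intro B _ hB
    refine Finset.sum_eq_zero fun β _ => ?_
    show (S.Gam α β * (1 : Matrix (Fin 3) (Fin 3) ℂ) A B) • _ = 0
    rw [Matrix.one_apply_ne hB.symm, mul_zero, zero_smul]
  · intro h
    exact absurd (Finset.mem_univ A) h

lemma n1_chi (α : Fin 16) : S.chi α = n1_l S (n1_T S α) := by
  unfold Setup.chi CS.vec n1_l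
  rw [Fintype.sum_prod_type_right]
  rfl

lemma n1_chichi : Complex.I • ∑ α, ∑ β, S.Gam α β • (S.chi α * S.chi β) =
    (3 : ℂ) • n1_q S (n1_G S * n1_P S) := by
  simp_rw [n1_chi]
  rw [n1_q_sandwich, ← n1_q_smul, ← n1_q_smul]
  congr 1
  unfold n1_G n1_P
  rw [Matrix.smul_mul, Matrix.mul_smul, smul_smul, smul_smul, ← Matrix.mul_assoc, n1_Tt_Gh]
  congr 1
  ring

lemma n1_main : S.N1 = (7 / 2 : ℂ) • n1_q S ((n1_K1 S)ᴴ * n1_K1 S) +
    (5 / 2 : ℂ) • n1_q S ((n1_K2 S)ᴴ * n1_K2 S) := by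
  rw [n1_K1_star, n1_K2_star, n1_K1_sq, n1_K2_sq]
  unfold Setup.N1
  rw [n1_chichi, n1_FG]
  unfold n1_K1 n1_K2
  rw [n1_q_smul, n1_q_smul, n1_q_add, n1_q_add, n1_q_sub,
    n1_q_symm S (K := 1 - n1_P S) (by rw [Matrix.transpose_sub, Matrix.transpose_one, n1_P_tr]),
    n1_q_symm S (n1_P_tr S), Matrix.trace_sub, n1_P_trace, Matrix.trace_one]
  simp only [Fintype.card_prod, Fintype.card_fin]
  push_cast
  module

theorem n1 (h : VacStmt S) : N1Stmt S := by
  intro hirr hne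
  let 𝒜 : Submodule ℂ (N1I → ℂ) :=
    { carrier := {z | n1_R S *ᵥ z = z}
      add_mem' := by
        intro a b ha hb
        rw [Set.mem_ofPred_eq] at *
        rw [Matrix.mulVec_add, ha, hb]
      zero_mem' := by
        rw [Set.mem_ofPred_eq, Matrix.mulVec_zero]
      smul_mem' := by
        intro c a ha
        rw [Set.mem_ofPred_eq] at *
        rw [Matrix.mulVec_smul, ha] }
  have hmem : ∀ z, z ∈ 𝒜 ↔ n1_R S *ᵥ z = z := fun z => Iff.rfl
  have hrow : ∀ K : Matrix N1I N1I ℂ, K * n1_R S = -K → ∀ p, K p ∈ 𝒜 := by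
    intro K hK p
    rw [hmem]
    ext s
    have h1 : (K * (n1_R S)ᵀ) p s = K p s := by
      rw [n1_R_tr, Matrix.mul_neg, hK, neg_neg]
    rw [← h1, Matrix.mul_apply]
    unfold Matrix.mulVec dotProduct
    refine Finset.sum_congr rfl fun q _ => ?_
    rw [Matrix.transpose_apply, mul_comm]
  have hiso : ∀ a ∈ 𝒜, ∀ b ∈ 𝒜, ∑ p, a p * b p = 0 := by
    intro a ha b hb
    rw [hmem] at ha hb
    have h1 : ∑ p, a p * b p = (n1_R S *ᵥ a) ⬝ᵥ b := by
      rw [ha]
      rfl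
    have h2 : (n1_R S *ᵥ a) ⬝ᵥ b = a ⬝ᵥ ((n1_R S)ᵀ *ᵥ b) := by
      rw [dotProduct_comm, Matrix.dotProduct_mulVec, ← Matrix.mulVec_transpose, dotProduct_comm]
    rw [n1_R_tr, Matrix.neg_mulVec, hb, dotProduct_neg] at h2
    have h3 : ∑ p, a p * b p = -∑ p, a p * b p := by
      conv_lhs => rw [h1, h2]
      rfl
    have h4 : (2 : ℂ) * ∑ p, a p * b p = 0 := by
      rw [two_mul]
      nth_rewrite 1 [h3]
      ring
    exact (mul_eq_zero.1 h4).resolve_left two_ne_zero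
  have hspan : ∀ z : N1I → ℂ, ∃ a ∈ 𝒜, ∃ b ∈ 𝒜, z = a + fun p => (starRingEnd ℂ) (b p) := by
    intro z
    have hcj : ∀ w : N1I → ℂ, (n1_R S *ᵥ fun p => star (w p)) =
        fun p => -star ((n1_R S *ᵥ w) p) := by
      intro w
      ext p
      unfold Matrix.mulVec dotProduct
      rw [star_sum, ← Finset.sum_neg_distrib]
      refine Finset.sum_congr rfl fun q _ => ?_
      have h7 := congrFun (congrFun (n1_R_tr S) p) q
      rw [Matrix.transpose_apply, Matrix.neg_apply] at h7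
      have h8 := congrFun (congrFun (n1_R_star S) q) p
      rw [Matrix.conjTranspose_apply, h7] at h8
      rw [star_mul', h8]
      ring
    refine ⟨fun p => (1 / 2 : ℂ) * (z p + (n1_R S *ᵥ z) p), ?_,
      fun p => (1 / 2 : ℂ) * star (z p - (n1_R S *ᵥ z) p), ?_, ?_⟩
    · rw [hmem]
      have e : (fun p => (1 / 2 : ℂ) * (z p + (n1_R S *ᵥ z) p)) =
          (1 / 2 : ℂ) • (z + n1_R S *ᵥ z) := by
        ext p
        simp
      rw [e, Matrix.mulVec_smul, Matrix.mulVec_add, Matrix.mulVec_mulVec, n1_R_sq,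
        Matrix.one_mulVec, add_comm]
    · rw [hmem]
      have e : (fun p => (1 / 2 : ℂ) * star (z p - (n1_R S *ᵥ z) p)) =
          (1 / 2 : ℂ) • (fun p => star ((z - n1_R S *ᵥ z) p)) := by
        ext p
        simp
      rw [e, Matrix.mulVec_smul, hcj]
      congr 1
      ext p
      rw [Matrix.mulVec_sub, Matrix.mulVec_mulVec, n1_R_sq, Matrix.one_mulVec, ← star_neg]
      congr 1
      simp
    · ext p
      rw [Pi.add_apply]
      show z p = _ + (starRingEnd ℂ) ((1 / 2 : ℂ) * (starRingEnd ℂ) (z p - (n1_R S *ᵥ z) p))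
      rw [map_mul, Complex.conj_conj]
      have : (starRingEnd ℂ) (1 / 2 : ℂ) = 1 / 2 := n1_half_star
      rw [this]
      ring
  obtain ⟨Ω, hΩ1, hΩ2, hΩ3⟩ := h hirr hne 𝒜 hiso hspan
  have hkill : ∀ K : Matrix N1I N1I ℂ, K * n1_R S = -K → n1_q S (Kᴴ * K) Ω = 0 := by
    intro K hK
    rw [n1_q_rows]
    refine Finset.sum_eq_zero fun p _ => ?_
    have h2 := hΩ2 (K p) (hrow K hK p)
    rw [← n1_l_apply] at h2
    rw [h2, map_zero]
  have hform : ∀ v : F, (inner ℂ v (S.N1 v)).re =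
      7 / 2 * (∑ p, ‖n1_l S (n1_K1 S p) v‖ ^ 2) + 5 / 2 * ∑ p, ‖n1_l S (n1_K2 S p) v‖ ^ 2 := by
    intro v
    rw [n1_main, _root_.add_apply, _root_.smul_apply,
      _root_.smul_apply, inner_add_right, inner_smul_right, inner_smul_right,
      Complex.add_re, ← n1_q_inner, ← n1_q_inner]
    have e1 : (7 / 2 : ℂ) = ((7 / 2 : ℝ) : ℂ) := by push_cast; rfl
    have e2 : (5 / 2 : ℂ) = ((5 / 2 : ℝ) : ℂ) := by push_cast; rfl
    rw [e1, e2, Complex.re_ofReal_mul, Complex.re_ofReal_mul]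
  have hn1 : ∀ v : F, 0 ≤ ∑ p, ‖n1_l S (n1_K1 S p) v‖ ^ 2 := fun v =>
    Finset.sum_nonneg fun p _ => sq_nonneg _
  have hn2 : ∀ v : F, 0 ≤ ∑ p, ‖n1_l S (n1_K2 S p) v‖ ^ 2 := fun v =>
    Finset.sum_nonneg fun p _ => sq_nonneg _
  refine ⟨fun v => ?_, Ω, hΩ1, ?_, fun v hv => ?_⟩
  · rw [hform]
    have := hn1 v
    have := hn2 v
    positivity
  · rw [n1_main, _root_.add_apply, _root_.smul_apply,
      _root_.smul_apply, hkill _ (n1_K1_R S), hkill _ (n1_K2_R S), smul_zero,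
      smul_zero, add_zero]
  · refine hΩ3 v fun z hz => ?_
    rw [← n1_l_apply]
    rw [hform] at hv
    have h1 : ∑ p, ‖n1_l S (n1_K1 S p) v‖ ^ 2 = 0 := by
      linarith [hn1 v, hn2 v]
    have h2 : ∑ p, ‖n1_l S (n1_K2 S p) v‖ ^ 2 = 0 := by
      linarith [hn1 v, hn2 v]
    rw [Finset.sum_eq_zero_iff_of_nonneg (fun p _ => sq_nonneg _)] at h1 h2
    have h3 : ∀ p, n1_l S ((n1_K1 S + n1_K2 S) p) v = 0 := by
      intro p
      have a1 : n1_l S (n1_K1 S p) v = 0 := by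
        have := h1 p (Finset.mem_univ p)
        rwa [sq_eq_zero_iff, norm_eq_zero] at this
      have a2 : n1_l S (n1_K2 S p) v = 0 := by
        have := h2 p (Finset.mem_univ p)
        rwa [sq_eq_zero_iff, norm_eq_zero] at this
      rw [n1_l_apply] at *
      simp only [Matrix.add_apply, add_smul, Finset.sum_add_distrib]
      rw [a1, a2, add_zero]
    -- `z = zᵀ (K1 + K2)`
    have h4 : ∀ q, z q = ∑ p, z p * (n1_K1 S + n1_K2 S) p q := by
      intro q
      have h5 := congrFun ((hmem z).1 hz) q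
      have h6 : ∑ p, z p * n1_R S p q = - z q := by
        rw [← h5]
        unfold Matrix.mulVec dotProduct
        rw [← Finset.sum_neg_distrib]
        refine Finset.sum_congr rfl fun p _ => ?_
        have h7 := congrFun (congrFun (n1_R_tr S) q) p
        rw [Matrix.transpose_apply, Matrix.neg_apply] at h7
        rw [h7]
        ring
      rw [n1_K_add]
      simp only [Matrix.smul_apply, Matrix.sub_apply, smul_eq_mul]
      have h8 : ∀ p, z p * (1 / 2 * ((1 : Matrix N1I N1I ℂ) p q - n1_R S p q)) =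
          1 / 2 * (z p * (1 : Matrix N1I N1I ℂ) p q) - 1 / 2 * (z p * n1_R S p q) := by
        intro p
        ring
      simp_rw [h8]
      rw [Finset.sum_sub_distrib, ← Finset.mul_sum, ← Finset.mul_sum, h6]
      have h9 : ∑ p, z p * (1 : Matrix N1I N1I ℂ) p q = z q := by
        rw [Finset.sum_eq_single q]
        · rw [Matrix.one_apply_eq, mul_one]
        · intro p _ hp
          rw [Matrix.one_apply_ne hp, mul_zero]
        · intro h
          exact absurd (Finset.mem_univ q) h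
      rw [h9]
      ring
    have h5 : n1_l S z v = ∑ p, z p • n1_l S ((n1_K1 S + n1_K2 S) p) v := by
      simp_rw [n1_l_apply]
      simp_rw [Finset.smul_sum]
      rw [Finset.sum_comm]
      refine Finset.sum_congr rfl fun q _ => ?_
      simp_rw [smul_smul]
      rw [← Finset.sum_smul, ← h4 q]
    rw [h5]
    exact Finset.sum_eq_zero fun p _ => by rw [h3 p, smul_zero]

end Vale.Agent.P353.U
end

section

/-! # P353, uniqueness for `N = 2`: smoothness and homogeneity of `om`, `vv` (task D-sm, part 1) -/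

open MeasureTheory Filter Topology
open scoped ContDiff

namespace Vale.Agent.P353

variable {F : Type*} [NormedAddCommGroup F] [InnerProductSpace ℂ F]

/-! ### the real functions -/

lemma sm_contDiff_rho6sq : ContDiff ℝ ∞ rho6sq := by
  unfold rho6sq
  refine ContDiff.sum fun i _ => ContDiff.sum fun A _ => ?_
  split_ifs
  · exact (Setup.contDiff_coord _).pow 2
  · exact contDiff_const

lemma sm_contDiff_Gr (A B : Fin 3) : ContDiff ℝ ∞ (fun x => Gr x A B) := by
  unfold Gr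
  exact ContDiff.sum fun i _ => (Setup.contDiff_coord _).mul (Setup.contDiff_coord _)

lemma sm_normsq (x : X3) : ‖x‖ ^ 2 = ∑ i, ∑ A, x (i, A) ^ 2 := by
  rw [EuclideanSpace.norm_sq_eq, Fintype.sum_prod_type]
  simp

lemma sm_rho6sq_nonneg (x : X3) : 0 ≤ rho6sq x := by
  unfold rho6sq
  refine Finset.sum_nonneg fun i _ => Finset.sum_nonneg fun A _ => ?_
  split_ifs
  · positivity
  · exact le_rfl

lemma sm_ne_zero {x : X3} (hx : 0 < rho6sq x) : x ≠ 0 := by
  rintro rfl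
  simp [rho6sq] at hx

lemma sm_norm {x : X3} (hx : 0 < rho6sq x) : ContDiffAt ℝ ∞ (fun x : X3 => ‖x‖) x :=
  contDiffAt_norm ℝ (sm_ne_zero hx)

lemma sm_contDiffAt_xh {x : X3} (hx : 0 < rho6sq x) : ContDiffAt ℝ ∞ xh x := by
  have h0 : ‖x‖ ≠ 0 := norm_ne_zero_iff.2 (sm_ne_zero hx)
  rw [contDiffAt_euclidean]
  intro p
  have e : (fun y => xh y p) = fun y : X3 => (∑ B, Gr y p.2 B * y (p.1, B)) / ‖y‖ ^ 2 := rfl
  rw [e]
  refine ContDiffAt.div ?_ ((sm_norm hx).pow 2) (pow_ne_zero 2 h0)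
  exact (ContDiff.sum fun B _ => (sm_contDiff_Gr _ _).mul (Setup.contDiff_coord _)).contDiffAt

/-! ### `ρ6(x̂) > 0` -/

lemma sm_xh_apply (x : X3) (i : Fin 9) (A : Fin 3) :
    xh x (i, A) = (∑ B, Gr x A B * x (i, B)) / ‖x‖ ^ 2 := rfl

lemma sm_rho6_xh {x : X3} (hx : 0 < rho6sq x) : 0 < rho6sq (xh x) := by
  rcases (sm_rho6sq_nonneg (xh x)).lt_or_eq with h | h
  · exact h
  exfalso
  have h0 : ‖x‖ ≠ 0 := norm_ne_zero_iff.2 (sm_ne_zero hx)
  have h1 : ∀ i : Fin 9, 3 ≤ i.val → ∀ A, ∑ B, Gr x A B * x (i, B) = 0 := by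
    intro i hi A
    have h2 : ∀ j ∈ Finset.univ, ∀ C ∈ (Finset.univ : Finset (Fin 3)),
        (if 3 ≤ (j : Fin 9).val then xh x (j, C) ^ 2 else 0) = 0 := by
      have h3 : ∀ j ∈ (Finset.univ : Finset (Fin 9)), 0 ≤
          ∑ C : Fin 3, (if 3 ≤ j.val then xh x (j, C) ^ 2 else 0) := fun j _ =>
        Finset.sum_nonneg fun C _ => by split_ifs <;> positivity
      have h4 := (Finset.sum_eq_zero_iff_of_nonneg h3).1 h.symm
      intro j hj
      exact (Finset.sum_eq_zero_iff_of_nonneg fun C _ => by split_ifs <;> positivity).1 (h4 j hj)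
    have h5 := h2 i (Finset.mem_univ _) A (Finset.mem_univ _)
    rw [if_pos hi, sm_xh_apply] at h5
    have h6 := pow_eq_zero_iff (two_ne_zero) |>.1 h5
    rcases div_eq_zero_iff.1 h6 with h7 | h7
    · exact h7
    · exact absurd h7 (pow_ne_zero 2 h0)
  have h8 : ∀ i : Fin 9, 3 ≤ i.val → ∀ A, x (i, A) = 0 := by
    intro i hi
    have h9 : ∑ j, (∑ A, x (i, A) * x (j, A)) ^ 2 = 0 := by
      have e : ∑ j, (∑ A, x (i, A) * x (j, A)) ^ 2 =
          ∑ A, x (i, A) * ∑ B, Gr x A B * x (i, B) := by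
        simp only [Gr, Fin.sum_univ_three, Finset.sum_mul, Finset.mul_sum,
          ← Finset.sum_add_distrib]
        exact Finset.sum_congr rfl fun j _ => by ring
      rw [e]
      exact Finset.sum_eq_zero fun A _ => by rw [h1 i hi A, mul_zero]
    have h10 := (Finset.sum_eq_zero_iff_of_nonneg fun j _ => sq_nonneg _).1 h9 i
      (Finset.mem_univ _)
    have h11 := pow_eq_zero_iff (two_ne_zero) |>.1 h10
    have h12 := (Finset.sum_eq_zero_iff_of_nonneg fun A _ => mul_self_nonneg _).1 h11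
    intro A
    exact mul_self_eq_zero.1 (h12 A (Finset.mem_univ _))
  apply hx.ne'
  unfold rho6sq
  refine Finset.sum_eq_zero fun i _ => Finset.sum_eq_zero fun A _ => ?_
  split_ifs with hi
  · rw [h8 i hi A]; norm_num
  · rfl

/-! ### homogeneity -/

lemma sm_rho6sq_smul (t : ℝ) (x : X3) : rho6sq (t • x) = t ^ 2 * rho6sq x := by
  unfold rho6sq
  simp only [Finset.mul_sum]
  refine Finset.sum_congr rfl fun i _ => Finset.sum_congr rfl fun A _ => ?_
  split_ifs
  · rw [PiLp.smul_apply, smul_eq_mul, mul_pow]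
  · rw [mul_zero]

lemma sm_norm_smul {t : ℝ} (ht : 0 < t) (x : X3) : ‖t • x‖ = t * ‖x‖ := by
  rw [norm_smul, Real.norm_of_nonneg ht.le]

lemma sm_Gr_smul (t : ℝ) (x : X3) (A B : Fin 3) : Gr (t • x) A B = t ^ 2 * Gr x A B := by
  unfold Gr
  simp only [Finset.mul_sum, PiLp.smul_apply, smul_eq_mul]
  exact Finset.sum_congr rfl fun i _ => by ring

lemma sm_xh_smul {t : ℝ} (ht : 0 < t) (x : X3) : xh (t • x) = t • xh x := by
  ext ⟨i, A⟩
  rw [PiLp.smul_apply, sm_xh_apply, sm_xh_apply, sm_norm_smul ht, smul_eq_mul]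
  simp only [sm_Gr_smul, PiLp.smul_apply, smul_eq_mul]
  have e : ∑ B, t ^ 2 * Gr x A B * (t * x (i, B)) = t ^ 2 * (t * ∑ B, Gr x A B * x (i, B)) := by
    simp only [Finset.mul_sum]
    exact Finset.sum_congr rfl fun B _ => by ring
  rw [e, mul_pow, mul_div_mul_left _ _ (pow_ne_zero 2 ht.ne'), mul_div_assoc]

/-! ### the cone -/

lemma sm_cone_apply (n : Fin 3 → ℝ) (y : Fin 9 → ℝ) (i : Fin 9) (A : Fin 3) :
    cone n y (i, A) = y i * n A := rfl

lemma sm_cone_normsq {n : Fin 3 → ℝ} (hn : ∑ A, n A ^ 2 = 1) (y : Fin 9 → ℝ) :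
    ‖cone n y‖ ^ 2 = ∑ i, y i ^ 2 := by
  rw [sm_normsq]
  refine Finset.sum_congr rfl fun i _ => ?_
  simp only [sm_cone_apply, mul_pow, ← Finset.mul_sum, hn, mul_one]

lemma sm_cone_Gr (n : Fin 3 → ℝ) (y : Fin 9 → ℝ) (A B : Fin 3) :
    Gr (cone n y) A B = (∑ i, y i ^ 2) * (n A * n B) := by
  simp only [Gr, sm_cone_apply, Finset.sum_mul]
  exact Finset.sum_congr rfl fun i _ => by ring

lemma sm_xh_cone {n : Fin 3 → ℝ} (hn : ∑ A, n A ^ 2 = 1) (y : Fin 9 → ℝ) (h : cone n y ≠ 0) :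
    xh (cone n y) = cone n y := by
  have h0 : ‖cone n y‖ ^ 2 ≠ 0 := pow_ne_zero 2 (norm_ne_zero_iff.2 h)
  ext ⟨i, A⟩
  rw [sm_xh_apply, div_eq_iff h0, sm_cone_normsq hn]
  simp only [sm_cone_Gr, sm_cone_apply]
  have e : ∑ B, (∑ i, y i ^ 2) * (n A * n B) * (y i * n B) =
      (∑ i, y i ^ 2) * n A * y i * ∑ B, n B ^ 2 := by
    rw [Finset.mul_sum]
    exact Finset.sum_congr rfl fun B _ => by ring
  rw [e, hn]
  ring

/-! ### decomposition of `Z` -/

namespace Setup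

variable (S : Setup F)

/-- summand of `zP1` -/
noncomputable def zP1a (a : Fin 9) (x : X3) : F →L[ℂ] F := ∑ A, ∑ B, ∑ C,
      (if 3 ≤ a.val then (eps A C B : ℂ) * (x (a, C) : ℂ) else 0) • S.bilb (S.g a) A B

/-- linear part -/
noncomputable def zP1 (x : X3) : F →L[ℂ] F := ∑ a, S.zP1a a x

/-- summand of `zP2` -/
noncomputable def zP2a (a i : Fin 9) (x y : X3) : F →L[ℂ] F := ∑ A, ∑ B,
      (if 3 ≤ a.val ∧ i.val < 3 then
        (if A = B then ∑ D, (x (a, D) : ℂ) * (y (i, D) : ℂ) else 0) -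
          (x (a, A) : ℂ) * (y (i, B) : ℂ) else 0) • S.bilb (S.g a * S.g i) A B

/-- quadratic part, polarised -/
noncomputable def zP2 (x y : X3) : F →L[ℂ] F := ∑ a, ∑ i, S.zP2a a i x y

lemma ZZ_eq (x : X3) : S.ZZ x = ((‖x‖ ^ 2 / (2 * rho6sq x) : ℝ) : ℂ) •
    ((Complex.I * ((1 / ‖x‖ : ℝ) : ℂ)) • S.zP1 x - ((1 / ‖x‖ ^ 2 : ℝ) : ℂ) • S.zP2 x x) := by
  unfold ZZ
  refine congrArg (HSMul.hSMul _) (congrArg₂ HSub.hSub (congrArg (HSMul.hSMul _) ?_)
    (congrArg (HSMul.hSMul _) ?_))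
  · unfold zP1 zP1a
    refine Finset.sum_congr rfl fun a _ => Finset.sum_congr rfl fun A _ =>
      Finset.sum_congr rfl fun B _ => Finset.sum_congr rfl fun C _ => ?_
    rfl
  · unfold zP2 zP2a
    refine Finset.sum_congr rfl fun a _ => Finset.sum_congr rfl fun A _ =>
      Finset.sum_congr rfl fun B _ => Finset.sum_congr rfl fun C _ => ?_
    rfl

lemma zP1_smul (t : ℝ) (x : X3) : S.zP1 (t • x) = (t : ℂ) • S.zP1 x := by
  unfold zP1 zP1a
  simp only [Finset.smul_sum, smul_smul]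
  refine Finset.sum_congr rfl fun a _ => Finset.sum_congr rfl fun A _ =>
    Finset.sum_congr rfl fun B _ => Finset.sum_congr rfl fun C _ => ?_
  congr 1
  split_ifs
  · rw [PiLp.smul_apply, smul_eq_mul]; push_cast; ring
  · rw [mul_zero]

lemma zP1_add (x y : X3) : S.zP1 (x + y) = S.zP1 x + S.zP1 y := by
  unfold zP1 zP1a
  simp only [← Finset.sum_add_distrib]
  refine Finset.sum_congr rfl fun a _ => Finset.sum_congr rfl fun A _ =>
    Finset.sum_congr rfl fun B _ => Finset.sum_congr rfl fun C _ => ?_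
  rw [← add_smul]
  congr 1
  split_ifs
  · rw [PiLp.add_apply]; push_cast; ring
  · rw [add_zero]

lemma zP2_smul_left (t : ℝ) (x y : X3) : S.zP2 (t • x) y = (t : ℂ) • S.zP2 x y := by
  unfold zP2 zP2a
  simp only [Finset.smul_sum, smul_smul]
  refine Finset.sum_congr rfl fun a _ => Finset.sum_congr rfl fun i _ =>
    Finset.sum_congr rfl fun A _ => Finset.sum_congr rfl fun B _ => ?_
  congr 1
  by_cases h : 3 ≤ a.val ∧ i.val < 3
  · rw [if_pos h, if_pos h]
    by_cases h' : A = B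
    · rw [if_pos h', if_pos h']
      simp only [PiLp.smul_apply, smul_eq_mul, Complex.ofReal_mul, mul_sub, Finset.mul_sum]
      simp only [mul_assoc]
    · rw [if_neg h', if_neg h', PiLp.smul_apply, smul_eq_mul]
      push_cast
      ring
  · rw [if_neg h, if_neg h, mul_zero]

lemma zP2_smul_right (t : ℝ) (x y : X3) : S.zP2 x (t • y) = (t : ℂ) • S.zP2 x y := by
  unfold zP2 zP2a
  simp only [Finset.smul_sum, smul_smul]
  refine Finset.sum_congr rfl fun a _ => Finset.sum_congr rfl fun i _ =>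
    Finset.sum_congr rfl fun A _ => Finset.sum_congr rfl fun B _ => ?_
  congr 1
  by_cases h : 3 ≤ a.val ∧ i.val < 3
  · rw [if_pos h, if_pos h]
    by_cases h' : A = B
    · rw [if_pos h', if_pos h']
      simp only [PiLp.smul_apply, smul_eq_mul, Complex.ofReal_mul, mul_sub, Finset.mul_sum]
      congr 1
      · exact Finset.sum_congr rfl fun D _ => by ring
      · ring
    · rw [if_neg h', if_neg h', PiLp.smul_apply, smul_eq_mul]
      push_cast
      ring
  · rw [if_neg h, if_neg h, mul_zero]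

lemma zP2_add_left (x x' y : X3) : S.zP2 (x + x') y = S.zP2 x y + S.zP2 x' y := by
  unfold zP2 zP2a
  simp only [← Finset.sum_add_distrib]
  refine Finset.sum_congr rfl fun a _ => Finset.sum_congr rfl fun i _ =>
    Finset.sum_congr rfl fun A _ => Finset.sum_congr rfl fun B _ => ?_
  rw [← add_smul]
  congr 1
  by_cases h : 3 ≤ a.val ∧ i.val < 3
  · rw [if_pos h, if_pos h, if_pos h]
    by_cases h' : A = B
    · rw [if_pos h', if_pos h', if_pos h']
      simp only [PiLp.add_apply, Complex.ofReal_add, add_mul, Finset.sum_add_distrib]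
      ring
    · rw [if_neg h', if_neg h', if_neg h', PiLp.add_apply]
      push_cast
      ring
  · rw [if_neg h, if_neg h, if_neg h, add_zero]

lemma zP2_add_right (x y y' : X3) : S.zP2 x (y + y') = S.zP2 x y + S.zP2 x y' := by
  unfold zP2 zP2a
  simp only [← Finset.sum_add_distrib]
  refine Finset.sum_congr rfl fun a _ => Finset.sum_congr rfl fun i _ =>
    Finset.sum_congr rfl fun A _ => Finset.sum_congr rfl fun B _ => ?_
  rw [← add_smul]
  congr 1
  by_cases h : 3 ≤ a.val ∧ i.val < 3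
  · rw [if_pos h, if_pos h, if_pos h]
    by_cases h' : A = B
    · rw [if_pos h', if_pos h', if_pos h']
      simp only [PiLp.add_apply, Complex.ofReal_add, mul_add, Finset.sum_add_distrib]
      ring
    · rw [if_neg h', if_neg h', if_neg h', PiLp.add_apply]
      push_cast
      ring
  · rw [if_neg h, if_neg h, if_neg h, add_zero]

lemma zP1_contDiff : ContDiff ℝ ∞ S.zP1 := by
  unfold zP1 zP1a
  refine ContDiff.sum fun a _ => ContDiff.sum fun A _ => ContDiff.sum fun B _ =>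
    ContDiff.sum fun C _ => ?_
  have h : ContDiff ℝ ∞ (fun x : X3 => (if 3 ≤ a.val then (eps A C B : ℂ) * (x (a, C) : ℂ)
      else 0)) := by
    split_ifs
    · exact contDiff_const.mul (contDiff_ofReal (contDiff_coord _))
    · exact contDiff_const
  exact h.smul contDiff_const

lemma zP2_contDiff : ContDiff ℝ ∞ (fun x => S.zP2 x x) := by
  unfold zP2 zP2a
  refine ContDiff.sum fun a _ => ContDiff.sum fun i _ => ContDiff.sum fun A _ =>
    ContDiff.sum fun B _ => ?_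
  have hc : ∀ p : Fin 9 × Fin 3, ContDiff ℝ ∞ (fun x : X3 => (x p : ℂ)) := fun p =>
    contDiff_ofReal (contDiff_coord p)
  have hk : ContDiff ℝ ∞ (fun x : X3 => (if 3 ≤ a.val ∧ i.val < 3 then
        (if A = B then ∑ D, (x (a, D) : ℂ) * (x (i, D) : ℂ) else 0) -
          (x (a, A) : ℂ) * (x (i, B) : ℂ) else 0)) := by
    by_cases h : 3 ≤ a.val ∧ i.val < 3
    · simp only [if_pos h]
      refine ContDiff.sub ?_ ((hc _).mul (hc _))
      split_ifs
      · exact ContDiff.sum fun D _ => (hc _).mul (hc _)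
      · exact contDiff_const
    · simp only [if_neg h]
      exact contDiff_const
  exact hk.smul contDiff_const

lemma sm_ofReal {φ : X3 → ℝ} {x : X3} (h : ContDiffAt ℝ ∞ φ x) :
    ContDiffAt ℝ ∞ (fun x => ((φ x : ℝ) : ℂ)) x :=
  (Complex.ofRealCLM.contDiff.contDiffAt (x := φ x)).comp x h

lemma sm_sub_op {f g : X3 → F →L[ℂ] F} {x : X3} (hf : ContDiffAt ℝ ∞ f x)
    (hg : ContDiffAt ℝ ∞ g x) : ContDiffAt ℝ ∞ (fun x => f x - g x) x := hf.sub hg

lemma sm_smul_op {c : X3 → ℂ} {f : X3 → F →L[ℂ] F} {x : X3} (hc : ContDiffAt ℝ ∞ c x)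
    (hf : ContDiffAt ℝ ∞ f x) : ContDiffAt ℝ ∞ (fun x => c x • f x) x := hc.smul hf

lemma sm_sub_vec {f g : X3 → F} {x : X3} (hf : ContDiffAt ℝ ∞ f x)
    (hg : ContDiffAt ℝ ∞ g x) : ContDiffAt ℝ ∞ (fun x => f x - g x) x := hf.sub hg

lemma sm_smul_vec {c : X3 → ℂ} {f : X3 → F} {x : X3} (hc : ContDiffAt ℝ ∞ c x)
    (hf : ContDiffAt ℝ ∞ f x) : ContDiffAt ℝ ∞ (fun x => c x • f x) x := hc.smul hf

lemma ZZ_contDiffAt {x : X3} (hx : 0 < rho6sq x) : ContDiffAt ℝ ∞ S.ZZ x := by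
  have h0 : ‖x‖ ≠ 0 := norm_ne_zero_iff.2 (sm_ne_zero hx)
  have e : S.ZZ = fun x => ((‖x‖ ^ 2 / (2 * rho6sq x) : ℝ) : ℂ) •
    ((Complex.I * ((1 / ‖x‖ : ℝ) : ℂ)) • S.zP1 x - ((1 / ‖x‖ ^ 2 : ℝ) : ℂ) • S.zP2 x x) :=
    funext S.ZZ_eq
  rw [e]
  have h1 : ContDiffAt ℝ ∞ (fun x : X3 => ((‖x‖ ^ 2 / (2 * rho6sq x) : ℝ) : ℂ)) x :=
    sm_ofReal (((sm_norm hx).pow 2).div (contDiffAt_const.mul sm_contDiff_rho6sq.contDiffAt)
      (by positivity))
  have h2 : ContDiffAt ℝ ∞ (fun x : X3 => Complex.I * ((1 / ‖x‖ : ℝ) : ℂ)) x :=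
    contDiffAt_const.mul (sm_ofReal (contDiffAt_const.div (sm_norm hx) h0))
  have h3 : ContDiffAt ℝ ∞ (fun x : X3 => ((1 / ‖x‖ ^ 2 : ℝ) : ℂ)) x :=
    sm_ofReal (contDiffAt_const.div ((sm_norm hx).pow 2) (pow_ne_zero 2 h0))
  exact sm_smul_op h1 (sm_sub_op (sm_smul_op h2 S.zP1_contDiff.contDiffAt)
    (sm_smul_op h3 S.zP2_contDiff.contDiffAt))

lemma sm_clm_apply {T : X3 → F →L[ℂ] F} {u : X3 → F} {x : X3} (hT : ContDiffAt ℝ ∞ T x)
    (hu : ContDiffAt ℝ ∞ u x) : ContDiffAt ℝ ∞ (fun x => T x (u x)) x := by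
  have hB : IsBoundedBilinearMap ℝ (fun p : (F →L[ℂ] F) × F => p.1 p.2) := by
    have h := (isBoundedBilinearMap_apply (𝕜 := ℂ) (E := F) (F := F))
    refine ⟨fun a b c => by simp, fun c a b => ?_, fun a b c => by simp, fun c a b => ?_, ?_⟩
    · simp
    · simp
    · obtain ⟨C, hC, hb⟩ := h.bound
      exact ⟨C, hC, hb⟩
  exact hB.contDiff.contDiffAt.comp x (hT.prodMk hu)

lemma sm_exp_contDiff [CompleteSpace F] :
    ContDiff ℝ ∞ (NormedSpace.exp : (F →L[ℂ] F) → (F →L[ℂ] F)) := by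
  rw [contDiff_iff_contDiffAt]
  intro x
  exact ((NormedSpace.exp_analytic (𝕂 := ℂ) x).contDiffAt (n := ∞)).restrict_scalars ℝ

lemma om_contDiffAt [CompleteSpace F] (Ω : F) {x : X3} (hx : 0 < rho6sq x) :
    ContDiffAt ℝ ∞ (S.om Ω) x := by
  have h0 : ‖x‖ ≠ 0 := norm_ne_zero_iff.2 (sm_ne_zero hx)
  have e : S.om Ω = fun x => (((rho6sq x / ‖x‖ ^ 2) ^ 2 / 16 : ℝ) : ℂ) •
    (NormedSpace.exp (S.ZZ x)) Ω := rfl
  rw [e]
  refine sm_smul_vec (sm_ofReal (ContDiffAt.div_const (ContDiffAt.pow (ContDiffAt.div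
    sm_contDiff_rho6sq.contDiffAt ((sm_norm hx).pow 2) (pow_ne_zero 2 h0)) 2) 16)) ?_
  exact sm_clm_apply (sm_exp_contDiff.contDiffAt.comp x (S.ZZ_contDiffAt hx)) contDiffAt_const

lemma vv_contDiffAt [CompleteSpace F] (Ω : F) {x : X3} (hx : 0 < rho6sq x) :
    ContDiffAt ℝ ∞ (S.vv Ω) x := by
  have h0 : ‖x‖ ≠ 0 := norm_ne_zero_iff.2 (sm_ne_zero hx)
  have e : S.vv Ω = fun x => S.om Ω (xh x) - ((1 / (2 * S.κ * ‖x‖) : ℝ) : ℂ) •
    S.Fx (x - xh x) (S.om Ω (xh x)) := rfl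
  rw [e]
  have h1 : ContDiffAt ℝ ∞ (fun x => S.om Ω (xh x)) x :=
    (S.om_contDiffAt Ω (sm_rho6_xh hx)).comp x (sm_contDiffAt_xh hx)
  refine sm_sub_vec h1 (sm_smul_vec (sm_ofReal (contDiffAt_const.div (contDiffAt_const.mul
    (sm_norm hx)) ?_)) ?_)
  · have := S.κ_pos
    positivity
  · refine sm_clm_apply ?_ h1
    exact (contDiff_Fx S).contDiffAt.comp x (contDiffAt_id.sub (sm_contDiffAt_xh hx))

lemma ZZ_smul {t : ℝ} (ht : 0 < t) (x : X3) : S.ZZ (t • x) = S.ZZ x := by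
  rw [S.ZZ_eq, S.ZZ_eq, sm_norm_smul ht, sm_rho6sq_smul, S.zP1_smul, S.zP2_smul_left,
    S.zP2_smul_right]
  have h1 : (t * ‖x‖) ^ 2 / (2 * (t ^ 2 * rho6sq x)) = ‖x‖ ^ 2 / (2 * rho6sq x) := by
    rw [mul_pow, mul_left_comm 2, mul_div_mul_left _ _ (pow_ne_zero 2 ht.ne')]
  have h2 : 1 / (t * ‖x‖) = t⁻¹ * (1 / ‖x‖) := by
    rw [one_div, one_div, mul_inv]
  have h3 : 1 / (t * ‖x‖) ^ 2 = (t⁻¹ * t⁻¹) * (1 / ‖x‖ ^ 2) := by
    rw [one_div, one_div, mul_pow, mul_inv, sq t, mul_inv]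
  have ht' : (t : ℂ) ≠ 0 := by exact_mod_cast ht.ne'
  rw [h1, h2, h3]
  congr 2
  · rw [smul_smul]
    congr 1
    push_cast
    field_simp
  · rw [smul_smul, smul_smul]
    congr 1
    push_cast
    field_simp

lemma om_smul (Ω : F) {t : ℝ} (ht : 0 < t) (x : X3) : S.om Ω (t • x) = S.om Ω x := by
  unfold om
  rw [S.ZZ_smul ht, sm_norm_smul ht, sm_rho6sq_smul, mul_pow,
    mul_div_mul_left _ _ (pow_ne_zero 2 ht.ne')]

lemma Fx_smul_op (t : ℝ) (x : X3) : S.Fx (t • x) = (t : ℂ) • S.Fx x := by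
  unfold Fx
  rw [smul_comm]
  congr 1
  simp only [Finset.smul_sum, smul_smul]
  refine Finset.sum_congr rfl fun a _ => Finset.sum_congr rfl fun A _ =>
    Finset.sum_congr rfl fun B _ => Finset.sum_congr rfl fun C _ => ?_
  congr 1
  rw [PiLp.smul_apply, smul_eq_mul]
  push_cast
  ring

lemma vv_smul (Ω : F) {t : ℝ} (ht : 0 < t) (x : X3) : S.vv Ω (t • x) = S.vv Ω x := by
  unfold vv
  have ht' : (t : ℂ) ≠ 0 := by exact_mod_cast ht.ne'
  rw [sm_xh_smul ht, S.om_smul Ω ht, sm_norm_smul ht, ← smul_sub, S.Fx_smul_op]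
  congr 1
  rw [_root_.smul_apply, smul_smul]
  congr 1
  have h : 1 / (2 * S.κ * (t * ‖x‖)) = t⁻¹ * (1 / (2 * S.κ * ‖x‖)) := by
    rw [one_div, one_div, ← mul_assoc, mul_comm (2 * S.κ) t, mul_assoc, mul_inv]
  rw [h]
  push_cast
  field_simp

end Setup

end Vale.Agent.P353
end

section

/-! # P353, uniqueness for `N = 2`: covariance of `om`, `vv` (task D-sm, part 2): analysis -/

open MeasureTheory Filter Topology
open scoped ContDiff

namespace Vale.Agent.P353

variable {F : Type*} [NormedAddCommGroup F] [InnerProductSpace ℂ F]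

/-! ### derivatives along lines -/

section line

variable {G : Type*} [NormedAddCommGroup G] [NormedSpace ℝ G]

/-- `d` is the derivative of `f` at `x` in direction `v` -/
def Dl (f : X3 → G) (x v : X3) (d : G) : Prop :=
  HasDerivAt (fun t : ℝ => f (x + t • v)) d 0

lemma Dl.unique {f : X3 → G} {x v : X3} {d d' : G} (h : Dl f x v d) (h' : Dl f x v d') :
    d = d' := HasDerivAt.unique h h'

lemma sm_line (x v : X3) : HasDerivAt (fun t : ℝ => x + t • v) v 0 := by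
  simpa using ((hasDerivAt_id (0 : ℝ)).smul_const v).const_add x

lemma sm_x0 (x v : X3) : x + (0 : ℝ) • v = x := by simp

lemma Dl.of_diff {f : X3 → G} {x : X3} (v : X3) (hf : DifferentiableAt ℝ f x) :
    Dl f x v (fderiv ℝ f x v) := by
  have h3 : HasFDerivAt f (fderiv ℝ f x) (x + (0 : ℝ) • v) := by
    rw [sm_x0]
    exact hf.hasFDerivAt
  exact h3.comp_hasDerivAt (0 : ℝ) (sm_line x v)

lemma Dl.comp {f : X3 → G} {g : X3 → X3} {x v w : X3} (hf : DifferentiableAt ℝ f (g x))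
    (hg : Dl g x v w) : Dl (fun y => f (g y)) x v (fderiv ℝ f (g x) w) := by
  have h3 : HasFDerivAt f (fderiv ℝ f (g x)) (g (x + (0 : ℝ) • v)) := by
    rw [sm_x0]
    exact hf.hasFDerivAt
  exact h3.comp_hasDerivAt (0 : ℝ) hg

lemma Dl.sub {f g : X3 → G} {x v : X3} {a b : G} (hf : Dl f x v a) (hg : Dl g x v b) :
    Dl (fun y => f y - g y) x v (a - b) := HasDerivAt.fun_sub hf hg

lemma Dl.coord (x v : X3) (p : Fin 9 × Fin 3) : Dl (fun y : X3 => y p) x v (v p) := by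
  have h := Dl.of_diff (f := fun y : X3 => y p) (x := x) v
    ((Setup.contDiff_coord p).differentiable (by simp) x)
  have e : fderiv ℝ (fun y : X3 => y p) x v = v p := by
    have hL : (fun y : X3 => y p) = (EuclideanSpace.proj (𝕜 := ℝ) p : X3 →L[ℝ] ℝ) := rfl
    rw [hL, ContinuousLinearMap.fderiv]
    rfl
  rwa [e] at h

lemma Dl.mul {f g : X3 → ℝ} {x v : X3} {a b : ℝ} (hf : Dl f x v a) (hg : Dl g x v b) :
    Dl (fun y => f y * g y) x v (a * g x + f x * b) := by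
  have h := HasDerivAt.fun_mul hf hg
  rwa [sm_x0] at h

lemma Dl.sum {ι : Type*} {s : Finset ι} {f : ι → X3 → G} {x v : X3} {a : ι → G}
    (hf : ∀ i ∈ s, Dl (f i) x v (a i)) : Dl (fun y => ∑ i ∈ s, f i y) x v (∑ i ∈ s, a i) :=
  HasDerivAt.fun_sum hf

lemma Dl.normsq {x v : X3} (h : inner ℝ x v = 0) : Dl (fun y : X3 => ‖y‖ ^ 2) x v 0 := by
  have h1 := (sm_line x v).norm_sq
  rw [sm_x0, h, mul_zero] at h1
  exact h1

lemma Dl.norm {x v : X3} (hx : x ≠ 0) (h : inner ℝ x v = 0) : Dl (fun y : X3 => ‖y‖) x v 0 := by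
  have h0 : ‖x‖ ^ 2 ≠ 0 := pow_ne_zero 2 (norm_ne_zero_iff.2 hx)
  have h1 : HasDerivAt (fun t : ℝ => ‖x + t • v‖ ^ 2) 0 0 := Dl.normsq h
  have h2 := HasDerivAt.sqrt h1 (by rwa [sm_x0])
  rw [zero_div] at h2
  have e : (fun t : ℝ => Real.sqrt (‖x + t • v‖ ^ 2)) = fun t : ℝ => ‖x + t • v‖ := by
    funext t
    rw [Real.sqrt_sq (norm_nonneg _)]
  rw [e] at h2
  exact h2

lemma Dl.rho {x v : X3}
    (h : ∑ i : Fin 9, ∑ A : Fin 3, (if 3 ≤ i.val then x (i, A) * v (i, A) else 0) = 0) :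
    Dl rho6sq x v 0 := by
  have h1 : Dl rho6sq x v
      (∑ i : Fin 9, ∑ A : Fin 3, (if 3 ≤ i.val then 2 * (x (i, A) * v (i, A)) else 0)) := by
    unfold rho6sq
    refine Dl.sum fun i _ => Dl.sum fun A _ => ?_
    split_ifs
    · have h2 := (Dl.coord x v (i, A)).mul (Dl.coord x v (i, A))
      have e : (fun y : X3 => y (i, A) ^ 2) = fun y : X3 => y (i, A) * y (i, A) := by
        funext y; ring
      rw [e]
      convert h2 using 1
      ring
    · exact hasDerivAt_const _ _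
  have e : ∑ i : Fin 9, ∑ A : Fin 3, (if 3 ≤ i.val then 2 * (x (i, A) * v (i, A)) else 0) = 0 := by
    have e1 : ∀ (i : Fin 9) (A : Fin 3), (if 3 ≤ i.val then 2 * (x (i, A) * v (i, A)) else 0) =
        2 * (if 3 ≤ i.val then x (i, A) * v (i, A) else 0) := by
      intro i A
      split_ifs
      · rfl
      · rw [mul_zero]
    simp only [e1, ← Finset.mul_sum, h, mul_zero]
  rwa [e] at h1

/-- derivative of a quotient of two functions with derivative zero -/
lemma Dl.div_zero {f g : X3 → ℝ} {x v : X3} (hf : Dl f x v 0) (hg : Dl g x v 0) (h : g x ≠ 0) :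
    Dl (fun y => f y / g y) x v 0 := by
  have h1 := HasDerivAt.fun_div hf hg (by rwa [sm_x0])
  simp only [zero_mul, mul_zero, sub_zero, zero_div] at h1
  exact h1

lemma Dl.const (c : G) (x v : X3) : Dl (fun _ => c) x v 0 := hasDerivAt_const _ _

lemma Dl.mul_zero' {f g : X3 → ℝ} {x v : X3} (hf : Dl f x v 0) (hg : Dl g x v 0) :
    Dl (fun y => f y * g y) x v 0 := by
  have h := hf.mul hg
  simpa using h

lemma Dl.pow_zero' {f : X3 → ℝ} {x v : X3} (hf : Dl f x v 0) (n : ℕ) :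
    Dl (fun y => f y ^ n) x v 0 := by
  have h := HasDerivAt.fun_pow hf n
  rw [mul_zero] at h
  exact h

lemma Dl.ofReal {f : X3 → ℝ} {x v : X3} (hf : Dl f x v 0) :
    Dl (fun y => ((f y : ℝ) : ℂ)) x v 0 := by
  have h := HasDerivAt.ofReal_comp hf
  rwa [Complex.ofReal_zero] at h

lemma Dl.of_xh {x v w : X3} (hx : 0 < rho6sq x) (hi : inner ℝ x v = 0)
    (h : ∀ i A, ∑ B, ((∑ j, (v (j, A) * x (j, B) + x (j, A) * v (j, B))) * x (i, B) +
      Gr x A B * v (i, B)) = w (i, A)) : Dl xh x v ((1 / ‖x‖ ^ 2) • w) := by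
  have h0 : ‖x‖ ^ 2 ≠ 0 := pow_ne_zero 2 (norm_ne_zero_iff.2 (sm_ne_zero hx))
  have h1 := Dl.of_diff (f := xh) (x := x) v ((sm_contDiffAt_xh hx).differentiableAt (by simp))
  have e : fderiv ℝ xh x v = (1 / ‖x‖ ^ 2) • w := by
    ext ⟨i, A⟩
    have h2 : Dl (fun y => (xh y) (i, A)) x v
        ((fderiv ℝ xh x v) (i, A)) := by
      have h3 := ((EuclideanSpace.proj (𝕜 := ℝ) (i, A) : X3 →L[ℝ] ℝ)).hasFDerivAt
        (x := xh (x + (0 : ℝ) • v))
      exact h3.comp_hasDerivAt (0 : ℝ) h1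
    have h4 : Dl (fun y => (xh y) (i, A)) x v ((1 / ‖x‖ ^ 2) * w (i, A)) := by
      have hG : ∀ B, Dl (fun y => Gr y A B) x v
          (∑ j, (v (j, A) * x (j, B) + x (j, A) * v (j, B))) := by
        intro B
        unfold Gr
        exact Dl.sum fun j _ => (Dl.coord x v (j, A)).mul (Dl.coord x v (j, B))
      have hN : Dl (fun y => ∑ B, Gr y A B * y (i, B)) x v (w (i, A)) := by
        rw [← h i A]
        exact Dl.sum fun B _ => (hG B).mul (Dl.coord x v (i, B))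
      have h5 := HasDerivAt.fun_div hN (Dl.normsq hi) (by rwa [sm_x0])
      simp only [mul_zero, sub_zero] at h5
      have e2 : w (i, A) * ‖x + (0 : ℝ) • v‖ ^ 2 / (‖x + (0 : ℝ) • v‖ ^ 2) ^ 2 =
          (1 / ‖x‖ ^ 2) * w (i, A) := by
        rw [sm_x0]
        field_simp
      rw [e2] at h5
      exact h5
    rw [h2.unique h4, PiLp.smul_apply, smul_eq_mul]
  rwa [e] at h1

end line

lemma Dl.csmul {G : Type*} [NormedAddCommGroup G] [NormedSpace ℂ G] {c : X3 → ℂ} {f : X3 → G}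
    {x v : X3} {a : G} (hc : Dl c x v 0) (hf : Dl f x v a) :
    Dl (fun y => c y • f y) x v (c x • a) := by
  have h := HasDerivAt.fun_smul hc hf
  rw [sm_x0, zero_smul, add_zero] at h
  exact h

lemma Dl.clm {T : X3 → F →L[ℂ] F} {u : X3 → F} {x v : X3} {T' : F →L[ℂ] F} {u' : F}
    (hT : Dl T x v T') (hu : Dl u x v u') :
    Dl (fun y => T y (u y)) x v (T' (u x) + T x u') := by
  have hB : IsBoundedBilinearMap ℝ (fun p : (F →L[ℂ] F) × F => p.1 p.2) := by
    have h := (isBoundedBilinearMap_apply (𝕜 := ℂ) (E := F) (F := F))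
    refine ⟨fun a b c => by simp, fun c a b => ?_, fun a b c => by simp, fun c a b => ?_, ?_⟩
    · simp
    · simp
    · obtain ⟨C, hC, hb⟩ := h.bound
      exact ⟨C, hC, hb⟩
  have h1 := hB.hasFDerivAt (T (x + (0 : ℝ) • v), u (x + (0 : ℝ) • v))
  have h2 := HasDerivAt.prodMk hT hu
  have h3 := h1.comp_hasDerivAt (0 : ℝ) h2
  rw [sm_x0] at h3
  have e : T' (u x) + T x u' = (hB.deriv (T x, u x)) (T', u') := by
    rw [IsBoundedBilinearMap.deriv_apply]
    exact add_comm _ _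
  rw [e]
  exact h3

/-- derivative of `exp` of a commuting family -/
lemma Dl.exp [CompleteSpace F] {Z : X3 → F →L[ℂ] F} {x v : X3} {Z' : F →L[ℂ] F}
    (hZ : Dl Z x v Z') (hc : ∀ y, Commute (Z y) (Z x)) :
    Dl (fun y => NormedSpace.exp (Z y)) x v (Z' * NormedSpace.exp (Z x)) := by
  let _ : NormedAlgebra ℚ (F →L[ℂ] F) := NormedAlgebra.restrictScalars ℚ ℂ _
  have e : (fun t : ℝ => NormedSpace.exp (Z (x + t • v))) =
      fun t : ℝ => NormedSpace.exp (Z (x + t • v) - Z x) * NormedSpace.exp (Z x) := by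
    funext t
    rw [← NormedSpace.exp_add_of_commute, sub_add_cancel]
    exact (hc _).sub_left (Commute.refl _)
  have h1 : HasDerivAt (fun t : ℝ => Z (x + t • v) - Z x) Z' 0 := HasDerivAt.sub_const (Z x) hZ
  have h2 : HasFDerivAt (NormedSpace.exp : (F →L[ℂ] F) → (F →L[ℂ] F))
      ((1 : (F →L[ℂ] F) →L[ℂ] (F →L[ℂ] F)).restrictScalars ℝ) (Z (x + (0 : ℝ) • v) - Z x) := by
    rw [sm_x0, sub_self]
    exact (hasFDerivAt_exp_zero (𝕂 := ℂ) (𝔸 := F →L[ℂ] F)).restrictScalars ℝ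
  have h3 : HasDerivAt (fun t : ℝ => NormedSpace.exp (Z (x + t • v) - Z x)) Z' 0 := by
    have h5 := HasFDerivAt.comp_hasDerivAt (x := (0 : ℝ)) (f := fun t : ℝ => Z (x + t • v) - Z x)
      h2 h1
    exact h5
  have h4 := hasDerivAt_mul_op h3 (hasDerivAt_const (0 : ℝ) (NormedSpace.exp (Z x)))
  rw [mul_zero, zero_add] at h4
  unfold Dl
  rw [e]
  exact h4

/-- commutator with an exponential -/
lemma sm_exp_comm [CompleteSpace F] {Z T K : F →L[ℂ] F} (hK : T * Z - Z * T = K)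
    (hKZ : Commute K Z) :
    T * NormedSpace.exp Z = NormedSpace.exp Z * T + K * NormedSpace.exp Z := by
  let _ : NormedAlgebra ℚ (F →L[ℂ] F) := NormedAlgebra.restrictScalars ℚ ℂ _
  have hof : ∀ t : ℝ, HasDerivAt (fun s : ℝ => (s : ℂ)) 1 t := fun t =>
    Complex.ofRealCLM.hasDerivAt
  have hb : ∀ t : ℝ, HasDerivAt (fun s : ℝ => NormedSpace.exp ((s : ℂ) • Z))
      (Z * NormedSpace.exp ((t : ℂ) • Z)) t := by
    intro t
    have h3 := HasDerivAt.scomp t (hasDerivAt_exp_smul_const' (𝕂 := ℂ) Z (t : ℂ)) (hof t)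
    rw [one_smul] at h3
    exact h3
  have ha : ∀ t : ℝ, HasDerivAt (fun s : ℝ => NormedSpace.exp ((s : ℂ) • (-Z)))
      ((-Z) * NormedSpace.exp ((t : ℂ) • (-Z))) t := by
    intro t
    have h3 := HasDerivAt.scomp t (hasDerivAt_exp_smul_const' (𝕂 := ℂ) (-Z) (t : ℂ)) (hof t)
    rw [one_smul] at h3
    exact h3
  have hab : ∀ t : ℝ, NormedSpace.exp ((t : ℂ) • (-Z)) * NormedSpace.exp ((t : ℂ) • Z) = 1 := by
    intro t
    rw [← NormedSpace.exp_add_of_commute, smul_neg, neg_add_cancel, NormedSpace.exp_zero]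
    exact (((Commute.refl Z).neg_left).smul_left _).smul_right _
  have hφ : ∀ t : ℝ, HasDerivAt (fun s : ℝ => NormedSpace.exp ((s : ℂ) • (-Z)) * T *
      NormedSpace.exp ((s : ℂ) • Z)) K t := by
    intro t
    have h := hasDerivAt_mul_op (hasDerivAt_mul_op (ha t) (hasDerivAt_const t T)) (hb t)
    refine h.congr_deriv ?_
    have c1 : (-Z) * NormedSpace.exp ((t : ℂ) • (-Z)) = NormedSpace.exp ((t : ℂ) • (-Z)) * (-Z) := by
      have : Commute (-Z) (NormedSpace.exp ((t : ℂ) • (-Z))) :=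
        ((Commute.refl (-Z)).smul_right _).exp_right
      exact this
    have c2 : NormedSpace.exp ((t : ℂ) • (-Z)) * K = K * NormedSpace.exp ((t : ℂ) • (-Z)) := by
      have : Commute K (NormedSpace.exp ((t : ℂ) • (-Z))) :=
        ((hKZ.neg_right).smul_right _).exp_right
      exact this.symm
    calc NormedSpace.exp ((t : ℂ) • (-Z)) * T * (Z * NormedSpace.exp ((t : ℂ) • Z)) +
          (NormedSpace.exp ((t : ℂ) • (-Z)) * 0 + (-Z) * NormedSpace.exp ((t : ℂ) • (-Z)) * T) *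
            NormedSpace.exp ((t : ℂ) • Z)
        = NormedSpace.exp ((t : ℂ) • (-Z)) * (T * Z - Z * T) * NormedSpace.exp ((t : ℂ) • Z) := by
          rw [c1]; noncomm_ring
      _ = K * (NormedSpace.exp ((t : ℂ) • (-Z)) * NormedSpace.exp ((t : ℂ) • Z)) := by
          rw [hK, c2, mul_assoc]
      _ = K := by rw [hab, mul_one]
  have hψ : ∀ t : ℝ, HasDerivAt (fun s : ℝ => NormedSpace.exp ((s : ℂ) • (-Z)) * T *
      NormedSpace.exp ((s : ℂ) • Z) - s • K) 0 t := by
    intro t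
    have h := HasDerivAt.fun_sub (hφ t) ((hasDerivAt_id t).smul_const K)
    rw [one_smul, sub_self] at h
    exact h
  have hc := is_const_of_deriv_eq_zero (fun s => (hψ s).differentiableAt)
    (fun s => (hψ s).deriv) 1 0
  simp only [Complex.ofReal_one, one_smul, Complex.ofReal_zero, zero_smul, NormedSpace.exp_zero,
    one_mul, mul_one, sub_zero] at hc
  have h1 : NormedSpace.exp (-Z) * T * NormedSpace.exp Z = T + K := sub_eq_iff_eq_add.1 hc
  have h2 : NormedSpace.exp Z * NormedSpace.exp (-Z) = 1 := by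
    rw [← NormedSpace.exp_add_of_commute, add_neg_cancel, NormedSpace.exp_zero]
    exact (Commute.refl Z).neg_right
  have h3 : K * NormedSpace.exp Z = NormedSpace.exp Z * K := by
    have : Commute K (NormedSpace.exp Z) := hKZ.exp_right
    exact this
  calc T * NormedSpace.exp Z = (NormedSpace.exp Z * NormedSpace.exp (-Z)) * (T *
        NormedSpace.exp Z) := by rw [h2, one_mul]
    _ = NormedSpace.exp Z * (NormedSpace.exp (-Z) * T * NormedSpace.exp Z) := by
        simp only [mul_assoc]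
    _ = NormedSpace.exp Z * T + K * NormedSpace.exp Z := by rw [h1, mul_add, h3]

end Vale.Agent.P353
end
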