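import Mathlib
import Vale.Agent.P353.BdU.B9
import Vale.Agent.P353.BdU.B8
import Vale.Agent.P353.BdU.B2
import Vale.Agent.P353.BdU.B3

set_option linter.all false

section

/-! Task EX-03: Fock data from the model.

`c i A = ∑ u_i θ^A`, `a i A = ∑ ū_i θ^A`; the relations `cc, aa, ac` follow from `s.iso`,
`s.ortho` and `M.θ_anticomm`; `adj` from `M.θ_selfAdjoint`.
Vacuum: start from any `v ≠ 0` (`M.nontrivial`) and go through the list of all pairs `(i,A)`; if
`a i A v ≠ 0` replace `v` by `a i A v`.  By induction on the list the result is nonzero and killed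
by all processed `a`.  Normalise.  `vacb := Ctop vac` (it is killed by all `c`; it has norm one:
`‖c_1 ⋯ c_n vac‖ = 1` for distinct `c`'s since `a c v = v` when `a v = 0`), so `pair` is `1 ≠ 0`.
`S_c`, `S_a` from `M.S_rotates` and `hT` (`rotm = adCoeff pauliT`).
`S_vac`: `M.S (Wg M C b) = Eg M C b` (`S_Wg`) is the exponential of a multiple of `Zg M C`, and
`Zg M C vac = 0`: with `θ_α^A = ∑_i (ū_i)_α c_i^A + (u_i)_α a_i^A` (from `s.compl`)
`∑_α θ_α^D θ_α^E = ∑_i (c_i^D a_i^E + a_i^D c_i^E)` and the `c c`, `a a` terms vanish, so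
`Zg C = f0 ∑ ε_{CDE} ∑_i c_i^D a_i^E` up to order (no constant as `ε_{CDD} = 0`); it kills `vac`, and
(written with `a` on the left of `c`) it kills `vacb`.  Every `U ∈ SU(2)` is a product
`Wg 2 α · Wg 1 β · Wg 2 γ` (Euler angles; `Wg 2 α = diag(e^{iα}, e^{-iα})`,
`Wg 1 β = !![cos β, sin β; -sin β, cos β]` in the Pauli basis). -/

open MeasureTheory Filter Topology
open scoped ContDiff ComplexConjugate

namespace Vale.Agent.P353.Ex

variable {F : Type*} [NormedAddCommGroup F] [InnerProductSpace ℂ F]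

section CAR

variable {c a : Fin 8 → Fin 3 → F →L[ℂ] F}

/-- product of the operators of a list -/
noncomputable def vcP (c : Fin 8 → Fin 3 → F →L[ℂ] F) (l : List (Fin 8 × Fin 3)) : F →L[ℂ] F :=
  (l.map fun p => c p.1 p.2).prod

lemma vcP_cons (c : Fin 8 → Fin 3 → F →L[ℂ] F) (q : Fin 8 × Fin 3) (l : List (Fin 8 × Fin 3)) :
    vcP c (q :: l) = c q.1 q.2 * vcP c l := by
  rw [vcP, List.map_cons, List.prod_cons]
  rfl

lemma vc_sq_zero (cc : ∀ i A j B, c i A * c j B + c j B * c i A = 0) (i : Fin 8) (A : Fin 3) :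
    c i A * c i A = 0 := by
  have h := cc i A i A
  rw [← two_smul ℂ] at h
  exact (smul_eq_zero.mp h).resolve_left two_ne_zero

lemma vc_swap (cc : ∀ i A j B, c i A * c j B + c j B * c i A = 0) (i : Fin 8) (A : Fin 3)
    (j : Fin 8) (B : Fin 3) : c i A * c j B = -(c j B * c i A) :=
  eq_neg_of_add_eq_zero_left (cc i A j B)

lemma vc_mem (cc : ∀ i A j B, c i A * c j B + c j B * c i A = 0) (l : List (Fin 8 × Fin 3))
    (p : Fin 8 × Fin 3) (hp : p ∈ l) : c p.1 p.2 * vcP c l = 0 := by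
  induction l with
  | nil => simp at hp
  | cons q l ih =>
    rw [vcP_cons, ← mul_assoc]
    by_cases h : p = q
    · rw [h, vc_sq_zero cc, zero_mul]
    · have h1 := ih ((List.mem_cons.mp hp).resolve_left h)
      rw [vc_swap cc, neg_mul, mul_assoc, h1, mul_zero, neg_zero]

lemma vc_notMem (ac : ∀ i A j B, a i A * c j B + c j B * a i A = if i = j ∧ A = B then 1 else 0)
    {v : F} (hv : ∀ i A, a i A v = 0) (l : List (Fin 8 × Fin 3)) (p : Fin 8 × Fin 3)
    (hp : p ∉ l) : a p.1 p.2 (vcP c l v) = 0 := by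
  induction l with
  | nil => exact hv _ _
  | cons q l ih =>
    have hq : p ≠ q := fun h => hp (h ▸ List.mem_cons_self)
    have hl : p ∉ l := fun h => hp (List.mem_cons_of_mem _ h)
    have h1 := congrArg (fun T : F →L[ℂ] F => T (vcP c l v)) (ac p.1 p.2 q.1 q.2)
    have hne : ¬ (p.1 = q.1 ∧ p.2 = q.2) := fun hh => hq (Prod.ext hh.1 hh.2)
    simp only [_root_.add_apply, mul_apply_eq_comp, if_neg hne, _root_.zero_apply] at h1
    rw [ih hl, map_zero, add_zero] at h1
    rw [vcP_cons]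
    exact h1

lemma vc_norm (adj : ∀ i A v w, inner ℂ (c i A v) w = inner ℂ v (a i A w))
    (ac : ∀ i A j B, a i A * c j B + c j B * a i A = if i = j ∧ A = B then 1 else 0)
    {v : F} (hv : ∀ i A, a i A v = 0) (hn : ‖v‖ = 1) (l : List (Fin 8 × Fin 3))
    (hl : l.Nodup) : ‖vcP c l v‖ = 1 := by
  induction l with
  | nil => exact hn
  | cons q l ih =>
    have hl' := List.nodup_cons.mp hl
    have h0 := ih hl'.2
    set w := vcP c l v with hw
    have h1 := vc_notMem ac hv l q hl'.1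
    have h2 := congrArg (fun T : F →L[ℂ] F => T w) (ac q.1 q.2 q.1 q.2)
    simp only [_root_.add_apply, mul_apply_eq_comp, and_self, if_true, one_apply_eq_self] at h2
    rw [h1, map_zero, add_zero] at h2
    have h3 : vcP c (q :: l) v = c q.1 q.2 w := by rw [vcP_cons]; rfl
    rw [h3]
    have h4 : inner ℂ (c q.1 q.2 w) (c q.1 q.2 w) = inner ℂ w w := by rw [adj, h2]
    rw [inner_self_eq_norm_sq_to_K, inner_self_eq_norm_sq_to_K, h0] at h4
    have h5 : ‖c q.1 q.2 w‖ ^ 2 = 1 ^ 2 := by exact_mod_cast h4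
    exact (pow_left_inj₀ (norm_nonneg _) zero_le_one two_ne_zero).1 h5

lemma vc_exists (aa : ∀ i A j B, a i A * a j B + a j B * a i A = 0) {v0 : F} (h0 : v0 ≠ 0)
    (l : List (Fin 8 × Fin 3)) : ∃ v : F, v ≠ 0 ∧ ∀ p ∈ l, a p.1 p.2 v = 0 := by
  induction l with
  | nil => exact ⟨v0, h0, by simp⟩
  | cons q l ih =>
    obtain ⟨v, hv, h⟩ := ih
    by_cases h1 : a q.1 q.2 v = 0
    · refine ⟨v, hv, fun p hp => ?_⟩
      rcases List.mem_cons.mp hp with rfl | h2
      · exact h1
      · exact h p h2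
    · refine ⟨a q.1 q.2 v, h1, fun p hp => ?_⟩
      rcases List.mem_cons.mp hp with rfl | h2
      · exact DFunLike.congr_fun (vc_sq_zero aa p.1 p.2) v
      · have h3 : a p.1 p.2 (a q.1 q.2 v) = -(a q.1 q.2 (a p.1 p.2 v)) :=
          DFunLike.congr_fun (vc_swap aa p.1 p.2 q.1 q.2) v
        rw [h3, h p h2, map_zero, neg_zero]

lemma vc_vac (aa : ∀ i A j B, a i A * a j B + a j B * a i A = 0) {v0 : F} (h0 : v0 ≠ 0) :
    ∃ v : F, ‖v‖ = 1 ∧ ∀ i A, a i A v = 0 := by
  obtain ⟨v, hv, h⟩ := vc_exists aa h0 (Finset.univ : Finset (Fin 8 × Fin 3)).toList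
  have hv' : ‖v‖ ≠ 0 := norm_ne_zero_iff.2 hv
  refine ⟨((‖v‖⁻¹ : ℝ) : ℂ) • v, ?_, fun i A => ?_⟩
  · rw [norm_smul, Complex.norm_real, norm_inv, norm_norm, inv_mul_cancel₀ hv']
  · rw [map_smul, h (i, A) (Finset.mem_toList.2 (Finset.mem_univ _)), smul_zero]

/-- the list of all creation operators in the order of `Ctop` -/
def vcL : List (Fin 8 × Fin 3) :=
  (List.ofFn fun k : Fin 7 => [(e8 k, (0 : Fin 3)), (e8 k, 1), (e8 k, 2)]).flatten ++
    [(7, 0), (7, 1), (7, 2)]

lemma vcL_nodup : vcL.Nodup := by decide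

lemma vcL_mem (p : Fin 8 × Fin 3) : p ∈ vcL := by
  revert p; decide

lemma vcL_prod (c : Fin 8 → Fin 3 → F →L[ℂ] F) : vcP c vcL =
    (List.ofFn fun k : Fin 7 => c (e8 k) 0 * c (e8 k) 1 * c (e8 k) 2).prod *
      (c 7 0 * c 7 1 * c 7 2) := by
  rw [vcP, vcL, List.map_append, List.prod_append, List.map_flatten, List.prod_flatten,
    List.map_map, List.map_ofFn]
  have h : ∀ x y z : F →L[ℂ] F, [x, y, z].prod = x * y * z := fun x y z => by
    rw [List.prod_cons, List.prod_cons, List.prod_singleton, mul_assoc]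
  have h1 : (List.prod ∘ (List.map fun p : Fin 8 × Fin 3 => c p.1 p.2)) ∘
      (fun k : Fin 7 => [(e8 k, (0 : Fin 3)), (e8 k, 1), (e8 k, 2)]) =
      fun k => c (e8 k) 0 * c (e8 k) 1 * c (e8 k) 2 := funext fun k => h _ _ _
  exact congrArg₂ (· * ·) (congrArg (fun f => (List.ofFn f).prod) h1) (h _ _ _)

lemma vc_Ctop (K : Fk F) : K.Ctop = vcP K.c vcL := by
  rw [vcL_prod, Fk.Ctop]

end CAR

section Mod

variable (M : Model 2 3 F) (s : Spin M.γ)

/-- creation operators -/
noncomputable def vcC (i : Fin 8) (A : Fin 3) : F →L[ℂ] F := ∑ α, s.u i α • M.θ α A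

/-- annihilation operators -/
noncomputable def vcA (i : Fin 8) (A : Fin 3) : F →L[ℂ] F := ∑ α, conj (s.u i α) • M.θ α A

lemma vc_anti (x y : Fin 16 → ℂ) (A B : Fin 3) :
    (∑ α, x α • M.θ α A) * (∑ β, y β • M.θ β B) + (∑ β, y β • M.θ β B) * (∑ α, x α • M.θ α A) =
      if A = B then (∑ α, x α * y α) • (1 : F →L[ℂ] F) else 0 := by
  have h1 : (∑ β, y β • M.θ β B) * (∑ α, x α • M.θ α A) =
      ∑ α, ∑ β, (x α * y β) • (M.θ β B * M.θ α A) := by
    rw [Finset.sum_mul_sum, Finset.sum_comm]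
    refine Finset.sum_congr rfl fun α _ => Finset.sum_congr rfl fun β _ => ?_
    rw [smul_mul_smul_comm, mul_comm (y β)]
  have h2 : (∑ α, x α • M.θ α A) * (∑ β, y β • M.θ β B) =
      ∑ α, ∑ β, (x α * y β) • (M.θ α A * M.θ β B) := by
    rw [Finset.sum_mul_sum]
    refine Finset.sum_congr rfl fun α _ => Finset.sum_congr rfl fun β _ => ?_
    rw [smul_mul_smul_comm]
  rw [h1, h2]
  simp only [← Finset.sum_add_distrib, ← smul_add, M.θ_anticomm]
  by_cases h : A = B
  · simp only [h, and_true, if_true, Finset.sum_smul]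
    refine Finset.sum_congr rfl fun α _ => ?_
    rw [Finset.sum_eq_single α]
    · rw [if_pos rfl]
    · intro β _ hβ
      rw [if_neg (Ne.symm hβ), smul_zero]
    · intro h'; exact absurd (Finset.mem_univ _) h'
  · simp [h]

lemma vc_cc (i : Fin 8) (A : Fin 3) (j : Fin 8) (B : Fin 3) :
    vcC M s i A * vcC M s j B + vcC M s j B * vcC M s i A = 0 := by
  unfold vcC
  rw [vc_anti, s.iso]
  simp

lemma vc_aa (i : Fin 8) (A : Fin 3) (j : Fin 8) (B : Fin 3) :
    vcA M s i A * vcA M s j B + vcA M s j B * vcA M s i A = 0 := by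
  unfold vcA
  rw [vc_anti]
  have h := congrArg conj (s.iso i j)
  rw [map_sum, map_zero] at h
  simp only [map_mul] at h
  rw [h]
  simp

lemma vc_ac (i : Fin 8) (A : Fin 3) (j : Fin 8) (B : Fin 3) :
    vcA M s i A * vcC M s j B + vcC M s j B * vcA M s i A =
      if i = j ∧ A = B then 1 else 0 := by
  unfold vcA vcC
  rw [vc_anti]
  have h := s.ortho j i
  simp only [mul_comm (s.u j _)] at h
  rw [h]
  by_cases h1 : i = j <;> by_cases h2 : A = B
  · rw [if_pos h2, if_pos h1.symm, if_pos ⟨h1, h2⟩, one_smul]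
  · rw [if_neg h2, if_neg fun h => h2 h.2]
  · rw [if_pos h2, if_neg (Ne.symm h1), if_neg fun h => h1 h.1, zero_smul]
  · rw [if_neg h2, if_neg fun h => h2 h.2]

lemma vc_adj (i : Fin 8) (A : Fin 3) (v w : F) :
    inner ℂ (vcC M s i A v) w = inner ℂ v (vcA M s i A w) := by
  simp only [vcC, vcA, _root_.sum_apply, _root_.smul_apply, sum_inner, inner_sum, inner_smul_left,
    inner_smul_right, M.θ_selfAdjoint]

lemma vc_theta (α : Fin 16) (A : Fin 3) :
    M.θ α A = ∑ i, (conj (s.u i α) • vcC M s i A + s.u i α • vcA M s i A) := by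
  have h1 : ∀ i, conj (s.u i α) • vcC M s i A + s.u i α • vcA M s i A =
      ∑ β, (s.u i β * conj (s.u i α) + conj (s.u i β) * s.u i α) • M.θ β A := by
    intro i
    unfold vcC vcA
    rw [Finset.smul_sum, Finset.smul_sum, ← Finset.sum_add_distrib]
    refine Finset.sum_congr rfl fun β _ => ?_
    rw [smul_smul, smul_smul, ← add_smul]
    congr 1
    ring
  simp only [h1]
  rw [Finset.sum_comm]
  simp only [← Finset.sum_smul, s.compl]
  simp

lemma vc_bil (D E : Fin 3) : ∑ α, M.θ α D * M.θ α E =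
    ∑ i, (vcA M s i D * vcC M s i E + vcC M s i D * vcA M s i E) := by
  have h1 : ∀ α, M.θ α D * M.θ α E = ∑ i, ((conj (s.u i α) • M.θ α D) * vcC M s i E +
      (s.u i α • M.θ α D) * vcA M s i E) := by
    intro α
    conv_lhs => rw [vc_theta M s α E]
    rw [Finset.mul_sum]
    refine Finset.sum_congr rfl fun i _ => ?_
    rw [mul_add, mul_smul_comm, mul_smul_comm, smul_mul_assoc, smul_mul_assoc]
  simp only [h1]
  rw [Finset.sum_comm]
  refine Finset.sum_congr rfl fun i _ => ?_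
  rw [Finset.sum_add_distrib, ← Finset.sum_mul, ← Finset.sum_mul]
  rfl

lemma vc_Zg {v : F} (h : ∀ D E, (∑ α, M.θ α D * M.θ α E) v = if D = E then (8 : ℂ) • v else 0)
    (C : Fin 3) : Zg M C v = 0 := by
  have h1 : Zg M C = (1 / 2 : ℂ) • ∑ D, ∑ E, (M.f C D E : ℂ) • ∑ α, M.θ α D * M.θ α E := by
    unfold Zg
    congr 1
    rw [Finset.sum_comm]
    refine Finset.sum_congr rfl fun D _ => ?_
    rw [Finset.sum_comm]
    refine Finset.sum_congr rfl fun E _ => ?_
    rw [Finset.smul_sum]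
  have h2 : ∀ D, M.f C D D = 0 := by
    intro D
    rw [f_eq_eps]
    have : ∀ C D, eps C D D = 0 := by decide
    rw [this]
    simp
  have h3 : ∀ D E, ((M.f C D E : ℂ) • ∑ α, M.θ α D * M.θ α E) v = 0 := by
    intro D E
    rw [_root_.smul_apply, h D E]
    by_cases hDE : D = E
    · rw [hDE, h2, Complex.ofReal_zero, zero_smul]
    · rw [if_neg hDE, smul_zero]
  rw [h1, _root_.smul_apply, _root_.sum_apply, Finset.sum_eq_zero fun D _ => ?_, smul_zero]
  rw [_root_.sum_apply]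
  exact Finset.sum_eq_zero fun E _ => h3 D E

lemma vc_Zg_a {v : F} (hv : ∀ i A, vcA M s i A v = 0) (C : Fin 3) : Zg M C v = 0 := by
  refine vc_Zg M (fun D E => ?_) C
  rw [vc_bil M s, _root_.sum_apply]
  have h1 : ∀ i, (vcA M s i D * vcC M s i E + vcC M s i D * vcA M s i E) v =
      if D = E then v else 0 := by
    intro i
    have h2 := congrArg (fun T : F →L[ℂ] F => T v) (vc_ac M s i D i E)
    simp only [_root_.add_apply, mul_apply_eq_comp, hv, map_zero, add_zero, true_and] at h2 ⊢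
    rw [h2]
    split_ifs <;> rfl
  simp only [h1]
  by_cases h : D = E
  · simp only [h, if_true, Finset.sum_const, Finset.card_univ, Fintype.card_fin]
    rw [← Nat.cast_smul_eq_nsmul ℂ]
    norm_num
  · simp [h]

lemma vc_Zg_c {v : F} (hv : ∀ i A, vcC M s i A v = 0) (C : Fin 3) : Zg M C v = 0 := by
  refine vc_Zg M (fun D E => ?_) C
  rw [vc_bil M s, _root_.sum_apply]
  have h1 : ∀ i, (vcA M s i D * vcC M s i E + vcC M s i D * vcA M s i E) v =
      if D = E then v else 0 := by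
    intro i
    have h2 := congrArg (fun T : F →L[ℂ] F => T v) (vc_ac M s i E i D)
    simp only [_root_.add_apply, mul_apply_eq_comp, hv, map_zero, zero_add, true_and] at h2 ⊢
    rw [h2]
    by_cases h : D = E
    · rw [if_pos h, if_pos h.symm]; rfl
    · rw [if_neg h, if_neg (Ne.symm h)]; rfl
  simp only [h1]
  by_cases h : D = E
  · simp only [h, if_true, Finset.sum_const, Finset.card_univ, Fintype.card_fin]
    rw [← Nat.cast_smul_eq_nsmul ℂ]
    norm_num
  · simp [h]

lemma vc_Eg [CompleteSpace F] (C : Fin 3) {v : F} (hv : Zg M C v = 0) (b : ℝ) :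
    Eg M C b v = v := by
  have h1 : ∀ r : ℝ, HasDerivAt (fun r => Eg M C r v) 0 r := by
    intro r
    have h2 : HasDerivAt (fun r => Eg M C r v)
        ((((Real.sqrt 2 : ℂ) • Zg M C) * Eg M C r) v) r :=
      ((ContinuousLinearMap.apply ℂ F v).restrictScalars ℝ).hasFDerivAt.comp_hasDerivAt r
        (hasDerivAt_Eg M C r)
    rw [Eg_comm, mul_apply_eq_comp, _root_.smul_apply, hv, smul_zero, map_zero] at h2
    exact h2
  have h3 := is_const_of_deriv_eq_zero (fun r => (h1 r).differentiableAt)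
    (fun r => (h1 r).deriv) b 0
  simp only [Eg_zero, one_apply_eq_self] at h3
  exact h3

end Mod

section Euler

variable (M : Model 2 3 F)

lemma vc_sqrt : Complex.I * ((Real.sqrt 2 : ℝ) : ℂ) * ((Real.sqrt 2 : ℝ) : ℂ)⁻¹ = Complex.I := by
  have hs : ((Real.sqrt 2 : ℝ) : ℂ) ≠ 0 := by
    have : Real.sqrt 2 ≠ 0 := by positivity
    exact_mod_cast this
  rw [mul_assoc, mul_inv_cancel₀ hs, mul_one]

lemma vc_Us2 (hT : M.T = pauliT) (x : ℝ) : Us M 2 x =
    !![Complex.exp (x * Complex.I), 0; 0, Complex.exp (-(x * Complex.I))] := by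
  have h1 : Complex.exp (x * Complex.I) = Complex.cos x + Complex.I * Complex.sin x := by
    rw [Complex.exp_mul_I, mul_comm Complex.I]
  have h2 : Complex.exp (-(x * Complex.I)) = Complex.cos x - Complex.I * Complex.sin x := by
    rw [← neg_mul, Complex.exp_mul_I, Complex.cos_neg, Complex.sin_neg]
    ring
  have h3 : Complex.I * ((Real.sqrt 2 : ℝ) : ℂ) * (Real.sin x : ℂ) * ((Real.sqrt 2 : ℝ) : ℂ)⁻¹ =
      Complex.I * Complex.sin x := by
    rw [mul_right_comm, vc_sqrt, Complex.ofReal_sin]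
  rw [h1, h2, Us, hT, pauliT_two, smul_smul, h3, Complex.ofReal_cos]
  ext i j
  fin_cases i <;> fin_cases j <;> simp [sub_eq_add_neg]

lemma vc_Us1 (hT : M.T = pauliT) (x : ℝ) : Us M 1 x =
    !![(Real.cos x : ℂ), (Real.sin x : ℂ); -(Real.sin x : ℂ), (Real.cos x : ℂ)] := by
  have h3 : Complex.I * ((Real.sqrt 2 : ℝ) : ℂ) * (Real.sin x : ℂ) * ((Real.sqrt 2 : ℝ) : ℂ)⁻¹ =
      Complex.I * (Real.sin x : ℂ) := by
    rw [mul_right_comm, vc_sqrt]
  have hI := Complex.I_mul_I
  rw [Us, hT, pauliT_one, smul_smul, h3]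
  ext i j
  fin_cases i <;> fin_cases j
  · simp
  · simp only [Matrix.add_apply, Matrix.smul_apply, smul_eq_mul, Matrix.one_apply, Matrix.of_apply,
      Matrix.cons_val', Matrix.cons_val_zero, Matrix.cons_val_one, Fin.isValue, Fin.zero_eta,
      Fin.mk_one, zero_ne_one, if_false, mul_zero, zero_add, Matrix.cons_val_fin_one]
    linear_combination -(Real.sin x : ℂ) * hI
  · simp only [Matrix.add_apply, Matrix.smul_apply, smul_eq_mul, Matrix.one_apply, Matrix.of_apply,
      Matrix.cons_val', Matrix.cons_val_zero, Matrix.cons_val_one, Fin.isValue, Fin.zero_eta,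
      Fin.mk_one, one_ne_zero, if_false, mul_zero, zero_add, Matrix.cons_val_fin_one]
    linear_combination (Real.sin x : ℂ) * hI
  · simp

/-- the form of the elements of `SU(2)` -/
lemma vc_form (U : SU2) : ∃ p q : ℂ, (U : Matrix (Fin 2) (Fin 2) ℂ) = !![p, q; -conj q, conj p] ∧
    ‖p‖ ^ 2 + ‖q‖ ^ 2 = 1 := by
  obtain ⟨U, hU⟩ := U
  obtain ⟨h1, h2⟩ := Matrix.mem_specialUnitaryGroup_iff.1 hU
  have h3 := Matrix.mem_unitaryGroup_iff.1 h1
  have h4 : Matrix.adjugate U = star U := by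
    calc Matrix.adjugate U = Matrix.adjugate U * (U * star U) := by rw [h3, mul_one]
      _ = (Matrix.adjugate U * U) * star U := by rw [mul_assoc]
      _ = star U := by rw [Matrix.adjugate_mul, h2, one_smul, one_mul]
  rw [Matrix.adjugate_fin_two] at h4
  have h5 := congrFun (congrFun h4 0) 0
  have h6 := congrFun (congrFun h4 1) 0
  simp [Matrix.star_apply] at h5 h6
  refine ⟨U 0 0, U 0 1, ?_, ?_⟩
  · ext i j
    fin_cases i <;> fin_cases j
    · rfl
    · rfl
    · simp [← h6]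
    · simp [h5]
  · rw [Matrix.det_fin_two] at h2
    have h7 : (U 0 0) * conj (U 0 0) + (U 0 1) * conj (U 0 1) = 1 := by
      rw [← h5, ← h6]
      linear_combination h2
    rw [Complex.mul_conj, Complex.mul_conj, Complex.normSq_eq_norm_sq,
      Complex.normSq_eq_norm_sq] at h7
    exact_mod_cast h7

lemma vc_euler (hT : M.T = pauliT) (U : SU2) : ∃ x y z : ℝ,
    U = Wg M 2 x * Wg M 1 y * Wg M 2 z := by
  obtain ⟨p, q, hU, h⟩ := vc_form U
  set y := Real.arccos ‖p‖ with hy
  have hp1 : ‖p‖ ≤ 1 := by nlinarith only [h, sq_nonneg ‖q‖, norm_nonneg p]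
  have hc : Real.cos y = ‖p‖ := Real.cos_arccos (by linarith [norm_nonneg p]) hp1
  have hs : Real.sin y = ‖q‖ := by
    rw [hy, Real.sin_arccos, show 1 - ‖p‖ ^ 2 = ‖q‖ ^ 2 by linarith, Real.sqrt_sq (norm_nonneg q)]
  refine ⟨(p.arg + q.arg) / 2, y, (p.arg - q.arg) / 2, Subtype.ext ?_⟩
  rw [hU]
  show _ = Us M 2 _ * Us M 1 _ * Us M 2 _
  rw [vc_Us2 M hT, vc_Us1 M hT, vc_Us2 M hT, hc, hs]
  have hp : (‖p‖ : ℂ) * Complex.exp (p.arg * Complex.I) = p := Complex.norm_mul_exp_arg_mul_I p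
  have hq : (‖q‖ : ℂ) * Complex.exp (q.arg * Complex.I) = q := Complex.norm_mul_exp_arg_mul_I q
  have hp' : (‖p‖ : ℂ) * Complex.exp (-(p.arg * Complex.I)) = conj p := by
    conv_rhs => rw [← hp]
    rw [map_mul, Complex.conj_ofReal, ← Complex.exp_conj, map_mul, Complex.conj_ofReal,
      Complex.conj_I, mul_neg]
  have hq' : (‖q‖ : ℂ) * Complex.exp (-(q.arg * Complex.I)) = conj q := by
    conv_rhs => rw [← hq]
    rw [map_mul, Complex.conj_ofReal, ← Complex.exp_conj, map_mul, Complex.conj_ofReal,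
      Complex.conj_I, mul_neg]
  rw [Matrix.mul_fin_two, Matrix.mul_fin_two]
  have e1 : Complex.exp (((p.arg + q.arg) / 2 : ℝ) * Complex.I) *
      Complex.exp (((p.arg - q.arg) / 2 : ℝ) * Complex.I) = Complex.exp (p.arg * Complex.I) := by
    rw [← Complex.exp_add]; congr 1; push_cast; ring
  have e2 : Complex.exp (((p.arg + q.arg) / 2 : ℝ) * Complex.I) *
      Complex.exp (-(((p.arg - q.arg) / 2 : ℝ) * Complex.I)) = Complex.exp (q.arg * Complex.I) := by
    rw [← Complex.exp_add]; congr 1; push_cast; ring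
  have e3 : Complex.exp (-(((p.arg + q.arg) / 2 : ℝ) * Complex.I)) *
      Complex.exp (((p.arg - q.arg) / 2 : ℝ) * Complex.I) =
        Complex.exp (-(q.arg * Complex.I)) := by
    rw [← Complex.exp_add]; congr 1; push_cast; ring
  have e4 : Complex.exp (-(((p.arg + q.arg) / 2 : ℝ) * Complex.I)) *
      Complex.exp (-(((p.arg - q.arg) / 2 : ℝ) * Complex.I)) =
        Complex.exp (-(p.arg * Complex.I)) := by
    rw [← Complex.exp_add]; congr 1; push_cast; ring
  ext i j
  fin_cases i <;> fin_cases j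
  · show p = _
    simp only [Matrix.of_apply, Matrix.cons_val', Matrix.cons_val_zero, Fin.zero_eta,
      Matrix.cons_val_fin_one]
    linear_combination -hp - (‖p‖ : ℂ) * e1
  · show q = _
    simp only [Matrix.of_apply, Matrix.cons_val', Matrix.cons_val_zero, Fin.zero_eta,
      Matrix.cons_val_fin_one, Fin.mk_one, Matrix.cons_val_one]
    linear_combination -hq - (‖q‖ : ℂ) * e2
  · show -conj q = _
    simp only [Matrix.of_apply, Matrix.cons_val', Matrix.cons_val_zero, Fin.zero_eta,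
      Matrix.cons_val_fin_one, Fin.mk_one, Matrix.cons_val_one]
    linear_combination hq' + (‖q‖ : ℂ) * e3
  · show conj p = _
    simp only [Matrix.of_apply, Matrix.cons_val', Matrix.cons_val_zero, Fin.zero_eta,
      Matrix.cons_val_fin_one, Fin.mk_one, Matrix.cons_val_one]
    linear_combination -hp' - (‖p‖ : ℂ) * e4

end Euler

lemma vc_S [FiniteDimensional ℂ F] (M : Model 2 3 F) (hT : M.T = pauliT) {v : F}
    (hv : ∀ C, Zg M C v = 0) (U : SU2) : M.S U v = v := by
  have : CompleteSpace F := FiniteDimensional.complete ℂ F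
  obtain ⟨x, y, z, rfl⟩ := vc_euler M hT U
  rw [map_mul, map_mul, S_Wg, S_Wg, S_Wg]
  show Eg M 2 x (Eg M 1 y (Eg M 2 z v)) = v
  rw [vc_Eg M 2 (hv 2), vc_Eg M 1 (hv 1), vc_Eg M 2 (hv 2)]

lemma vc_rot (M : Model 2 3 F) (hT : M.T = pauliT) (y : Fin 16 → ℂ) (U : SU2) (A : Fin 3) :
    M.S U * (∑ α, y α • M.θ α A) =
      ∑ B, ((rotm U B A : ℝ) : ℂ) • ((∑ α, y α • M.θ α B) * M.S U) := by
  rw [Finset.mul_sum]
  have h1 : ∀ α, M.S U * (y α • M.θ α A) =
      ∑ B, ((rotm U B A : ℝ) : ℂ) • ((y α • M.θ α B) * M.S U) := by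
    intro α
    rw [mul_smul_comm, M.S_rotates, Finset.smul_sum]
    refine Finset.sum_congr rfl fun B _ => ?_
    rw [smul_mul_assoc, smul_comm, rotm, hT]
  simp only [h1]
  rw [Finset.sum_comm]
  refine Finset.sum_congr rfl fun B _ => ?_
  rw [← Finset.smul_sum, Finset.sum_mul]

/-- the Fock data of the model -/
noncomputable def vcK [FiniteDimensional ℂ F] (M : Model 2 3 F) (hT : M.T = pauliT)
    (s : Spin M.γ) (v : F) (hv1 : ‖v‖ = 1) (hv2 : ∀ i A, vcA M s i A v = 0) : Fk F where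
  c := vcC M s
  a := vcA M s
  adj := vc_adj M s
  cc := vc_cc M s
  aa := vc_aa M s
  ac := vc_ac M s
  t := s.t
  t_swap := s.t_swap
  t_cyc := s.t_cyc
  t_norm := s.t_norm
  sg := 1
  sg_sq := one_mul 1
  f0 := M.f 0 1 2
  f0_sq := by rw [← pow_two]; exact f_sq M
  vac := v
  vac_norm := hv1
  a_vac := hv2
  vacb := vcP (vcC M s) vcL v
  vacb_norm := vc_norm (vc_adj M s) (vc_ac M s) hv2 hv1 vcL vcL_nodup
  c_vacb := fun i A => DFunLike.congr_fun (vc_mem (vc_cc M s) vcL (i, A) (vcL_mem _)) v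
  S := M.S
  S_isometry := M.S_isometry
  S_continuous := M.S_continuous
  S_c := fun U i A => vc_rot M hT _ U A
  S_a := fun U i A => vc_rot M hT _ U A
  S_vac := fun U => vc_S M hT (vc_Zg_a M s hv2) U
  S_vacb := fun U => vc_S M hT (vc_Zg_c M s fun i A =>
    DFunLike.congr_fun (vc_mem (vc_cc M s) vcL (i, A) (vcL_mem _)) v) U

theorem exists_link (M : Model 2 3 F) (hT : M.T = pauliT) (s : Spin M.γ) :
    ∃ K : Fk F, Link M s K := by
  have hfd : FiniteDimensional ℂ F := M.finiteDimensional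
  obtain ⟨v0, hv0⟩ := M.nontrivial
  obtain ⟨v, hv1, hv2⟩ := vc_vac (vc_aa M s) hv0
  refine ⟨vcK M hT s v hv1 hv2, hT, fun i A => rfl, fun i A => rfl, rfl, rfl,
    fun A B C => f_eq_eps M A B C, rfl, ?_⟩
  set K := vcK M hT s v hv1 hv2 with hK
  have h0 : K.vacb = vcP K.c vcL K.vac := by
    have e1 : K.vacb = vcP (vcC M s) vcL v := by rw [hK, vcK]
    have e2 : K.c = vcC M s := by rw [hK, vcK]
    have e3 : K.vac = v := by rw [hK, vcK]
    rw [e1, e2, e3]
  intro h2
  rw [vc_Ctop, ← h0, inner_self_eq_zero] at h2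
  have h4 := K.vacb_norm
  rw [h2, norm_zero] at h4
  exact zero_ne_one h4

end Vale.Agent.P353.Ex
end

section

open MeasureTheory Filter Topology
open scoped ContDiff

namespace Vale.Agent.P353

variable {F : Type*} [NormedAddCommGroup F] [InnerProductSpace ℂ F]

/-! ### linearity of `Q` and `G`, the submodule of zero modes -/

namespace Setup

variable (S : Setup F)

lemma Q_add {β : Fin 16} {u v : X3 → F} {x : X3} (hu : DifferentiableAt ℝ u x)
    (hv : DifferentiableAt ℝ v x) :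
    S.Q β (fun y => u y + v y) x = S.Q β u x + S.Q β v x := by
  simp only [Q, pd_add hu hv, map_add, Finset.sum_add_distrib, smul_add]
  abel

lemma Q_sub {β : Fin 16} {u v : X3 → F} {x : X3} (hu : DifferentiableAt ℝ u x)
    (hv : DifferentiableAt ℝ v x) :
    S.Q β (fun y => u y - v y) x = S.Q β u x - S.Q β v x := by
  simp only [Q, pd_sub hu hv, map_sub, Finset.sum_sub_distrib, smul_sub]
  abel

lemma pd_cs {i : Fin 9} {A : Fin 3} (c : ℂ) {u : X3 → F} {x : X3}
    (hu : DifferentiableAt ℝ u x) : Vale.Agent.P353.pd i A (fun y => c • u y) x =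
      c • Vale.Agent.P353.pd i A u x := by
  have h := pd_clm (i := i) (A := A) (c • (1 : F →L[ℂ] F)) hu
  simpa using h

lemma Q_cs {β : Fin 16} (c : ℂ) {u : X3 → F} {x : X3} (hu : DifferentiableAt ℝ u x) :
    S.Q β (fun y => c • u y) x = c • S.Q β u x := by
  simp only [Q, pd_cs c hu, map_smul, smul_add, Finset.smul_sum]
  congr 1
  refine Finset.sum_congr rfl fun i _ => Finset.sum_congr rfl fun A _ => ?_
  rw [smul_comm]

lemma G_add {C : Fin 3} {u v : X3 → F} {x : X3} (hu : DifferentiableAt ℝ u x)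
    (hv : DifferentiableAt ℝ v x) :
    S.G C (fun y => u y + v y) x = S.G C u x + S.G C v x := by
  simp only [G, pd_add hu hv, map_add, Finset.sum_add_distrib, smul_add]
  abel

lemma G_cs {C : Fin 3} (c : ℂ) {u : X3 → F} {x : X3} (hu : DifferentiableAt ℝ u x) :
    S.G C (fun y => c • u y) x = c • S.G C u x := by
  simp only [G, pd_cs c hu, map_smul, smul_add, Finset.smul_sum]
  congr 1
  refine Finset.sum_congr rfl fun i _ => Finset.sum_congr rfl fun A _ =>
    Finset.sum_congr rfl fun B _ => ?_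
  rw [smul_comm c, smul_comm c]

omit [InnerProductSpace ℂ F] in
lemma tendsto_sq_add {f g : ℕ → X3 → F} (hf : ∀ n, MemLp (f n) 2 (volume : Measure X3))
    (hg : ∀ n, MemLp (g n) 2 (volume : Measure X3))
    (h1 : Tendsto (fun n => ∫ x, ‖f n x‖ ^ 2) atTop (𝓝 0))
    (h2 : Tendsto (fun n => ∫ x, ‖g n x‖ ^ 2) atTop (𝓝 0)) :
    Tendsto (fun n => ∫ x, ‖f n x + g n x‖ ^ 2) atTop (𝓝 0) := by
  have h3 : Tendsto (fun n => 2 * (∫ x, ‖f n x‖ ^ 2) + 2 * ∫ x, ‖g n x‖ ^ 2) atTop
      (𝓝 (2 * 0 + 2 * 0)) := (h1.const_mul 2).add (h2.const_mul 2)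
  rw [mul_zero, add_zero] at h3
  refine squeeze_zero (fun n => integral_nonneg fun x => by positivity) (fun n => ?_) h3
  have i1 := memLp_norm_sq_int (hf n)
  have i2 := memLp_norm_sq_int (hg n)
  rw [← integral_const_mul, ← integral_const_mul, ← integral_add (i1.const_mul 2) (i2.const_mul 2)]
  refine integral_mono_of_nonneg (Filter.Eventually.of_forall fun x => by
    simp only [Pi.zero_apply]; positivity) ((i1.const_mul 2).add (i2.const_mul 2))
    (Filter.Eventually.of_forall fun x => ?_)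
  simp only
  have h := norm_add_le (f n x) (g n x)
  have h0 := norm_nonneg (f n x + g n x)
  nlinarith [sq_nonneg (‖f n x‖ - ‖g n x‖)]

lemma IsZM.add {Ψ Φ : Lp F 2 (volume : Measure X3)} (h1 : S.IsZM Ψ) (h2 : S.IsZM Φ) :
    S.IsZM (Ψ + Φ) := by
  obtain ⟨u, hu1, hu2, hu3, hu4⟩ := h1
  obtain ⟨v, hv1, hv2, hv3, hv4⟩ := h2
  refine ⟨fun n x => u n x + v n x, fun n => (hu1 n).add (hv1 n), fun n C x => ?_, ?_, fun β => ?_⟩
  · rw [S.G_add ((hu1 n).diff x) ((hv1 n).diff x), hu2, hv2, add_zero]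
  · refine (tendsto_sq_add (f := fun n x => u n x - Ψ x) (g := fun n x => v n x - Φ x)
      (fun n => (hu1 n).memLp.sub (Lp.memLp Ψ)) (fun n => (hv1 n).memLp.sub (Lp.memLp Φ))
      hu3 hv3).congr fun n => ?_
    refine integral_congr_ae ?_
    filter_upwards [Lp.coeFn_add Ψ Φ] with x hx
    rw [hx, Pi.add_apply]
    congr 2
    abel
  · refine (tendsto_sq_add (fun n => ((hu1 n).Q S β).memLp) (fun n => ((hv1 n).Q S β).memLp)
      (hu4 β) (hv4 β)).congr fun n => ?_
    refine integral_congr_ae (Filter.Eventually.of_forall fun x => ?_)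
    simp only
    rw [S.Q_add ((hu1 n).diff x) ((hv1 n).diff x)]

lemma Tst.cs {u : X3 → F} (hu : Tst u) (c : ℂ) : Tst (fun x => c • u x) := by
  refine ⟨contDiff_const.smul hu.1, hu.2.mono ?_⟩
  intro x hx
  simp only [Function.mem_support] at hx ⊢
  intro h0
  exact hx (by rw [h0, smul_zero])

lemma IsZM.smul {Ψ : Lp F 2 (volume : Measure X3)} (h1 : S.IsZM Ψ) (c : ℂ) :
    S.IsZM (c • Ψ) := by
  obtain ⟨u, hu1, hu2, hu3, hu4⟩ := h1
  refine ⟨fun n x => c • u n x, fun n => (hu1 n).cs c, fun n C x => ?_, ?_, fun β => ?_⟩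
  · rw [S.G_cs c ((hu1 n).diff x), hu2, smul_zero]
  · have h := hu3.const_mul (‖c‖ ^ 2)
    rw [mul_zero] at h
    refine h.congr fun n => ?_
    rw [← integral_const_mul]
    refine integral_congr_ae ?_
    filter_upwards [Lp.coeFn_smul c Ψ] with x hx
    rw [hx, Pi.smul_apply, ← smul_sub, norm_smul, mul_pow]
  · have h := (hu4 β).const_mul (‖c‖ ^ 2)
    rw [mul_zero] at h
    refine h.congr fun n => ?_
    rw [← integral_const_mul]
    refine integral_congr_ae (Filter.Eventually.of_forall fun x => ?_)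
    simp only
    rw [S.Q_cs c ((hu1 n).diff x), norm_smul, mul_pow]

lemma IsZM.zero : S.IsZM (0 : Lp F 2 (volume : Measure X3)) := by
  refine ⟨fun _ _ => 0, fun n => ⟨contDiff_const, HasCompactSupport.zero⟩, fun n C x => ?_, ?_,
    fun β => ?_⟩
  · simp [G, Vale.Agent.P353.pd]
  · refine tendsto_const_nhds.congr fun n => ?_
    symm
    rw [integral_eq_zero_of_ae]
    filter_upwards [Lp.coeFn_zero F 2 (volume : Measure X3)] with x hx
    rw [hx]; simp
  · refine tendsto_const_nhds.congr fun n => ?_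
    symm
    rw [integral_eq_zero_of_ae]
    refine Filter.Eventually.of_forall fun x => ?_
    simp [Q, Vale.Agent.P353.pd]

/-- the space of zero modes -/
noncomputable def zm : Submodule ℂ (Lp F 2 (volume : Measure X3)) where
  carrier := {Ψ | S.IsZM Ψ}
  zero_mem' := IsZM.zero S
  add_mem' := fun h1 h2 => IsZM.add S h1 h2
  smul_mem' := fun c _ h => IsZM.smul S h c

end Setup

/-! ### zero-energy states of the model are zero modes of the setup -/

variable (M : Model 2 3 F)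

lemma form_eq (φ u : X3 → F) : M.form φ u =
    (1 / 16 : ℂ) * ∑ α, ∫ x, inner ℂ ((M.toSetup).Q α φ x) ((M.toSetup).Q α u x) := by
  rw [Model.form]
  congr 1
  refine Finset.sum_congr rfl fun α _ => integral_congr_ae (Filter.Eventually.of_forall fun x => ?_)
  simp only
  rw [toSetup_Q, toSetup_Q, inner_smul_left, inner_smul_right, Complex.conj_ofReal, ← mul_assoc,
    ← Complex.ofReal_mul, sgnM_sq]
  simp

lemma inner_self_C (a : F) : inner ℂ a a = ((‖a‖ ^ 2 : ℝ) : ℂ) := by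
  rw [inner_self_eq_norm_sq_to_K]
  norm_cast

lemma form_self_re (u : X3 → F) : (M.form u u).re =
    1 / 16 * ∑ α, ∫ x, ‖(M.toSetup).Q α u x‖ ^ 2 := by
  rw [form_eq]
  have h : ∀ α, ∫ x, inner ℂ ((M.toSetup).Q α u x) ((M.toSetup).Q α u x) =
      ((∫ x, ‖(M.toSetup).Q α u x‖ ^ 2 : ℝ) : ℂ) := by
    intro α
    rw [← integral_complex_ofReal]
    exact integral_congr_ae (Filter.Eventually.of_forall fun x => inner_self_C _)
  simp only [h]
  rw [← Complex.ofReal_sum]
  have e : (1 / 16 : ℂ) = ((1 / 16 : ℝ) : ℂ) := by norm_num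
  rw [e, ← Complex.ofReal_mul, Complex.ofReal_re]

lemma form_sub_re {u v : X3 → F} (hu : Setup.Tst u) (hv : Setup.Tst v) :
    (M.form (u - v) (u - v)).re = (M.form u u).re - 2 * (M.form v u).re + (M.form v v).re := by
  rw [form_self_re, form_self_re, form_self_re, form_eq]
  set S := M.toSetup with hS
  have h : ∀ α, ∫ x, ‖S.Q α (u - v) x‖ ^ 2 = (∫ x, ‖S.Q α u x‖ ^ 2) -
      2 * (∫ x, inner ℂ (S.Q α v x) (S.Q α u x)).re + (∫ x, ‖S.Q α v x‖ ^ 2) := by
    intro α
    have i1 := (hu.Q S α).norm_sq_int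
    have i2 := (hv.Q S α).norm_sq_int
    have i3 : Integrable (fun x => inner ℂ (S.Q α v x) (S.Q α u x)) :=
      (hv.Q S α).inner_int (hu.Q S α).1.continuous
    have i4 : Integrable (fun x => (inner ℂ (S.Q α v x) (S.Q α u x) : ℂ).re) := i3.re
    have e1 : (∫ x, inner ℂ (S.Q α v x) (S.Q α u x)).re =
        ∫ x, (inner ℂ (S.Q α v x) (S.Q α u x) : ℂ).re := by
      exact (integral_re i3).symm
    have i5 : Integrable (fun x => 2 * (inner ℂ (S.Q α v x) (S.Q α u x) : ℂ).re) := i4.const_mul 2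
    have i6 : Integrable (fun x => ‖S.Q α u x‖ ^ 2 -
      2 * (inner ℂ (S.Q α v x) (S.Q α u x) : ℂ).re) := i1.sub i5
    rw [e1, ← integral_const_mul, ← integral_sub i1 i5, ← integral_add i6 i2]
    refine integral_congr_ae (Filter.Eventually.of_forall fun x => ?_)
    simp only
    have e2 : S.Q α (u - v) x = S.Q α u x - S.Q α v x := S.Q_sub (hu.diff x) (hv.diff x)
    rw [e2, @norm_sub_sq ℂ F]
    have e3 : RCLike.re (inner ℂ (S.Q α u x) (S.Q α v x)) =
        (inner ℂ (S.Q α v x) (S.Q α u x) : ℂ).re := inner_re_symm _ _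
    rw [e3]
  simp only [h]
  have e : (1 / 16 : ℂ) = ((1 / 16 : ℝ) : ℂ) := by norm_num
  rw [e, Complex.re_ofReal_mul, Complex.re_sum, Finset.sum_add_distrib, Finset.sum_sub_distrib,
    ← Finset.mul_sum]
  ring

lemma form_self_nonneg (u : X3 → F) : 0 ≤ (M.form u u).re := by
  rw [form_self_re]
  refine mul_nonneg (by norm_num) (Finset.sum_nonneg fun α _ => integral_nonneg fun x => ?_)
  positivity

/-- zero-energy states are zero modes of the abstract setup -/
theorem isZM_of_zeroEnergy [FiniteDimensional ℂ F] {Ψ : Lp F 2 (volume : Measure X3)}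
    (h : M.IsZeroEnergyState Ψ) : (M.toSetup).IsZM Ψ := by
  obtain ⟨u, hu1, hu2, hu3, hu4⟩ := h
  have hT : ∀ n, Setup.Tst (u n) := fun n => ⟨(hu1 n).1, (hu1 n).2.1⟩
  refine ⟨u, hT, fun n C x => toSetup_G M (hu1 n) C x, hu2, ?_⟩
  -- the energies tend to zero
  have hE : Tendsto (fun n => (M.form (u n) (u n)).re) atTop (𝓝 0) := by
    rw [Metric.tendsto_atTop]
    intro ε hε
    rw [Metric.tendsto_atTop] at hu3
    obtain ⟨⟨N1, N2⟩, hN⟩ := hu3 (ε / 2) (by positivity)
    set m := max N1 N2 with hm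
    have h4 := hu4 (u m) (hu1 m)
    rw [Metric.tendsto_atTop] at h4
    obtain ⟨N3, hN3⟩ := h4 (ε / 4) (by positivity)
    refine ⟨max m N3, fun n hn => ?_⟩
    have hn1 : m ≤ n := (le_max_left _ _).trans hn
    have hn3 : N3 ≤ n := (le_max_right _ _).trans hn
    have a1 := hN (n, m) ⟨((le_max_left _ _).trans hn1 : N1 ≤ n), (le_max_right _ _ : N2 ≤ m)⟩
    have a2 := hN3 n hn3
    rw [dist_zero_right] at a1 a2
    have b1 : (M.form (u n - u m) (u n - u m)).re ≤ ‖M.form (u n - u m) (u n - u m)‖ :=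
      Complex.re_le_norm _
    have b2 : (M.form (u m) (u n)).re ≤ ‖M.form (u m) (u n)‖ := Complex.re_le_norm _
    have b3 := form_sub_re M (hT n) (hT m)
    have b4 := form_self_nonneg M (u m)
    have b5 := form_self_nonneg M (u n)
    rw [Real.dist_eq, sub_zero, abs_of_nonneg b5]
    simp only at a1
    linarith
  intro β
  have h16 : Tendsto (fun n => 16 * (M.form (u n) (u n)).re) atTop (𝓝 0) := by
    simpa using hE.const_mul 16
  refine squeeze_zero (fun n => integral_nonneg fun x => by positivity) (fun n => ?_) h16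
  rw [form_self_re]
  have h1 : ∫ x, ‖(M.toSetup).Q β (u n) x‖ ^ 2 ≤ ∑ α, ∫ x, ‖(M.toSetup).Q α (u n) x‖ ^ 2 :=
    Finset.single_le_sum (f := fun α => ∫ x, ‖(M.toSetup).Q α (u n) x‖ ^ 2)
      (fun α _ => integral_nonneg fun x => by positivity) (Finset.mem_univ β)
  linarith

end Vale.Agent.P353
end

section

/-! # P353, uniqueness for `N = 2`: existence of the resolvent (task B1) -/

open MeasureTheory Filter Topology
open scoped ContDiff

namespace Vale.Agent.P353

variable {F : Type*} [NormedAddCommGroup F] [InnerProductSpace ℂ F]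

lemma res_norm_sq {f : X3 → F} (hf : MemLp f 2 (volume : Measure X3)) :
    ‖hf.toLp f‖ ^ 2 = nsq f := by
  rw [norm_toLp, Real.sq_sqrt (nsq_nonneg f)]

lemma res_nsq_coe (f : Lp F 2 (volume : Measure X3)) : nsq f = ‖f‖ ^ 2 := by
  rw [← res_norm_sq (Lp.memLp f), Lp.toLp_coeFn]

lemma res_nsq_sub {f : X3 → F} (hf : MemLp f 2 (volume : Measure X3))
    (g : Lp F 2 (volume : Measure X3)) : nsq (fun x => f x - g x) = ‖hf.toLp f - g‖ ^ 2 := by
  have h : hf.toLp f - g = (hf.sub (Lp.memLp g)).toLp (f - (g : X3 → F)) := by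
    rw [MemLp.toLp_sub hf (Lp.memLp g), Lp.toLp_coeFn]
  rw [h, res_norm_sq]
  rfl

lemma res_inner {a : X3 → F} (ha : MemLp a 2 (volume : Measure X3))
    (g : Lp F 2 (volume : Measure X3)) :
    inner ℂ (ha.toLp a) g = ∫ x, inner ℂ (a x) (g x) := by
  rw [MeasureTheory.L2.inner_def]
  refine integral_congr_ae ?_
  filter_upwards [ha.coeFn_toLp] with x hx
  rw [hx]

omit [InnerProductSpace ℂ F] in
lemma res_toLp_congr {f g : X3 → F} (hf : MemLp f 2 (volume : Measure X3))
    (hg : MemLp g 2 (volume : Measure X3)) (h : f = g) : hf.toLp f = hg.toLp g := by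
  subst h
  rfl

namespace Setup

variable (S : Setup F)

lemma res_contDiff_MM (β : Fin 16) : ContDiff ℝ ∞ (S.MM β) := by
  unfold MM
  refine ContDiff.sum fun i _ => ContDiff.sum fun A _ => ?_
  exact (contDiff_ofReal (contDiff_const.mul (contDiff_coord _))).smul contDiff_const

variable {S} in
lemma Tst.res_Qm {u : X3 → F} (hu : Tst u) (m : ℝ) (β : Fin 16) : Tst (S.Qm m β u) := by
  have h1 : Tst (S.Q β u) := Tst.Q S hu β
  have h2 : Tst (fun x => ((m : ℝ) : ℂ) • S.MM β x (u x)) :=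
    Tst.rsmul (φ := fun _ => m) contDiff_const (Tst.clm (S.res_contDiff_MM β) hu)
  exact h1.add h2

lemma Tst.res_csmul {u : X3 → F} (c : ℂ) (hu : Tst u) : Tst (fun x => c • u x) :=
  Tst.clm (T := fun _ => c • (1 : F →L[ℂ] F)) contDiff_const hu

lemma Tst.res_zero : Tst (fun _ : X3 => (0 : F)) :=
  ⟨contDiff_const, HasCompactSupport.zero⟩

lemma res_Qm_add {u v : X3 → F} (hu : Tst u) (hv : Tst v) (m : ℝ) (β : Fin 16) :
    S.Qm m β (fun y => u y + v y) = fun x => S.Qm m β u x + S.Qm m β v x := by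
  funext x
  unfold Qm Q
  simp only [pd_add (hu.diff x) (hv.diff x), map_add, Finset.sum_add_distrib, smul_add]
  abel

lemma res_Qm_smul {u : X3 → F} (c : ℂ) (hu : Tst u) (m : ℝ) (β : Fin 16) :
    S.Qm m β (fun y => c • u y) = fun x => c • S.Qm m β u x := by
  funext x
  have h : ∀ i A, pd i A (fun y => c • u y) x = c • pd i A u x := by
    intro i A
    have := pd_csmul (i := i) (A := A) (c := fun _ => c) (differentiableAt_const c) (hu.diff x)
    rw [this]
    simp
  unfold Qm Q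
  simp only [h, map_smul, smul_add, Finset.smul_sum]
  congr 1
  · congr 1
    refine Finset.sum_congr rfl fun i _ => Finset.sum_congr rfl fun A _ => ?_
    rw [smul_comm]
  · rw [smul_comm]

lemma res_Qm_zero (m : ℝ) (β : Fin 16) :
    S.Qm m β (fun _ => (0 : F)) = fun _ => 0 := by
  have h := S.res_Qm_smul (u := fun _ => (0 : F)) 0 Tst.res_zero m β
  simpa using h

end Setup

/-- The Hilbert space of the graph. -/
abbrev ResH (F : Type*) [NormedAddCommGroup F] : Type _ :=
  PiLp 2 (fun _ : Option (Fin 16) => Lp F 2 (volume : Measure X3))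

namespace Setup

variable (S : Setup F)

/-- The point of the graph over a test function. -/
noncomputable def resPair (m : ℝ) {u : X3 → F} (hu : Tst u) : ResH F :=
  WithLp.toLp 2 fun o => o.elim (hu.memLp.toLp u)
    (fun β => (hu.res_Qm (S := S) m β).memLp.toLp (S.Qm m β u))

/-- The graph over the test functions. -/
noncomputable def resG (m : ℝ) : Submodule ℂ (ResH F) where
  carrier := {w | ∃ u, ∃ hu : Tst u, w = S.resPair m hu}
  zero_mem' := by
    refine ⟨fun _ => 0, Tst.res_zero, ?_⟩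
    ext1 o
    rcases o with _ | β
    · exact (MemLp.toLp_zero (Tst.res_zero (F := F)).memLp).symm
    · have h : (Tst.res_zero.res_Qm (S := S) m β).memLp.toLp (S.Qm m β fun _ => (0 : F)) =
          (Tst.res_zero (F := F)).memLp.toLp (fun _ => (0 : F)) :=
        res_toLp_congr _ _ (S.res_Qm_zero m β)
      refine (h.trans ?_).symm
      exact MemLp.toLp_zero _
  add_mem' := by
    rintro _ _ ⟨u, hu, rfl⟩ ⟨v, hv, rfl⟩
    refine ⟨_, hu.add hv, ?_⟩
    ext1 o
    rcases o with _ | β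
    · exact (MemLp.toLp_add hu.memLp hv.memLp).symm
    · have h : ((hu.add hv).res_Qm (S := S) m β).memLp.toLp (S.Qm m β fun y => u y + v y) =
          ((hu.res_Qm (S := S) m β).memLp.add (hv.res_Qm (S := S) m β).memLp).toLp
            (S.Qm m β u + S.Qm m β v) :=
        res_toLp_congr _ _ (S.res_Qm_add hu hv m β)
      exact ((h.trans (MemLp.toLp_add (hu.res_Qm (S := S) m β).memLp
        (hv.res_Qm (S := S) m β).memLp))).symm
  smul_mem' := by
    rintro c _ ⟨u, hu, rfl⟩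
    refine ⟨_, hu.res_csmul c, ?_⟩
    ext1 o
    rcases o with _ | β
    · exact (MemLp.toLp_const_smul c hu.memLp).symm
    · have h : ((hu.res_csmul c).res_Qm (S := S) m β).memLp.toLp (S.Qm m β fun y => c • u y) =
          ((hu.res_Qm (S := S) m β).memLp.const_smul c).toLp (c • S.Qm m β u) :=
        res_toLp_congr _ _ (S.res_Qm_smul c hu m β)
      exact ((h.trans (MemLp.toLp_const_smul c (hu.res_Qm (S := S) m β).memLp))).symm

lemma resPair_mem (m : ℝ) {u : X3 → F} (hu : Tst u) : S.resPair m hu ∈ S.resG m :=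
  ⟨u, hu, rfl⟩

lemma resPair_norm (m : ℝ) {u : X3 → F} (hu : Tst u) :
    ‖S.resPair m hu‖ ^ 2 = nsq u + ∑ β, nsq (S.Qm m β u) := by
  rw [PiLp.norm_sq_eq_of_L2, Fintype.sum_option]
  congr 1
  · exact res_norm_sq hu.memLp
  · exact Finset.sum_congr rfl fun β _ => res_norm_sq (hu.res_Qm (S := S) m β).memLp

lemma resPair_inner (m : ℝ) {u : X3 → F} (hu : Tst u) (w : ResH F) :
    inner ℂ (S.resPair m hu) w = (∫ x, inner ℂ (u x) (w none x)) +
      ∑ β, ∫ x, inner ℂ (S.Qm m β u x) (w (some β) x) := by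
  rw [PiLp.inner_apply, Fintype.sum_option]
  exact congrArg₂ (· + ·) (res_inner hu.memLp (w none))
    (Finset.sum_congr rfl fun β _ => res_inner (hu.res_Qm (S := S) m β).memLp (w (some β)))

end Setup

namespace U

/-- **B1** existence of the resolvent. -/
theorem res [FiniteDimensional ℂ F] [CompleteSpace F] (S : Setup F) : ResStmt S := by
  intro m
  obtain ⟨K, hK⟩ : ∃ K : Submodule ℂ (ResH F), K = (S.resG m).topologicalClosure := ⟨_, rfl⟩
  have hKc : IsClosed (K : Set (ResH F)) := by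
    rw [hK]; exact Submodule.isClosed_topologicalClosure _
  have hKcs : CompleteSpace K := hKc.completeSpace_coe
  let pr : ResH F →L[ℂ] Lp F 2 (volume : Measure X3) :=
    PiLp.proj 2 (fun _ : Option (Fin 16) => Lp F 2 (volume : Measure X3)) none
  let P : ResH F →L[ℂ] ResH F := K.starProjection
  have hP : ∀ v w, inner ℂ (P v) w = inner ℂ v (P w) := K.inner_starProjection_left_eq_right
  have hPm : ∀ v, P v ∈ K := fun v => K.starProjection_apply_mem v
  have hPs : ∀ v ∈ K, P v = v := fun v hv => K.starProjection_eq_self_iff.2 hv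
  have hpr : ∀ w, pr w = w none := fun w => rfl
  obtain ⟨pr', hpr'⟩ : ∃ T : Lp F 2 (volume : Measure X3) →L[ℂ] ResH F,
      ∀ f w, (inner ℂ (T f) w : ℂ) = inner ℂ f (w none) ∧
        (inner ℂ w (T f) : ℂ) = inner ℂ (w none) f :=
    ⟨ContinuousLinearMap.adjoint pr, fun f w => ⟨by
      rw [ContinuousLinearMap.adjoint_inner_left, hpr], by
      rw [ContinuousLinearMap.adjoint_inner_right, hpr]⟩⟩
  obtain ⟨R, hR⟩ : ∃ R : Lp F 2 (volume : Measure X3) →L[ℂ] Lp F 2 (volume : Measure X3),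
      ∀ f, R f = (P (pr' f)) none := ⟨pr ∘L P ∘L pr', fun f => rfl⟩
  clear_value pr P
  refine ⟨R, ?_, ?_⟩
  · intro f g
    rw [hR, hR, ← (hpr' g _).2, hP, (hpr' f _).1]
  · intro f
    obtain ⟨w, hw⟩ : ∃ w, w = P (pr' f) := ⟨_, rfl⟩
    have hRf : R f = w none := by rw [hR, hw]
    rw [hRf]
    have hwK : w ∈ K := by rw [hw]; exact hPm _
    refine ⟨fun β => w (some β), ?_, ?_, ?_⟩
    · -- strong approximation
      have h1 : w ∈ closure ((S.resG m : Submodule ℂ (ResH F)) : Set (ResH F)) := by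
        have : w ∈ (S.resG m).topologicalClosure := by rw [← hK]; exact hwK
        exact this
      obtain ⟨z, hz, hzw⟩ := mem_closure_iff_seq_limit.1 h1
      choose u hu huz using hz
      have hzw' : Tendsto (fun n => ‖z n - w‖) atTop (𝓝 0) :=
        tendsto_iff_norm_sub_tendsto_zero.1 hzw
      have key : ∀ o, Tendsto (fun n => ‖z n o - w o‖ ^ 2) atTop (𝓝 0) := by
        intro o
        have h2 : Tendsto (fun n => ‖z n - w‖ ^ 2) atTop (𝓝 0) := by
          have := hzw'.pow 2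
          simpa using this
        refine squeeze_zero (fun n => by positivity) (fun n => ?_) h2
        have h3 : ‖(z n - w) o‖ ≤ ‖z n - w‖ := PiLp.norm_apply_le _ _
        exact pow_le_pow_left₀ (norm_nonneg _) h3 2
      refine ⟨u, hu, ⟨fun n => (hu n).memLp, Lp.memLp _, ?_⟩, fun β =>
        ⟨fun n => ((hu n).res_Qm (S := S) m β).memLp, Lp.memLp _, ?_⟩⟩
      · refine (key none).congr fun n => ?_
        rw [res_nsq_sub (hu n).memLp, huz n]
        rfl
      · refine (key (some β)).congr fun n => ?_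
        rw [res_nsq_sub ((hu n).res_Qm (S := S) m β).memLp, huz n]
        rfl
    · intro ζ hζ
      rw [← S.resPair_inner m hζ w, ← res_inner hζ.memLp f]
      have hmem : S.resPair m hζ ∈ K := by
        rw [hK]; exact Submodule.le_topologicalClosure _ (S.resPair_mem m hζ)
      rw [hw, ← hP, hPs _ hmem, (hpr' f _).2]
      rfl
    · have h1 : nsq (w none) + ∑ β, nsq (w (some β)) = ‖w‖ ^ 2 := by
        rw [PiLp.norm_sq_eq_of_L2, Fintype.sum_option, res_nsq_coe]
        congr 1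
        exact Finset.sum_congr rfl fun β _ => res_nsq_coe _
      have h2 : (inner ℂ (w none) f : ℂ) = inner ℂ w w := by
        have h4 : (inner ℂ w (pr' f) : ℂ) = inner ℂ (P w) (pr' f) := by rw [hPs w hwK]
        rw [← (hpr' f w).2, h4, hP, ← hw]
      rw [h1, h2, inner_self_eq_norm_sq_to_K]
      norm_cast

end U
end Vale.Agent.P353
end

section

/-! # P353, uniqueness for `N = 2`: volumes near the cone (`IntStmt`) -/

open MeasureTheory Filter Topology
open scoped ContDiff ENNReal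

namespace Vale.Agent.P353.UInt

/-- Tonelli: upper bound, slow variables in a box, fast variables shifted -/
theorem upperA {ι : Type*} [Fintype ι] (p : ι → Prop) [DecidablePred p]
    (lo hi : {i // p i} → ℝ) (H : ({i // ¬p i} → ℝ) → ℝ≥0∞)
    (c : ({i // p i} → ℝ) → {i // ¬p i} → ℝ) (G : (ι → ℝ) → ℝ≥0∞)
    (h0 : ∀ x : ι → ℝ, (fun i : {i // p i} => x i.1) ∉ Set.Icc lo hi → G x = 0)
    (hG : ∀ x : ι → ℝ, (fun i : {i // p i} => x i.1) ∈ Set.Icc lo hi →
      G x ≤ H ((fun q : {i // ¬p i} => x q.1) - c (fun i : {i // p i} => x i.1))) :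
    ∫⁻ x, G x ≤ (∏ i, ENNReal.ofReal (hi i - lo i)) * ∫⁻ f, H f := by
  set e := MeasurableEquiv.piEquivPiSubtypeProd (fun _ : ι => ℝ) p with he
  have hmp := volume_preserving_piEquivPiSubtypeProd (fun _ : ι => ℝ) p
  set K : ({i // p i} → ℝ) × ({i // ¬p i} → ℝ) → ℝ≥0∞ := fun z =>
    (Set.Icc lo hi).indicator (fun a => H (z.2 - c a)) z.1 with hK
  have h1 : ∀ x, G x ≤ K (e x) := by
    intro x
    have e1 : (e x).1 = fun i : {i // p i} => x i.1 := rfl
    have e2 : (e x).2 = fun q : {i // ¬p i} => x q.1 := rfl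
    simp only [hK]
    rw [e1, e2]
    by_cases hx : (fun i : {i // p i} => x i.1) ∈ Set.Icc lo hi
    · rw [Set.indicator_of_mem hx]
      exact hG x hx
    · rw [h0 x hx]
      exact zero_le
  calc ∫⁻ x, G x ≤ ∫⁻ x, K (e x) := lintegral_mono h1
    _ = ∫⁻ z, K z := hmp.lintegral_comp_emb e.measurableEmbedding K
    _ ≤ ∫⁻ a, ∫⁻ f, K (a, f) := lintegral_prod_le _
    _ = ∫⁻ a, (Set.Icc lo hi).indicator (fun _ => ∫⁻ f, H f) a := by
        apply lintegral_congr
        intro a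
        simp only [hK]
        by_cases ha : a ∈ Set.Icc lo hi
        · simp only [Set.indicator_of_mem ha]
          exact lintegral_sub_right_eq_self (μ := (volume : Measure ({i // ¬p i} → ℝ))) H (c a)
        · simp only [Set.indicator_of_notMem ha, lintegral_zero]
    _ = (∏ i, ENNReal.ofReal (hi i - lo i)) * ∫⁻ f, H f := by
        rw [lintegral_indicator measurableSet_Icc, setLIntegral_const, Real.volume_Icc_pi, mul_comm]

theorem lowerB {ι : Type*} [Fintype ι] (p : ι → Prop) [DecidablePred p]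
    (lo hi : {i // p i} → ℝ) (s : ℝ)
    (c : ({i // p i} → ℝ) → {i // ¬p i} → ℝ) (hc : Measurable c) (E : Set (ι → ℝ))
    (hE : ∀ x : ι → ℝ, (fun i : {i // p i} => x i.1) ∈ Set.Icc lo hi →
      (∀ q : {i // ¬p i}, |x q.1 - c (fun i : {i // p i} => x i.1) q| ≤ s) → x ∈ E) :
    (∏ i, ENNReal.ofReal (hi i - lo i)) * ENNReal.ofReal (2 * s) ^ (Fintype.card {i // ¬p i}) ≤
      volume E := by
  set e := MeasurableEquiv.piEquivPiSubtypeProd (fun _ : ι => ℝ) p with he
  have hmp := volume_preserving_piEquivPiSubtypeProd (fun _ : ι => ℝ) p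
  set D : Set (({i // p i} → ℝ) × ({i // ¬p i} → ℝ)) :=
    {z | z.1 ∈ Set.Icc lo hi ∧ ∀ q, |z.2 q - c z.1 q| ≤ s} with hD
  have hDm : MeasurableSet D := by
    apply MeasurableSet.inter
    · exact measurable_fst measurableSet_Icc
    · have : {z : ({i // p i} → ℝ) × ({i // ¬p i} → ℝ) | ∀ q, |z.2 q - c z.1 q| ≤ s} =
          ⋂ q, {z | |z.2 q - c z.1 q| ≤ s} := by
        ext z
        simp
      change MeasurableSet {z : ({i // p i} → ℝ) × ({i // ¬p i} → ℝ) | ∀ q, |z.2 q - c z.1 q| ≤ s}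
      rw [this]
      refine MeasurableSet.iInter fun q => ?_
      apply measurableSet_le _ measurable_const
      have h1 : Measurable fun z : ({i // p i} → ℝ) × ({i // ¬p i} → ℝ) => z.2 q :=
        (measurable_pi_apply q).comp measurable_snd
      have h2 : Measurable fun z : ({i // p i} → ℝ) × ({i // ¬p i} → ℝ) => c z.1 q :=
        (measurable_pi_apply q).comp (hc.comp measurable_fst)
      exact (h1.sub h2).abs
  have h1 : e ⁻¹' D ⊆ E := by
    intro x hx
    exact hE x hx.1 hx.2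
  calc (∏ i, ENNReal.ofReal (hi i - lo i)) * ENNReal.ofReal (2 * s) ^ (Fintype.card {i // ¬p i})
      = ∫⁻ a, (Set.Icc lo hi).indicator
        (fun _ => ENNReal.ofReal (2 * s) ^ (Fintype.card {i // ¬p i})) a := by
        rw [lintegral_indicator measurableSet_Icc, setLIntegral_const, Real.volume_Icc_pi, mul_comm]
    _ ≤ ∫⁻ a, volume (Prod.mk a ⁻¹' D) := by
        apply lintegral_mono
        intro a
        by_cases ha : a ∈ Set.Icc lo hi
        · rw [Set.indicator_of_mem ha]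
          have h2 : Set.Icc (fun q => c a q - s) (fun q => c a q + s) ⊆ Prod.mk a ⁻¹' D := by
            intro f hf
            refine ⟨ha, fun q => ?_⟩
            have := hf.1 q
            have := hf.2 q
            simp only at *
            rw [abs_le]
            constructor <;> linarith
          refine le_trans (le_of_eq ?_) (measure_mono h2)
          rw [Real.volume_Icc_pi]
          have h3 : ∀ q, ENNReal.ofReal (c a q + s - (c a q - s)) = ENNReal.ofReal (2 * s) := by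
            intro q
            congr 1
            ring
          simp only [h3, Finset.prod_const, Finset.card_univ]
        · rw [Set.indicator_of_notMem ha]
          exact zero_le
    _ = volume D := by
        rw [Measure.volume_eq_prod, Measure.prod_apply hDm]
    _ = volume (e ⁻¹' D) := (hmp.measure_preimage hDm.nullMeasurableSet).symm
    _ ≤ volume E := measure_mono h1

/-- the Gaussian integral over the fast variables -/
theorem gaussC {κ : Type*} [Fintype κ] {b : ℝ} (hb : 0 < b) :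
    ∫⁻ f : κ → ℝ, ENNReal.ofReal (∏ q, Real.exp (-b * f q ^ 2)) =
      ENNReal.ofReal (√(Real.pi / b) ^ Fintype.card κ) := by
  rw [← integral_gaussian, ← integral_fintype_prod_volume_eq_pow (ι := κ)
    (fun x : ℝ => Real.exp (-b * x ^ 2))]
  rw [ofReal_integral_eq_lintegral_ofReal]
  · exact Integrable.fintype_prod (f := fun _ (x : ℝ) => Real.exp (-b * x ^ 2))
      (μ := fun _ : κ => (volume : Measure ℝ)) fun _ => integrable_exp_neg_mul_sq hb
  · exact Filter.Eventually.of_forall fun f => Finset.prod_nonneg fun q _ => (Real.exp_pos _).le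

variable {F : Type*} [NormedAddCommGroup F] [InnerProductSpace ℂ F]

theorem FF0 (S : Setup F) (i j : Fin 9) (x : X3) :
    S.FF 0 i j x = S.κ * (x (i, 1) * x (j, 2) - x (i, 2) * x (j, 1)) := by
  have v000 : eps 0 0 0 = 0 := by decide
  have v001 : eps 0 0 1 = 0 := by decide
  have v002 : eps 0 0 2 = 0 := by decide
  have v010 : eps 0 1 0 = 0 := by decide
  have v011 : eps 0 1 1 = 0 := by decide
  have v012 : eps 0 1 2 = 1 := by decide
  have v020 : eps 0 2 0 = 0 := by decide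
  have v021 : eps 0 2 1 = -1 := by decide
  have v022 : eps 0 2 2 = 0 := by decide
  simp only [Setup.FF, Fin.sum_univ_three, v000, v001, v002, v010, v011, v012, v020, v021, v022]
  push_cast
  ring

theorem FF1 (S : Setup F) (i j : Fin 9) (x : X3) :
    S.FF 1 i j x = S.κ * (x (i, 2) * x (j, 0) - x (i, 0) * x (j, 2)) := by
  have v100 : eps 1 0 0 = 0 := by decide
  have v101 : eps 1 0 1 = 0 := by decide
  have v102 : eps 1 0 2 = -1 := by decide
  have v110 : eps 1 1 0 = 0 := by decide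
  have v111 : eps 1 1 1 = 0 := by decide
  have v112 : eps 1 1 2 = 0 := by decide
  have v120 : eps 1 2 0 = 1 := by decide
  have v121 : eps 1 2 1 = 0 := by decide
  have v122 : eps 1 2 2 = 0 := by decide
  simp only [Setup.FF, Fin.sum_univ_three, v100, v101, v102, v110, v111, v112, v120, v121, v122]
  push_cast
  ring

theorem FF2 (S : Setup F) (i j : Fin 9) (x : X3) :
    S.FF 2 i j x = S.κ * (x (i, 0) * x (j, 1) - x (i, 1) * x (j, 0)) := by
  have v200 : eps 2 0 0 = 0 := by decide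
  have v201 : eps 2 0 1 = 1 := by decide
  have v202 : eps 2 0 2 = 0 := by decide
  have v210 : eps 2 1 0 = -1 := by decide
  have v211 : eps 2 1 1 = 0 := by decide
  have v212 : eps 2 1 2 = 0 := by decide
  have v220 : eps 2 2 0 = 0 := by decide
  have v221 : eps 2 2 1 = 0 := by decide
  have v222 : eps 2 2 2 = 0 := by decide
  simp only [Setup.FF, Fin.sum_univ_three, v200, v201, v202, v210, v211, v212, v220, v221, v222]
  push_cast
  ring

theorem V_lower (S : Setup F) (x : X3) (i : Fin 9) (A : Fin 3) :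
    S.κ ^ 2 / 4 * ∑ j, ∑ B, (x (i, A) * x (j, B) - x (i, B) * x (j, A)) ^ 2 ≤ S.V x := by
  have h1 : ∀ j : Fin 9, S.κ ^ 2 * ∑ B, (x (i, A) * x (j, B) - x (i, B) * x (j, A)) ^ 2 ≤
      ∑ A', S.FF A' i j x ^ 2 := by
    intro j
    rw [Fin.sum_univ_three, Fin.sum_univ_three, FF0, FF1, FF2]
    have h0 := mul_nonneg (sq_nonneg S.κ) (sq_nonneg (x (i, 1) * x (j, 2) - x (i, 2) * x (j, 1)))
    have h1 := mul_nonneg (sq_nonneg S.κ) (sq_nonneg (x (i, 2) * x (j, 0) - x (i, 0) * x (j, 2)))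
    have h2 := mul_nonneg (sq_nonneg S.κ) (sq_nonneg (x (i, 0) * x (j, 1) - x (i, 1) * x (j, 0)))
    fin_cases A <;> (simp only [Fin.isValue, Fin.zero_eta, Fin.mk_one, Fin.reduceFinMk]; nlinarith)
  have h2 : ∑ j, ∑ A', S.FF A' i j x ^ 2 ≤ ∑ A', ∑ i', ∑ j, S.FF A' i' j x ^ 2 := by
    rw [Finset.sum_comm]
    apply Finset.sum_le_sum
    intro A' _
    exact Finset.single_le_sum (f := fun i' => ∑ j, S.FF A' i' j x ^ 2)
      (fun i' _ => Finset.sum_nonneg fun j _ => sq_nonneg _) (Finset.mem_univ i)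
  have h3 : ∑ j, S.κ ^ 2 * ∑ B, (x (i, A) * x (j, B) - x (i, B) * x (j, A)) ^ 2 ≤
      ∑ j, ∑ A', S.FF A' i j x ^ 2 := Finset.sum_le_sum fun j _ => h1 j
  rw [← Finset.mul_sum] at h3
  unfold Setup.V
  linarith

/-- slow coordinates -/
def slow (p q : Fin 9 × Fin 3) : Prop := q.1 = p.1 ∨ q.2 = p.2

instance (p : Fin 9 × Fin 3) : DecidablePred (slow p) := fun q => by
  unfold slow
  infer_instance

/-- centre of the fast coordinates -/
noncomputable def cen (p : Fin 9 × Fin 3) (a : {q // slow p q} → ℝ) (q : {q // ¬slow p q}) : ℝ :=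
  a ⟨(p.1, q.1.2), Or.inl rfl⟩ * a ⟨(q.1.1, p.2), Or.inr rfl⟩ / a ⟨p, Or.inl rfl⟩

theorem measurable_cen (p : Fin 9 × Fin 3) : Measurable (cen p) := by
  rw [measurable_pi_iff]
  intro q
  have h : ∀ r : {q // slow p q}, Measurable fun a : {q // slow p q} → ℝ => a r :=
    fun r => measurable_pi_apply r
  unfold cen
  exact ((h _).mul (h _)).div (h _)

theorem card_fast (p : Fin 9 × Fin 3) : Fintype.card {q // ¬slow p q} = 16 := by
  revert p
  decide

theorem card_slow6 (p : Fin 9 × Fin 3) (hp : p.1.val < 3) :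
    (Finset.univ.filter fun q : {q // slow p q} => 3 ≤ q.1.1.val).card = 6 := by
  revert p
  decide

theorem card_slow3 (p : Fin 9 × Fin 3) (hp : p.1.val < 3) :
    (Finset.univ.filter fun q : {q // slow p q} => ¬ 3 ≤ q.1.1.val).card = 5 := by
  revert p
  decide

theorem exp_bound (S : Setup F) {k t : ℝ} (hk : 0 < k) (ht : 0 < t) (x : X3)
    (p : Fin 9 × Fin 3) (hx : 1 / 6 ≤ |x p|) :
    Real.exp (-(k * t * S.V x)) ≤ ∏ q : {q // ¬slow p q},
      Real.exp (-(k * t * S.κ ^ 2 / 144) *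
        (x q.1 - x (p.1, q.1.2) * x (q.1.1, p.2) / x p) ^ 2) := by
  rw [← Real.exp_sum]
  apply Real.exp_le_exp.2
  rw [← Finset.mul_sum]
  have hp0 : x p ≠ 0 := by
    intro h
    rw [h, abs_zero] at hx
    norm_num at hx
  have hp2 : 1 / 36 ≤ x p ^ 2 := by
    rw [← sq_abs]
    nlinarith
  have h1 := V_lower S x p.1 p.2
  have h2 : ∀ q : Fin 9 × Fin 3, 1 / 36 * (x q - x (p.1, q.2) * x (q.1, p.2) / x p) ^ 2 ≤
      (x (p.1, p.2) * x (q.1, q.2) - x (p.1, q.2) * x (q.1, p.2)) ^ 2 := by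
    intro q
    have e : x (p.1, p.2) * x (q.1, q.2) - x (p.1, q.2) * x (q.1, p.2) =
        x p * (x q - x (p.1, q.2) * x (q.1, p.2) / x p) := by
      have e1 : (p.1, p.2) = p := rfl
      have e2 : (q.1, q.2) = q := rfl
      rw [e1, e2]
      field_simp
    rw [e, mul_pow]
    exact mul_le_mul_of_nonneg_right hp2 (sq_nonneg _)
  have h3 : ∑ q : {q // ¬slow p q}, (x q.1 - x (p.1, q.1.2) * x (q.1.1, p.2) / x p) ^ 2 ≤
      ∑ q : Fin 9 × Fin 3, (x q - x (p.1, q.2) * x (q.1, p.2) / x p) ^ 2 := by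
    rw [← Finset.sum_subtype (Finset.univ.filter fun q => ¬slow p q) (by simp)
      (fun q : Fin 9 × Fin 3 => (x q - x (p.1, q.2) * x (q.1, p.2) / x p) ^ 2)]
    exact Finset.sum_le_sum_of_subset_of_nonneg (Finset.filter_subset _ _)
      fun q _ _ => sq_nonneg _
  have h4 : 1 / 36 * ∑ q : Fin 9 × Fin 3, (x q - x (p.1, q.2) * x (q.1, p.2) / x p) ^ 2 ≤
      ∑ j, ∑ B, (x (p.1, p.2) * x (j, B) - x (p.1, B) * x (j, p.2)) ^ 2 := by
    rw [← Fintype.sum_prod_type', Finset.mul_sum]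
    exact Finset.sum_le_sum fun q _ => h2 q
  have hkt : 0 < k * t := mul_pos hk ht
  have h5 : k * t * (S.κ ^ 2 / 4 * (1 / 36 *
      ∑ q : {q // ¬slow p q}, (x q.1 - x (p.1, q.1.2) * x (q.1.1, p.2) / x p) ^ 2)) ≤
      k * t * S.V x := by
    apply mul_le_mul_of_nonneg_left _ hkt.le
    refine le_trans ?_ h1
    apply mul_le_mul_of_nonneg_left _ (by positivity)
    linarith
  linarith


/-- the integral over one chart -/
theorem chart (S : Setup F) {k t : ℝ} (hk : 0 < k) (ht : 0 < t) (p : Fin 9 × Fin 3)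
    (r : Fin 9 × Fin 3 → ℝ) :
    ∫⁻ y : Fin 9 × Fin 3 → ℝ, (if 1 / 6 ≤ |y p| ∧ ∀ q, |y q| ≤ r q then
      ENNReal.ofReal (Real.exp (-(k * t * S.V (WithLp.toLp 2 y)))) else 0) ≤
    (∏ q : {q // slow p q}, ENNReal.ofReal (2 * r q.1)) *
      ENNReal.ofReal ((144 * Real.pi / (k * S.κ ^ 2)) ^ 8 * t ^ (-8 : ℝ)) := by
  have hb : 0 < k * t * S.κ ^ 2 / 144 := by
    have := S.κ_pos
    positivity
  have h1 := upperA (slow p) (fun q => -r q.1) (fun q => r q.1)
    (fun f => ENNReal.ofReal (∏ q, Real.exp (-(k * t * S.κ ^ 2 / 144) * f q ^ 2))) (cen p)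
    (fun y : Fin 9 × Fin 3 → ℝ => (if 1 / 6 ≤ |y p| ∧ ∀ q, |y q| ≤ r q then
      ENNReal.ofReal (Real.exp (-(k * t * S.V (WithLp.toLp 2 y)))) else 0))
    (by
      intro y hy
      rw [if_neg]
      rintro ⟨-, h⟩
      apply hy
      exact ⟨fun q => (abs_le.1 (h q.1)).1, fun q => (abs_le.1 (h q.1)).2⟩)
    (by
      intro y _
      split_ifs with h
      · apply ENNReal.ofReal_le_ofReal
        exact exp_bound S hk ht (WithLp.toLp 2 y) p h.1
      · exact zero_le)
  rw [gaussC hb] at h1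
  refine h1.trans (le_of_eq ?_)
  congr 1
  · apply Finset.prod_congr rfl
    intro q _
    congr 1
    ring
  · congr 1
    rw [card_fast]
    have h2 : √(Real.pi / (k * t * S.κ ^ 2 / 144)) ^ 16 =
        (√(Real.pi / (k * t * S.κ ^ 2 / 144)) ^ 2) ^ 8 := by rw [← pow_mul]
    rw [h2, Real.sq_sqrt (by positivity)]
    have h3 : t ^ (-8 : ℝ) = (t ^ 8)⁻¹ := by
      rw [Real.rpow_neg ht.le]
      congr 1
      exact_mod_cast Real.rpow_natCast t 8
    rw [h3]
    have hκ : S.κ ≠ 0 := S.κ_pos.ne'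
    field_simp

theorem measurable_chart (S : Setup F) (k t : ℝ) (p : Fin 9 × Fin 3) (r : Fin 9 × Fin 3 → ℝ) :
    Measurable fun y : Fin 9 × Fin 3 → ℝ => (if 1 / 6 ≤ |y p| ∧ ∀ q, |y q| ≤ r q then
      ENNReal.ofReal (Real.exp (-(k * t * S.V (WithLp.toLp 2 y)))) else 0) := by
  apply Measurable.ite
  · apply MeasurableSet.inter
    · exact measurableSet_le measurable_const (measurable_pi_apply p).abs
    · have : {y : Fin 9 × Fin 3 → ℝ | ∀ q, |y q| ≤ r q} = ⋂ q, {y | |y q| ≤ r q} := by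
        ext y
        simp
      change MeasurableSet {y : Fin 9 × Fin 3 → ℝ | ∀ q, |y q| ≤ r q}
      rw [this]
      exact MeasurableSet.iInter fun q => measurableSet_le (measurable_pi_apply q).abs
        measurable_const
  · apply ENNReal.measurable_ofReal.comp
    have h1 : Continuous fun y : Fin 9 × Fin 3 → ℝ => S.V (WithLp.toLp 2 y) :=
      (contDiff_V S).continuous.comp (PiLp.continuous_toLp 2 _)
    exact (Real.continuous_exp.comp (continuous_const.mul h1).neg).measurable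
  · exact measurable_const

theorem exists_large (x : X3) (hx : 1 ≤ ‖x‖) : ∃ p, ‖x‖ / 6 ≤ |x p| := by
  by_contra h
  push Not at h
  have h1 : ‖x‖ ^ 2 = ∑ q, x q ^ 2 := by
    rw [EuclideanSpace.norm_sq_eq]
    simp
  have h2 : ∑ q : Fin 9 × Fin 3, x q ^ 2 ≤ ∑ q : Fin 9 × Fin 3, (‖x‖ / 6) ^ 2 := by
    apply Finset.sum_le_sum
    intro q _
    rw [← sq_abs]
    exact pow_le_pow_left₀ (abs_nonneg _) (h q).le 2
  rw [Finset.sum_const, Finset.card_univ, nsmul_eq_mul] at h2
  have h3 : Fintype.card (Fin 9 × Fin 3) = 27 := by simp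
  rw [h3] at h2
  push_cast at h2
  nlinarith

theorem coord_le (x : X3) (q : Fin 9 × Fin 3) : |x q| ≤ ‖x‖ := by
  have := EuclideanSpace.norm_eq x
  rw [this]
  apply Real.abs_le_sqrt
  have h1 : x q ^ 2 = ‖x q‖ ^ 2 := by simp
  rw [h1]
  exact Finset.single_le_sum (f := fun i => ‖x i‖ ^ 2) (fun i _ => sq_nonneg _)
    (Finset.mem_univ q)

theorem rho6_coord (x : X3) (q : Fin 9 × Fin 3) (hq : 3 ≤ q.1.val) : x q ^ 2 ≤ rho6sq x := by
  unfold rho6sq
  have h1 : (if 3 ≤ q.1.val then x (q.1, q.2) ^ 2 else 0) ≤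
      ∑ A, (if 3 ≤ q.1.val then x (q.1, A) ^ 2 else 0) :=
    Finset.single_le_sum (f := fun A => (if 3 ≤ q.1.val then x (q.1, A) ^ 2 else 0))
      (fun A _ => by split_ifs <;> positivity) (Finset.mem_univ q.2)
  have h2 : ∑ A, (if 3 ≤ q.1.val then x (q.1, A) ^ 2 else 0) ≤
      ∑ i : Fin 9, ∑ A, (if 3 ≤ i.val then x (i, A) ^ 2 else 0) :=
    Finset.single_le_sum (f := fun i : Fin 9 => ∑ A, (if 3 ≤ i.val then x (i, A) ^ 2 else 0))
      (fun i _ => Finset.sum_nonneg fun A _ => by split_ifs <;> positivity) (Finset.mem_univ q.1)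
  rw [if_pos hq] at h1
  exact h1.trans h2

/-- Bochner integral bounded by a sum of charts -/
theorem int_le (S : Setup F) {k t : ℝ} (hk : 0 < k) (ht : 0 < t) (P : X3 → Prop)
    [DecidablePred P] (hPm : MeasurableSet {x | P x}) (s : Finset (Fin 9 × Fin 3))
    (r : Fin 9 × Fin 3 → ℝ) (M : ℝ) (hM : 0 ≤ M)
    (hP : ∀ x, P x → (∃ p ∈ s, 1 / 6 ≤ |x p|) ∧ ∀ q, |x q| ≤ r q)
    (hr : ∀ p ∈ s, ∏ q : {q // slow p q}, ENNReal.ofReal (2 * r q.1) ≤ ENNReal.ofReal M) :
    ∫ x : X3, (if P x then Real.exp (-(k * t * S.V x)) else 0) ≤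
      s.card * (M * ((144 * Real.pi / (k * S.κ ^ 2)) ^ 8 * t ^ (-8 : ℝ))) := by
  have hVc : Continuous S.V := (contDiff_V S).continuous
  have hm : Measurable fun x : X3 => (if P x then Real.exp (-(k * t * S.V x)) else 0) :=
    Measurable.ite hPm (Real.continuous_exp.comp (continuous_const.mul hVc).neg).measurable
      measurable_const
  have hD : 0 ≤ (144 * Real.pi / (k * S.κ ^ 2)) ^ 8 * t ^ (-8 : ℝ) := by positivity
  rw [integral_eq_lintegral_of_nonneg_ae
    (Filter.Eventually.of_forall fun x => by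
      change (0 : ℝ) ≤ _
      split_ifs
      · exact (Real.exp_pos _).le
      · exact le_refl _) hm.aestronglyMeasurable]
  apply ENNReal.toReal_le_of_le_ofReal (by positivity)
  rw [← (PiLp.volume_preserving_toLp (Fin 9 × Fin 3)).lintegral_comp_emb
    (MeasurableEquiv.toLp 2 (Fin 9 × Fin 3 → ℝ)).measurableEmbedding]
  calc ∫⁻ y : Fin 9 × Fin 3 → ℝ, ENNReal.ofReal (if P (WithLp.toLp 2 y) then
        Real.exp (-(k * t * S.V (WithLp.toLp 2 y))) else 0)
      ≤ ∫⁻ y : Fin 9 × Fin 3 → ℝ, ∑ p ∈ s, (if 1 / 6 ≤ |y p| ∧ ∀ q, |y q| ≤ r q then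
        ENNReal.ofReal (Real.exp (-(k * t * S.V (WithLp.toLp 2 y)))) else 0) := by
        apply lintegral_mono
        intro y
        simp only
        split_ifs with h
        · obtain ⟨⟨p, hp, hp6⟩, hq⟩ := hP _ h
          refine le_trans (le_of_eq ?_) (Finset.single_le_sum
            (f := fun p => (if 1 / 6 ≤ |y p| ∧ ∀ q, |y q| ≤ r q then
              ENNReal.ofReal (Real.exp (-(k * t * S.V (WithLp.toLp 2 y)))) else 0))
            (fun _ _ => zero_le) hp)
          have hh : 1 / 6 ≤ |y p| ∧ ∀ q, |y q| ≤ r q := ⟨hp6, hq⟩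
          simp only [hh, and_self, if_true, implies_true]
        · simp
    _ = ∑ p ∈ s, ∫⁻ y : Fin 9 × Fin 3 → ℝ, (if 1 / 6 ≤ |y p| ∧ ∀ q, |y q| ≤ r q then
        ENNReal.ofReal (Real.exp (-(k * t * S.V (WithLp.toLp 2 y)))) else 0) :=
        lintegral_finsetSum _ fun p _ => measurable_chart S k t p r
    _ ≤ ∑ p ∈ s, ENNReal.ofReal (M * ((144 * Real.pi / (k * S.κ ^ 2)) ^ 8 * t ^ (-8 : ℝ))) := by
        apply Finset.sum_le_sum
        intro p hp
        refine (chart S hk ht p r).trans ?_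
        rw [ENNReal.ofReal_mul hM]
        exact mul_le_mul' (hr p hp) le_rfl
    _ = _ := by
        rw [Finset.sum_const, nsmul_eq_mul, ENNReal.ofReal_mul (Nat.cast_nonneg _),
          ENNReal.ofReal_natCast]

theorem part1 (S : Setup F) {k t : ℝ} (hk : 0 < k) (ht : 1 ≤ t) :
    ∫ x : X3, (if 1 ≤ ‖x‖ ∧ ‖x‖ ≤ 2 then Real.exp (-(k * t * S.V x)) else 0) ≤
      27 * (4 ^ 27 * (144 * Real.pi / (k * S.κ ^ 2)) ^ 8) * t ^ (-8 : ℝ) := by
  have h := int_le S hk (by linarith : 0 < t) (fun x => 1 ≤ ‖x‖ ∧ ‖x‖ ≤ 2)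
    ((measurableSet_le measurable_const measurable_norm).inter
      (measurableSet_le measurable_norm measurable_const)) Finset.univ (fun _ => 2) (4 ^ 27)
    (by positivity)
    (by
      rintro x ⟨h1, h2⟩
      obtain ⟨p, hp⟩ := exists_large x h1
      exact ⟨⟨p, Finset.mem_univ _, by linarith⟩, fun q => (coord_le x q).trans h2⟩)
    (by
      intro p _
      rw [← ENNReal.ofReal_prod_of_nonneg (fun _ _ => by norm_num)]
      apply ENNReal.ofReal_le_ofReal
      rw [Finset.prod_const, Finset.card_univ]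
      have h1 : Fintype.card {q // slow p q} ≤ 27 := by
        refine (Fintype.card_subtype_le _).trans ?_
        simp
      calc ((2 : ℝ) * 2) ^ Fintype.card {q // slow p q} ≤ (2 * 2) ^ 27 :=
            pow_le_pow_right₀ (by norm_num) h1
        _ = 4 ^ 27 := by norm_num)
  refine h.trans (le_of_eq ?_)
  have h3 : (Finset.univ : Finset (Fin 9 × Fin 3)).card = 27 := by simp
  rw [h3]
  push_cast
  ring

theorem part2 (S : Setup F) {k t δ : ℝ} (hk : 0 < k) (ht : 1 ≤ t) (hδ : 0 < δ)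
    (hδ1 : δ ≤ 1 / 10) :
    ∫ x : X3, (if 1 ≤ ‖x‖ ∧ ‖x‖ ≤ 2 ∧ rho6sq x ≤ δ ^ 2 * ‖x‖ ^ 2
      then Real.exp (-(k * t * S.V x)) else 0) ≤
      27 * (4 ^ 27 * (144 * Real.pi / (k * S.κ ^ 2)) ^ 8) * δ ^ 6 * t ^ (-8 : ℝ) := by
  have hcr : Continuous rho6sq := by
    unfold rho6sq
    refine continuous_finsetSum _ fun i _ => continuous_finsetSum _ fun A _ => ?_
    split_ifs
    · exact ((Setup.contDiff_coord (i, A)).continuous).pow 2
    · exact continuous_const
  have h := int_le S hk (by linarith : 0 < t)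
    (fun x => 1 ≤ ‖x‖ ∧ ‖x‖ ≤ 2 ∧ rho6sq x ≤ δ ^ 2 * ‖x‖ ^ 2)
    ((measurableSet_le measurable_const measurable_norm).inter
      ((measurableSet_le measurable_norm measurable_const).inter
        (measurableSet_le hcr.measurable (measurable_const.mul (measurable_norm.pow_const 2)))))
    (Finset.univ.filter fun p => p.1.val < 3) (fun q => if 3 ≤ q.1.val then 2 * δ else 2)
    (4 ^ 11 * δ ^ 6) (by positivity)
    (by
      rintro x ⟨h1, h2, h3⟩
      constructor
      · obtain ⟨p, hp⟩ := exists_large x h1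
        refine ⟨p, ?_, by linarith⟩
        rw [Finset.mem_filter]
        refine ⟨Finset.mem_univ _, ?_⟩
        by_contra hlt
        have h4 := (rho6_coord x p (by omega)).trans h3
        have h5 : (‖x‖ / 6) ^ 2 ≤ x p ^ 2 := by
          rw [← sq_abs (x p)]
          exact pow_le_pow_left₀ (by positivity) hp 2
        have h6 : δ ^ 2 ≤ (1 / 10) ^ 2 := pow_le_pow_left₀ hδ.le hδ1 2
        have h7 : δ ^ 2 * ‖x‖ ^ 2 ≤ (1 / 10) ^ 2 * ‖x‖ ^ 2 :=
          mul_le_mul_of_nonneg_right h6 (sq_nonneg _)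
        nlinarith
      · intro q
        split_ifs with hq
        · have h4 := (rho6_coord x q hq).trans h3
          have h5 : x q ^ 2 ≤ (2 * δ) ^ 2 := by
            have h6 : ‖x‖ ^ 2 ≤ 2 ^ 2 := pow_le_pow_left₀ (norm_nonneg _) h2 2
            have h7 := mul_le_mul_of_nonneg_left h6 (sq_nonneg δ)
            calc x q ^ 2 ≤ _ := h4
              _ ≤ _ := h7
              _ = (2 * δ) ^ 2 := by ring
          exact abs_le_of_sq_le_sq h5 (by positivity)
        · exact (coord_le x q).trans h2)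
    (by
      intro p hp
      rw [Finset.mem_filter] at hp
      rw [← ENNReal.ofReal_prod_of_nonneg (fun _ _ => by split_ifs <;> positivity)]
      apply ENNReal.ofReal_le_ofReal
      have h1 : ∀ q : {q // slow p q}, (2 : ℝ) * (if 3 ≤ q.1.1.val then 2 * δ else 2) =
          if 3 ≤ q.1.1.val then 4 * δ else 4 := by
        intro q
        split_ifs
        · ring
        · norm_num
      rw [Finset.prod_congr rfl fun q _ => h1 q, Finset.prod_ite, Finset.prod_const,
        Finset.prod_const, card_slow6 p hp.2, card_slow3 p hp.2]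
      apply le_of_eq
      ring)
  refine h.trans ?_
  have h3 : ((Finset.univ.filter fun p : Fin 9 × Fin 3 => p.1.val < 3).card : ℝ) ≤ 27 := by
    have h4 : (Finset.univ.filter fun p : Fin 9 × Fin 3 => p.1.val < 3).card ≤ 27 := by
      refine (Finset.card_filter_le _ _).trans ?_
      simp
    exact_mod_cast h4
  have h5 : 0 ≤ (144 * Real.pi / (k * S.κ ^ 2)) ^ 8 * t ^ (-8 : ℝ) := by
    have := S.κ_pos
    positivity
  calc _ ≤ 27 * (4 ^ 27 * δ ^ 6 * ((144 * Real.pi / (k * S.κ ^ 2)) ^ 8 * t ^ (-8 : ℝ))) := by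
        apply mul_le_mul h3 _ (by positivity) (by norm_num)
        apply mul_le_mul_of_nonneg_right _ h5
        apply mul_le_mul_of_nonneg_right _ (by positivity)
        norm_num
    _ = _ := by ring

theorem abs_mul_le' {a b p q : ℝ} (ha : |a| ≤ p) (hb : |b| ≤ q) : |a * b| ≤ p * q := by
  rw [abs_mul]
  exact mul_le_mul ha hb (abs_nonneg _) ((abs_nonneg a).trans ha)

theorem minor_bound {s y1 y2 y3 y4 a b z w : ℝ} (hs1 : s ≤ 1) (h1 : |y1| ≤ s)
    (h2 : |y2| ≤ s) (h3 : |y3| ≤ s) (h4 : |y4| ≤ s) (ha : |a| ≤ 1) (hb : |b| ≤ 1)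
    (hz : |z| ≤ 3 / 2) (hw : |w| ≤ 3 / 2) :
    |(y1 + a * z) * (y4 + b * w) - (y2 + a * w) * (y3 + b * z)| ≤ 8 * s := by
  have hs0 : 0 ≤ s := (abs_nonneg _).trans h1
  have e : (y1 + a * z) * (y4 + b * w) - (y2 + a * w) * (y3 + b * z) =
      y1 * y4 - y2 * y3 + (b * (y1 * w) - b * (y2 * z)) + (a * (z * y4) - a * (w * y3)) := by ring
  rw [e]
  have k1 := abs_le.1 (abs_mul_le' h1 h4)
  have k2 := abs_le.1 (abs_mul_le' h2 h3)
  have k3 := abs_le.1 (abs_mul_le' hb (abs_mul_le' h1 hw))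
  have k4 := abs_le.1 (abs_mul_le' hb (abs_mul_le' h2 hz))
  have k5 := abs_le.1 (abs_mul_le' ha (abs_mul_le' hz h4))
  have k6 := abs_le.1 (abs_mul_le' ha (abs_mul_le' hw h3))
  have k7 : s * s ≤ s := by nlinarith
  rw [abs_le]
  constructor
  · linarith [k1.1, k2.2, k3.1, k4.2, k5.1, k6.2]
  · linarith [k1.2, k2.1, k3.2, k4.1, k5.2, k6.1]

/-- the box of part (3) -/
theorem point3 (S : Setup F) {s t : ℝ} (ht : 1 ≤ t) (hs0 : 0 ≤ s) (hs1 : s ≤ 1 / 10)
    (hs2 : 3969 * S.κ ^ 2 * s ^ 2 * t ≤ 1) (x : X3) (h1 : 5 / 4 ≤ x (3, 0)) (h2 : x (3, 0) ≤ 3 / 2)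
    (hsl : ∀ q : Fin 9 × Fin 3, slow (3, 0) q → q ≠ (3, 0) → |x q| ≤ 1 / 10)
    (hf : ∀ q : Fin 9 × Fin 3, ¬slow (3, 0) q →
      |x q - x (3, q.2) * x (q.1, 0) / x (3, 0)| ≤ s) :
    1 ≤ ‖x‖ ∧ ‖x‖ ≤ 2 ∧ ‖x‖ ^ 2 / 4 ≤ rho6sq x ∧ S.V x ≤ 1 / t := by
  have hx0 : 0 < x (3, 0) := by linarith
  have hα : ∀ j : Fin 9, |x (j, 0) / x (3, 0)| ≤ 1 := by
    intro j
    rw [abs_div, abs_of_pos hx0, div_le_one hx0]
    by_cases hj : j = 3
    · rw [hj, abs_of_pos hx0]
    · have := hsl (j, 0) (Or.inr rfl) (fun h => hj (congrArg Prod.fst h))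
      linarith
  have hy : ∀ (j : Fin 9) (B : Fin 3), |x (j, B) - x (j, 0) / x (3, 0) * x (3, B)| ≤ s := by
    intro j B
    by_cases hB : B = 0
    · rw [hB, div_mul_cancel₀ _ hx0.ne', sub_self, abs_zero]
      exact hs0
    · by_cases hj : j = 3
      · rw [hj, div_self hx0.ne', one_mul, sub_self, abs_zero]
        exact hs0
      · have := hf (j, B) (by
          rintro (h | h)
          · exact hj h
          · exact hB h)
        have e : x (j, 0) / x (3, 0) * x (3, B) = x (3, B) * x (j, 0) / x (3, 0) := by ring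
        rw [e]
        exact this
  have hz : ∀ B : Fin 3, |x (3, B)| ≤ 3 / 2 := by
    intro B
    by_cases hB : B = 0
    · rw [hB, abs_of_pos hx0]
      exact h2
    · have := hsl (3, B) (Or.inl rfl) (fun h => hB (congrArg Prod.snd h))
      linarith
  have hmin : ∀ (i j : Fin 9) (B C : Fin 3),
      |x (i, B) * x (j, C) - x (i, C) * x (j, B)| ≤ 8 * s := by
    intro i j B C
    have := minor_bound (by linarith : s ≤ 1) (hy i B) (hy i C) (hy j B) (hy j C) (hα i) (hα j)
      (hz B) (hz C)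
    have e : ∀ (l : Fin 9) (D : Fin 3), x (l, D) - x (l, 0) / x (3, 0) * x (3, D) +
        x (l, 0) / x (3, 0) * x (3, D) = x (l, D) := fun l D => by ring
    rwa [e, e, e, e] at this
  have hV : S.V x ≤ 1 / t := by
    have h3 : ∀ (A : Fin 3) (i j : Fin 9), S.FF A i j x ^ 2 ≤ S.κ ^ 2 * (8 * s) ^ 2 := by
      intro A i j
      have h4 : ∀ B C : Fin 3, (S.κ * (x (i, B) * x (j, C) - x (i, C) * x (j, B))) ^ 2 ≤
          S.κ ^ 2 * (8 * s) ^ 2 := by
        intro B C
        rw [mul_pow]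
        apply mul_le_mul_of_nonneg_left _ (sq_nonneg _)
        rw [← sq_abs]
        exact pow_le_pow_left₀ (abs_nonneg _) (hmin i j B C) 2
      fin_cases A
      · have := h4 1 2
        rw [← FF0] at this
        exact this
      · have := h4 2 0
        rw [← FF1] at this
        exact this
      · have := h4 0 1
        rw [← FF2] at this
        exact this
    have h5 : ∑ A : Fin 3, ∑ i : Fin 9, ∑ j : Fin 9, S.FF A i j x ^ 2 ≤
        ∑ A : Fin 3, ∑ i : Fin 9, ∑ j : Fin 9, S.κ ^ 2 * (8 * s) ^ 2 :=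
      Finset.sum_le_sum fun A _ => Finset.sum_le_sum fun i _ => Finset.sum_le_sum fun j _ =>
        h3 A i j
    simp only [Finset.sum_const, Finset.card_univ, Fintype.card_fin, nsmul_eq_mul] at h5
    push_cast at h5
    rw [le_div_iff₀ (by linarith)]
    unfold Setup.V
    have h6 : (1 / 4 * ∑ A : Fin 3, ∑ i : Fin 9, ∑ j : Fin 9, S.FF A i j x ^ 2) ≤
        3969 * S.κ ^ 2 * s ^ 2 := by nlinarith [sq_nonneg (S.κ * s)]
    calc _ ≤ 3969 * S.κ ^ 2 * s ^ 2 * t := mul_le_mul_of_nonneg_right h6 (by linarith)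
      _ ≤ 1 := hs2
  have hsm : ∀ q : Fin 9 × Fin 3, q ≠ (3, 0) → x q ^ 2 ≤ 1 / 64 := by
    intro q hq
    have h3 : |x q| ≤ 1 / 8 := by
      by_cases hqs : slow (3, 0) q
      · have := hsl q hqs hq
        linarith
      · have h4 := hf q hqs
        have h5 : q.2 ≠ 0 := fun h => hqs (Or.inr h)
        have h6 : q.1 ≠ 3 := fun h => hqs (Or.inl h)
        have h7 := hsl (3, q.2) (Or.inl rfl) (fun h => h5 (congrArg Prod.snd h))
        have h8 := hsl (q.1, 0) (Or.inr rfl) (fun h => h6 (congrArg Prod.fst h))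
        have h9 : |x (3, q.2) * x (q.1, 0) / x (3, 0)| ≤ 1 / 100 := by
          rw [abs_div, abs_of_pos hx0, div_le_iff₀ hx0]
          have := abs_mul_le' h7 h8
          nlinarith
        have h10 := abs_le.1 h4
        have h11 := abs_le.1 h9
        rw [abs_le]
        constructor
        · linarith [h10.1, h11.1]
        · linarith [h10.2, h11.2]
    rw [← sq_abs]
    have := pow_le_pow_left₀ (abs_nonneg _) h3 2
    linarith
  have hn : ‖x‖ ^ 2 = ∑ q, x q ^ 2 := by
    rw [EuclideanSpace.norm_sq_eq]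
    simp
  have hn2 : ‖x‖ ^ 2 ≤ 9 / 4 + 26 / 64 := by
    rw [hn, ← Finset.add_sum_erase Finset.univ (fun q => x q ^ 2) (Finset.mem_univ (3, 0))]
    have h3 : ∑ q ∈ Finset.univ.erase ((3, 0) : Fin 9 × Fin 3), x q ^ 2 ≤
        ∑ q ∈ Finset.univ.erase ((3, 0) : Fin 9 × Fin 3), (1 / 64 : ℝ) :=
      Finset.sum_le_sum fun q hq => hsm q (Finset.ne_of_mem_erase hq)
    rw [Finset.sum_const, nsmul_eq_mul, Finset.card_erase_of_mem (Finset.mem_univ _)] at h3
    have h4 : (Finset.univ : Finset (Fin 9 × Fin 3)).card = 27 := by simp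
    have h6 : ((27 - 1 : ℕ) : ℝ) * (1 / 64) = 26 / 64 := by norm_num
    rw [h4, h6] at h3
    have h5 : x (3, 0) ^ 2 ≤ 9 / 4 := by nlinarith
    linarith
  have hr := rho6_coord x (3, 0) (by decide)
  have h30 : 25 / 16 ≤ x (3, 0) ^ 2 := by nlinarith
  refine ⟨?_, ?_, ?_, hV⟩
  · have := coord_le x (3, 0)
    rw [abs_of_pos hx0] at this
    linarith
  · by_contra h
    push Not at h
    nlinarith
  · linarith

theorem part3 (S : Setup F) : ∃ C : ℝ, 0 < C ∧ ∀ t : ℝ, 1 ≤ t → t ^ (-8 : ℝ) ≤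
    C * ∫ x : X3, (if 1 ≤ ‖x‖ ∧ ‖x‖ ≤ 2 ∧ ‖x‖ ^ 2 / 4 ≤ rho6sq x ∧
      S.V x ≤ 1 / t then 1 else 0) := by
  set c1 : ℝ := min (1 / 10) (1 / (63 * S.κ)) with hc1
  have hκ := S.κ_pos
  have hc0 : 0 < c1 := lt_min (by norm_num) (by positivity)
  have hc2 : c1 ≤ 1 / 10 := min_le_left _ _
  have hc3 : c1 ≤ 1 / (63 * S.κ) := min_le_right _ _
  set lo : {q // slow (3, 0) q} → ℝ := fun q => if q.1 = (3, 0) then 5 / 4 else -(1 / 10) with hlo
  set hi : {q // slow (3, 0) q} → ℝ := fun q => if q.1 = (3, 0) then 3 / 2 else 1 / 10 with hhi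
  have hw : ∀ q, 0 < hi q - lo q := by
    intro q
    simp only [hlo, hhi]
    split_ifs <;> norm_num
  set m : ℝ := ∏ q, (hi q - lo q) with hm
  have hm0 : 0 < m := Finset.prod_pos fun q _ => hw q
  refine ⟨1 / (m * (2 * c1) ^ 16), by positivity, ?_⟩
  intro t ht
  have ht0 : 0 < t := by linarith
  have hst : 1 ≤ √t := by
    rw [Real.one_le_sqrt]
    exact ht
  have hst2 : √t ^ 2 = t := Real.sq_sqrt ht0.le
  set s : ℝ := c1 / √t with hs
  have hs0 : 0 ≤ s := by positivity
  have hs1 : s ≤ 1 / 10 := (div_le_self hc0.le hst).trans hc2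
  have hs2 : 3969 * S.κ ^ 2 * s ^ 2 * t ≤ 1 := by
    have e : 3969 * S.κ ^ 2 * s ^ 2 * t = (63 * S.κ * c1) ^ 2 := by
      rw [hs, div_pow, hst2]
      field_simp
      ring
    rw [e]
    have h1 : 63 * S.κ * c1 ≤ 1 := by
      rw [le_div_iff₀ (by positivity)] at hc3
      linarith
    have h2 : 0 ≤ 63 * S.κ * c1 := by positivity
    nlinarith
  set P : X3 → Prop := fun x => 1 ≤ ‖x‖ ∧ ‖x‖ ≤ 2 ∧ ‖x‖ ^ 2 / 4 ≤ rho6sq x ∧ S.V x ≤ 1 / t with hP
  have hcr : Continuous rho6sq := by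
    unfold rho6sq
    refine continuous_finsetSum _ fun i _ => continuous_finsetSum _ fun A _ => ?_
    split_ifs
    · exact ((Setup.contDiff_coord (i, A)).continuous).pow 2
    · exact continuous_const
  have hVc : Continuous S.V := (contDiff_V S).continuous
  have hPm : MeasurableSet {x : X3 | P x} :=
    (measurableSet_le measurable_const measurable_norm).inter
      ((measurableSet_le measurable_norm measurable_const).inter
        ((measurableSet_le ((measurable_norm.pow_const 2).div_const 4) hcr.measurable).inter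
          (measurableSet_le hVc.measurable measurable_const)))
  have hint : ∫ x : X3, (if 1 ≤ ‖x‖ ∧ ‖x‖ ≤ 2 ∧ ‖x‖ ^ 2 / 4 ≤ rho6sq x ∧
      S.V x ≤ 1 / t then (1 : ℝ) else 0) = (volume {x : X3 | P x}).toReal := by
    have h1 : (fun x : X3 => if 1 ≤ ‖x‖ ∧ ‖x‖ ≤ 2 ∧ ‖x‖ ^ 2 / 4 ≤ rho6sq x ∧
        S.V x ≤ 1 / t then (1 : ℝ) else 0) = Set.indicator {x : X3 | P x} 1 := by
      funext x
      by_cases hx : P x
      · rw [if_pos hx, Set.indicator_of_mem (show x ∈ {x : X3 | P x} from hx)]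
        rfl
      · rw [if_neg hx, Set.indicator_of_notMem (show x ∉ {x : X3 | P x} from hx)]
    rw [h1, integral_indicator_one hPm]
    rfl
  have hfin : volume {x : X3 | P x} ≠ ⊤ := by
    apply ne_top_of_le_ne_top
      (measure_closedBall_lt_top (μ := (volume : Measure X3)) (x := (0 : X3)) (r := 2)).ne
    apply measure_mono
    intro x hx
    rw [mem_closedBall_zero_iff]
    exact hx.2.1
  have hlow := lowerB (slow (3, 0)) lo hi s (cen (3, 0)) (measurable_cen (3, 0))
    {y : Fin 9 × Fin 3 → ℝ | P (WithLp.toLp 2 y)} (by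
      intro y hy hf
      have hy1 := hy.1 ⟨(3, 0), Or.inl rfl⟩
      have hy2 := hy.2 ⟨(3, 0), Or.inl rfl⟩
      simp only [hlo, hhi, if_true] at hy1 hy2
      refine point3 S ht hs0 hs1 hs2 (WithLp.toLp 2 y) hy1 hy2 ?_ ?_
      · intro q hq hq0
        have h1 := hy.1 ⟨q, hq⟩
        have h2 := hy.2 ⟨q, hq⟩
        simp only [hlo, hhi, if_neg hq0] at h1 h2
        exact abs_le.2 ⟨h1, h2⟩
      · intro q hq
        exact hf ⟨q, hq⟩)
  have hvol : volume {y : Fin 9 × Fin 3 → ℝ | P (WithLp.toLp 2 y)} = volume {x : X3 | P x} :=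
    (PiLp.volume_preserving_toLp (Fin 9 × Fin 3)).measure_preimage hPm.nullMeasurableSet
  rw [hvol, card_fast, ← ENNReal.ofReal_prod_of_nonneg (fun q _ => (hw q).le),
    ← ENNReal.ofReal_pow (by positivity), ← ENNReal.ofReal_mul hm0.le,
    ENNReal.ofReal_le_iff_le_toReal hfin] at hlow
  rw [hint]
  have h3 : t ^ (-8 : ℝ) = (t ^ 8)⁻¹ := by
    rw [Real.rpow_neg ht0.le]
    congr 1
    exact_mod_cast Real.rpow_natCast t 8
  have h4 : (2 * s) ^ 16 = (2 * c1) ^ 16 * (t ^ 8)⁻¹ := by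
    rw [hs, ← mul_div_assoc, div_pow]
    have : √t ^ 16 = t ^ 8 := by
      calc √t ^ 16 = (√t ^ 2) ^ 8 := by rw [← pow_mul]
        _ = t ^ 8 := by rw [hst2]
    rw [this, div_eq_mul_inv]
  rw [h3]
  rw [h4] at hlow
  have h5 : 0 < m * (2 * c1) ^ 16 := by positivity
  rw [one_div, ← div_eq_inv_mul, le_div_iff₀ h5]
  calc (t ^ 8)⁻¹ * (m * (2 * c1) ^ 16) = m * ((2 * c1) ^ 16 * (t ^ 8)⁻¹) := by ring
    _ ≤ _ := hlow

end Vale.Agent.P353.UInt

namespace Vale.Agent.P353.U

variable {F : Type*} [NormedAddCommGroup F] [InnerProductSpace ℂ F]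

theorem int (S : Setup F) : IntStmt S := by
  intro k hk
  obtain ⟨C3, hC3, h3⟩ := UInt.part3 S
  have hκ := S.κ_pos
  set C1 : ℝ := 27 * (4 ^ 27 * (144 * Real.pi / (k * S.κ ^ 2)) ^ 8) with hC1
  have hC10 : 0 < C1 := by positivity
  refine ⟨C1 + C3, by positivity, ?_, ?_, ?_⟩
  · intro t ht
    refine (UInt.part1 S hk ht).trans ?_
    apply mul_le_mul_of_nonneg_right _ (Real.rpow_nonneg (by linarith) _)
    linarith
  · intro t δ ht hδ hδ1
    refine (UInt.part2 S hk ht hδ hδ1).trans ?_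
    apply mul_le_mul_of_nonneg_right _ (Real.rpow_nonneg (by linarith) _)
    apply mul_le_mul_of_nonneg_right _ (by positivity)
    linarith
  · intro t ht
    refine (h3 t ht).trans ?_
    apply mul_le_mul_of_nonneg_right (by linarith)
    apply integral_nonneg
    intro x
    change (0 : ℝ) ≤ _
    beta_reduce
    split_ifs <;> norm_num

end Vale.Agent.P353.U
end
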