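import Mathlib
import Vale.Agent.P353.BdU.B4
import Vale.Agent.P353.BdU.B5
import Vale.Agent.P353.BdU.B3
import Vale.Agent.P353.BdU.B1

set_option linter.all false

section

open Matrix

namespace Vale.Agent.P353

namespace CS

variable {R : Type*} [Ring R] [Algebra ℂ R] (S : CS R)

/-- the gamma matrices and `i · 1` -/
noncomputable def g10 : Option (Fin 9) → Matrix (Fin 16) (Fin 16) ℂ
  | none => Complex.I • 1
  | some j => S.g j

/-- `∑_j γ^j_{αβ} γ^j_{γδ} - δ_{αβ} δ_{γδ}` -/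
noncomputable def N1 (α β γ δ : Fin 16) : ℂ := ∑ p, S.g10 p α β * S.g10 p γ δ

lemma g10_symm (p : Option (Fin 9)) : (S.g10 p)ᵀ = S.g10 p := by
  cases p with
  | none => simp [g10]
  | some j => exact S.g_symm j

lemma N1_eq (α β γ δ : Fin 16) : S.N1 α β γ δ = (∑ j, S.g j α β * S.g j γ δ) -
    (1 : Matrix (Fin 16) (Fin 16) ℂ) α β * (1 : Matrix (Fin 16) (Fin 16) ℂ) γ δ := by
  rw [N1, Fintype.sum_option]
  simp only [g10, Matrix.smul_apply, smul_eq_mul]
  linear_combination (1 : Matrix (Fin 16) (Fin 16) ℂ) α β *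
    (1 : Matrix (Fin 16) (Fin 16) ℂ) γ δ * Complex.I_mul_I

lemma N1_sq : ∑ α, ∑ β, ∑ γ, ∑ δ, (S.N1 α β γ δ) ^ 2 = 2560 := by
  let G : Option (Fin 9) → Fin 16 × Fin 16 → ℂ := fun p a => S.g10 p a.1 a.2
  have h := sum_sq_swap G
  have h1 : ∑ a, ∑ c, (∑ p, G p a * G p c) ^ 2 = ∑ α, ∑ β, ∑ γ, ∑ δ, (S.N1 α β γ δ) ^ 2 := by
    simp only [Fintype.sum_prod_type, G, N1]
  have h2 : ∀ p q : Option (Fin 9), (∑ a, G p a * G q a) ^ 2 = if p = q then 256 else 0 := by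
    intro p q
    have : ∑ a, G p a * G q a = ∑ α, ∑ β, S.g10 p α β * S.g10 q α β := by
      simp only [Fintype.sum_prod_type, G]
    rw [this, sum_entries, g10_symm]
    cases p with
    | none =>
      cases q with
      | none =>
        rw [if_pos rfl]
        simp only [g10, smul_mul_smul_comm, Complex.I_mul_I, mul_one, Matrix.trace_smul,
          Matrix.trace_one, Fintype.card_fin, smul_eq_mul]
        norm_num
      | some j => simp [g10, S.trace_g]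
    | some i =>
      cases q with
      | none => simp [g10, S.trace_g]
      | some j =>
        simp only [g10, S.trace_gg, Option.some.injEq]
        split_ifs <;> norm_num
  rw [← h1, h]
  simp only [h2, Finset.sum_ite_eq, Finset.mem_univ, if_true, Finset.sum_const, Finset.card_univ,
    Fintype.card_option, Fintype.card_fin]
  norm_num

lemma N1_cross : ∑ α, ∑ β, ∑ γ, ∑ δ, S.N1 α β γ δ * S.N1 α γ δ β = -1280 := by
  have h1 : ∑ α, ∑ β, ∑ γ, ∑ δ, S.N1 α β γ δ * S.N1 α γ δ β =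
      ∑ α, ∑ β, ∑ γ, ∑ δ, ∑ p, ∑ q,
        (S.g10 p α β * S.g10 p γ δ) * (S.g10 q α γ * S.g10 q δ β) := by
    simp only [N1, Finset.sum_mul_sum]
  have h2 : ∑ α, ∑ β, ∑ γ, ∑ δ, ∑ p, ∑ q,
        (S.g10 p α β * S.g10 p γ δ) * (S.g10 q α γ * S.g10 q δ β) =
      ∑ p, ∑ q, ∑ α, ∑ β, ∑ γ, ∑ δ,
        (S.g10 p α β * S.g10 p γ δ) * (S.g10 q α γ * S.g10 q δ β) := by
    have s1 : ∀ (f : Fin 16 → Option (Fin 9) → Option (Fin 9) → ℂ),
        ∑ δ, ∑ p, ∑ q, f δ p q = ∑ p, ∑ q, ∑ δ, f δ p q := by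
      intro f
      rw [Finset.sum_comm]
      refine Finset.sum_congr rfl fun p _ => ?_
      rw [Finset.sum_comm]
    simp only [s1]
  rw [h1, h2]
  simp only [sum_cross]
  rw [Finset.sum_comm]
  have h3 : ∑ q, ∑ p, (S.g10 q * S.g10 p * S.g10 q * (S.g10 p)ᵀ).trace =
      ∑ p, ((∑ q, S.g10 q * S.g10 p * S.g10 q) * S.g10 p).trace := by
    rw [Finset.sum_comm]
    refine Finset.sum_congr rfl fun p _ => ?_
    rw [Finset.sum_mul, Matrix.trace_sum]
    refine Finset.sum_congr rfl fun q _ => ?_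
    rw [S.g10_symm]
  rw [h3]
  have h4 : ∀ p, ∑ q, S.g10 q * S.g10 p * S.g10 q = -S.g10 p + S.sand (S.g10 p) := by
    intro p
    rw [Fintype.sum_option]
    congr 1
    simp only [g10, smul_mul_assoc, one_mul, mul_smul_comm, mul_one, smul_smul, Complex.I_mul_I]
    rw [neg_one_smul]
  simp only [h4]
  rw [Fintype.sum_option]
  have e1 : ((-S.g10 none + S.sand (S.g10 none)) * S.g10 none).trace = -128 := by
    simp only [g10]
    rw [S.sand_smul, S.sand_one]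
    have : (-(Complex.I • (1 : Matrix (Fin 16) (Fin 16) ℂ)) + Complex.I • (9 : ℂ) •
        (1 : Matrix (Fin 16) (Fin 16) ℂ)) * Complex.I • 1 = (-8 : ℂ) • 1 := by
      rw [add_mul, neg_mul]
      simp only [smul_mul_smul_comm, Complex.I_mul_I, mul_one, smul_smul, mul_comm Complex.I 9,
        mul_assoc]
      module
    rw [this, Matrix.trace_smul, Matrix.trace_one]
    norm_num
  have e2 : ∀ j : Fin 9, ((-S.g10 (some j) + S.sand (S.g10 (some j))) * S.g10 (some j)).trace =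
      -128 := by
    intro j
    simp only [g10]
    rw [S.sand_g, ← neg_one_smul ℂ (S.g j), ← add_smul, smul_mul_assoc, S.g_sq, Matrix.trace_smul,
      Matrix.trace_one]
    norm_num
  rw [e1]
  simp only [e2, Finset.sum_const, Finset.card_univ, Fintype.card_fin]
  norm_num

/-- the nine dimensional Fierz identity -/
lemma fierz1 (hreal : ∀ i α β, (S.g i α β).im = 0) (α β γ δ : Fin 16) :
    S.N1 α β γ δ + S.N1 α γ δ β + S.N1 α δ β γ = 0 := by
  have him : ∀ α β γ δ, (S.N1 α β γ δ).im = 0 := by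
    intro α β γ δ
    have ho : ∀ α β, ((1 : Matrix (Fin 16) (Fin 16) ℂ) α β).im = 0 := by
      intro α β
      rw [Matrix.one_apply]
      split_ifs <;> simp
    rw [N1_eq, Complex.sub_im, Complex.mul_im, ho, ho, Complex.im_sum]
    simp only [Complex.mul_im, hreal, mul_zero, zero_mul, add_zero, Finset.sum_const_zero,
      sub_zero]
  set T : Fin 16 → Fin 16 → Fin 16 → Fin 16 → ℂ := fun α β γ δ =>
    S.N1 α β γ δ + S.N1 α γ δ β + S.N1 α δ β γ with hT
  have hsum : ∑ α, ∑ β, ∑ γ, ∑ δ, (T α β γ δ) ^ 2 = 0 := by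
    have e1 : ∀ α, ∑ β, ∑ γ, ∑ δ, (T α β γ δ) ^ 2 =
        3 * ∑ β, ∑ γ, ∑ δ, (S.N1 α β γ δ) ^ 2 +
        6 * ∑ β, ∑ γ, ∑ δ, S.N1 α β γ δ * S.N1 α γ δ β := by
      intro α
      have a1 := cyc16 (fun β γ δ => (S.N1 α β γ δ) ^ 2)
      have a2 := cyc16 (fun β γ δ => (S.N1 α γ δ β) ^ 2)
      have a3 := cyc16 (fun β γ δ => S.N1 α β γ δ * S.N1 α γ δ β)
      have a4 := cyc16 (fun β γ δ => S.N1 α γ δ β * S.N1 α δ β γ)
      have : ∑ β, ∑ γ, ∑ δ, (T α β γ δ) ^ 2 =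
          ∑ β, ∑ γ, ∑ δ, (S.N1 α β γ δ) ^ 2 + ∑ β, ∑ γ, ∑ δ, (S.N1 α γ δ β) ^ 2 +
          ∑ β, ∑ γ, ∑ δ, (S.N1 α δ β γ) ^ 2 +
          2 * ∑ β, ∑ γ, ∑ δ, S.N1 α β γ δ * S.N1 α γ δ β +
          2 * ∑ β, ∑ γ, ∑ δ, S.N1 α γ δ β * S.N1 α δ β γ +
          2 * ∑ β, ∑ γ, ∑ δ, S.N1 α δ β γ * S.N1 α β γ δ := by
        simp only [Finset.mul_sum, ← Finset.sum_add_distrib]
        refine Finset.sum_congr rfl fun β _ => Finset.sum_congr rfl fun γ _ =>
          Finset.sum_congr rfl fun δ _ => ?_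
        simp only [hT]; ring
      rw [this, ← a2, ← a1, ← a4, ← a3]
      ring
    simp only [e1, Finset.sum_add_distrib, ← Finset.mul_sum]
    rw [N1_sq, N1_cross]; norm_num
  have hTim : ∀ α β γ δ, (T α β γ δ).im = 0 := by
    intro α β γ δ
    simp only [hT, Complex.add_im, him, add_zero]
  have hre : ∑ α, ∑ β, ∑ γ, ∑ δ, ((T α β γ δ).re) ^ 2 = 0 := by
    have h2 : ∀ α β γ δ, (T α β γ δ) ^ 2 = (((T α β γ δ).re ^ 2 : ℝ) : ℂ) := by
      intro α β γ δ
      have : T α β γ δ = ((T α β γ δ).re : ℂ) := by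
        apply Complex.ext <;> simp [hTim]
      conv_lhs => rw [this]
      push_cast; rfl
    simp only [h2] at hsum
    exact_mod_cast hsum
  have hz : (T α β γ δ).re ^ 2 = 0 := by
    have n4 : ∀ α β γ δ, 0 ≤ ((T α β γ δ).re) ^ 2 := fun _ _ _ _ => sq_nonneg _
    have n3 : ∀ α β γ, 0 ≤ ∑ δ, ((T α β γ δ).re) ^ 2 := fun _ _ _ =>
      Finset.sum_nonneg fun _ _ => n4 _ _ _ _
    have n2 : ∀ α β, 0 ≤ ∑ γ, ∑ δ, ((T α β γ δ).re) ^ 2 := fun _ _ =>
      Finset.sum_nonneg fun _ _ => n3 _ _ _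
    have n1 : ∀ α, 0 ≤ ∑ β, ∑ γ, ∑ δ, ((T α β γ δ).re) ^ 2 := fun _ =>
      Finset.sum_nonneg fun _ _ => n2 _ _
    have z1 := (Finset.sum_eq_zero_iff_of_nonneg fun a _ => n1 a).mp hre α (Finset.mem_univ _)
    have z2 := (Finset.sum_eq_zero_iff_of_nonneg fun a _ => n2 α a).mp z1 β (Finset.mem_univ _)
    have z3 := (Finset.sum_eq_zero_iff_of_nonneg fun a _ => n3 α β a).mp z2 γ (Finset.mem_univ _)
    exact (Finset.sum_eq_zero_iff_of_nonneg fun a _ => n4 α β γ a).mp z3 δ (Finset.mem_univ _)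
  have : T α β γ δ = 0 := by
    apply Complex.ext
    · simpa using hz
    · simpa using hTim α β γ δ
  exact this

/-- contracted Fierz identity -/
lemma fierz1c (hreal : ∀ i α β, (S.g i α β).im = 0) (p q : Fin 16 → ℂ) (α β : Fin 16) :
    ∑ j, (S.g j α β * (p ⬝ᵥ (S.g j *ᵥ q)) + (S.g j *ᵥ p) α * (S.g j *ᵥ q) β +
      (S.g j *ᵥ q) α * (S.g j *ᵥ p) β) =
      (1 : Matrix (Fin 16) (Fin 16) ℂ) α β * (p ⬝ᵥ q) + p α * q β + q α * p β := by
  have h : ∑ γ, ∑ δ, (p γ * q δ) * (S.N1 α β γ δ + S.N1 α γ δ β + S.N1 α δ β γ) = 0 :=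
    Finset.sum_eq_zero fun γ _ => Finset.sum_eq_zero fun δ _ => by
      rw [S.fierz1 hreal, mul_zero]
  have hs : ∀ j γ β, S.g j γ β = S.g j β γ := fun j γ β => by
    conv_lhs => rw [← S.g_symm j, Matrix.transpose_apply]
  have e1 : ∑ γ, ∑ δ, (p γ * q δ) * S.N1 α β γ δ =
      (∑ j, S.g j α β * (p ⬝ᵥ (S.g j *ᵥ q))) -
        (1 : Matrix (Fin 16) (Fin 16) ℂ) α β * (p ⬝ᵥ q) := by
    have a1 : ∑ γ, ∑ δ, (p γ * q δ) * ∑ j, S.g j α β * S.g j γ δ =
        ∑ j, S.g j α β * (p ⬝ᵥ (S.g j *ᵥ q)) := by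
      simp only [Finset.mul_sum, dotProduct, mulVec]
      calc _ = ∑ γ, ∑ j, ∑ δ, (p γ * q δ) * (S.g j α β * S.g j γ δ) :=
            Finset.sum_congr rfl fun γ _ => Finset.sum_comm
        _ = ∑ j, ∑ γ, ∑ δ, (p γ * q δ) * (S.g j α β * S.g j γ δ) := Finset.sum_comm
        _ = _ := by
          refine Finset.sum_congr rfl fun j _ => Finset.sum_congr rfl fun γ _ =>
            Finset.sum_congr rfl fun δ _ => ?_
          ring
    have a2 : ∑ γ, ∑ δ, (p γ * q δ) * ((1 : Matrix (Fin 16) (Fin 16) ℂ) α β *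
        (1 : Matrix (Fin 16) (Fin 16) ℂ) γ δ) =
        (1 : Matrix (Fin 16) (Fin 16) ℂ) α β * (p ⬝ᵥ q) := by
      simp only [dotProduct, Finset.mul_sum]
      refine Finset.sum_congr rfl fun γ _ => ?_
      rw [Finset.sum_eq_single γ]
      · rw [Matrix.one_apply_eq]; ring
      · intro δ _ hδ
        rw [Matrix.one_apply_ne (Ne.symm hδ)]; ring
      · intro h; exact absurd (Finset.mem_univ _) h
    simp only [N1_eq, mul_sub, Finset.sum_sub_distrib]
    rw [a1, a2]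
  have e2 : ∑ γ, ∑ δ, (p γ * q δ) * S.N1 α γ δ β =
      (∑ j, (S.g j *ᵥ p) α * (S.g j *ᵥ q) β) - p α * q β := by
    have a1 : ∑ γ, ∑ δ, (p γ * q δ) * ∑ j, S.g j α γ * S.g j δ β =
        ∑ j, (S.g j *ᵥ p) α * (S.g j *ᵥ q) β := by
      calc _ = ∑ γ, ∑ δ, ∑ j, (p γ * q δ) * (S.g j α γ * S.g j δ β) := by
            simp only [Finset.mul_sum]
        _ = ∑ γ, ∑ j, ∑ δ, (p γ * q δ) * (S.g j α γ * S.g j δ β) :=
            Finset.sum_congr rfl fun γ _ => Finset.sum_comm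
        _ = ∑ j, ∑ γ, ∑ δ, (p γ * q δ) * (S.g j α γ * S.g j δ β) := Finset.sum_comm
        _ = _ := by
          refine Finset.sum_congr rfl fun j _ => ?_
          rw [mulVec, mulVec, dotProduct, dotProduct, Finset.sum_mul_sum]
          refine Finset.sum_congr rfl fun γ _ => Finset.sum_congr rfl fun δ _ => ?_
          rw [hs j δ β]
          ring
    have a2 : ∑ γ, ∑ δ, (p γ * q δ) * ((1 : Matrix (Fin 16) (Fin 16) ℂ) α γ *
        (1 : Matrix (Fin 16) (Fin 16) ℂ) δ β) = p α * q β := by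
      rw [Finset.sum_eq_single α, Finset.sum_eq_single β]
      · rw [Matrix.one_apply_eq, Matrix.one_apply_eq]; ring
      · intro δ _ hδ
        rw [Matrix.one_apply_ne hδ]; ring
      · intro h; exact absurd (Finset.mem_univ _) h
      · intro δ _ hδ
        refine Finset.sum_eq_zero fun _ _ => ?_
        rw [Matrix.one_apply_ne (Ne.symm hδ)]; ring
      · intro h; exact absurd (Finset.mem_univ _) h
    simp only [N1_eq, mul_sub, Finset.sum_sub_distrib]
    rw [a1, a2]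
  have e3 : ∑ γ, ∑ δ, (p γ * q δ) * S.N1 α δ β γ =
      (∑ j, (S.g j *ᵥ q) α * (S.g j *ᵥ p) β) - q α * p β := by
    have a1 : ∑ γ, ∑ δ, (p γ * q δ) * ∑ j, S.g j α δ * S.g j β γ =
        ∑ j, (S.g j *ᵥ q) α * (S.g j *ᵥ p) β := by
      calc _ = ∑ γ, ∑ δ, ∑ j, (p γ * q δ) * (S.g j α δ * S.g j β γ) := by
            simp only [Finset.mul_sum]
        _ = ∑ γ, ∑ j, ∑ δ, (p γ * q δ) * (S.g j α δ * S.g j β γ) :=
            Finset.sum_congr rfl fun γ _ => Finset.sum_comm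
        _ = ∑ j, ∑ γ, ∑ δ, (p γ * q δ) * (S.g j α δ * S.g j β γ) := Finset.sum_comm
        _ = ∑ j, ∑ δ, ∑ γ, (p γ * q δ) * (S.g j α δ * S.g j β γ) :=
            Finset.sum_congr rfl fun j _ => Finset.sum_comm
        _ = _ := by
          refine Finset.sum_congr rfl fun j _ => ?_
          rw [mulVec, mulVec, dotProduct, dotProduct, Finset.sum_mul_sum]
          refine Finset.sum_congr rfl fun γ _ => Finset.sum_congr rfl fun δ _ => ?_
          ring
    have a2 : ∑ γ, ∑ δ, (p γ * q δ) * ((1 : Matrix (Fin 16) (Fin 16) ℂ) α δ *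
        (1 : Matrix (Fin 16) (Fin 16) ℂ) β γ) = q α * p β := by
      rw [Finset.sum_eq_single β, Finset.sum_eq_single α]
      · rw [Matrix.one_apply_eq, Matrix.one_apply_eq]; ring
      · intro δ _ hδ
        rw [Matrix.one_apply_ne (Ne.symm hδ)]; ring
      · intro h; exact absurd (Finset.mem_univ _) h
      · intro δ _ hδ
        refine Finset.sum_eq_zero fun _ _ => ?_
        rw [Matrix.one_apply_ne (Ne.symm hδ)]; ring
      · intro h; exact absurd (Finset.mem_univ _) h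
    simp only [N1_eq, mul_sub, Finset.sum_sub_distrib]
    rw [a1, a2]
  simp only [mul_add, Finset.sum_add_distrib] at h ⊢
  rw [e1, e2, e3] at h
  linear_combination h

/-- `v · θ^A` -/
noncomputable def thv (v : Fin 16 → ℂ) (A : Fin 3) : R := ∑ α, v α • S.th α A

lemma thv_eq_vec (v : Fin 16 → ℂ) (A : Fin 3) :
    S.thv v A = S.vec (Matrix.of fun _ => v) A 0 := rfl

lemma thv_anti (v w : Fin 16 → ℂ) (A B : Fin 3) :
    S.thv v A * S.thv w B + S.thv w B * S.thv v A = if A = B then (v ⬝ᵥ w) • (1 : R) else 0 := by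
  rw [thv_eq_vec, thv_eq_vec, S.vec_anti]
  rfl

lemma thv_neg (v : Fin 16 → ℂ) (A : Fin 3) : S.thv (-v) A = -S.thv v A := by
  simp only [thv, Pi.neg_apply, neg_smul, Finset.sum_neg_distrib]

lemma sum_smul_vec (e : Fin 16 → ℂ) (N : Matrix (Fin 16) (Fin 16) ℂ) (A : Fin 3) :
    ∑ β, e β • S.vec N A β = S.thv (Nᵀ *ᵥ e) A := by
  simp only [vec, thv, Finset.smul_sum, smul_smul, mulVec, dotProduct, Matrix.transpose_apply,
    Finset.sum_smul]
  rw [Finset.sum_comm]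
  refine Finset.sum_congr rfl fun γ _ => Finset.sum_congr rfl fun β _ => ?_
  rw [mul_comm]

lemma thv_mul_thv (v w : Fin 16 → ℂ) (A B : Fin 3) :
    S.thv v A * S.thv w B = S.bil (vecMulVec v w) A B := by
  simp only [thv, bil, vec, vecMulVec_apply]
  rw [Finset.sum_mul_sum]
  refine Finset.sum_congr rfl fun α _ => ?_
  rw [Finset.mul_sum]
  refine Finset.sum_congr rfl fun β _ => ?_
  rw [smul_mul_smul_comm, mul_smul_comm]

/-- only the symmetric part matters in an antisymmetrized bilinear -/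
lemma eps_bil (N : Matrix (Fin 16) (Fin 16) ℂ) (P : Matrix (Fin 16) (Fin 16) ℂ)
    (hN : N + Nᵀ = (-2 : ℂ) • P) (D : Fin 3) :
    ∑ A, ∑ B, (eps A B D : ℂ) • S.bil N B A = ∑ A, ∑ B, (eps A B D : ℂ) • S.bil P A B := by
  have h1 : ∑ A, ∑ B, (eps A B D : ℂ) • S.bil N B A =
      -∑ A, ∑ B, (eps A B D : ℂ) • S.bil Nᵀ A B := by
    rw [← Finset.sum_neg_distrib]
    refine Finset.sum_congr rfl fun A _ => ?_
    rw [← Finset.sum_neg_distrib]
    refine Finset.sum_congr rfl fun B _ => ?_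
    rw [S.bil_swap N B A]
    by_cases h : B = A
    · subst h
      have : ∀ B D : Fin 3, eps B B D = 0 := by decide
      rw [this]; simp
    · rw [if_neg h, zero_sub, smul_neg]
  have h2 : ∑ A, ∑ B, (eps A B D : ℂ) • S.bil N B A =
      -∑ A, ∑ B, (eps A B D : ℂ) • S.bil N A B := by
    rw [Finset.sum_comm, ← Finset.sum_neg_distrib]
    refine Finset.sum_congr rfl fun A _ => ?_
    rw [← Finset.sum_neg_distrib]
    refine Finset.sum_congr rfl fun B _ => ?_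
    have : ∀ A B D : Fin 3, eps B A D = -eps A B D := by decide
    rw [this]
    push_cast
    rw [neg_smul]
  have h3 : (2 : ℂ) • ∑ A, ∑ B, (eps A B D : ℂ) • S.bil N B A =
      (2 : ℂ) • ∑ A, ∑ B, (eps A B D : ℂ) • S.bil P A B := by
    rw [two_smul]
    nth_rewrite 1 [h1]
    rw [h2, ← neg_add, ← Finset.sum_add_distrib]
    simp only [← Finset.sum_add_distrib, ← smul_add, ← S.bil_add]
    rw [add_comm Nᵀ N, hN]
    simp only [S.bil_smul, Finset.smul_sum]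
    rw [← Finset.sum_neg_distrib]
    refine Finset.sum_congr rfl fun A _ => ?_
    rw [← Finset.sum_neg_distrib]
    refine Finset.sum_congr rfl fun B _ => ?_
    module
  have h4 := congrArg (fun z : R => (1 / 2 : ℂ) • z) h3
  simp only [smul_smul] at h4
  norm_num at h4
  exact h4

section pairing

variable {e e' : Fin 16 → ℂ}

lemma adjv (N : Matrix (Fin 16) (Fin 16) ℂ) (v w : Fin 16 → ℂ) :
    (N *ᵥ v) ⬝ᵥ w = v ⬝ᵥ (Nᵀ *ᵥ w) := by
  rw [Matrix.dotProduct_mulVec, Matrix.vecMul_transpose]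

lemma pair_two (he : e ⬝ᵥ e' = 1) (i j : Fin 9) :
    (S.g i *ᵥ e) ⬝ᵥ (S.g j *ᵥ e') + (S.g j *ᵥ e) ⬝ᵥ (S.g i *ᵥ e') = if i = j then 2 else 0 := by
  rw [adjv, adjv, S.g_symm, S.g_symm, Matrix.mulVec_mulVec, Matrix.mulVec_mulVec,
    ← dotProduct_add, ← Matrix.add_mulVec, S.g_anti]
  by_cases h : i = j
  · rw [if_pos h, if_pos h]
    have : (2 : Matrix (Fin 16) (Fin 16) ℂ) = (2 : ℂ) • 1 := by
      rw [two_smul]; norm_num
    rw [this, Matrix.smul_mulVec, Matrix.one_mulVec, dotProduct_smul, he]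
    simp
  · rw [if_neg h, if_neg h, Matrix.zero_mulVec, dotProduct_zero]

/-- the rank one matrices of the fermionic term -/
noncomputable def RR (e e' : Fin 16 → ℂ) (l : Fin 9) : Matrix (Fin 16) (Fin 16) ℂ :=
  ∑ j, (vecMulVec (S.g j *ᵥ e) (S.g2 j l *ᵥ e') + vecMulVec (S.g j *ᵥ e') (S.g2 j l *ᵥ e))

lemma RR_symm (hreal : ∀ i α β, (S.g i α β).im = 0) (he : e ⬝ᵥ e' = 1)
    (hk : ∀ k, e ⬝ᵥ (S.g k *ᵥ e') = 0) (l : Fin 9) :
    S.RR e e' l + (S.RR e e' l)ᵀ = (-2 : ℂ) • S.g l := by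
  have hk' : ∀ k, e' ⬝ᵥ (S.g k *ᵥ e) = 0 := fun k => by
    rw [dotProduct_comm, adjv, S.g_symm, hk]
  ext α β
  have f1 := S.fierz1c hreal e (S.g l *ᵥ e') α β
  have f2 := S.fierz1c hreal e' (S.g l *ᵥ e) α β
  rw [hk l] at f1
  rw [hk' l] at f2
  have hg2 : ∀ j (v : Fin 16 → ℂ) β, (S.g2 j l *ᵥ v) β =
      (S.g j *ᵥ (S.g l *ᵥ v)) β - (if j = l then v β else 0) := by
    intro j v β
    rw [S.g2_eq, Matrix.sub_mulVec, Matrix.mulVec_mulVec, Pi.sub_apply, Matrix.smul_mulVec,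
      Matrix.one_mulVec, Pi.smul_apply]
    by_cases h : j = l <;> simp [h]
  have h3 : ∀ j, e ⬝ᵥ (S.g j *ᵥ (S.g l *ᵥ e')) + e' ⬝ᵥ (S.g j *ᵥ (S.g l *ᵥ e)) =
      if j = l then 2 else 0 := by
    intro j
    rw [← S.pair_two he j l, ← S.g_symm j, ← adjv, S.g_symm j]
    congr 1
    rw [dotProduct_comm e', adjv, S.g_symm, dotProduct_comm, adjv, S.g_symm, dotProduct_comm, adjv, S.g_symm, adjv, S.g_symm]
  have h4 : ∀ j, (S.g j *ᵥ e) α * (S.g2 j l *ᵥ e') β + (S.g j *ᵥ e') α * (S.g2 j l *ᵥ e) β +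
      ((S.g j *ᵥ e) β * (S.g2 j l *ᵥ e') α + (S.g j *ᵥ e') β * (S.g2 j l *ᵥ e) α) =
      (S.g j α β * (e ⬝ᵥ (S.g j *ᵥ (S.g l *ᵥ e'))) +
        (S.g j *ᵥ e) α * (S.g j *ᵥ (S.g l *ᵥ e')) β + (S.g j *ᵥ (S.g l *ᵥ e')) α *
          (S.g j *ᵥ e) β) +
      (S.g j α β * (e' ⬝ᵥ (S.g j *ᵥ (S.g l *ᵥ e))) +
        (S.g j *ᵥ e') α * (S.g j *ᵥ (S.g l *ᵥ e)) β + (S.g j *ᵥ (S.g l *ᵥ e)) α *
          (S.g j *ᵥ e') β) -
      ((if j = l then 2 * S.g j α β else 0) + (if j = l then (S.g j *ᵥ e) α * e' β +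
        (S.g j *ᵥ e') α * e β + (S.g j *ᵥ e) β * e' α + (S.g j *ᵥ e') β * e α else 0)) := by
    intro j
    rw [hg2, hg2, hg2, hg2]
    have h5 := h3 j
    by_cases h : j = l
    · rw [if_pos h] at h5
      simp only [if_pos h]
      linear_combination (-S.g j α β) * h5
    · rw [if_neg h] at h5
      simp only [if_neg h]
      linear_combination (-S.g j α β) * h5
  have h6 : (S.RR e e' l + (S.RR e e' l)ᵀ) α β = ∑ j, ((S.g j *ᵥ e) α * (S.g2 j l *ᵥ e') β +
      (S.g j *ᵥ e') α * (S.g2 j l *ᵥ e) β +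
      ((S.g j *ᵥ e) β * (S.g2 j l *ᵥ e') α + (S.g j *ᵥ e') β * (S.g2 j l *ᵥ e) α)) := by
    simp only [Matrix.add_apply, Matrix.transpose_apply, RR, Matrix.sum_apply, vecMulVec_apply,
      Finset.sum_add_distrib]
  rw [h6]
  simp only [h4]
  rw [Finset.sum_sub_distrib, Finset.sum_add_distrib, f1, f2, Finset.sum_add_distrib,
    Finset.sum_ite_eq', Finset.sum_ite_eq', if_pos (Finset.mem_univ _),
    if_pos (Finset.mem_univ _), Matrix.smul_apply, smul_eq_mul]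
  ring

/-- the fermionic term of the anticommutator -/
lemma ferm_abs (hreal : ∀ i α β, (S.g i α β).im = 0) {σ : ℂ} (hσ : σ * σ = 1) (κ : ℂ)
    (he : e ⬝ᵥ e' = 1) (hk : ∀ k, e ⬝ᵥ (S.g k *ᵥ e') = 0) (X : Fin 9 → Fin 3 → ℂ) :
    ∑ j, ∑ B, ((σ • S.thv (S.g j *ᵥ e) B) * (-((Complex.I * σ * κ) • ∑ A, ∑ l, ∑ D,
        ((eps A B D : ℂ) * X l D) • S.thv (S.g2 j l *ᵥ e') A)) +
      (σ • S.thv (S.g j *ᵥ e') B) * (-((Complex.I * σ * κ) • ∑ A, ∑ l, ∑ D,
        ((eps A B D : ℂ) * X l D) • S.thv (S.g2 j l *ᵥ e) A))) =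
      (-2 : ℂ) • ((Complex.I / 2 * κ) • ∑ q, ∑ A, ∑ B, ∑ C, ((eps A B C : ℂ) * X q C) •
        S.bil (S.g q) A B) := by
  have h1 : ∀ j B, ((σ • S.thv (S.g j *ᵥ e) B) * (-((Complex.I * σ * κ) • ∑ A, ∑ l, ∑ D,
        ((eps A B D : ℂ) * X l D) • S.thv (S.g2 j l *ᵥ e') A)) +
      (σ • S.thv (S.g j *ᵥ e') B) * (-((Complex.I * σ * κ) • ∑ A, ∑ l, ∑ D,
        ((eps A B D : ℂ) * X l D) • S.thv (S.g2 j l *ᵥ e) A))) =
      -((Complex.I * κ) • ∑ l, ∑ A, ∑ D, ((eps A B D : ℂ) * X l D) •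
        S.bil (vecMulVec (S.g j *ᵥ e) (S.g2 j l *ᵥ e') +
          vecMulVec (S.g j *ᵥ e') (S.g2 j l *ᵥ e)) B A) := by
    intro j B
    have h2 : ∀ v w : Fin 16 → ℂ, (σ • S.thv (S.g j *ᵥ v) B) *
        (-((Complex.I * σ * κ) • ∑ A, ∑ l, ∑ D,
        ((eps A B D : ℂ) * X l D) • S.thv (S.g2 j l *ᵥ w) A)) =
        -((Complex.I * κ) • ∑ l, ∑ A, ∑ D, ((eps A B D : ℂ) * X l D) •
        S.bil (vecMulVec (S.g j *ᵥ v) (S.g2 j l *ᵥ w)) B A) := by
      intro v w
      rw [mul_neg, smul_mul_smul_comm]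
      congr 1
      have : σ * (Complex.I * σ * κ) = Complex.I * κ := by
        linear_combination (Complex.I * κ) * hσ
      rw [this]
      congr 1
      rw [Finset.mul_sum]
      calc _ = ∑ A, ∑ l, ∑ D, ((eps A B D : ℂ) * X l D) •
            S.bil (vecMulVec (S.g j *ᵥ v) (S.g2 j l *ᵥ w)) B A := by
            simp only [Finset.mul_sum, mul_smul_comm, S.thv_mul_thv]
        _ = _ := Finset.sum_comm
    rw [h2, h2, ← neg_add, ← smul_add]
    simp only [← Finset.sum_add_distrib, ← smul_add, S.bil_add]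
  have h3 : ∑ j, ∑ B, (-((Complex.I * κ) • ∑ l, ∑ A, ∑ D, ((eps A B D : ℂ) * X l D) •
        S.bil (vecMulVec (S.g j *ᵥ e) (S.g2 j l *ᵥ e') +
          vecMulVec (S.g j *ᵥ e') (S.g2 j l *ᵥ e)) B A)) =
      -((Complex.I * κ) • ∑ l, ∑ D, X l D • ∑ A, ∑ B, (eps A B D : ℂ) •
        S.bil (S.RR e e' l) B A) := by
    simp only [Finset.sum_neg_distrib, ← Finset.smul_sum]
    congr 2
    have h4 : ∀ l D, X l D • ∑ A, ∑ B, (eps A B D : ℂ) • S.bil (S.RR e e' l) B A =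
        ∑ A, ∑ B, ∑ j, ((eps A B D : ℂ) * X l D) •
        S.bil (vecMulVec (S.g j *ᵥ e) (S.g2 j l *ᵥ e') +
          vecMulVec (S.g j *ᵥ e') (S.g2 j l *ᵥ e)) B A := by
      intro l D
      simp only [RR, S.bil_sum, Finset.smul_sum, smul_smul]
      refine Finset.sum_congr rfl fun A _ => Finset.sum_congr rfl fun B _ =>
        Finset.sum_congr rfl fun j _ => ?_
      rw [mul_comm]
    simp only [h4]
    obtain ⟨f, hf⟩ : ∃ f : Fin 9 → Fin 3 → Fin 3 → Fin 3 → Fin 9 → R,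
        ∀ l D A B j, ((eps A B D : ℂ) * X l D) •
        S.bil (vecMulVec (S.g j *ᵥ e) (S.g2 j l *ᵥ e') +
          vecMulVec (S.g j *ᵥ e') (S.g2 j l *ᵥ e)) B A = f l D A B j :=
      ⟨_, fun _ _ _ _ _ => rfl⟩
    simp only [hf]
    calc ∑ j, ∑ B, ∑ l, ∑ A, ∑ D, f l D A B j
        = ∑ j, ∑ l, ∑ B, ∑ A, ∑ D, f l D A B j :=
          Finset.sum_congr rfl fun j _ => Finset.sum_comm
      _ = ∑ l, ∑ j, ∑ B, ∑ A, ∑ D, f l D A B j := Finset.sum_comm
      _ = ∑ l, ∑ D, ∑ A, ∑ B, ∑ j, f l D A B j := by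
          refine Finset.sum_congr rfl fun l _ => ?_
          calc ∑ j, ∑ B, ∑ A, ∑ D, f l D A B j = ∑ j, ∑ A, ∑ B, ∑ D, f l D A B j :=
                Finset.sum_congr rfl fun j _ => Finset.sum_comm
            _ = ∑ j, ∑ A, ∑ D, ∑ B, f l D A B j :=
                Finset.sum_congr rfl fun j _ => Finset.sum_congr rfl fun A _ => Finset.sum_comm
            _ = ∑ j, ∑ D, ∑ A, ∑ B, f l D A B j :=
                Finset.sum_congr rfl fun j _ => Finset.sum_comm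
            _ = ∑ D, ∑ j, ∑ A, ∑ B, f l D A B j := Finset.sum_comm
            _ = ∑ D, ∑ A, ∑ j, ∑ B, f l D A B j :=
                Finset.sum_congr rfl fun D _ => Finset.sum_comm
            _ = ∑ D, ∑ A, ∑ B, ∑ j, f l D A B j :=
                Finset.sum_congr rfl fun D _ => Finset.sum_congr rfl fun A _ => Finset.sum_comm
  simp only [h1]
  rw [h3]
  simp only [S.eps_bil _ _ (S.RR_symm hreal he hk _)]
  rw [smul_smul, ← neg_smul]
  have h6 : -(Complex.I * κ) = -2 * (Complex.I / 2 * κ) := by ring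
  rw [h6]
  congr 1
  refine Finset.sum_congr rfl fun l _ => ?_
  have h7 : ∀ D, X l D • ∑ A, ∑ B, (eps A B D : ℂ) • S.bil (S.g l) A B =
      ∑ A, ∑ B, ((eps A B D : ℂ) * X l D) • S.bil (S.g l) A B := by
    intro D
    simp only [Finset.smul_sum, smul_smul]
    refine Finset.sum_congr rfl fun A _ => Finset.sum_congr rfl fun B _ => ?_
    rw [mul_comm]
  simp only [h7]
  rw [Finset.sum_comm]
  refine Finset.sum_congr rfl fun A _ => ?_
  rw [Finset.sum_comm]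

/-- kinetic term -/
lemma kin_abs {σ : ℂ} (hσ : σ * σ = 1) (he : e ⬝ᵥ e' = 1) (i : Fin 9) (A : Fin 3) (j : Fin 9)
    (B : Fin 3) :
    ((σ • S.thv (S.g i *ᵥ e) A) * (σ • S.thv (S.g j *ᵥ e') B) +
      (σ • S.thv (S.g j *ᵥ e') B) * (σ • S.thv (S.g i *ᵥ e) A)) +
      ((σ • S.thv (S.g j *ᵥ e) B) * (σ • S.thv (S.g i *ᵥ e') A) +
        (σ • S.thv (S.g i *ᵥ e') A) * (σ • S.thv (S.g j *ᵥ e) B)) =
      if i = j ∧ A = B then (2 : ℂ) • (1 : R) else 0 := by
  simp only [smul_mul_smul_comm, hσ, one_smul]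
  rw [S.thv_anti, S.thv_anti]
  have h := S.pair_two he i j
  by_cases hAB : A = B
  · rw [if_pos hAB, if_pos hAB.symm, ← add_smul, h]
    by_cases hij : i = j
    · rw [if_pos hij, if_pos ⟨hij, hAB⟩]
    · rw [if_neg hij, if_neg fun h => hij h.1, zero_smul]
  · rw [if_neg hAB, if_neg (Ne.symm hAB), if_neg fun h => hAB h.2, add_zero]

/-- first order term -/
lemma first_abs (σ : ℂ) (i : Fin 9) (A : Fin 3) (N : Fin 3 → Matrix (Fin 16) (Fin 16) ℂ)
    (hN : ∀ A, (S.g i *ᵥ e) ⬝ᵥ (N A *ᵥ e') + (S.g i *ᵥ e') ⬝ᵥ (N A *ᵥ e) = 0) :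
    ((σ • S.thv (S.g i *ᵥ e) A) * (-((Complex.I * σ) • ∑ B, S.thv (N B *ᵥ e') B)) +
      (-((Complex.I * σ) • ∑ B, S.thv (N B *ᵥ e') B)) * (σ • S.thv (S.g i *ᵥ e) A)) +
      ((σ • S.thv (S.g i *ᵥ e') A) * (-((Complex.I * σ) • ∑ B, S.thv (N B *ᵥ e) B)) +
      (-((Complex.I * σ) • ∑ B, S.thv (N B *ᵥ e) B)) * (σ • S.thv (S.g i *ᵥ e') A)) = 0 := by
  have h : ∀ v w : Fin 16 → ℂ,
      (σ • S.thv (S.g i *ᵥ v) A) * (-((Complex.I * σ) • ∑ B, S.thv (N B *ᵥ w) B)) +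
      (-((Complex.I * σ) • ∑ B, S.thv (N B *ᵥ w) B)) * (σ • S.thv (S.g i *ᵥ v) A) =
      -((Complex.I * σ * σ * ((S.g i *ᵥ v) ⬝ᵥ (N A *ᵥ w))) • (1 : R)) := by
    intro v w
    rw [mul_neg, neg_mul, ← neg_add, smul_mul_smul_comm, smul_mul_smul_comm,
      mul_comm σ, ← smul_add, Finset.mul_sum, Finset.sum_mul, ← Finset.sum_add_distrib]
    simp only [S.thv_anti]
    rw [Finset.sum_ite_eq, if_pos (Finset.mem_univ _), smul_smul]
  rw [h, h, ← neg_add, ← add_smul, ← mul_add, hN, mul_zero, zero_smul, neg_zero]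

/-- zero order term -/
lemma zero_abs {σ : ℂ} (hσ : σ * σ = 1) (N : Fin 3 → Matrix (Fin 16) (Fin 16) ℂ) :
    (-((Complex.I * σ) • ∑ B, S.thv (N B *ᵥ e) B)) *
        (-((Complex.I * σ) • ∑ B, S.thv (N B *ᵥ e') B)) +
      (-((Complex.I * σ) • ∑ B, S.thv (N B *ᵥ e') B)) *
        (-((Complex.I * σ) • ∑ B, S.thv (N B *ᵥ e) B)) =
      (-∑ A, (N A *ᵥ e) ⬝ᵥ (N A *ᵥ e')) • (1 : R) := by
  have hσ' : Complex.I * σ * (Complex.I * σ) = -1 := by
    linear_combination σ * σ * Complex.I_mul_I - hσ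
  rw [neg_mul_neg, neg_mul_neg, smul_mul_smul_comm, smul_mul_smul_comm, hσ',
    ← smul_add, Finset.sum_mul_sum, Finset.sum_mul_sum]
  nth_rewrite 2 [Finset.sum_comm]
  simp only [← Finset.sum_add_distrib, S.thv_anti]
  have h2 : ∑ A, ∑ B, (if A = B then ((N A *ᵥ e) ⬝ᵥ (N B *ᵥ e')) • (1 : R)
      else 0) = (∑ A, (N A *ᵥ e) ⬝ᵥ (N A *ᵥ e')) • (1 : R) := by
    rw [Finset.sum_smul]
    refine Finset.sum_congr rfl fun A _ => ?_
    rw [Finset.sum_ite_eq, if_pos (Finset.mem_univ _)]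
  rw [h2, neg_one_smul, neg_smul]

/-- leading coefficient -/
noncomputable def opG (σ : ℂ) (v : Fin 16 → ℂ) (i : Fin 9) (A : Fin 3) : R :=
  σ • S.thv (S.g i *ᵥ v) A

/-- zero order coefficient -/
noncomputable def opX (σ : ℂ) (N : Fin 3 → Matrix (Fin 16) (Fin 16) ℂ) (v : Fin 16 → ℂ) : R :=
  -((Complex.I * σ) • ∑ B, S.thv (N B *ᵥ v) B)

/-- derivative of the zero order coefficient -/
noncomputable def opD (σ κ : ℂ) (X : Fin 9 → Fin 3 → ℂ) (v : Fin 16 → ℂ) (j : Fin 9)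
    (B : Fin 3) : R :=
  -((Complex.I * σ * κ) • ∑ A, ∑ l, ∑ D, ((eps A B D : ℂ) * X l D) • S.thv (S.g2 j l *ᵥ v) A)

/-- the fermionic potential -/
noncomputable def opF (κ : ℂ) (X : Fin 9 → Fin 3 → ℂ) : R :=
  (Complex.I / 2 * κ) • ∑ q, ∑ A, ∑ B, ∑ C, ((eps A B C : ℂ) * X q C) • S.bil (S.g q) A B

lemma kin_op {σ : ℂ} (hσ : σ * σ = 1) (he : e ⬝ᵥ e' = 1) (i : Fin 9) (A : Fin 3) (j : Fin 9)
    (B : Fin 3) :
    (S.opG σ e i A * S.opG σ e' j B + S.opG σ e' j B * S.opG σ e i A) +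
      (S.opG σ e j B * S.opG σ e' i A + S.opG σ e' i A * S.opG σ e j B) =
      if i = j ∧ A = B then (2 : ℂ) • (1 : R) else 0 := S.kin_abs hσ he i A j B

lemma first_op (σ : ℂ) (i : Fin 9) (A : Fin 3) (N : Fin 3 → Matrix (Fin 16) (Fin 16) ℂ)
    (hN : ∀ A, (S.g i *ᵥ e) ⬝ᵥ (N A *ᵥ e') + (S.g i *ᵥ e') ⬝ᵥ (N A *ᵥ e) = 0) :
    (S.opG σ e i A * S.opX σ N e' + S.opX σ N e' * S.opG σ e i A) +
      (S.opG σ e' i A * S.opX σ N e + S.opX σ N e * S.opG σ e' i A) = 0 :=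
  S.first_abs σ i A N hN

lemma zero_op {σ : ℂ} (hσ : σ * σ = 1) (N : Fin 3 → Matrix (Fin 16) (Fin 16) ℂ) :
    S.opX σ N e * S.opX σ N e' + S.opX σ N e' * S.opX σ N e =
      (-∑ A, (N A *ᵥ e) ⬝ᵥ (N A *ᵥ e')) • (1 : R) := S.zero_abs hσ N

lemma ferm_op (hreal : ∀ i α β, (S.g i α β).im = 0) {σ : ℂ} (hσ : σ * σ = 1) (κ : ℂ)
    (he : e ⬝ᵥ e' = 1) (hk : ∀ k, e ⬝ᵥ (S.g k *ᵥ e') = 0) (X : Fin 9 → Fin 3 → ℂ) :
    ∑ j, ∑ B, (S.opG σ e j B * S.opD σ κ X e' j B + S.opG σ e' j B * S.opD σ κ X e j B) =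
      (-2 : ℂ) • S.opF κ X := S.ferm_abs hreal hσ κ he hk X

end pairing

/-- `∑_i a_i γ^i` -/
noncomputable def slash (a : Fin 9 → ℂ) : Matrix (Fin 16) (Fin 16) ℂ := ∑ i, a i • S.g i

lemma slash_mul (a b : Fin 9 → ℂ) : S.slash a * S.slash b =
    ∑ i, ∑ j, (a i * b j) • (S.g i * S.g j) := by
  rw [slash, slash, Finset.sum_mul_sum]
  refine Finset.sum_congr rfl fun i _ => Finset.sum_congr rfl fun j _ => ?_
  rw [smul_mul_smul_comm]

lemma slash_anti (a b : Fin 9 → ℂ) : S.slash a * S.slash b + S.slash b * S.slash a =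
    (2 * ∑ i, a i * b i) • (1 : Matrix (Fin 16) (Fin 16) ℂ) := by
  have h : S.slash b * S.slash a = ∑ i, ∑ j, (a i * b j) • (S.g j * S.g i) := by
    rw [slash_mul, Finset.sum_comm]
    refine Finset.sum_congr rfl fun i _ => Finset.sum_congr rfl fun j _ => ?_
    rw [mul_comm]
  rw [h, slash_mul, ← Finset.sum_add_distrib, Finset.mul_sum, Finset.sum_smul]
  refine Finset.sum_congr rfl fun i _ => ?_
  rw [← Finset.sum_add_distrib, Finset.sum_eq_single i]
  · rw [← smul_add, S.g_sqE, ← two_smul ℂ, smul_smul]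
    congr 1
    ring
  · intro j _ hj
    rw [← smul_add, S.g_anti, if_neg (Ne.symm hj), smul_zero]
  · intro h; exact absurd (Finset.mem_univ _) h

lemma slash_sq (a : Fin 9 → ℂ) : S.slash a * S.slash a =
    (∑ i, a i * a i) • (1 : Matrix (Fin 16) (Fin 16) ℂ) := by
  have h := S.slash_anti a a
  rw [← two_smul ℂ, mul_smul] at h
  have h2 : S.slash a * S.slash a = (1 / 2 : ℂ) • ((2 : ℂ) • (S.slash a * S.slash a)) := by
    rw [smul_smul]; norm_num
  rw [h, smul_smul, smul_smul] at h2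
  rw [h2]
  congr 1
  ring

lemma half_F {F : Fin 9 → Fin 9 → ℂ} {κ : ℂ} {a b : Fin 9 → ℂ}
    (hF : ∀ i j, F i j = κ * (a i * b j - b i * a j)) :
    (1 / 2 : ℂ) • ∑ i, ∑ j, F i j • S.g2 i j =
      (κ / 2) • (S.slash a * S.slash b - S.slash b * S.slash a) := by
  have h1 : S.slash a * S.slash b = ∑ i, ∑ j, (b i * a j) • (S.g j * S.g i) := by
    rw [slash_mul, Finset.sum_comm]
    refine Finset.sum_congr rfl fun i _ => Finset.sum_congr rfl fun j _ => ?_
    rw [mul_comm]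
  have h2 : S.slash b * S.slash a = ∑ i, ∑ j, (a i * b j) • (S.g j * S.g i) := by
    rw [slash_mul, Finset.sum_comm]
    refine Finset.sum_congr rfl fun i _ => Finset.sum_congr rfl fun j _ => ?_
    rw [mul_comm]
  have h3 : S.slash a * S.slash b - S.slash b * S.slash a = (1 / 2 : ℂ) •
      ((S.slash a * S.slash b - S.slash b * S.slash a) +
        (S.slash a * S.slash b - S.slash b * S.slash a)) := by module
  rw [h3]
  nth_rewrite 1 [h2]
  nth_rewrite 2 [h1]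
  rw [slash_mul, slash_mul]
  simp only [← Finset.sum_add_distrib, ← Finset.sum_sub_distrib, Finset.smul_sum]
  refine Finset.sum_congr rfl fun i _ => Finset.sum_congr rfl fun j _ => ?_
  rw [hF, g2]
  module

lemma half_F_sq {F : Fin 9 → Fin 9 → ℂ} {κ : ℂ} {a b : Fin 9 → ℂ}
    (hF : ∀ i j, F i j = κ * (a i * b j - b i * a j)) :
    ((1 / 2 : ℂ) • ∑ i, ∑ j, F i j • S.g2 i j) * ((1 / 2 : ℂ) • ∑ i, ∑ j, F i j • S.g2 i j) =
      (-(1 / 2) * ∑ i, ∑ j, F i j ^ 2) • (1 : Matrix (Fin 16) (Fin 16) ℂ) := by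
  rw [S.half_F hF]
  set X := S.slash a with hX
  set Y := S.slash b with hY
  set s : ℂ := ∑ i, a i * b i with hs
  have h1 : Y * X = (2 * s) • 1 - X * Y := by
    rw [← S.slash_anti a b]; abel
  have hXX : X * X = (∑ i, a i * a i) • (1 : Matrix (Fin 16) (Fin 16) ℂ) := S.slash_sq a
  have hYY : Y * Y = (∑ i, b i * b i) • (1 : Matrix (Fin 16) (Fin 16) ℂ) := S.slash_sq b
  have h2 : X * Y * (X * Y) = (2 * s) • (X * Y) -
      ((∑ i, a i * a i) * (∑ i, b i * b i)) • (1 : Matrix (Fin 16) (Fin 16) ℂ) := by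
    calc X * Y * (X * Y) = X * (Y * X) * Y := by noncomm_ring
      _ = (2 * s) • (X * Y) - (X * X) * (Y * Y) := by
        rw [h1, mul_sub, sub_mul, mul_smul_comm, smul_mul_assoc, mul_one]
        noncomm_ring
      _ = _ := by
        rw [hXX, hYY, smul_mul_smul_comm, mul_one]
  have h3 : (X * Y - Y * X) * (X * Y - Y * X) =
      (4 * s ^ 2 - 4 * ((∑ i, a i * a i) * (∑ i, b i * b i))) •
        (1 : Matrix (Fin 16) (Fin 16) ℂ) := by
    rw [h1]
    have : X * Y - ((2 * s) • (1 : Matrix (Fin 16) (Fin 16) ℂ) - X * Y) =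
        (2 : ℂ) • (X * Y) - (2 * s) • (1 : Matrix (Fin 16) (Fin 16) ℂ) := by
      module
    rw [this, sub_mul, mul_sub, mul_sub, smul_mul_smul_comm, smul_mul_smul_comm,
      smul_mul_smul_comm, smul_mul_smul_comm, one_mul, mul_one, one_mul, h2]
    module
  rw [smul_mul_smul_comm, h3, smul_smul]
  congr 1
  have h4 : ∑ i, ∑ j, F i j ^ 2 = κ ^ 2 * (2 * ((∑ i, a i * a i) * (∑ i, b i * b i)) - 2 * s ^ 2) := by
    have e1 : ∑ i, ∑ j, F i j ^ 2 = κ ^ 2 * ((∑ i, ∑ j, (a i * a i) * (b j * b j)) +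
        (∑ i, ∑ j, (b i * b i) * (a j * a j)) - 2 * ∑ i, ∑ j, (a i * b i) * (a j * b j)) := by
      simp only [Finset.mul_sum, ← Finset.sum_add_distrib, ← Finset.sum_sub_distrib]
      refine Finset.sum_congr rfl fun i _ => Finset.sum_congr rfl fun j _ => ?_
      rw [hF]
      ring
    rw [e1, ← Finset.sum_mul_sum, ← Finset.sum_mul_sum, ← Finset.sum_mul_sum, ← hs]
    ring
  rw [h4]
  ring

end CS

namespace Setup

variable {F : Type*} [NormedAddCommGroup F] [InnerProductSpace ℂ F] (S : Setup F)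

lemma FF_eq_FFc (A : Fin 3) (i j : Fin 9) (x : X3) : ((S.FF A i j x : ℝ) : ℂ) =
    CS.FFc (S.κ : ℂ) (fun i A => ((x (i, A) : ℝ) : ℂ)) A i j := by
  simp only [FF, CS.FFc]
  push_cast
  rfl

lemma NA_sq (A : Fin 3) (x : X3) : S.NA A x * S.NA A x =
    ((-(1 / 2) * ∑ i, ∑ j, S.FF A i j x ^ 2 : ℝ) : ℂ) • (1 : Matrix (Fin 16) (Fin 16) ℂ) := by
  have key : ∀ a b : Fin 9 → ℂ, (∀ i j, ((S.FF A i j x : ℝ) : ℂ) =
      (S.κ : ℂ) * (a i * b j - b i * a j)) → S.NA A x * S.NA A x =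
      ((-(1 / 2) * ∑ i, ∑ j, S.FF A i j x ^ 2 : ℝ) : ℂ) •
        (1 : Matrix (Fin 16) (Fin 16) ℂ) := by
    intro a b h
    rw [NA, S.half_F_sq h]
    push_cast
    rfl
  fin_cases A
  · refine key (fun i => ((x (i, 1) : ℝ) : ℂ)) (fun i => ((x (i, 2) : ℝ) : ℂ)) fun i j => ?_
    rw [FF_eq_FFc]
    exact CS.FFc_0 _ _ i j
  · refine key (fun i => ((x (i, 2) : ℝ) : ℂ)) (fun i => ((x (i, 0) : ℝ) : ℂ)) fun i j => ?_
    rw [FF_eq_FFc]
    exact CS.FFc_1 _ _ i j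
  · refine key (fun i => ((x (i, 0) : ℝ) : ℂ)) (fun i => ((x (i, 1) : ℝ) : ℂ)) fun i j => ?_
    rw [FF_eq_FFc]
    exact CS.FFc_2 _ _ i j

lemma sum_NA_sq (x : X3) : ∑ A, S.NA A x * S.NA A x =
    ((-2 * S.V x : ℝ) : ℂ) • (1 : Matrix (Fin 16) (Fin 16) ℂ) := by
  simp only [NA_sq, ← Finset.sum_smul, V]
  congr 1
  push_cast
  rw [← Finset.mul_sum]
  ring

section pairing

variable {e e' : Fin 16 → ℂ}

lemma pair_NA (hk : ∀ k, e ⬝ᵥ (S.g k *ᵥ e') = 0) (i : Fin 9) (A : Fin 3) (x : X3) :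
    (S.g i *ᵥ e) ⬝ᵥ (S.NA A x *ᵥ e') + (S.g i *ᵥ e') ⬝ᵥ (S.NA A x *ᵥ e) = 0 := by
  have adj : ∀ (N : Matrix (Fin 16) (Fin 16) ℂ) (v w : Fin 16 → ℂ),
      (N *ᵥ v) ⬝ᵥ w = v ⬝ᵥ (Nᵀ *ᵥ w) := fun N v w => by
    rw [Matrix.dotProduct_mulVec, Matrix.vecMul_transpose]
  have h1 : (S.g i *ᵥ e') ⬝ᵥ (S.NA A x *ᵥ e) = -(e ⬝ᵥ ((S.NA A x * S.g i) *ᵥ e')) := by
    rw [dotProduct_comm, adj, S.NA_transpose, Matrix.mulVec_mulVec, Matrix.neg_mul,
      Matrix.neg_mulVec, dotProduct_neg]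
  have h2 : S.NA A x * S.g i - S.g i * S.NA A x = ∑ k, ∑ j, ((S.FF A k j x : ℝ) : ℂ) •
      ((if j = i then (1:ℂ) else 0) • S.g k - (if k = i then (1:ℂ) else 0) • S.g j) := by
    simp only [NA, smul_mul_assoc, mul_smul_comm, Finset.sum_mul, Finset.mul_sum,
      ← smul_sub, ← Finset.sum_sub_distrib, S.g2_mul_g, add_sub_cancel_left, Finset.smul_sum]
    refine Finset.sum_congr rfl fun k _ => Finset.sum_congr rfl fun j _ => ?_
    module
  have h3 : e ⬝ᵥ ((S.NA A x * S.g i) *ᵥ e') - e ⬝ᵥ ((S.g i * S.NA A x) *ᵥ e') = 0 := by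
    rw [← dotProduct_sub, ← Matrix.sub_mulVec, h2]
    simp only [Matrix.sum_mulVec, Matrix.smul_mulVec, Matrix.sub_mulVec, dotProduct_sum,
      dotProduct_smul, dotProduct_sub, hk, smul_zero, sub_zero, Finset.sum_const_zero]
  rw [h1, adj, S.g_symm, Matrix.mulVec_mulVec]
  linear_combination -h3

lemma pair_NA_NA (he : e ⬝ᵥ e' = 1) (x : X3) :
    ∑ A, (S.NA A x *ᵥ e) ⬝ᵥ (S.NA A x *ᵥ e') = ((2 * S.V x : ℝ) : ℂ) := by
  have adj : ∀ (N : Matrix (Fin 16) (Fin 16) ℂ) (v w : Fin 16 → ℂ),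
      (N *ᵥ v) ⬝ᵥ w = v ⬝ᵥ (Nᵀ *ᵥ w) := fun N v w => by
    rw [Matrix.dotProduct_mulVec, Matrix.vecMul_transpose]
  have h : ∀ A, (S.NA A x *ᵥ e) ⬝ᵥ (S.NA A x *ᵥ e') =
      -(e ⬝ᵥ ((S.NA A x * S.NA A x) *ᵥ e')) := by
    intro A
    rw [adj, S.NA_transpose, Matrix.mulVec_mulVec, Matrix.neg_mul, Matrix.neg_mulVec,
      dotProduct_neg]
  simp only [h, Finset.sum_neg_distrib]
  rw [← dotProduct_sum, ← Matrix.sum_mulVec, S.sum_NA_sq, Matrix.smul_mulVec, Matrix.one_mulVec,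
    dotProduct_smul, he, smul_eq_mul, mul_one]
  push_cast
  ring

end pairing

end Setup
end Vale.Agent.P353
end

section

/-! # P353, C-L1: analytic tools (Fourier uniqueness, growth, Gaussians) -/

open MeasureTheory Filter Topology
open scoped ContDiff FourierTransform ENNReal

namespace Vale.Agent.P353.U

/-! ### Fourier uniqueness -/

theorem l1_fourier {f : X3 → ℂ} (hf : Integrable f)
    (h : ∀ k : X3, ∫ x, Complex.exp (((inner ℝ k x : ℝ) : ℂ) * Complex.I) * f x = 0) :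
    f =ᵐ[volume] 0 := by
  have h1 : ∀ w : X3, 𝓕 f w = 0 := by
    intro w
    rw [Real.fourier_eq']
    rw [← h ((-2 * Real.pi) • w)]
    refine integral_congr_ae (Eventually.of_forall fun x => ?_)
    simp only [smul_eq_mul, inner_smul_left, real_inner_comm]
    congr 2
  refine ae_eq_zero_of_integral_contDiff_smul_eq_zero hf.locallyIntegrable fun g hg hc => ?_
  have hg' : ContDiff ℝ ∞ fun x : X3 => ((g x : ℝ) : ℂ) := Complex.ofRealCLM.contDiff.comp hg
  have hc' : HasCompactSupport fun x : X3 => ((g x : ℝ) : ℂ) :=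
    hc.comp_left (g := fun r : ℝ => (r : ℂ)) Complex.ofReal_zero
  let G : SchwartzMap X3 ℂ := hc'.toSchwartzMap hg'
  have hG : ∀ x, G x = ((g x : ℝ) : ℂ) := fun x => rfl
  let H : SchwartzMap X3 ℂ := 𝓕⁻ G
  have hH : 𝓕 H = G := FourierTransform.fourier_fourierInv_eq G
  have key : ∫ x, (𝓕 H x) * f x = ∫ x, H x * 𝓕 f x := by
    simpa using! VectorFourier.integral_bilin_fourierIntegral_eq_flip
      (ContinuousLinearMap.mul ℂ ℂ) (L := innerₗ X3)
      Real.continuous_fourierChar continuous_inner H.integrable hf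
  simp only [h1, mul_zero, integral_zero, hH] at key
  rw [← key]
  refine integral_congr_ae (Eventually.of_forall fun x => ?_)
  simp only [hG, Complex.real_smul]

/-! ### growth -/

/-- measurable functions with polynomially bounded local `L²` norms -/
structure L1Gr {G : Type*} [NormedAddCommGroup G] (u : X3 → G) : Prop where
  meas : AEStronglyMeasurable u (volume : Measure X3)
  loc : ∀ s : ℝ, 0 < s → IntegrableOn (fun x => ‖u x‖ ^ 2) (Metric.ball (0 : X3) s)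
  gr : ∃ (K : ℝ) (p : ℕ), ∀ s : ℝ, 1 ≤ s →
    ∫ x in Metric.ball (0 : X3) s, ‖u x‖ ^ 2 ≤ K * s ^ p

theorem l1_summable {c : ℝ} (hc : 0 < c) (K : ℝ) (p : ℕ) :
    Summable fun n : ℕ => Real.exp (-(c * n ^ 2)) * (|K| * ((n : ℝ) + 1) ^ p) := by
  have h1 := Real.summable_pow_mul_exp_neg_nat_mul p hc
  have h2 := (summable_nat_add_iff 1).mpr h1
  refine Summable.of_nonneg_of_le (fun n => by positivity) (fun n => ?_)
    (h2.mul_left (|K| * Real.exp c))
  have h3 : Real.exp (-(c * n ^ 2)) ≤ Real.exp c * Real.exp (-c * ((n + 1 : ℕ) : ℝ)) := by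
    rw [← Real.exp_add, Real.exp_le_exp]
    have h4 : (n : ℝ) ≤ (n : ℝ) ^ 2 := by
      rcases Nat.eq_zero_or_pos n with rfl | hn
      · simp
      · have : (1 : ℝ) ≤ n := by exact_mod_cast hn
        nlinarith
    push_cast
    nlinarith
  calc Real.exp (-(c * n ^ 2)) * (|K| * ((n : ℝ) + 1) ^ p)
      ≤ (Real.exp c * Real.exp (-c * ((n + 1 : ℕ) : ℝ))) * (|K| * ((n : ℝ) + 1) ^ p) :=
        mul_le_mul_of_nonneg_right h3 (by positivity)
    _ = _ := by push_cast; ring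

namespace L1Gr

variable {G : Type*} [NormedAddCommGroup G] {u : X3 → G}

theorem int_gauss (h : L1Gr u) {c : ℝ} (hc : 0 < c) :
    Integrable fun x : X3 => Real.exp (-(c * ‖x‖ ^ 2)) * ‖u x‖ ^ 2 := by
  obtain ⟨K, p, hK⟩ := h.gr
  have hcont : Continuous fun x : X3 => Real.exp (-(c * ‖x‖ ^ 2)) := by fun_prop
  refine ⟨hcont.aestronglyMeasurable.mul (h.meas.norm.pow 2), ?_⟩
  rw [hasFiniteIntegral_iff_ofReal (Eventually.of_forall fun x => by positivity)]
  have hle : ∀ x : X3, ENNReal.ofReal (Real.exp (-(c * ‖x‖ ^ 2)) * ‖u x‖ ^ 2) ≤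
      ∑' n : ℕ, ENNReal.ofReal (Real.exp (-(c * n ^ 2))) *
        (Metric.ball (0 : X3) (n + 1)).indicator (fun y => ENNReal.ofReal (‖u y‖ ^ 2)) x := by
    intro x
    refine le_trans ?_ (ENNReal.le_tsum ⌊‖x‖⌋₊)
    have h1 : x ∈ Metric.ball (0 : X3) ((⌊‖x‖⌋₊ : ℝ) + 1) := by
      rw [Metric.mem_ball, dist_zero_right]
      exact Nat.lt_floor_add_one _
    rw [Set.indicator_of_mem h1, ← ENNReal.ofReal_mul (Real.exp_pos _).le]
    refine ENNReal.ofReal_le_ofReal (mul_le_mul_of_nonneg_right ?_ (by positivity))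
    rw [Real.exp_le_exp]
    have h2 : (⌊‖x‖⌋₊ : ℝ) ≤ ‖x‖ := Nat.floor_le (norm_nonneg x)
    have h3 : (⌊‖x‖⌋₊ : ℝ) ^ 2 ≤ ‖x‖ ^ 2 := pow_le_pow_left₀ (Nat.cast_nonneg _) h2 2
    nlinarith
  refine lt_of_le_of_lt (lintegral_mono hle) ?_
  have hmeas : AEMeasurable (fun y => ENNReal.ofReal (‖u y‖ ^ 2)) (volume : Measure X3) :=
    (h.meas.norm.pow 2).aemeasurable.ennreal_ofReal
  rw [lintegral_tsum fun n => ((hmeas.indicator Metric.isOpen_ball.measurableSet).const_mul _)]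
  have hterm : ∀ n : ℕ, ∫⁻ x, ENNReal.ofReal (Real.exp (-(c * n ^ 2))) *
        (Metric.ball (0 : X3) (n + 1)).indicator (fun y => ENNReal.ofReal (‖u y‖ ^ 2)) x ≤
      ENNReal.ofReal (Real.exp (-(c * n ^ 2)) * (|K| * ((n : ℝ) + 1) ^ p)) := by
    intro n
    rw [lintegral_const_mul' _ _ ENNReal.ofReal_ne_top,
      lintegral_indicator Metric.isOpen_ball.measurableSet,
      ENNReal.ofReal_mul (Real.exp_pos _).le]
    refine mul_le_mul_of_nonneg_left ?_ bot_le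
    have hn : (0 : ℝ) < (n : ℝ) + 1 := by positivity
    rw [← ofReal_integral_eq_lintegral_ofReal (h.loc _ hn)
      (Eventually.of_forall fun x => by positivity)]
    refine ENNReal.ofReal_le_ofReal ((hK _ (by linarith [Nat.cast_nonneg (α := ℝ) n])).trans ?_)
    exact mul_le_mul_of_nonneg_right (le_abs_self K) (by positivity)
  refine lt_of_le_of_lt (ENNReal.tsum_le_tsum hterm) ?_
  rw [← ENNReal.ofReal_tsum_of_nonneg (fun n => by positivity) (l1_summable hc K p)]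
  exact ENNReal.ofReal_lt_top

/-- the dominating function used everywhere -/
theorem int_dom (h : L1Gr u) {c : ℝ} (hc : 0 < c) :
    Integrable fun x : X3 => Real.exp (-(c * ‖x‖ ^ 2)) * (1 + ‖u x‖ ^ 2) := by
  have h1 : Integrable fun x : X3 => Real.exp (-(c * ‖x‖ ^ 2)) := by
    have := GaussianFourier.integrable_cexp_neg_mul_sq_norm_add (V := X3) (b := (c : ℂ))
      (by simpa using hc) 0 0
    have h2 := this.re
    refine h2.congr (Eventually.of_forall fun x => ?_)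
    simp only [inner_zero_left, Complex.ofReal_zero, mul_zero, add_zero]
    rw [show (-(c : ℂ) * (‖x‖ : ℂ) ^ 2) = ((-(c * ‖x‖ ^ 2) : ℝ) : ℂ) by push_cast; ring,
      ← Complex.ofReal_exp]
    exact Complex.ofReal_re _
  refine (h1.add (h.int_gauss hc)).congr (Eventually.of_forall fun x => ?_)
  simp only [Pi.add_apply]; ring

end L1Gr

/-- polynomials times Gaussians -/
theorem l1_poly_gauss {c d : ℝ} (hcd : d < c) (m : ℕ) : ∃ C : ℝ, 0 ≤ C ∧ ∀ x : X3,
    (1 + ‖x‖) ^ m * Real.exp (-(c * ‖x‖ ^ 2)) ≤ C * Real.exp (-(d * ‖x‖ ^ 2)) := by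
  refine ⟨Real.exp (m ^ 2 / (4 * (c - d))), (Real.exp_pos _).le, fun x => ?_⟩
  have hs : 0 < c - d := by linarith
  have h1 : (1 + ‖x‖) ^ m ≤ Real.exp (m * ‖x‖) := by
    rw [Real.exp_nat_mul]
    refine pow_le_pow_left₀ (by positivity) ?_ m
    rw [add_comm]; exact Real.add_one_le_exp _
  calc (1 + ‖x‖) ^ m * Real.exp (-(c * ‖x‖ ^ 2))
      ≤ Real.exp (m * ‖x‖) * Real.exp (-(c * ‖x‖ ^ 2)) :=
        mul_le_mul_of_nonneg_right h1 (Real.exp_pos _).le
    _ ≤ Real.exp (m ^ 2 / (4 * (c - d))) * Real.exp (-(d * ‖x‖ ^ 2)) := by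
        rw [← Real.exp_add, ← Real.exp_add, Real.exp_le_exp]
        have h2 : (m : ℝ) ^ 2 / (4 * (c - d)) - m * ‖x‖ + (c - d) * ‖x‖ ^ 2 =
            (c - d) * (‖x‖ - m / (2 * (c - d))) ^ 2 := by
          field_simp
          ring
        have h3 : 0 ≤ (c - d) * (‖x‖ - m / (2 * (c - d))) ^ 2 := by positivity
        linarith

end Vale.Agent.P353.U
end

section

/-! # P353, C-L1: Gaussian test functions -/

open MeasureTheory Filter Topology
open scoped ContDiff ComplexConjugate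

namespace Vale.Agent.P353.U

/-- coordinate vectors -/
noncomputable def l1e (p : Fin 9 × Fin 3) : X3 := EuclideanSpace.single p 1

theorem l1_inner_e (x : X3) (p : Fin 9 × Fin 3) : inner ℝ x (l1e p) = x p := by
  simp [l1e, EuclideanSpace.inner_single_right]

theorem l1_inner_sum (x y : X3) : inner ℝ x y = ∑ p, x p * y p := by
  simp [PiLp.inner_apply, mul_comm]

/-- data of the scalar Liouville lemma -/
structure L1D (ι : Type) [Fintype ι] [DecidableEq ι] where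
  A : X3 →L[ℝ] X3
  τ : ι → X3
  symm : ∀ x y, inner ℝ (A x) y = inner ℝ x (A y)
  Aτ : ∀ C, A (τ C) = 0
  ττ : ∀ C D, inner ℝ (τ C) (τ D) = if C = D then 2 else 0
  low : ∀ x, ‖x‖ ^ 2 ≤ inner ℝ x (A x) + (1 / 2) * ∑ C, inner ℝ (τ C) x ^ 2
  pos : ∀ x, 0 ≤ inner ℝ x (A x)

namespace L1D

variable {ι : Type} [Fintype ι] [DecidableEq ι] (D : L1D ι)

/-- `A + ∑ τ τᵀ` -/
noncomputable def M2 : X3 →L[ℝ] X3 :=
  D.A + ∑ C, (innerSL ℝ (D.τ C)).smulRight (D.τ C)

/-- `A + ½ ∑ τ τᵀ` -/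
noncomputable def M : X3 →L[ℝ] X3 :=
  D.A + (1 / 2 : ℝ) • ∑ C, (innerSL ℝ (D.τ C)).smulRight (D.τ C)

theorem M2_apply (x : X3) : D.M2 x = D.A x + ∑ C, inner ℝ (D.τ C) x • D.τ C := by
  simp [M2]

theorem M_apply (x : X3) : D.M x = D.A x + (1 / 2 : ℝ) • ∑ C, inner ℝ (D.τ C) x • D.τ C := by
  simp [M]

theorem inner_M2 (x y : X3) : inner ℝ (D.M2 x) y = inner ℝ (D.A x) y +
    ∑ C, inner ℝ (D.τ C) x * inner ℝ (D.τ C) y := by
  rw [M2_apply, inner_add_left, sum_inner]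
  simp only [real_inner_smul_left]

theorem inner_M (x y : X3) : inner ℝ (D.M x) y = inner ℝ (D.A x) y +
    (1 / 2) * ∑ C, inner ℝ (D.τ C) x * inner ℝ (D.τ C) y := by
  rw [M_apply, inner_add_left, real_inner_smul_left, sum_inner]
  simp only [real_inner_smul_left]

theorem M2_symm (x y : X3) : inner ℝ (D.M2 x) y = inner ℝ x (D.M2 y) := by
  rw [real_inner_comm (D.M2 y) x, inner_M2, inner_M2, D.symm, real_inner_comm (D.A y) x]
  congr 1
  exact Finset.sum_congr rfl fun C _ => mul_comm _ _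

theorem M_symm (x y : X3) : inner ℝ (D.M x) y = inner ℝ x (D.M y) := by
  rw [real_inner_comm (D.M y) x, inner_M, inner_M, D.symm, real_inner_comm (D.A y) x]
  congr 2
  exact Finset.sum_congr rfl fun C _ => mul_comm _ _

theorem M_low (x : X3) : ‖x‖ ^ 2 ≤ inner ℝ (D.M x) x := by
  rw [inner_M, D.symm]
  refine (D.low x).trans (le_of_eq ?_)
  congr 2
  exact Finset.sum_congr rfl fun C _ => by ring

theorem M2_low (x : X3) : ‖x‖ ^ 2 ≤ inner ℝ (D.M2 x) x := by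
  rw [inner_M2, D.symm]
  refine (D.low x).trans ?_
  have h : (0 : ℝ) ≤ ∑ C, inner ℝ (D.τ C) x ^ 2 := Finset.sum_nonneg fun C _ => sq_nonneg _
  have h2 : ∑ C, inner ℝ (D.τ C) x * inner ℝ (D.τ C) x = ∑ C, inner ℝ (D.τ C) x ^ 2 :=
    Finset.sum_congr rfl fun C _ => by ring
  rw [h2]; linarith

theorem M2_τ (C : ι) : D.M2 (D.τ C) = (2 : ℝ) • D.τ C := by
  rw [M2_apply, D.Aτ, zero_add]
  simp [D.ττ]

theorem norm_M2_sq (x : X3) : ‖D.M2 x‖ ^ 2 = ‖D.A x‖ ^ 2 + 2 * ∑ C, inner ℝ (D.τ C) x ^ 2 := by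
  have h1 : ‖D.M2 x‖ ^ 2 = inner ℝ (D.M2 x) (D.M2 x) := (real_inner_self_eq_norm_sq _).symm
  rw [h1, inner_M2]
  have h2 : inner ℝ (D.A x) (D.M2 x) = ‖D.A x‖ ^ 2 := by
    rw [real_inner_comm, inner_M2, real_inner_self_eq_norm_sq]
    have : ∀ C, inner ℝ (D.τ C) (D.A x) = 0 := fun C => by
      rw [← D.symm, D.Aτ, inner_zero_left]
    simp [this]
  have h3 : ∀ C, inner ℝ (D.τ C) (D.M2 x) = 2 * inner ℝ (D.τ C) x := fun C => by
    rw [← M2_symm, M2_τ, real_inner_smul_left]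
  rw [h2]
  simp only [h3]
  rw [Finset.mul_sum]
  congr 1
  exact Finset.sum_congr rfl fun C _ => by ring

/-- trace of `A` -/
noncomputable def tr : ℝ := ∑ p, inner ℝ (D.A (l1e p)) (l1e p)

theorem tr_M2 : ∑ p, inner ℝ (D.M2 (l1e p)) (l1e p) = D.tr + 2 * Fintype.card ι := by
  simp only [inner_M2, tr, Finset.sum_add_distrib]
  congr 1
  rw [Finset.sum_comm]
  have : ∀ C, ∑ p, inner ℝ (D.τ C) (l1e p) * inner ℝ (D.τ C) (l1e p) = 2 := fun C => by
    simp only [l1_inner_e]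
    rw [← l1_inner_sum, D.ττ, if_pos rfl]
  simp [this, mul_comm]

/-! ### the Gaussian functions -/

/-- exponent -/
noncomputable def ph (k x : X3) : ℂ :=
  ((-(1 / 2) * inner ℝ (D.M2 x) x : ℝ) : ℂ) + ((inner ℝ k x : ℝ) : ℂ) * Complex.I

/-- `E_k(x) = exp(-½⟨x, M₂ x⟩ + i⟨k,x⟩)` -/
noncomputable def EE (k x : X3) : ℂ := Complex.exp (D.ph k x)

/-- logarithmic derivative -/
noncomputable def cc (k e x : X3) : ℂ :=
  -((inner ℝ (D.M2 x) e : ℝ) : ℂ) + ((inner ℝ k e : ℝ) : ℂ) * Complex.I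

theorem norm_EE (k x : X3) : ‖D.EE k x‖ = Real.exp (-(1 / 2) * inner ℝ (D.M2 x) x) := by
  rw [EE, Complex.norm_exp, ph]
  simp

theorem norm_EE_le (k x : X3) : ‖D.EE k x‖ ≤ Real.exp (-(1 / 2 * ‖x‖ ^ 2)) := by
  rw [norm_EE, Real.exp_le_exp]
  have := D.M2_low x
  linarith

theorem hasFDerivAt_q (x : X3) : HasFDerivAt (fun y => inner ℝ (D.M2 y) y)
    ((2 : ℝ) • innerSL ℝ (D.M2 x)) x := by
  have h := (D.M2.hasFDerivAt (x := x)).inner ℝ (hasFDerivAt_id x)
  refine h.congr_fderiv ?_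
  ext e
  simp only [ContinuousLinearMap.comp_apply, fderivInnerCLM_apply,
    ContinuousLinearMap.prod_apply, ContinuousLinearMap.id_apply, id,
    smul_apply, innerSL_apply_apply, smul_eq_mul]
  rw [D.M2_symm e x, real_inner_comm (D.M2 x) e]
  ring

theorem hasFDerivAt_ph (k x : X3) : HasFDerivAt (D.ph k)
    (Complex.ofRealCLM.comp (-innerSL ℝ (D.M2 x)) +
      (Complex.I • Complex.ofRealCLM.comp (innerSL ℝ k))) x := by
  have h1 : HasFDerivAt (fun y => -(1 / 2) * inner ℝ (D.M2 y) y) (-innerSL ℝ (D.M2 x)) x := by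
    refine ((D.hasFDerivAt_q x).const_mul (-(1 / 2))).congr_fderiv ?_
    ext e; simp
  have h2 := (Complex.ofRealCLM.hasFDerivAt (x := -(1 / 2) * inner ℝ (D.M2 x) x)).comp x h1
  have h3 : HasFDerivAt (fun y => inner ℝ k y) (innerSL ℝ k) x := (innerSL ℝ k).hasFDerivAt
  have h4 := ((Complex.ofRealCLM.hasFDerivAt (x := inner ℝ k x)).comp x h3).mul_const Complex.I
  refine (h2.add h4).congr_fderiv ?_
  ext e; simp

theorem fderiv_EE (k x e : X3) : fderiv ℝ (D.EE k) x e = D.EE k x * D.cc k e x := by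
  have h := (D.hasFDerivAt_ph k x).cexp
  have h2 : HasFDerivAt (D.EE k) _ x := h
  rw [h2.fderiv]
  simp [EE, cc]
  ring

theorem contDiff_EE (k : X3) : ContDiff ℝ ∞ (D.EE k) := by
  unfold EE ph
  refine ContDiff.cexp (ContDiff.add ?_ ?_)
  · exact Complex.ofRealCLM.contDiff.comp (contDiff_const.mul (D.M2.contDiff.inner ℝ contDiff_id))
  · exact (Complex.ofRealCLM.contDiff.comp (contDiff_const.inner ℝ contDiff_id)).mul contDiff_const

theorem fderiv_cc (k e x e' : X3) : fderiv ℝ (D.cc k e) x e' = -((inner ℝ (D.M2 e') e : ℝ) : ℂ) := by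
  have h1 : HasFDerivAt (fun y => inner ℝ (D.M2 y) e) ((innerSL ℝ e).comp D.M2) x := by
    have h0 : HasFDerivAt (fun y => inner ℝ e (D.M2 y)) ((innerSL ℝ e).comp D.M2) x :=
      ((innerSL ℝ e).comp D.M2).hasFDerivAt
    simpa only [real_inner_comm] using h0
  have h2 := (Complex.ofRealCLM.hasFDerivAt (x := inner ℝ (D.M2 x) e)).comp x h1
  have h3 : HasFDerivAt (D.cc k e) _ x := h2.neg.add_const (((inner ℝ k e : ℝ) : ℂ) * Complex.I)
  rw [h3.fderiv]
  simp [real_inner_comm]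

theorem differentiable_cc (k e : X3) : Differentiable ℝ (D.cc k e) := by
  unfold cc
  refine Differentiable.add_const _ (Differentiable.neg ?_)
  exact Complex.ofRealCLM.differentiable.comp (D.M2.differentiable.inner ℝ (differentiable_const e))

end L1D

end Vale.Agent.P353.U
end

section

/-! # P353, C-L1: the weak equation for Gaussian test functions -/

open MeasureTheory Filter Topology
open scoped ContDiff ComplexConjugate

namespace Vale.Agent.P353.U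

/-! ### product rules -/

theorem l1_fderiv_mul {f g : X3 → ℂ} {x : X3} (hf : DifferentiableAt ℝ f x)
    (hg : DifferentiableAt ℝ g x) (e : X3) :
    fderiv ℝ (fun y => f y * g y) x e = fderiv ℝ f x e * g x + f x * fderiv ℝ g x e := by
  have h := (hf.hasFDerivAt.mul hg.hasFDerivAt).fderiv
  have h2 : fderiv ℝ (fun y => f y * g y) x = _ := h
  rw [h2]
  simp
  ring

theorem l1_contDiff_dir {f : X3 → ℂ} (hf : ContDiff ℝ ∞ f) (e : X3) :
    ContDiff ℝ ∞ (fun y => fderiv ℝ f y e) :=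
  (hf.fderiv_right (m := ∞) (by simp)).clm_apply contDiff_const

theorem l1_diff {f : X3 → ℂ} (hf : ContDiff ℝ ∞ f) (x : X3) : DifferentiableAt ℝ f x :=
  (hf.differentiable (by simp)) x

theorem l1_fderiv2_mul {f g : X3 → ℂ} (hf : ContDiff ℝ ∞ f) (hg : ContDiff ℝ ∞ g) (x e : X3) :
    fderiv ℝ (fun y => fderiv ℝ (fun z => f z * g z) y e) x e =
      fderiv ℝ (fun y => fderiv ℝ f y e) x e * g x +
        2 * (fderiv ℝ f x e * fderiv ℝ g x e) +
        f x * fderiv ℝ (fun y => fderiv ℝ g y e) x e := by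
  have h1 : (fun y => fderiv ℝ (fun z => f z * g z) y e) =
      fun y => fderiv ℝ f y e * g y + f y * fderiv ℝ g y e := by
    funext y
    exact l1_fderiv_mul (l1_diff hf y) (l1_diff hg y) e
  rw [h1]
  have hf' := l1_diff (l1_contDiff_dir hf e) x
  have hg' := l1_diff (l1_contDiff_dir hg e) x
  have h2 : fderiv ℝ (fun y => fderiv ℝ f y e * g y + f y * fderiv ℝ g y e) x e =
      fderiv ℝ (fun y => fderiv ℝ f y e * g y) x e +
        fderiv ℝ (fun y => f y * fderiv ℝ g y e) x e := by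
    have d1 : DifferentiableAt ℝ (fun y => fderiv ℝ f y e * g y) x := hf'.mul (l1_diff hg x)
    have d2 : DifferentiableAt ℝ (fun y => f y * fderiv ℝ g y e) x := (l1_diff hf x).mul hg'
    rw [fderiv_fun_add d1 d2]
    rfl
  rw [h2, l1_fderiv_mul hf' (l1_diff hg x), l1_fderiv_mul (l1_diff hf x) hg']
  ring

namespace L1D

variable {ι : Type} [Fintype ι] [DecidableEq ι] (D : L1D ι)

theorem fderiv2_EE (k x e : X3) :
    fderiv ℝ (fun y => fderiv ℝ (D.EE k) y e) x e =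
      D.EE k x * (D.cc k e x ^ 2 - ((inner ℝ (D.M2 e) e : ℝ) : ℂ)) := by
  have h1 : (fun y => fderiv ℝ (D.EE k) y e) = fun y => D.EE k y * D.cc k e y := by
    funext y; exact D.fderiv_EE k y e
  rw [h1, l1_fderiv_mul (l1_diff (D.contDiff_EE k) x) (D.differentiable_cc k e x),
    fderiv_EE, fderiv_cc]
  ring

theorem fderiv_τ (C : ι) (x e : X3) :
    fderiv ℝ (fun y => ((inner ℝ (D.τ C) y : ℝ) : ℂ)) x e = ((inner ℝ (D.τ C) e : ℝ) : ℂ) := by
  have h3 : HasFDerivAt (fun y => inner ℝ (D.τ C) y) (innerSL ℝ (D.τ C)) x :=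
    (innerSL ℝ (D.τ C)).hasFDerivAt
  have h4 : HasFDerivAt (fun y => ((inner ℝ (D.τ C) y : ℝ) : ℂ)) _ x :=
    (Complex.ofRealCLM.hasFDerivAt (x := inner ℝ (D.τ C) x)).comp x h3
  rw [h4.fderiv]
  simp

theorem contDiff_τ (C : ι) : ContDiff ℝ ∞ (fun y : X3 => ((inner ℝ (D.τ C) y : ℝ) : ℂ)) :=
  Complex.ofRealCLM.contDiff.comp (contDiff_const.inner ℝ contDiff_id)

/-- the second order part and potential -/
noncomputable def L0 (ν : ℝ) (η : X3 → ℂ) (x : X3) : ℂ :=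
  -(∑ p, fderiv ℝ (fun y => fderiv ℝ η y (l1e p)) x (l1e p)) +
    ((‖D.A x‖ ^ 2 - D.tr + 2 * ν : ℝ) : ℂ) * η x

/-- the scalar operator -/
noncomputable def LL (ν : ℝ) (η : X3 → ℂ) (x : X3) : ℂ :=
  D.L0 ν η x - ∑ C, fderiv ℝ (fun y => ((inner ℝ (D.τ C) y : ℝ) : ℂ) * η y) x (D.τ C)

/-- multiplier -/
noncomputable def bb (ν : ℝ) (k x : X3) : ℂ :=
  ((‖k‖ ^ 2 + 2 * ν : ℝ) : ℂ) + 2 * ((inner ℝ (D.M x) k : ℝ) : ℂ) * Complex.I

theorem sum_cc_sq (k x : X3) : ∑ p, D.cc k (l1e p) x ^ 2 =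
    ((‖D.M2 x‖ ^ 2 - ‖k‖ ^ 2 : ℝ) : ℂ) - 2 * ((inner ℝ (D.M2 x) k : ℝ) : ℂ) * Complex.I := by
  have h1 : ∀ p, D.cc k (l1e p) x ^ 2 = (((D.M2 x) p * (D.M2 x) p : ℝ) : ℂ) -
      ((k p * k p : ℝ) : ℂ) - 2 * (((D.M2 x) p * k p : ℝ) : ℂ) * Complex.I := by
    intro p
    unfold cc
    rw [l1_inner_e, l1_inner_e]
    push_cast
    linear_combination (k p : ℂ) ^ 2 * Complex.I_sq
  simp only [h1, Finset.sum_sub_distrib, ← Finset.sum_mul, ← Finset.mul_sum]
  rw [← Complex.ofReal_sum, ← Complex.ofReal_sum, ← Complex.ofReal_sum, ← l1_inner_sum,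
    ← l1_inner_sum, ← l1_inner_sum, real_inner_self_eq_norm_sq, real_inner_self_eq_norm_sq]
  push_cast
  ring

theorem alg (ν : ℝ) (k x : X3) :
    -(∑ p, (D.cc k (l1e p) x ^ 2 - ((inner ℝ (D.M2 (l1e p)) (l1e p) : ℝ) : ℂ))) +
      ((‖D.A x‖ ^ 2 - D.tr + 2 * ν : ℝ) : ℂ) -
      ∑ C, (2 + ((inner ℝ (D.τ C) x : ℝ) : ℂ) * D.cc k (D.τ C) x) = D.bb ν k x := by
  rw [Finset.sum_sub_distrib, sum_cc_sq, ← Complex.ofReal_sum, tr_M2, norm_M2_sq]
  have h1 : ∀ C, ((inner ℝ (D.τ C) x : ℝ) : ℂ) * D.cc k (D.τ C) x =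
      -2 * ((inner ℝ (D.τ C) x ^ 2 : ℝ) : ℂ) +
        ((inner ℝ (D.τ C) x * inner ℝ (D.τ C) k : ℝ) : ℂ) * Complex.I := by
    intro C
    unfold cc
    rw [M2_symm, M2_τ, real_inner_smul_right, real_inner_comm (D.τ C) x, real_inner_comm (D.τ C) k]
    push_cast
    ring
  simp only [h1, Finset.sum_add_distrib, ← Finset.sum_mul, ← Finset.mul_sum]
  rw [← Complex.ofReal_sum, ← Complex.ofReal_sum, inner_M2]
  unfold bb
  rw [inner_M]
  simp only [Finset.sum_const, Finset.card_univ, nsmul_eq_mul]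
  push_cast
  ring

theorem LL_mul (ν : ℝ) (k : X3) {χ : X3 → ℂ} (hχ : ContDiff ℝ ∞ χ) (x : X3) :
    D.LL ν (fun y => χ y * D.EE k y) x = D.EE k x * (χ x * D.bb ν k x -
      ((∑ p, (fderiv ℝ (fun y => fderiv ℝ χ y (l1e p)) x (l1e p) +
        2 * (fderiv ℝ χ x (l1e p) * D.cc k (l1e p) x))) +
      ∑ C, ((inner ℝ (D.τ C) x : ℝ) : ℂ) * fderiv ℝ χ x (D.τ C))) := by
  have hE := D.contDiff_EE k
  unfold LL L0
  rw [← D.alg ν k x]
  have h1 : ∀ p, fderiv ℝ (fun y => fderiv ℝ (fun z => χ z * D.EE k z) y (l1e p)) x (l1e p) =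
      D.EE k x * (χ x * (D.cc k (l1e p) x ^ 2 - ((inner ℝ (D.M2 (l1e p)) (l1e p) : ℝ) : ℂ))) +
      D.EE k x * (fderiv ℝ (fun y => fderiv ℝ χ y (l1e p)) x (l1e p) +
        2 * (fderiv ℝ χ x (l1e p) * D.cc k (l1e p) x)) := by
    intro p
    rw [l1_fderiv2_mul hχ hE, fderiv2_EE, fderiv_EE]
    ring
  have h2 : ∀ C, fderiv ℝ (fun y => ((inner ℝ (D.τ C) y : ℝ) : ℂ) * (χ y * D.EE k y)) x (D.τ C) =
      D.EE k x * (χ x * (2 + ((inner ℝ (D.τ C) x : ℝ) : ℂ) * D.cc k (D.τ C) x)) +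
      D.EE k x * (((inner ℝ (D.τ C) x : ℝ) : ℂ) * fderiv ℝ χ x (D.τ C)) := by
    intro C
    have hm : DifferentiableAt ℝ (fun y => χ y * D.EE k y) x := (l1_diff hχ x).mul (l1_diff hE x)
    rw [l1_fderiv_mul (l1_diff (D.contDiff_τ C) x) hm,
      l1_fderiv_mul (l1_diff hχ x) (l1_diff hE x), fderiv_τ, fderiv_EE, D.ττ, if_pos rfl]
    push_cast
    ring
  simp only [h1, h2, Finset.sum_add_distrib, ← Finset.mul_sum]
  ring

end L1D

end Vale.Agent.P353.U
end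

section

/-! # P353, C-L1: the weak equation for Gaussian test functions, limit of cut-offs -/

open MeasureTheory Filter Topology
open scoped ContDiff ComplexConjugate

namespace Vale.Agent.P353.U

theorem L1Gr.int_inner {U : X3 → ℂ} (h : L1Gr U) {g : X3 → ℂ}
    (hg : AEStronglyMeasurable g (volume : Measure X3)) {C c : ℝ} (hc : 0 < c)
    (hb : ∀ x, ‖g x‖ ≤ C * Real.exp (-(c * ‖x‖ ^ 2))) :
    Integrable (fun x => inner ℂ (g x) (U x)) := by
  refine ((h.int_dom hc).const_mul C).mono' (hg.inner h.meas)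
    (Eventually.of_forall fun x => ?_)
  have h1 := hb x
  have h0 : 0 ≤ C * Real.exp (-(c * ‖x‖ ^ 2)) := (norm_nonneg _).trans h1
  calc ‖inner ℂ (g x) (U x)‖ ≤ ‖g x‖ * ‖U x‖ := norm_inner_le_norm _ _
    _ ≤ (C * Real.exp (-(c * ‖x‖ ^ 2))) * (1 + ‖U x‖ ^ 2) := by
        refine mul_le_mul h1 ?_ (norm_nonneg _) h0
        nlinarith [sq_nonneg (‖U x‖ - 1), norm_nonneg (U x)]
    _ = _ := by ring

theorem l1_cs_bound {g : X3 → ℂ} (hg : Continuous g) (hs : HasCompactSupport g) :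
    ∃ C : ℝ, ∀ x, ‖g x‖ ≤ C * Real.exp (-(1 * ‖x‖ ^ 2)) := by
  have h1 : Continuous fun x : X3 => ((Real.exp (‖x‖ ^ 2) : ℝ) : ℂ) * g x := by fun_prop
  have h2 : HasCompactSupport fun x : X3 => ((Real.exp (‖x‖ ^ 2) : ℝ) : ℂ) * g x := hs.mul_left
  obtain ⟨C, hC⟩ := h2.exists_bound_of_continuous h1
  refine ⟨C, fun x => ?_⟩
  have h3 := hC x
  rw [norm_mul, Complex.norm_real, Real.norm_of_nonneg (Real.exp_pos _).le] at h3
  have h4 : ‖g x‖ = Real.exp (-(1 * ‖x‖ ^ 2)) * (Real.exp (‖x‖ ^ 2) * ‖g x‖) := by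
    rw [← mul_assoc, ← Real.exp_add]
    simp
  rw [h4, mul_comm C]
  exact mul_le_mul_of_nonneg_left h3 (Real.exp_pos _).le

theorem L1Gr.int_inner_cs {U : X3 → ℂ} (h : L1Gr U) {g : X3 → ℂ}
    (hg : Continuous g) (hs : HasCompactSupport g) :
    Integrable (fun x => inner ℂ (g x) (U x)) := by
  obtain ⟨C, hC⟩ := l1_cs_bound hg hs
  exact h.int_inner hg.aestronglyMeasurable one_pos hC

theorem l1_hcs_dir {f : X3 → ℂ} (hf : HasCompactSupport f) (e : X3) :
    HasCompactSupport (fun y => fderiv ℝ f y e) := hf.fderiv_apply (𝕜 := ℝ) e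

/-- weak solutions -/
structure L1Sol {ι : Type} [Fintype ι] [DecidableEq ι] (D : L1D ι) (ν : ℝ) (U : X3 → ℂ) :
    Prop where
  gr : L1Gr U
  eq1 : ∀ η : X3 → ℂ, ContDiff ℝ ∞ η → HasCompactSupport η →
    ∫ x, inner ℂ (D.L0 ν η x) (U x) = 0
  eq2 : ∀ (C : ι) (η : X3 → ℂ), ContDiff ℝ ∞ η → HasCompactSupport η →
    ∫ x, inner ℂ (fderiv ℝ η x (D.τ C)) (U x) = 0

/-! ### scaling of a function -/

theorem l1_fderiv_scale {f : X3 → ℂ} (hf : ContDiff ℝ ∞ f) (r : ℝ) (x e : X3) :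
    fderiv ℝ (fun y => f (r • y)) x e = (r : ℂ) * fderiv ℝ f (r • x) e := by
  have h1 : HasFDerivAt (fun x : X3 => r • x) (r • ContinuousLinearMap.id ℝ X3) x :=
    (hasFDerivAt_id x).const_smul r
  have h2 := (l1_diff hf (r • x)).hasFDerivAt.comp x h1
  have h3 : fderiv ℝ (fun x : X3 => f (r • x)) x = _ := h2.fderiv
  rw [h3]
  simp

theorem l1_fderiv2_scale {f : X3 → ℂ} (hf : ContDiff ℝ ∞ f) (r : ℝ) (x e : X3) :
    fderiv ℝ (fun y => fderiv ℝ (fun z => f (r • z)) y e) x e =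
      (r : ℂ) ^ 2 * fderiv ℝ (fun z => fderiv ℝ f z e) (r • x) e := by
  have h1 : (fun y => fderiv ℝ (fun z => f (r • z)) y e) =
      fun y => (r : ℂ) * (fun z => fderiv ℝ f z e) (r • y) := by
    funext y; exact l1_fderiv_scale hf r y e
  rw [h1]
  have hg := l1_contDiff_dir hf e
  have hg' : DifferentiableAt ℝ (fun y : X3 => (fun z => fderiv ℝ f z e) (r • y)) x :=
    l1_diff (hg.comp (contDiff_const_smul r)) x
  have h2 := l1_fderiv_scale hg r x e
  rw [fderiv_const_mul hg', smul_apply, h2]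
  simp only [smul_eq_mul]
  ring

namespace L1D

variable {ι : Type} [Fintype ι] [DecidableEq ι] (D : L1D ι)

theorem contDiff_L0 (ν : ℝ) {η : X3 → ℂ} (hη : ContDiff ℝ ∞ η) : Continuous (D.L0 ν η) := by
  unfold L0
  refine Continuous.add (Continuous.neg (continuous_finsetSum _ fun p _ => ?_))
    (Continuous.mul ?_ hη.continuous)
  · exact (l1_contDiff_dir (l1_contDiff_dir hη _) _).continuous
  · have : Continuous D.A := D.A.continuous
    fun_prop

theorem hcs_L0 (ν : ℝ) {η : X3 → ℂ} (hη : HasCompactSupport η) : HasCompactSupport (D.L0 ν η) := by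
  unfold L0
  refine HasCompactSupport.add ?_ hη.mul_left
  have h : ∀ p, HasCompactSupport (fun x => fderiv ℝ (fun y => fderiv ℝ η y (l1e p)) x (l1e p)) :=
    fun p => l1_hcs_dir (l1_hcs_dir hη _) _
  have h2 : HasCompactSupport (fun x => ∑ p, fderiv ℝ (fun y => fderiv ℝ η y (l1e p)) x (l1e p)) := by
    refine HasCompactSupport.intro' (K := tsupport η) hη (isClosed_tsupport η) fun x hx => ?_
    refine Finset.sum_eq_zero fun p _ => ?_
    by_contra hne
    refine hx ?_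
    have h3 : x ∈ tsupport (fun y => fderiv ℝ η y (l1e p)) :=
      tsupport_fderiv_apply_subset ℝ (l1e p) (subset_tsupport _ hne)
    exact tsupport_fderiv_apply_subset ℝ (l1e p) h3
  exact h2.neg

end L1D

theorem L1Sol.eqL {ι : Type} [Fintype ι] [DecidableEq ι] {D : L1D ι} {ν : ℝ} {U : X3 → ℂ}
    (h : L1Sol D ν U) {η : X3 → ℂ} (hη : ContDiff ℝ ∞ η) (hs : HasCompactSupport η) :
    ∫ x, inner ℂ (D.LL ν η x) (U x) = 0 := by
  unfold L1D.LL
  simp only [inner_sub_left, sum_inner]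
  have hc : ∀ C, ContDiff ℝ ∞ (fun y => ((inner ℝ (D.τ C) y : ℝ) : ℂ) * η y) :=
    fun C => (D.contDiff_τ C).mul hη
  have hsC : ∀ C, HasCompactSupport (fun y => ((inner ℝ (D.τ C) y : ℝ) : ℂ) * η y) :=
    fun C => hs.mul_left
  have hi : ∀ C, Integrable (fun x => inner ℂ
      (fderiv ℝ (fun y => ((inner ℝ (D.τ C) y : ℝ) : ℂ) * η y) x (D.τ C)) (U x)) :=
    fun C => h.gr.int_inner_cs (l1_contDiff_dir (hc C) _).continuous (l1_hcs_dir (hsC C) _)
  rw [integral_sub (h.gr.int_inner_cs (D.contDiff_L0 ν hη) (D.hcs_L0 ν hs))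
    (integrable_finsetSum _ fun C _ => hi C), h.eq1 η hη hs,
    integral_finsetSum _ fun C _ => hi C]
  rw [Finset.sum_eq_zero fun C _ => h.eq2 C _ (hc C) (hsC C), sub_zero]

end Vale.Agent.P353.U
end

section

/-! # P353, C-L1: the weak equation for Gaussian test functions, limit of cut-offs -/

open MeasureTheory Filter Topology
open scoped ContDiff ComplexConjugate

namespace Vale.Agent.P353.U

namespace L1D

variable {ι : Type} [Fintype ι] [DecidableEq ι] (D : L1D ι)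

theorem norm_cc_le (k e x : X3) : ‖D.cc k e x‖ ≤ (‖D.M2‖ + ‖k‖) * ‖e‖ * (1 + ‖x‖) := by
  unfold cc
  have h1 : ‖-((inner ℝ (D.M2 x) e : ℝ) : ℂ)‖ ≤ ‖D.M2‖ * ‖x‖ * ‖e‖ := by
    rw [norm_neg, Complex.norm_real]
    exact (norm_inner_le_norm _ _).trans
      (mul_le_mul_of_nonneg_right (D.M2.le_opNorm x) (norm_nonneg _))
  have h2 : ‖((inner ℝ k e : ℝ) : ℂ) * Complex.I‖ ≤ ‖k‖ * ‖e‖ := by
    rw [norm_mul, Complex.norm_I, mul_one, Complex.norm_real]
    exact norm_inner_le_norm _ _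
  refine (norm_add_le _ _).trans ((add_le_add h1 h2).trans ?_)
  have h3 := norm_nonneg x
  have h4 : 0 ≤ ‖D.M2‖ * ‖e‖ := by positivity
  have h5 : 0 ≤ ‖k‖ * ‖e‖ * ‖x‖ := by positivity
  nlinarith

theorem norm_bb_le (ν : ℝ) (k x : X3) :
    ‖D.bb ν k x‖ ≤ (‖k‖ ^ 2 + 2 * |ν| + 2 * (‖D.M‖ * ‖k‖)) * (1 + ‖x‖) := by
  unfold bb
  have h1 : ‖((‖k‖ ^ 2 + 2 * ν : ℝ) : ℂ)‖ ≤ ‖k‖ ^ 2 + 2 * |ν| := by
    rw [Complex.norm_real]
    refine (norm_add_le _ _).trans (le_of_eq ?_)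
    simp
  have h2 : ‖2 * ((inner ℝ (D.M x) k : ℝ) : ℂ) * Complex.I‖ ≤ 2 * (‖D.M‖ * ‖x‖ * ‖k‖) := by
    rw [norm_mul, norm_mul, Complex.norm_I, mul_one, Complex.norm_real, Complex.norm_ofNat]
    refine mul_le_mul_of_nonneg_left ?_ (by norm_num)
    exact (norm_inner_le_norm _ _).trans
      (mul_le_mul_of_nonneg_right (D.M.le_opNorm x) (norm_nonneg _))
  refine (norm_add_le _ _).trans ((add_le_add h1 h2).trans ?_)
  have h3 := norm_nonneg x
  have h4 : 0 ≤ ‖D.M‖ * ‖k‖ := by positivity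
  have h5 : 0 ≤ (‖k‖ ^ 2 + 2 * |ν|) * ‖x‖ := by positivity
  nlinarith

theorem continuous_cc (k e : X3) : Continuous (D.cc k e) := (D.differentiable_cc k e).continuous

theorem continuous_bb (ν : ℝ) (k : X3) : Continuous (D.bb ν k) := by
  unfold bb
  have : Continuous D.M := D.M.continuous
  fun_prop

/-- cut-off expression -/
noncomputable def gg (ν : ℝ) (k : X3) (ψ : X3 → ℂ) (r : ℝ) (x : X3) : ℂ :=
  ψ (r • x) * D.bb ν k x -
      ((∑ p, ((r : ℂ) ^ 2 * fderiv ℝ (fun z => fderiv ℝ ψ z (l1e p)) (r • x) (l1e p) +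
        2 * (((r : ℂ) * fderiv ℝ ψ (r • x) (l1e p)) * D.cc k (l1e p) x))) +
      ∑ C, ((inner ℝ (D.τ C) x : ℝ) : ℂ) * ((r : ℂ) * fderiv ℝ ψ (r • x) (D.τ C)))

theorem LL_scale (ν : ℝ) (k : X3) {ψ : X3 → ℂ} (hψ : ContDiff ℝ ∞ ψ) (r : ℝ) (x : X3) :
    D.LL ν (fun y => ψ (r • y) * D.EE k y) x = D.EE k x * D.gg ν k ψ r x := by
  have h : ContDiff ℝ ∞ (fun y : X3 => ψ (r • y)) := hψ.comp (contDiff_const_smul r)
  rw [D.LL_mul ν k h x]
  unfold gg
  simp only [l1_fderiv2_scale hψ]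
  simp only [l1_fderiv_scale hψ]

theorem gg_bound (ν : ℝ) (k : X3) {ψ : X3 → ℂ} (hψ : ContDiff ℝ ∞ ψ)
    (hs : HasCompactSupport ψ) : ∃ C : ℝ, 0 ≤ C ∧ ∀ r : ℝ, 0 ≤ r → r ≤ 1 → ∀ x,
      ‖D.gg ν k ψ r x‖ ≤ C * (1 + ‖x‖) ^ 1 := by
  obtain ⟨K0, hK0⟩ := hs.exists_bound_of_continuous hψ.continuous
  have h1 : ∀ e : X3, ∃ K : ℝ, ∀ y, ‖fderiv ℝ ψ y e‖ ≤ K := fun e =>
    (l1_hcs_dir hs e).exists_bound_of_continuous (l1_contDiff_dir hψ e).continuous
  have h2 : ∀ e : X3, ∃ K : ℝ, ∀ y, ‖fderiv ℝ (fun z => fderiv ℝ ψ z e) y e‖ ≤ K := fun e =>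
    (l1_hcs_dir (l1_hcs_dir hs e) e).exists_bound_of_continuous
      (l1_contDiff_dir (l1_contDiff_dir hψ e) e).continuous
  choose K1 hK1 using h1
  choose K2 hK2 using h2
  have hK0' : 0 ≤ K0 := (norm_nonneg _).trans (hK0 0)
  have hK1' : ∀ e, 0 ≤ K1 e := fun e => (norm_nonneg _).trans (hK1 e 0)
  have hK2' : ∀ e, 0 ≤ K2 e := fun e => (norm_nonneg _).trans (hK2 e 0)
  refine ⟨K0 * (‖k‖ ^ 2 + 2 * |ν| + 2 * (‖D.M‖ * ‖k‖)) +
    ((∑ p, (K2 (l1e p) + 2 * (K1 (l1e p) * ((‖D.M2‖ + ‖k‖) * ‖l1e p‖)))) +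
      ∑ C, ‖D.τ C‖ * K1 (D.τ C)), ?_, fun r hr0 hr1 x => ?_⟩
  · have e1 : ∀ p, 0 ≤ K2 (l1e p) + 2 * (K1 (l1e p) * ((‖D.M2‖ + ‖k‖) * ‖l1e p‖)) := fun p => by
      have := hK1' (l1e p); have := hK2' (l1e p); positivity
    have e2 : ∀ C, 0 ≤ ‖D.τ C‖ * K1 (D.τ C) := fun C => by
      have := hK1' (D.τ C); positivity
    have e3 := Finset.sum_nonneg fun p (_ : p ∈ Finset.univ) => e1 p
    have e4 := Finset.sum_nonneg fun C (_ : C ∈ Finset.univ) => e2 C
    positivity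
  · have hx := norm_nonneg x
    have hx1 : 1 ≤ 1 + ‖x‖ := by linarith
    have hrc : ‖(r : ℂ)‖ ≤ 1 := by rw [Complex.norm_real, Real.norm_of_nonneg hr0]; exact hr1
    unfold gg
    refine (norm_sub_le _ _).trans ?_
    rw [pow_one, add_mul, add_mul]
    refine add_le_add ?_ ((norm_add_le _ _).trans (add_le_add ?_ ?_))
    · rw [norm_mul, mul_assoc]
      exact mul_le_mul (hK0 _) (D.norm_bb_le ν k x) (norm_nonneg _) hK0'
    · rw [Finset.sum_mul]
      refine norm_sum_le_of_le _ fun p _ => ?_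
      have a1 : ‖(r : ℂ) ^ 2 * fderiv ℝ (fun z => fderiv ℝ ψ z (l1e p)) (r • x) (l1e p)‖ ≤
          K2 (l1e p) := by
        rw [norm_mul, norm_pow]
        calc ‖(r : ℂ)‖ ^ 2 * _ ≤ 1 * K2 (l1e p) :=
              mul_le_mul (pow_le_one₀ (norm_nonneg _) hrc) (hK2 _ _) (norm_nonneg _) zero_le_one
          _ = _ := one_mul _
      have a2 : ‖(r : ℂ) * fderiv ℝ ψ (r • x) (l1e p)‖ ≤ K1 (l1e p) := by
        rw [norm_mul]
        calc ‖(r : ℂ)‖ * _ ≤ 1 * K1 (l1e p) :=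
              mul_le_mul hrc (hK1 _ _) (norm_nonneg _) zero_le_one
          _ = _ := one_mul _
      have a3 : ‖2 * (((r : ℂ) * fderiv ℝ ψ (r • x) (l1e p)) * D.cc k (l1e p) x)‖ ≤
          2 * (K1 (l1e p) * ((‖D.M2‖ + ‖k‖) * ‖l1e p‖ * (1 + ‖x‖))) := by
        rw [norm_mul, Complex.norm_ofNat, norm_mul _ (D.cc k (l1e p) x)]
        refine mul_le_mul_of_nonneg_left ?_ (by norm_num)
        exact mul_le_mul a2 (D.norm_cc_le k _ x) (norm_nonneg _) (hK1' _)
      refine (norm_add_le _ _).trans ((add_le_add a1 a3).trans ?_)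
      have := hK2' (l1e p)
      nlinarith
    · rw [Finset.sum_mul]
      refine norm_sum_le_of_le _ fun C _ => ?_
      have a2 : ‖(r : ℂ) * fderiv ℝ ψ (r • x) (D.τ C)‖ ≤ K1 (D.τ C) := by
        rw [norm_mul]
        calc ‖(r : ℂ)‖ * _ ≤ 1 * K1 (D.τ C) :=
              mul_le_mul hrc (hK1 _ _) (norm_nonneg _) zero_le_one
          _ = _ := one_mul _
      have a1 : ‖((inner ℝ (D.τ C) x : ℝ) : ℂ)‖ ≤ ‖D.τ C‖ * (1 + ‖x‖) := by
        rw [Complex.norm_real]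
        refine (norm_inner_le_norm _ _).trans ?_
        exact mul_le_mul_of_nonneg_left (by linarith) (norm_nonneg _)
      rw [norm_mul]
      calc _ ≤ (‖D.τ C‖ * (1 + ‖x‖)) * K1 (D.τ C) :=
            mul_le_mul a1 a2 (norm_nonneg _) (by positivity)
        _ = _ := by ring

theorem gg_continuous (ν : ℝ) (k : X3) {ψ : X3 → ℂ} (hψ : ContDiff ℝ ∞ ψ) :
    Continuous (fun q : ℝ × X3 => D.gg ν k ψ q.1 q.2) := by
  have hs : Continuous fun q : ℝ × X3 => q.1 • q.2 := continuous_fst.smul continuous_snd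
  have h0 := hψ.continuous.comp hs
  have h1 : ∀ e, Continuous fun q : ℝ × X3 => fderiv ℝ ψ (q.1 • q.2) e := fun e =>
    (l1_contDiff_dir hψ e).continuous.comp hs
  have h2 : ∀ e, Continuous fun q : ℝ × X3 =>
      fderiv ℝ (fun z => fderiv ℝ ψ z e) (q.1 • q.2) e := fun e =>
    (l1_contDiff_dir (l1_contDiff_dir hψ e) e).continuous.comp hs
  have hr : Continuous fun q : ℝ × X3 => (q.1 : ℂ) := Complex.continuous_ofReal.comp continuous_fst
  unfold gg
  refine (h0.mul ((D.continuous_bb ν k).comp continuous_snd)).sub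
    ((continuous_finsetSum _ fun p _ => ?_).add (continuous_finsetSum _ fun C _ => ?_))
  · exact ((hr.pow 2).mul (h2 _)).add (continuous_const.mul
      ((hr.mul (h1 _)).mul ((D.continuous_cc k _).comp continuous_snd)))
  · refine Continuous.mul ?_ (hr.mul (h1 _))
    exact Complex.continuous_ofReal.comp (continuous_const.inner continuous_snd)

theorem gg_tendsto (ν : ℝ) (k : X3) {ψ : X3 → ℂ} (hψ : ContDiff ℝ ∞ ψ) {r : ℕ → ℝ}
    (hr : Tendsto r atTop (𝓝 0)) (x : X3) :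
    Tendsto (fun n => D.gg ν k ψ (r n) x) atTop (𝓝 (D.gg ν k ψ 0 x)) := by
  have h1 : Continuous fun s : ℝ => D.gg ν k ψ s x :=
    (D.gg_continuous ν k hψ).comp (continuous_id.prodMk continuous_const)
  exact (h1.tendsto 0).comp hr

theorem gg_continuous' (ν : ℝ) (k : X3) {ψ : X3 → ℂ} (hψ : ContDiff ℝ ∞ ψ) (r : ℝ) :
    Continuous (D.gg ν k ψ r) :=
  (D.gg_continuous ν k hψ).comp (continuous_const.prodMk continuous_id)

theorem gg_zero (ν : ℝ) (k : X3) {ψ : X3 → ℂ} (h1 : ψ 0 = 1) (x : X3) :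
    D.gg ν k ψ 0 x = D.bb ν k x := by
  unfold gg
  simp [h1]

end L1D

/-- **(W)** the weak equation for Gaussian test functions -/
theorem L1Sol.weak {ι : Type} [Fintype ι] [DecidableEq ι] {D : L1D ι} {ν : ℝ} {U : X3 → ℂ}
    (h : L1Sol D ν U) (k : X3) : ∫ x, inner ℂ (D.EE k x * D.bb ν k x) (U x) = 0 := by
  let b : ContDiffBump (0 : X3) := ⟨1, 2, one_pos, one_lt_two⟩
  let ψ : X3 → ℂ := fun x => ((b x : ℝ) : ℂ)
  have hψ : ContDiff ℝ ∞ ψ := Complex.ofRealCLM.contDiff.comp b.contDiff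
  have hs : HasCompactSupport ψ := b.hasCompactSupport.comp_left Complex.ofReal_zero
  have h1 : ψ 0 = 1 := by
    have : b 0 = 1 := b.one_of_mem_closedBall (by simp [b])
    simp [ψ, this]
  obtain ⟨C, hC, hb⟩ := D.gg_bound ν k hψ hs
  obtain ⟨C', hC', hp⟩ := l1_poly_gauss (c := 1 / 2) (d := 1 / 4) (by norm_num) 1
  let r : ℕ → ℝ := fun n => 1 / ((n : ℝ) + 1)
  have hr0 : ∀ n, 0 < r n := fun n => by positivity
  have hr1 : ∀ n, r n ≤ 1 := fun n => by
    rw [div_le_one (by positivity)]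
    linarith [Nat.cast_nonneg (α := ℝ) n]
  have hrt : Tendsto r atTop (𝓝 0) := tendsto_one_div_add_atTop_nhds_zero_nat
  have hbound : ∀ n x, ‖D.EE k x * D.gg ν k ψ (r n) x‖ ≤
      (C * C') * Real.exp (-(1 / 4 * ‖x‖ ^ 2)) := by
    intro n x
    rw [norm_mul]
    calc ‖D.EE k x‖ * ‖D.gg ν k ψ (r n) x‖
        ≤ Real.exp (-(1 / 2 * ‖x‖ ^ 2)) * (C * (1 + ‖x‖) ^ 1) :=
          mul_le_mul (D.norm_EE_le k x) (hb _ (hr0 n).le (hr1 n) x) (norm_nonneg _)
            (Real.exp_pos _).le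
      _ = C * ((1 + ‖x‖) ^ 1 * Real.exp (-(1 / 2 * ‖x‖ ^ 2))) := by ring
      _ ≤ C * (C' * Real.exp (-(1 / 4 * ‖x‖ ^ 2))) := mul_le_mul_of_nonneg_left (hp x) hC
      _ = _ := by ring
  have hzero : ∀ n, ∫ x, inner ℂ (D.EE k x * D.gg ν k ψ (r n) x) (U x) = 0 := by
    intro n
    have hη : ContDiff ℝ ∞ (fun y : X3 => ψ (r n • y) * D.EE k y) :=
      (hψ.comp (contDiff_const_smul (r n))).mul (D.contDiff_EE k)
    have hηs : HasCompactSupport (fun y : X3 => ψ (r n • y) * D.EE k y) :=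
      (hs.comp_smul (hr0 n).ne').mul_right
    have := h.eqL hη hηs
    simpa only [D.LL_scale ν k hψ] using this
  have hlim : Tendsto (fun n => ∫ x, inner ℂ (D.EE k x * D.gg ν k ψ (r n) x) (U x)) atTop
      (𝓝 (∫ x, inner ℂ (D.EE k x * D.bb ν k x) (U x))) := by
    refine tendsto_integral_of_dominated_convergence
      (fun x => (C * C') * (Real.exp (-(1 / 4 * ‖x‖ ^ 2)) * (1 + ‖U x‖ ^ 2))) ?_ ?_ ?_ ?_
    · intro n
      refine AEStronglyMeasurable.inner (Continuous.aestronglyMeasurable ?_) h.gr.meas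
      exact (D.contDiff_EE k).continuous.mul (D.gg_continuous' ν k hψ (r n))
    · exact (h.gr.int_dom (by norm_num)).const_mul _
    · intro n
      refine Eventually.of_forall fun x => ?_
      calc ‖inner ℂ (D.EE k x * D.gg ν k ψ (r n) x) (U x)‖
          ≤ ‖D.EE k x * D.gg ν k ψ (r n) x‖ * ‖U x‖ := norm_inner_le_norm _ _
        _ ≤ ((C * C') * Real.exp (-(1 / 4 * ‖x‖ ^ 2))) * (1 + ‖U x‖ ^ 2) := by
            refine mul_le_mul (hbound n x) ?_ (norm_nonneg _) (by positivity)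
            nlinarith [sq_nonneg (‖U x‖ - 1), norm_nonneg (U x)]
        _ = _ := by ring
    · refine Eventually.of_forall fun x => ?_
      have h2 := D.gg_tendsto ν k hψ hrt x
      rw [D.gg_zero ν k h1] at h2
      have h3 : Tendsto (fun n => D.EE k x * D.gg ν k ψ (r n) x) atTop
          (𝓝 (D.EE k x * D.bb ν k x)) := h2.const_mul _
      exact h3.inner tendsto_const_nhds
  simp only [hzero] at hlim
  exact (tendsto_nhds_unique hlim tendsto_const_nhds)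

end Vale.Agent.P353.U
end

section

/-! # P353, C-L1: the flow argument -/

open MeasureTheory Filter Topology
open scoped ContDiff ComplexConjugate

namespace Vale.Agent.P353.U

namespace L1D

variable {ι : Type} [Fintype ι] [DecidableEq ι] (D : L1D ι)

/-- the flow `e^{-sM} k` -/
noncomputable def fl (k : X3) (s : ℝ) : X3 := (NormedSpace.exp (s • (-D.M))) k

theorem fl_zero (k : X3) : D.fl k 0 = k := by
  simp [fl]

theorem hasDerivAt_fl (k : X3) (s : ℝ) : HasDerivAt (D.fl k) (-(D.M (D.fl k s))) s := by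
  have h := hasDerivAt_exp_smul_const' (𝕂 := ℝ) (-D.M) s
  have h2 := h.clm_apply (hasDerivAt_const s k)
  refine h2.congr_deriv ?_
  simp [fl]

theorem continuous_fl (k : X3) : Continuous (D.fl k) :=
  continuous_iff_continuousAt.mpr fun s => (D.hasDerivAt_fl k s).continuousAt

theorem norm_fl_le (k : X3) {s : ℝ} (hs : 0 ≤ s) : ‖D.fl k s‖ ≤ Real.exp (-s) * ‖k‖ := by
  let φ : ℝ → ℝ := fun s => Real.exp (2 * s) * ‖D.fl k s‖ ^ 2
  have hd : ∀ s, HasDerivAt φ (Real.exp (2 * s) * 2 * ‖D.fl k s‖ ^ 2 +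
      Real.exp (2 * s) * (2 * inner ℝ (D.fl k s) (-(D.M (D.fl k s))))) s := by
    intro s
    have h1 : HasDerivAt (fun s : ℝ => Real.exp (2 * s)) (Real.exp (2 * s) * 2) s := by
      have := ((hasDerivAt_id s).const_mul 2).exp
      simpa using this
    have h2 := (D.hasDerivAt_fl k s).norm_sq
    exact h1.mul h2
  have hanti : Antitone φ := by
    refine antitone_of_deriv_nonpos (fun s => (hd s).differentiableAt) fun s => ?_
    rw [(hd s).deriv, inner_neg_right, real_inner_comm]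
    have h3 := D.M_low (D.fl k s)
    have h4 := Real.exp_pos (2 * s)
    nlinarith
  have h5 := hanti hs
  simp only [φ, fl_zero, mul_zero, Real.exp_zero, one_mul] at h5
  have h6 : (Real.exp s * ‖D.fl k s‖) ^ 2 ≤ ‖k‖ ^ 2 := by
    rw [mul_pow]
    have : Real.exp s ^ 2 = Real.exp (2 * s) := by rw [← Real.exp_nat_mul]; norm_num
    rw [this]; exact h5
  have h7 : Real.exp s * ‖D.fl k s‖ ≤ ‖k‖ := by
    exact (pow_le_pow_iff_left₀ (by positivity) (norm_nonneg _) (by norm_num)).mp h6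
  rw [Real.exp_neg, ← div_eq_inv_mul, le_div_iff₀ (Real.exp_pos s), mul_comm]
  exact h7

theorem tendsto_fl (k : X3) : Tendsto (D.fl k) atTop (𝓝 0) := by
  rw [tendsto_zero_iff_norm_tendsto_zero]
  have h1 : Tendsto (fun s : ℝ => Real.exp (-s) * ‖k‖) atTop (𝓝 0) := by
    have := Real.tendsto_exp_neg_atTop_nhds_zero.mul_const ‖k‖
    simpa using this
  refine squeeze_zero' (Eventually.of_forall fun s => norm_nonneg _) ?_ h1
  filter_upwards [eventually_ge_atTop (0 : ℝ)] with s hs using D.norm_fl_le k hs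

/-- inverse of `M` -/
theorem exists_inv : ∃ N : X3 →L[ℝ] X3, ∀ x, D.M (N x) = x := by
  have hinj : Function.Injective (D.M : X3 →ₗ[ℝ] X3) := by
    rw [← LinearMap.ker_eq_bot, LinearMap.ker_eq_bot']
    intro x hx
    have h1 := D.M_low x
    have h2 : D.M x = 0 := hx
    rw [h2, inner_zero_left] at h1
    have h3 : ‖x‖ = 0 := by
      have := norm_nonneg x
      nlinarith
    exact norm_eq_zero.mp h3
  let e : X3 ≃ₗ[ℝ] X3 := LinearEquiv.ofInjectiveEndo (D.M : X3 →ₗ[ℝ] X3) hinj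
  refine ⟨(e.symm : X3 →ₗ[ℝ] X3).toContinuousLinearMap, fun x => ?_⟩
  have h1 : D.M (e.symm x) = e (e.symm x) := rfl
  rw [LinearMap.coe_toContinuousLinearMap']
  exact h1.trans (e.apply_symm_apply x)

/-- a quadratic form with derivative `-½‖k_s‖²` along the flow -/
theorem exists_Gamma : ∃ Γ : X3 → ℝ, Continuous Γ ∧ Γ 0 = 0 ∧
    ∀ k s, HasDerivAt (fun s => Γ (D.fl k s)) (-(1 / 2) * ‖D.fl k s‖ ^ 2) s := by
  obtain ⟨N, hN⟩ := D.exists_inv
  have hsym : ∀ x y, inner ℝ (N x) y = inner ℝ x (N y) := fun x y => by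
    calc inner ℝ (N x) y = inner ℝ (N x) (D.M (N y)) := by rw [hN]
      _ = inner ℝ (D.M (N x)) (N y) := (D.M_symm _ _).symm
      _ = inner ℝ x (N y) := by rw [hN]
  refine ⟨fun x => 1 / 4 * inner ℝ (N x) x, ?_, by simp, fun k s => ?_⟩
  · have := N.continuous
    fun_prop
  · have h1 := D.hasDerivAt_fl k s
    have h2 : HasDerivAt (fun s => N (D.fl k s)) (N (-(D.M (D.fl k s)))) s :=
      N.hasFDerivAt.comp_hasDerivAt s h1
    have h3 := (h2.inner ℝ h1).const_mul (1 / 4)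
    refine h3.congr_deriv ?_
    rw [hsym (-(D.M (D.fl k s))), inner_neg_left, inner_neg_right, ← D.M_symm, hN, D.M_symm, hN,
      real_inner_self_eq_norm_sq]
    ring

/-- Fourier transform of `e^{-½q} U` -/
noncomputable def FF (U : X3 → ℂ) (k : X3) : ℂ := ∫ x, inner ℂ (D.EE k x) (U x)

theorem int_EE {U : X3 → ℂ} (hU : L1Gr U) (k : X3) :
    Integrable (fun x => inner ℂ (D.EE k x) (U x)) :=
  hU.int_inner (D.contDiff_EE k).continuous.aestronglyMeasurable (C := 1) (c := 1 / 2)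
    (by norm_num) fun x => by rw [one_mul]; exact D.norm_EE_le k x

theorem continuous_EE2 : Continuous fun q : X3 × X3 => D.EE q.1 q.2 := by
  unfold EE ph
  have := D.M2.continuous
  fun_prop

theorem continuous_FF {U : X3 → ℂ} (hU : L1Gr U) : Continuous (D.FF U) := by
  unfold FF
  refine continuous_of_dominated (bound := fun x =>
    Real.exp (-(1 / 2 * ‖x‖ ^ 2)) * (1 + ‖U x‖ ^ 2)) (fun k => (D.int_EE hU k).1) (fun k => ?_)
    (hU.int_dom (by norm_num)) ?_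
  · refine Eventually.of_forall fun x => ?_
    calc ‖inner ℂ (D.EE k x) (U x)‖ ≤ ‖D.EE k x‖ * ‖U x‖ := norm_inner_le_norm _ _
      _ ≤ _ := by
        refine mul_le_mul (D.norm_EE_le k x) ?_ (norm_nonneg _) (Real.exp_pos _).le
        nlinarith [sq_nonneg (‖U x‖ - 1), norm_nonneg (U x)]
  · refine Eventually.of_forall fun x => ?_
    exact (D.continuous_EE2.comp (continuous_id.prodMk continuous_const)).inner continuous_const

end L1D

end Vale.Agent.P353.U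
end

section

/-! # P353, C-L1: the flow argument, conclusion -/

open MeasureTheory Filter Topology
open scoped ContDiff ComplexConjugate

namespace Vale.Agent.P353.U

variable {ι : Type} [Fintype ι] [DecidableEq ι] {D : L1D ι} {ν : ℝ} {U : X3 → ℂ}

namespace L1D

variable (D)

theorem hasDerivAt_EE_fl (k x : X3) (s : ℝ) : HasDerivAt (fun s => D.EE (D.fl k s) x)
    (D.EE (D.fl k s) x * (-((inner ℝ (D.M x) (D.fl k s) : ℝ) : ℂ) * Complex.I)) s := by
  have h1 := D.hasDerivAt_fl k s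
  have h2 : HasDerivAt (fun s => inner ℝ (D.fl k s) x) (inner ℝ (-(D.M (D.fl k s))) x) s := by
    have := h1.inner ℝ (hasDerivAt_const s x)
    simpa using this
  have h3 : HasDerivAt (fun s => ((inner ℝ (D.fl k s) x : ℝ) : ℂ))
      ((inner ℝ (-(D.M (D.fl k s))) x : ℝ) : ℂ) s := h2.ofReal_comp
  have h4 : HasDerivAt (fun s => D.ph (D.fl k s) x)
      (((inner ℝ (-(D.M (D.fl k s))) x : ℝ) : ℂ) * Complex.I) s := by
    unfold ph
    exact (h3.mul_const Complex.I).const_add _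
  have h5 := h4.cexp
  refine h5.congr_deriv ?_
  unfold EE
  rw [inner_neg_left, D.M_symm, real_inner_comm (D.M x)]
  push_cast
  ring

end L1D

theorem L1Sol.hasDerivAt_FF (h : L1Sol D ν U) (k : X3) (s : ℝ) :
    HasDerivAt (fun s => D.FF U (D.fl k s))
      (((1 / 2 * ‖D.fl k s‖ ^ 2 + ν : ℝ) : ℂ) * D.FF U (D.fl k s)) s := by
  obtain ⟨C', hC', hp⟩ := l1_poly_gauss (c := 1 / 2) (d := 1 / 4) (by norm_num) 1
  obtain ⟨K, hK⟩ := (isCompact_closedBall s 1).exists_bound_of_continuousOn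
    (D.continuous_fl k).continuousOn
  have hK0 : 0 ≤ K := (norm_nonneg _).trans (hK s (Metric.mem_closedBall_self zero_le_one))
  let G' : ℝ → X3 → ℂ := fun s x => inner ℂ
    (D.EE (D.fl k s) x * (-((inner ℝ (D.M x) (D.fl k s) : ℝ) : ℂ) * Complex.I)) (U x)
  have hcont : ∀ s, Continuous fun x =>
      D.EE (D.fl k s) x * (-((inner ℝ (D.M x) (D.fl k s) : ℝ) : ℂ) * Complex.I) := by
    intro s
    have h1 := (D.contDiff_EE (D.fl k s)).continuous
    have h2 := D.M.continuous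
    fun_prop
  have hd := hasDerivAt_integral_of_dominated_loc_of_deriv_le (μ := (volume : Measure X3))
    (F := fun s x => inner ℂ (D.EE (D.fl k s) x) (U x)) (F' := G') (x₀ := s)
    (s := Metric.closedBall s 1)
    (bound := fun x => ‖D.M‖ * K * C' * (Real.exp (-(1 / 4 * ‖x‖ ^ 2)) * (1 + ‖U x‖ ^ 2)))
    (Metric.closedBall_mem_nhds s one_pos)
    (Eventually.of_forall fun s => (D.int_EE h.gr _).1) (D.int_EE h.gr _)
    ((hcont s).aestronglyMeasurable.inner h.gr.meas)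
    (Eventually.of_forall fun x t ht => ?_)
    ((h.gr.int_dom (by norm_num)).const_mul _)
    (Eventually.of_forall fun x t _ => ?_)
  · have h1 := hd.2
    have h2 : ∫ x, G' s x = ((1 / 2 * ‖D.fl k s‖ ^ 2 + ν : ℝ) : ℂ) * D.FF U (D.fl k s) := by
      have h3 := h.weak (D.fl k s)
      have h4 : ∀ x, G' s x = ((1 / 2 * ‖D.fl k s‖ ^ 2 + ν : ℝ) : ℂ) *
          inner ℂ (D.EE (D.fl k s) x) (U x) -
          (1 / 2 : ℂ) * inner ℂ (D.EE (D.fl k s) x * D.bb ν (D.fl k s) x) (U x) := by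
        intro x
        simp only [G', L1D.bb, RCLike.inner_apply, map_mul, map_add, map_neg, Complex.conj_ofReal,
          Complex.conj_I, map_ofNat]
        push_cast
        ring
      have hib : Integrable (fun x => inner ℂ (D.EE (D.fl k s) x * D.bb ν (D.fl k s) x) (U x)) := by
        refine h.gr.int_inner (C := (‖D.fl k s‖ ^ 2 + 2 * |ν| + 2 * (‖D.M‖ * ‖D.fl k s‖)) * C')
          (c := 1 / 4) ?_ (by norm_num) fun x => ?_
        · exact ((D.contDiff_EE _).continuous.mul (D.continuous_bb ν _)).aestronglyMeasurable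
        · rw [norm_mul]
          calc ‖D.EE (D.fl k s) x‖ * ‖D.bb ν (D.fl k s) x‖
              ≤ Real.exp (-(1 / 2 * ‖x‖ ^ 2)) *
                ((‖D.fl k s‖ ^ 2 + 2 * |ν| + 2 * (‖D.M‖ * ‖D.fl k s‖)) * (1 + ‖x‖)) :=
                mul_le_mul (D.norm_EE_le _ x) (D.norm_bb_le ν _ x) (norm_nonneg _)
                  (Real.exp_pos _).le
            _ = (‖D.fl k s‖ ^ 2 + 2 * |ν| + 2 * (‖D.M‖ * ‖D.fl k s‖)) *
                ((1 + ‖x‖) ^ 1 * Real.exp (-(1 / 2 * ‖x‖ ^ 2))) := by ring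
            _ ≤ (‖D.fl k s‖ ^ 2 + 2 * |ν| + 2 * (‖D.M‖ * ‖D.fl k s‖)) *
                (C' * Real.exp (-(1 / 4 * ‖x‖ ^ 2))) :=
                mul_le_mul_of_nonneg_left (hp x) (by positivity)
            _ = _ := by ring
      simp only [h4]
      rw [integral_sub ((D.int_EE h.gr _).const_mul _) (hib.const_mul _), integral_const_mul,
        integral_const_mul, h3, mul_zero, sub_zero]
      rfl
    rw [← h2]
    exact h1
  · have h1 := hK t ht
    have h2 : ‖-((inner ℝ (D.M x) (D.fl k t) : ℝ) : ℂ) * Complex.I‖ ≤ ‖D.M‖ * ‖x‖ * K := by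
      rw [norm_mul, Complex.norm_I, mul_one, norm_neg, Complex.norm_real]
      refine (norm_inner_le_norm _ _).trans ?_
      exact mul_le_mul (D.M.le_opNorm x) h1 (norm_nonneg _) (by positivity)
    calc ‖G' t x‖ ≤ ‖D.EE (D.fl k t) x * (-((inner ℝ (D.M x) (D.fl k t) : ℝ) : ℂ) * Complex.I)‖ *
          ‖U x‖ := norm_inner_le_norm _ _
      _ ≤ (Real.exp (-(1 / 2 * ‖x‖ ^ 2)) * (‖D.M‖ * ‖x‖ * K)) * (1 + ‖U x‖ ^ 2) := by
          rw [norm_mul]
          refine mul_le_mul (mul_le_mul (D.norm_EE_le _ x) h2 (norm_nonneg _)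
            (Real.exp_pos _).le) ?_ (norm_nonneg _) (by positivity)
          nlinarith [sq_nonneg (‖U x‖ - 1), norm_nonneg (U x)]
      _ = (‖D.M‖ * K * (1 + ‖U x‖ ^ 2)) * (‖x‖ * Real.exp (-(1 / 2 * ‖x‖ ^ 2))) := by ring
      _ ≤ (‖D.M‖ * K * (1 + ‖U x‖ ^ 2)) * (C' * Real.exp (-(1 / 4 * ‖x‖ ^ 2))) := by
          refine mul_le_mul_of_nonneg_left ((le_trans ?_ (hp x))) (by positivity)
          refine mul_le_mul_of_nonneg_right ?_ (Real.exp_pos _).le
          rw [pow_one]; linarith [norm_nonneg x]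
      _ = _ := by ring
  · have h1 := (D.hasDerivAt_EE_fl k x t).inner ℂ (hasDerivAt_const t (U x))
    simpa [G'] using h1

theorem L1Sol.exists_Gamma' (D : L1D ι) : ∃ Γ : X3 → ℝ, ∀ (ν : ℝ) (U : X3 → ℂ), L1Sol D ν U →
    (ν = 0 → ∀ k, D.FF U k = ((Real.exp (-Γ k) : ℝ) : ℂ) * D.FF U 0) ∧
      (0 < ν → ∀ k, D.FF U k = 0) := by
  obtain ⟨Γ, hΓ, hΓ0, hd⟩ := D.exists_Gamma
  refine ⟨Γ, fun ν U h => ?_⟩
  have hconst : ∀ k s, ((Real.exp (Γ (D.fl k s) - ν * s) : ℝ) : ℂ) * D.FF U (D.fl k s) =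
      ((Real.exp (Γ k) : ℝ) : ℂ) * D.FF U k := by
    intro k s
    let Φ : ℝ → ℂ := fun s => ((Real.exp (Γ (D.fl k s) - ν * s) : ℝ) : ℂ) * D.FF U (D.fl k s)
    have hΦ : ∀ s, HasDerivAt Φ 0 s := by
      intro s
      have h1 : HasDerivAt (fun s => Γ (D.fl k s) - ν * s)
          (-(1 / 2) * ‖D.fl k s‖ ^ 2 - ν) s := by
        refine ((hd k s).sub ((hasDerivAt_id s).const_mul ν)).congr_deriv ?_
        simp
      have h2 := (h1.exp).ofReal_comp
      have h3 := h2.mul (h.hasDerivAt_FF k s)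
      refine h3.congr_deriv ?_
      push_cast
      ring
    have h4 : Φ s = Φ 0 :=
      is_const_of_deriv_eq_zero (fun s => (hΦ s).differentiableAt) (fun s => (hΦ s).deriv) s 0
    simpa [Φ, D.fl_zero] using h4
  have hF : ∀ k, Tendsto (fun s => D.FF U (D.fl k s)) atTop (𝓝 (D.FF U 0)) := fun k =>
    ((D.continuous_FF h.gr).tendsto 0).comp (D.tendsto_fl k)
  have hG : ∀ k, Tendsto (fun s => Γ (D.fl k s)) atTop (𝓝 0) := fun k => by
    have := (hΓ.tendsto 0).comp (D.tendsto_fl k)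
    rwa [hΓ0] at this
  refine ⟨fun hν k => ?_, fun hν k => ?_⟩
  · have h1 : Tendsto (fun s => ((Real.exp (Γ (D.fl k s) - ν * s) : ℝ) : ℂ) *
        D.FF U (D.fl k s)) atTop (𝓝 (((1 : ℝ) : ℂ) * D.FF U 0)) := by
      refine Tendsto.mul ?_ (hF k)
      refine (Complex.continuous_ofReal.tendsto 1).comp ?_
      have h5 := (Real.continuous_exp.tendsto 0).comp (hG k)
      simp only [Real.exp_zero] at h5
      refine h5.congr fun s => ?_
      simp [hν]
    simp only [hconst] at h1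
    have h2 := tendsto_nhds_unique h1 tendsto_const_nhds
    rw [Complex.ofReal_one, one_mul] at h2
    rw [h2, ← mul_assoc, ← Complex.ofReal_mul, ← Real.exp_add]
    simp
  · have h1 : Tendsto (fun s => ((Real.exp (Γ (D.fl k s) - ν * s) : ℝ) : ℂ) *
        D.FF U (D.fl k s)) atTop (𝓝 (((0 : ℝ) : ℂ) * D.FF U 0)) := by
      refine Tendsto.mul ?_ (hF k)
      refine (Complex.continuous_ofReal.tendsto 0).comp ?_
      refine Real.tendsto_exp_atBot.comp ?_
      have h3 : Tendsto (fun s : ℝ => ν * s) atTop atTop := tendsto_id.const_mul_atTop hν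
      exact (hG k).add_atBot (tendsto_neg_atTop_atBot.comp h3)
    simp only [hconst] at h1
    have h2 := tendsto_nhds_unique h1 tendsto_const_nhds
    rw [Complex.ofReal_zero, zero_mul] at h2
    rcases mul_eq_zero.mp h2.symm with h3 | h3
    · exact absurd (Complex.ofReal_eq_zero.mp h3) (Real.exp_pos _).ne'
    · exact h3

end Vale.Agent.P353.U
end

section

/-! # P353, C-L1: scalar Liouville theorem -/

open MeasureTheory Filter Topology
open scoped ContDiff ComplexConjugate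

namespace Vale.Agent.P353.U

theorem l1_ibp {f g : X3 → ℂ} (hf : ContDiff ℝ ∞ f) (hs : HasCompactSupport f)
    (hg : ContDiff ℝ ∞ g) (e : X3) :
    ∫ x, inner ℂ (fderiv ℝ f x e) (g x) = - ∫ x, inner ℂ (f x) (fderiv ℝ g x e) := by
  have hw : ContDiff ℝ 1 (fun x => inner ℂ (f x) (g x)) :=
    (hf.inner ℂ hg).of_le (by simp)
  have hcw : HasCompactSupport (fun x => inner ℂ (f x) (g x)) := by
    refine hs.mono ?_
    intro x hx
    simp only [Function.mem_support] at hx ⊢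
    intro h0
    exact hx (by rw [h0, inner_zero_left])
  have h := integral_fderiv_eq_zero _ hw hcw e
  have hd : ∀ x, fderiv ℝ (fun x => inner ℂ (f x) (g x)) x e =
      inner ℂ (f x) (fderiv ℝ g x e) + inner ℂ (fderiv ℝ f x e) (g x) := by
    intro x
    rw [fderiv_inner_apply ℂ (l1_diff hf x) (l1_diff hg x)]
  have hi1 : Integrable (fun x => inner ℂ (f x) (fderiv ℝ g x e)) := by
    refine (hf.continuous.inner (l1_contDiff_dir hg e).continuous).integrable_of_hasCompactSupport ?_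
    refine hs.mono ?_
    intro x hx
    simp only [Function.mem_support] at hx ⊢
    intro h0
    exact hx (by rw [h0, inner_zero_left])
  have hi2 : Integrable (fun x => inner ℂ (fderiv ℝ f x e) (g x)) := by
    refine ((l1_contDiff_dir hf e).continuous.inner hg.continuous).integrable_of_hasCompactSupport ?_
    refine (l1_hcs_dir hs e).mono ?_
    intro x hx
    simp only [Function.mem_support] at hx ⊢
    intro h0
    exact hx (by rw [h0, inner_zero_left])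
  simp only [hd] at h
  rw [integral_add hi1 hi2] at h
  linear_combination h

variable {ι : Type} [Fintype ι] [DecidableEq ι]

namespace L1D

variable (D : L1D ι)

/-- the ground state -/
noncomputable def GG (x : X3) : ℂ := Complex.exp ((-(1 / 2) * inner ℝ (D.A x) x : ℝ) : ℂ)

theorem GG_eq (x : X3) : D.GG x = ((Real.exp (-(1 / 2) * inner ℝ (D.A x) x) : ℝ) : ℂ) := by
  rw [GG, Complex.ofReal_exp]

theorem norm_GG_le (x : X3) : ‖D.GG x‖ ≤ 1 := by
  rw [GG_eq, Complex.norm_real, Real.norm_of_nonneg (Real.exp_pos _).le, Real.exp_le_one_iff,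
    D.symm]
  have := D.pos x
  linarith

theorem contDiff_GG : ContDiff ℝ ∞ D.GG := by
  unfold GG
  refine ContDiff.cexp ?_
  exact Complex.ofRealCLM.contDiff.comp (contDiff_const.mul (D.A.contDiff.inner ℝ contDiff_id))

theorem fderiv_GG (x e : X3) : fderiv ℝ D.GG x e = -((inner ℝ (D.A x) e : ℝ) : ℂ) * D.GG x := by
  have h := (D.A.hasFDerivAt (x := x)).inner ℝ (hasFDerivAt_id x)
  have h1 : HasFDerivAt (fun y => -(1 / 2) * inner ℝ (D.A y) y) (-innerSL ℝ (D.A x)) x := by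
    refine (h.const_mul (-(1 / 2))).congr_fderiv ?_
    ext e
    simp only [ContinuousLinearMap.comp_apply, fderivInnerCLM_apply,
      ContinuousLinearMap.prod_apply, ContinuousLinearMap.id_apply, id,
      smul_apply, innerSL_apply_apply, smul_eq_mul, neg_apply]
    rw [D.symm e x, real_inner_comm (D.A x) e]
    ring
  have h2 := (Complex.ofRealCLM.hasFDerivAt (x := -(1 / 2) * inner ℝ (D.A x) x)).comp x h1
  have h3 : HasFDerivAt D.GG _ x := h2.cexp
  rw [h3.fderiv]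
  simp [GG]
  ring

theorem fderiv_A (x e e' : X3) :
    fderiv ℝ (fun y => -((inner ℝ (D.A y) e : ℝ) : ℂ)) x e' = -((inner ℝ (D.A e') e : ℝ) : ℂ) := by
  have h1 : HasFDerivAt (fun y => inner ℝ (D.A y) e) ((innerSL ℝ e).comp D.A) x := by
    have h0 : HasFDerivAt (fun y => inner ℝ e (D.A y)) ((innerSL ℝ e).comp D.A) x :=
      ((innerSL ℝ e).comp D.A).hasFDerivAt
    simpa only [real_inner_comm] using h0
  have h2 := (Complex.ofRealCLM.hasFDerivAt (x := inner ℝ (D.A x) e)).comp x h1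
  have h3 : HasFDerivAt (fun y => -((inner ℝ (D.A y) e : ℝ) : ℂ)) _ x := h2.neg
  rw [h3.fderiv]
  simp [real_inner_comm]

theorem diff_A (x e : X3) : DifferentiableAt ℝ (fun y => -((inner ℝ (D.A y) e : ℝ) : ℂ)) x := by
  refine (Differentiable.neg ?_) x
  exact Complex.ofRealCLM.differentiable.comp (D.A.differentiable.inner ℝ (differentiable_const e))

theorem fderiv2_GG (x e : X3) : fderiv ℝ (fun y => fderiv ℝ D.GG y e) x e =
    (((inner ℝ (D.A x) e) ^ 2 - inner ℝ (D.A e) e : ℝ) : ℂ) * D.GG x := by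
  have h1 : (fun y => fderiv ℝ D.GG y e) = fun y => -((inner ℝ (D.A y) e : ℝ) : ℂ) * D.GG y := by
    funext y; exact D.fderiv_GG y e
  rw [h1, l1_fderiv_mul (D.diff_A x e) (l1_diff D.contDiff_GG x), fderiv_A, fderiv_GG]
  push_cast
  ring

theorem gr_GG : L1Gr D.GG := by
  have hc := D.contDiff_GG.continuous
  have hloc : ∀ s : ℝ, IntegrableOn (fun x => ‖D.GG x‖ ^ 2) (Metric.ball (0 : X3) s) := fun s =>
    ((hc.norm.pow 2).continuousOn.integrableOn_compact (isCompact_closedBall (0 : X3) s)).mono_set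
      Metric.ball_subset_closedBall
  refine ⟨hc.aestronglyMeasurable, fun s _ => hloc s, ?_⟩
  refine ⟨(volume (Metric.ball (0 : X3) 1)).toReal, Module.finrank ℝ X3, fun s hs => ?_⟩
  have h1 : ∫ x in Metric.ball (0 : X3) s, ‖D.GG x‖ ^ 2 ≤
      ∫ x in Metric.ball (0 : X3) s, (1 : ℝ) := by
    refine setIntegral_mono (hloc s) ?_ fun x => ?_
    · exact integrableOn_const (by exact measure_ball_lt_top.ne)
    · exact pow_le_one₀ (norm_nonneg _) (D.norm_GG_le x)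
  refine h1.trans (le_of_eq ?_)
  rw [setIntegral_const, smul_eq_mul, mul_one, Measure.real,
    Measure.addHaar_ball _ _ (by linarith), ENNReal.toReal_mul,
    ENNReal.toReal_ofReal (by positivity), mul_comm]

theorem sol_GG : L1Sol D 0 D.GG := by
  have hG := D.contDiff_GG
  refine ⟨D.gr_GG, fun η hη hs => ?_, fun C η hη hs => ?_⟩
  · have hi2 : ∀ p, Integrable (fun x => inner ℂ
        (fderiv ℝ (fun y => fderiv ℝ η y (l1e p)) x (l1e p)) (D.GG x)) := fun p =>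
      D.gr_GG.int_inner_cs (l1_contDiff_dir (l1_contDiff_dir hη _) _).continuous
        (l1_hcs_dir (l1_hcs_dir hs _) _)
    have e2 : ∀ p, ∫ x, inner ℂ (fderiv ℝ (fun y => fderiv ℝ η y (l1e p)) x (l1e p)) (D.GG x) =
        ∫ x, inner ℂ (η x) (fderiv ℝ (fun y => fderiv ℝ D.GG y (l1e p)) x (l1e p)) := fun p => by
      rw [l1_ibp (l1_contDiff_dir hη _) (l1_hcs_dir hs _) hG,
        l1_ibp hη hs (l1_contDiff_dir hG _), neg_neg]
    have hA := D.A.continuous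
    have hc0 : Continuous fun x => ((‖D.A x‖ ^ 2 - D.tr + 2 * 0 : ℝ) : ℂ) * η x := by
      have := hη.continuous
      fun_prop
    have hi0 : Integrable (fun x => inner ℂ
        (((‖D.A x‖ ^ 2 - D.tr + 2 * 0 : ℝ) : ℂ) * η x) (D.GG x)) :=
      D.gr_GG.int_inner_cs hc0 hs.mul_left
    have hn2 : Integrable (fun x => -∑ p, inner ℂ
        (fderiv ℝ (fun y => fderiv ℝ η y (l1e p)) x (l1e p)) (D.GG x)) :=
      (integrable_finsetSum _ fun p _ => hi2 p).neg
    unfold L0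
    simp only [inner_add_left, inner_neg_left, sum_inner]
    rw [integral_add hn2 hi0, integral_neg,
      integral_finsetSum _ fun p _ => hi2 p]
    simp only [e2]
    have hi3 : ∀ p, Integrable (fun x => inner ℂ (η x)
        (fderiv ℝ (fun y => fderiv ℝ D.GG y (l1e p)) x (l1e p))) := fun p => by
      refine (hη.continuous.inner (l1_contDiff_dir (l1_contDiff_dir hG _)
        _).continuous).integrable_of_hasCompactSupport ?_
      refine hs.mono ?_
      intro x hx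
      simp only [Function.mem_support] at hx ⊢
      intro h0
      exact hx (by rw [h0, inner_zero_left])
    have hn3 : Integrable (fun x => -∑ p, inner ℂ (η x)
        (fderiv ℝ (fun y => fderiv ℝ D.GG y (l1e p)) x (l1e p))) :=
      (integrable_finsetSum _ fun p _ => hi3 p).neg
    rw [← integral_finsetSum _ fun p _ => hi3 p, ← integral_neg, ← integral_add hn3 hi0]
    rw [← integral_zero X3 ℂ]
    refine integral_congr_ae (Eventually.of_forall fun x => ?_)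
    simp only [fderiv2_GG]
    rw [← inner_sum, ← Finset.sum_mul, ← Complex.ofReal_sum, Finset.sum_sub_distrib]
    have h4 : ∑ p, inner ℝ (D.A x) (l1e p) ^ 2 = ‖D.A x‖ ^ 2 := by
      rw [← real_inner_self_eq_norm_sq, l1_inner_sum]
      exact Finset.sum_congr rfl fun p _ => by rw [l1_inner_e]; ring
    rw [h4]
    simp only [RCLike.inner_apply, map_mul, Complex.conj_ofReal, tr]
    push_cast
    ring
  · rw [l1_ibp hη hs hG]
    have : ∀ x, fderiv ℝ D.GG x (D.τ C) = 0 := fun x => by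
      rw [fderiv_GG, D.symm, D.Aτ, inner_zero_right]; simp
    simp [this]

theorem FF_GG_ne : D.FF D.GG 0 ≠ 0 := by
  have h1 : ∀ x, inner ℂ (D.EE 0 x) (D.GG x) =
      ((Real.exp (-(1 / 2) * inner ℝ (D.M2 x) x) * Real.exp (-(1 / 2) * inner ℝ (D.A x) x) : ℝ) : ℂ) := by
    intro x
    rw [GG_eq, EE, ph, inner_zero_left, Complex.ofReal_zero, zero_mul, add_zero,
      ← Complex.ofReal_exp]
    simp only [RCLike.inner_apply, Complex.conj_ofReal]
    push_cast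
    ring
  unfold FF
  have hint := D.int_EE D.gr_GG 0
  simp only [h1] at hint ⊢
  rw [integral_complex_ofReal, Complex.ofReal_ne_zero]
  have hint' : Integrable (fun x : X3 => Real.exp (-(1 / 2) * inner ℝ (D.M2 x) x) *
      Real.exp (-(1 / 2) * inner ℝ (D.A x) x)) := by
    refine hint.re.congr (Eventually.of_forall fun x => ?_)
    exact Complex.ofReal_re _
  refine ne_of_gt ?_
  rw [integral_pos_iff_support_of_nonneg (fun x => by positivity) hint']
  have hsupp : Function.support (fun x : X3 => Real.exp (-(1 / 2) * inner ℝ (D.M2 x) x) *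
      Real.exp (-(1 / 2) * inner ℝ (D.A x) x)) = Set.univ := by
    ext x
    simp only [Function.mem_support, Set.mem_univ, iff_true]
    positivity
  rw [hsupp]
  exact (isOpen_univ.measure_pos volume Set.univ_nonempty)

end L1D

/-- **scalar Liouville theorem** -/
theorem L1Sol.liouville {D : L1D ι} {ν : ℝ} {U : X3 → ℂ} (hν : 0 ≤ ν) (h : L1Sol D ν U) :
    ∃ c : ℂ, (0 < ν → c = 0) ∧ ∀ᵐ x, U x = c * D.GG x := by
  obtain ⟨Γ, hΓ⟩ := L1Sol.exists_Gamma' D
  have key : ∀ c : ℂ, (∀ k, D.FF U k = c * D.FF D.GG k) → ∀ᵐ x, U x = c * D.GG x := by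
    intro c hc
    have hI : Integrable fun x => inner ℂ (D.EE 0 x) (U x - c * D.GG x) := by
      have h1 := (D.int_EE h.gr 0).sub ((D.int_EE D.gr_GG 0).const_mul c)
      refine h1.congr (Eventually.of_forall fun x => ?_)
      simp only [Pi.sub_apply, RCLike.inner_apply]
      ring
    have h0 := l1_fourier hI fun k => by
      have h1 : ∀ x, Complex.exp (((inner ℝ k x : ℝ) : ℂ) * Complex.I) *
          inner ℂ (D.EE 0 x) (U x - c * D.GG x) =
          inner ℂ (D.EE (-k) x) (U x) - c * inner ℂ (D.EE (-k) x) (D.GG x) := by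
        intro x
        have h2 : conj (D.EE (-k) x) = Complex.exp (((inner ℝ k x : ℝ) : ℂ) * Complex.I) *
            conj (D.EE 0 x) := by
          unfold L1D.EE L1D.ph
          rw [← Complex.exp_conj, ← Complex.exp_conj, ← Complex.exp_add]
          congr 1
          rw [map_add, map_add, map_mul, map_mul, Complex.conj_ofReal, Complex.conj_ofReal,
            Complex.conj_ofReal, Complex.conj_I, inner_neg_left, inner_zero_left]
          push_cast
          ring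
        simp only [RCLike.inner_apply, h2]
        ring
      simp only [h1]
      rw [integral_sub (D.int_EE h.gr _) ((D.int_EE D.gr_GG _).const_mul c), integral_const_mul]
      have := hc (-k)
      unfold L1D.FF at this
      rw [this, sub_self]
    filter_upwards [h0] with x hx
    simp only [Pi.zero_apply, RCLike.inner_apply, mul_eq_zero] at hx
    rcases hx with hx | hx
    · exact sub_eq_zero.mp hx
    · exact absurd ((map_eq_zero _).mp hx) (Complex.exp_ne_zero _)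
  rcases hν.eq_or_lt with h0 | h0
  · refine ⟨D.FF U 0 / D.FF D.GG 0, fun h1 => absurd h0 h1.ne, key _ fun k => ?_⟩
    rw [(hΓ ν U h).1 h0.symm k, (hΓ 0 D.GG D.sol_GG).1 rfl k]
    have := D.FF_GG_ne
    field_simp
  · refine ⟨0, fun _ => rfl, key 0 fun k => ?_⟩
    rw [(hΓ ν U h).2 h0 k, zero_mul]

end Vale.Agent.P353.U
end
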