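import Mathlib
import Vale.Agent.P353.BdU.B9
import Vale.Agent.P353.BdU.B8
import Vale.Agent.P353.BdU.B4
import Vale.Agent.P353.BdU.B7
import Vale.Agent.P353.BdU.B18
import Vale.Agent.P353.BdU.B16
import Vale.Agent.P353.BdU.B3
import Vale.Agent.P353.BdU.B2

set_option linter.all false

section

/-! Task EX-04: the supercharges `Q_ε`, `Q_ε̄` in Fock form.

`∑_α e_α Q_α = -i K.DD` and `∑_α ē_α Q_α = -i K.flip.DD`.
Kinetic part: `∑_α e_α γ^i_{αβ} θ_β^A = c_i^A` (`i<7`), `c_7^A` (`i=7`), `i c_7^A` (`i=8`).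
Potential: `∑_α e_α γ^{ij}_{αβ} = -(γ^{ij} e)_β` (`γ^{ij}` antisymmetric), and
`γ^{ij} e = i ∑_k t_{kij} γ^k e` for `i≠j<7`, `γ^{i7} e = γ^i ē`, `γ^{i8} e = i γ^i ē` (`conj` of
`γ^i e`), `γ^{78} e = i e`.  With `f_{ABC} = f0 ε_{ABC}`:
the `(i,j<7)` part is `dh`, the `(i,7),(i,8)` part is `i f0 (φ × x_i)·a_i`, the `(7,8)` part is
`f0 (x_7 × x_8)·a_7 = ν (φ × φ̄)·a_7/2`; together `ν ∑_A φ_A ι_A`.
The second identity is the complex conjugate one (same computation with `ē`, `K.flip`: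
`t → -t`, `sg → -1`, `c ↔ a`). -/

open MeasureTheory Filter Topology
open scoped ContDiff ComplexConjugate

namespace Vale.Agent.P353.Ex

variable {F : Type*} [NormedAddCommGroup F] [InnerProductSpace ℂ F]

namespace QeqAux

/-! ### reordering of sums -/

lemma sum3 {G : Type*} [AddCommMonoid G] {ι κ l : Type*} [Fintype ι] [Fintype κ] [Fintype l]
    (f : ι → κ → l → G) : ∑ i, ∑ j, ∑ k, f i j k = ∑ k, ∑ i, ∑ j, f i j k :=
  (Finset.sum_congr rfl fun _ _ => Finset.sum_comm).trans Finset.sum_comm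

lemma sum4 {G : Type*} [AddCommMonoid G] {ι κ l m : Type*} [Fintype ι] [Fintype κ] [Fintype l]
    [Fintype m] (f : ι → κ → l → m → G) :
    ∑ i, ∑ j, ∑ k, ∑ p, f i j k p = ∑ p, ∑ i, ∑ j, ∑ k, f i j k p :=
  (Finset.sum_congr rfl fun i _ => sum3 (f i)).trans Finset.sum_comm

lemma sum6 {G : Type*} [AddCommMonoid G] {ι κ l m n p : Type*} [Fintype ι] [Fintype κ] [Fintype l]
    [Fintype m] [Fintype n] [Fintype p] (f : ι → κ → l → m → n → p → G) :
    ∑ i, ∑ j, ∑ k, ∑ a, ∑ b, ∑ c, f i j k a b c = ∑ c, ∑ i, ∑ j, ∑ k, ∑ a, ∑ b, f i j k a b c := by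
  have h : ∀ i j k, ∑ a, ∑ b, ∑ c, f i j k a b c = ∑ c, ∑ a, ∑ b, f i j k a b c :=
    fun i j k => sum3 (f i j k)
  simp only [h]
  exact sum4 _

lemma split9 {G : Type*} [AddCommMonoid G] (g : Fin 9 → G) :
    ∑ i, g i = ∑ i : Fin 7, g (e9 i) + g 7 + g 8 := by
  rw [Fin.sum_univ_castSucc, Fin.sum_univ_castSucc]
  rfl

lemma split99 {G : Type*} [AddCommGroup G] (g : Fin 9 → Fin 9 → G) :
    ∑ i, ∑ j, g i j = ∑ i : Fin 7, ∑ j : Fin 7, g (e9 i) (e9 j) +
      ∑ i : Fin 7, (g (e9 i) 7 + g 7 (e9 i) + g (e9 i) 8 + g 8 (e9 i)) + (g 7 8 + g 8 7) +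
      (g 7 7 + g 8 8) := by
  simp only [split9, Finset.sum_add_distrib]
  abel

lemma dist3 {G : Type*} [AddCommMonoid G] (X Y Z : Fin 3 → Fin 3 → Fin 3 → G) :
    ∑ A, ∑ B, ∑ D, (X A B D + Y A B D + Z A B D) =
      ∑ A, ∑ B, ∑ D, X A B D + ∑ A, ∑ B, ∑ D, Y A B D + ∑ A, ∑ B, ∑ D, Z A B D := by
  simp only [Finset.sum_add_distrib]

variable (M : Model 2 3 F)

/-- `∑_β v_β θ_β^A` -/
noncomputable def Th (A : Fin 3) (v : Fin 16 → ℂ) : F →L[ℂ] F := ∑ β, v β • M.θ β A

/-- `γ^i v` -/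
noncomputable def gv (i : Fin 9) (v : Fin 16 → ℂ) : Fin 16 → ℂ :=
  fun α => ∑ β, (M.γ i α β : ℂ) * v β

/-- `γ^{ij} v` -/
noncomputable def g2v (i j : Fin 9) (v : Fin 16 → ℂ) : Fin 16 → ℂ :=
  fun α => ∑ β, (M.γ2 i j α β : ℂ) * v β

lemma Th_apply (A : Fin 3) (v : Fin 16 → ℂ) (w : F) : Th M A v w = ∑ β, v β • M.θ β A w := by
  simp only [Th, _root_.sum_apply, _root_.smul_apply]

lemma Th_smul (A : Fin 3) (c : ℂ) (v : Fin 16 → ℂ) : Th M A (c • v) = c • Th M A v := by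
  simp only [Th, Finset.smul_sum, Pi.smul_apply, smul_eq_mul, mul_smul]

lemma Th_neg (A : Fin 3) (v : Fin 16 → ℂ) : Th M A (-v) = -Th M A v := by
  simp only [Th, Pi.neg_apply, neg_smul, Finset.sum_neg_distrib]

lemma Th_zero (A : Fin 3) : Th M A 0 = 0 := by
  simp only [Th, Pi.zero_apply, zero_smul, Finset.sum_const_zero]

lemma Th_sum {ι : Type*} (s : Finset ι) (A : Fin 3) (v : ι → Fin 16 → ℂ) :
    Th M A (∑ k ∈ s, v k) = ∑ k ∈ s, Th M A (v k) := by
  simp only [Th, Finset.sum_apply, Finset.sum_smul]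
  rw [Finset.sum_comm]

lemma gv_smul (i : Fin 9) (c : ℂ) (v : Fin 16 → ℂ) : gv M i (c • v) = c • gv M i v := by
  funext α
  simp only [gv, Pi.smul_apply, smul_eq_mul, Finset.mul_sum]
  exact Finset.sum_congr rfl fun β _ => by ring

lemma gv_conj (i : Fin 9) (v : Fin 16 → ℂ) :
    gv M i (fun α => conj (v α)) = fun α => conj (gv M i v α) := by
  funext α
  simp only [gv, map_sum, map_mul, Complex.conj_ofReal]

/-- the complexified gamma matrices -/
noncomputable def cg (i : Fin 9) : Matrix (Fin 16) (Fin 16) ℂ :=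
  Complex.ofRealHom.mapMatrix (M.γ i)

lemma cg_anti (i j : Fin 9) : cg M i * cg M j + cg M j * cg M i = if i = j then 2 else 0 := by
  rw [cg, cg, ← map_mul, ← map_mul, ← map_add, M.γ_anticomm]
  split_ifs
  · exact map_ofNat _ 2
  · exact map_zero _

lemma cg2 (i j : Fin 9) : Complex.ofRealHom.mapMatrix (M.γ2 i j) =
    (1 / 2 : ℂ) • (cg M i * cg M j - cg M j * cg M i) := by
  rw [cg, cg, ← map_mul, ← map_mul, ← map_sub, Model.γ2]
  ext α β
  simp

lemma g2v_eq (i j : Fin 9) (v : Fin 16 → ℂ) :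
    g2v M i j v = (1 / 2 : ℂ) • (gv M i (gv M j v) - gv M j (gv M i v)) := by
  have h : g2v M i j v = (Complex.ofRealHom.mapMatrix (M.γ2 i j)).mulVec v := rfl
  rw [h, cg2, Matrix.smul_mulVec, Matrix.sub_mulVec, ← Matrix.mulVec_mulVec,
    ← Matrix.mulVec_mulVec]
  rfl

lemma gv_anti {i j : Fin 9} (hij : i ≠ j) (v : Fin 16 → ℂ) :
    gv M j (gv M i v) = -gv M i (gv M j v) := by
  have h := congrArg (fun m => m.mulVec v) (cg_anti M i j)
  simp only [if_neg hij, Matrix.add_mulVec, ← Matrix.mulVec_mulVec, Matrix.zero_mulVec] at h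
  rw [eq_neg_iff_add_eq_zero, add_comm]
  exact h

lemma gv_sq (i : Fin 9) (v : Fin 16 → ℂ) : gv M i (gv M i v) = v := by
  have h := congrArg (fun m => m.mulVec v) (cg_anti M i i)
  have h2 : (2 : Matrix (Fin 16) (Fin 16) ℂ) = (2 : ℂ) • 1 := by
    rw [← one_add_one_eq_two, ← one_add_one_eq_two, add_smul, one_smul]
  rw [if_pos rfl, h2] at h
  simp only [Matrix.add_mulVec, ← Matrix.mulVec_mulVec, Matrix.smul_mulVec,
    Matrix.one_mulVec] at h
  have h3 : gv M i (gv M i v) + gv M i (gv M i v) = (2 : ℂ) • v := h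
  rw [← two_smul ℂ] at h3
  exact smul_right_injective _ two_ne_zero h3

lemma g2v_ne {i j : Fin 9} (hij : i ≠ j) (v : Fin 16 → ℂ) :
    g2v M i j v = gv M i (gv M j v) := by
  rw [g2v_eq, gv_anti M hij]
  module

lemma g2v_self (i : Fin 9) (v : Fin 16 → ℂ) : g2v M i i v = 0 := by
  rw [g2v_eq, sub_self, smul_zero]

lemma g2v_swap (i j : Fin 9) (v : Fin 16 → ℂ) : g2v M i j v = -g2v M j i v := by
  rw [g2v_eq, g2v_eq]
  module

lemma gamma_symm (i : Fin 9) (α β : Fin 16) : M.γ i α β = M.γ i β α := by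
  have h := congrArg (fun m : Matrix (Fin 16) (Fin 16) ℝ => m β α) (M.γ_symm i)
  simpa only [Matrix.transpose_apply] using h

lemma gamma2_anti (i j : Fin 9) (α β : Fin 16) : M.γ2 i j α β = -M.γ2 i j β α := by
  have h : (M.γ2 i j).transpose = -M.γ2 i j := by
    rw [Model.γ2, Matrix.transpose_smul, Matrix.transpose_sub, Matrix.transpose_mul,
      Matrix.transpose_mul, M.γ_symm, M.γ_symm]
    module
  have h2 := congrArg (fun m : Matrix (Fin 16) (Fin 16) ℝ => m β α) h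
  simpa only [Matrix.transpose_apply, Matrix.neg_apply] using h2

/-- the kinetic part -/
lemma kin (v : Fin 16 → ℂ) (p : Fin 9 → Fin 3 → F) :
    ∑ α, v α • ((-Complex.I) • ∑ i, ∑ β, ∑ A, ((M.γ i α β : ℝ) : ℂ) • M.θ β A (p i A)) =
      (-Complex.I) • ∑ i, ∑ A, Th M A (gv M i v) (p i A) := by
  have h : ∀ α, v α • ((-Complex.I) • ∑ i, ∑ β, ∑ A, ((M.γ i α β : ℝ) : ℂ) • M.θ β A (p i A)) =
      (-Complex.I) • ∑ i, ∑ A, ∑ β, (v α * ((M.γ i α β : ℝ) : ℂ)) • M.θ β A (p i A) := by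
    intro α
    rw [smul_comm]
    congr 1
    rw [Finset.smul_sum]
    refine Finset.sum_congr rfl fun i _ => ?_
    rw [Finset.sum_comm]
    simp only [Finset.smul_sum, smul_smul]
  rw [Finset.sum_congr rfl fun α _ => h α, ← Finset.smul_sum]
  congr 1
  rw [Finset.sum_comm]
  refine Finset.sum_congr rfl fun i _ => ?_
  rw [Finset.sum_comm]
  refine Finset.sum_congr rfl fun A _ => ?_
  rw [Th_apply, Finset.sum_comm]
  refine Finset.sum_congr rfl fun β _ => ?_
  rw [← Finset.sum_smul]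
  congr 1
  rw [gv]
  refine Finset.sum_congr rfl fun α _ => ?_
  rw [gamma_symm M i α β, mul_comm]

/-- the potential part -/
lemma pot (v : Fin 16 → ℂ) (x : X3) (w : F) :
    ∑ α, v α • (((1 / 2 : ℝ) : ℂ) • ∑ A, ∑ B, ∑ C, ∑ i, ∑ j, ∑ β,
      ((M.f A B C * x (i, B) * x (j, C) * M.γ2 i j α β : ℝ) : ℂ) • M.θ β A w) =
      (-(1 / 2) : ℂ) • ∑ A, ∑ B, ∑ C, ∑ i, ∑ j,
        ((M.f A B C * x (i, B) * x (j, C) : ℝ) : ℂ) • Th M A (g2v M i j v) w := by
  have h : ∀ α, v α • (((1 / 2 : ℝ) : ℂ) • ∑ A, ∑ B, ∑ C, ∑ i, ∑ j, ∑ β,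
      ((M.f A B C * x (i, B) * x (j, C) * M.γ2 i j α β : ℝ) : ℂ) • M.θ β A w) =
      (-(1 / 2) : ℂ) • ∑ A, ∑ B, ∑ C, ∑ i, ∑ j, ∑ β,
      (-(v α) * ((M.f A B C * x (i, B) * x (j, C) * M.γ2 i j α β : ℝ) : ℂ)) • M.θ β A w := by
    intro α
    have e : ((1 / 2 : ℝ) : ℂ) = (1 / 2 : ℂ) := by norm_num
    rw [smul_comm, e]
    simp only [neg_mul, neg_smul, Finset.sum_neg_distrib, smul_neg, neg_neg, Finset.smul_sum,
      smul_smul, mul_assoc]
  rw [Finset.sum_congr rfl fun α _ => h α, ← Finset.smul_sum]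
  congr 1
  rw [Finset.sum_comm]
  refine Finset.sum_congr rfl fun A _ => ?_
  rw [Finset.sum_comm]
  refine Finset.sum_congr rfl fun B _ => ?_
  rw [Finset.sum_comm]
  refine Finset.sum_congr rfl fun C _ => ?_
  rw [Finset.sum_comm]
  refine Finset.sum_congr rfl fun i _ => ?_
  rw [Finset.sum_comm]
  refine Finset.sum_congr rfl fun j _ => ?_
  rw [Th_apply, Finset.sum_comm, Finset.smul_sum]
  refine Finset.sum_congr rfl fun β _ => ?_
  rw [← Finset.sum_smul, smul_smul]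
  congr 1
  rw [g2v, Finset.mul_sum]
  refine Finset.sum_congr rfl fun α _ => ?_
  rw [gamma2_anti M i j α β]
  push_cast
  ring

/-- the data used in the computation -/
structure Sys (K : Fk F) (v : Fin 16 → ℂ) (C A' : Fin 8 → Fin 16 → ℂ) : Prop where
  c_eq : ∀ i B, K.c i B = Th M B (C i)
  a_eq : ∀ i B, K.a i B = Th M B (A' i)
  gk : ∀ k, gv M (e9 k) v = C (e8 k)
  g7 : gv M 7 v = C 7
  g8 : gv M 8 v = (Complex.I * (K.sg : ℂ)) • C 7
  gkk : ∀ i j, gv M (e9 i) (C (e8 j)) =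
    (if i = j then v else 0) + Complex.I • ∑ k, (K.t k i j : ℂ) • C (e8 k)
  gk7 : ∀ i, gv M (e9 i) (C 7) = A' (e8 i)
  a7 : A' 7 = v
  f_eq : ∀ A B C, M.f A B C = K.f0 * (eps A B C : ℝ)

variable {M}
variable {K : Fk F} {v : Fin 16 → ℂ} {C A' : Fin 8 → Fin 16 → ℂ}

lemma e9_ne7 (i : Fin 7) : e9 i ≠ (7 : Fin 9) := by
  intro h
  have := congrArg Fin.val h
  have h2 := i.isLt
  simp [e9] at this
  omega

lemma e9_ne8 (i : Fin 7) : e9 i ≠ (8 : Fin 9) := by
  intro h
  have := congrArg Fin.val h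
  have h2 := i.isLt
  simp [e9] at this
  omega

lemma Sys.kk (H : Sys M K v C A') (i j : Fin 7) : g2v M (e9 i) (e9 j) v =
    Complex.I • ∑ k, (K.t k i j : ℂ) • C (e8 k) := by
  by_cases h : i = j
  · subst h
    rw [g2v_self]
    have : ∀ k, K.t k i i = 0 := fun k => by
      have := K.t_swap k i i
      linarith
    simp [this]
  · have hne : e9 i ≠ e9 j := fun hh =>
      h (Fin.castSucc_injective _ (Fin.castSucc_injective _ hh))
    rw [g2v_ne M hne, H.gk, H.gkk, if_neg h, zero_add]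

lemma Sys.k7 (H : Sys M K v C A') (i : Fin 7) : g2v M (e9 i) 7 v = A' (e8 i) := by
  rw [g2v_ne M (e9_ne7 i), H.g7, H.gk7]

lemma Sys.k8 (H : Sys M K v C A') (i : Fin 7) : g2v M (e9 i) 8 v =
    (Complex.I * (K.sg : ℂ)) • A' (e8 i) := by
  rw [g2v_ne M (e9_ne8 i), H.g8, gv_smul, H.gk7]

lemma Sys.h78 (H : Sys M K v C A') : g2v M 7 8 v = (Complex.I * (K.sg : ℂ)) • A' 7 := by
  rw [g2v_ne M (by decide), H.g8, gv_smul, ← H.g7, gv_sq, H.a7]

lemma eps_vals : eps 0 1 2 = 1 ∧ eps 1 2 0 = 1 ∧ eps 2 0 1 = 1 ∧ eps 0 2 1 = -1 ∧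
    eps 2 1 0 = -1 ∧ eps 1 0 2 = -1 ∧ (∀ A B, eps A A B = 0) ∧ (∀ A B, eps A B A = 0) ∧
    (∀ A B, eps A B B = 0) := by decide

lemma algS2 (f I s : ℂ) (X P Q : Fin 3 → ℂ) (E : Fin 3 → F) :
    (-(1 / 2) : ℂ) • ∑ A, ∑ B, ∑ D, ((f * (eps A B D : ℂ) * X B * P D) • E A +
      (f * (eps A B D : ℂ) * P B * X D) • (-E A) +
      (f * (eps A B D : ℂ) * X B * Q D) • ((I * s) • E A) +
      (f * (eps A B D : ℂ) * Q B * X D) • (-((I * s) • E A))) =
    f • ∑ A, (P A + I * s * Q A) • ∑ B, ∑ D, ((eps B A D : ℂ) * X D) • E B := by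
  obtain ⟨h1, h2, h3, h4, h5, h6, h7, h8, h9⟩ := eps_vals
  simp only [Fin.sum_univ_three, h1, h2, h3, h4, h5, h6, h7, h8, h9]
  push_cast
  module

lemma algS3 (f I s : ℂ) (P Q : Fin 3 → ℂ) (E : Fin 3 → F) :
    (-(1 / 2) : ℂ) • ∑ A, ∑ B, ∑ D, ((f * (eps A B D : ℂ) * P B * Q D) • ((I * s) • E A) +
      (f * (eps A B D : ℂ) * Q B * P D) • (-((I * s) • E A))) =
    f • ∑ A, (P A + I * s * Q A) • ((1 / 2 : ℂ) •
      ∑ B, ∑ D, ((eps B A D : ℂ) * (P D - I * s * Q D)) • E B) := by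
  obtain ⟨h1, h2, h3, h4, h5, h6, h7, h8, h9⟩ := eps_vals
  simp only [Fin.sum_univ_three, h1, h2, h3, h4, h5, h6, h7, h8, h9]
  push_cast
  module

lemma nu_smul (K : Fk F) (w : F) : (-Complex.I) • (K.nu • w) = (K.f0 : ℂ) • w := by
  rw [smul_smul, Fk.nu]
  congr 1
  linear_combination (-(K.f0 : ℂ)) * Complex.I_mul_I

/-- the potential identity -/
lemma Sys.pot_eq (H : Sys M K v C A') (x : X3) (w : F) :
    (-(1 / 2) : ℂ) • ∑ A, ∑ B, ∑ C, ∑ i, ∑ j,
        ((M.f A B C * x (i, B) * x (j, C) : ℝ) : ℂ) • Th M A (g2v M i j v) w =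
      (-Complex.I) • (K.nu • ∑ A, K.ph A x • K.io A x w + K.dh x w) := by
  -- splitting of the sums
  have hs : ∀ A B D, ∑ i, ∑ j,
      ((M.f A B D * x (i, B) * x (j, D) : ℝ) : ℂ) • Th M A (g2v M i j v) w =
      ∑ i : Fin 7, ∑ j : Fin 7, ∑ k : Fin 7,
        ((K.f0 : ℂ) * (eps A B D : ℂ) * x (e9 i, B) * x (e9 j, D) *
          (Complex.I * (K.t k i j : ℂ))) • K.c (e8 k) A w +
      ∑ i : Fin 7, (((K.f0 : ℂ) * (eps A B D : ℂ) * x (e9 i, B) * x (7, D)) • K.a (e8 i) A w +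
        ((K.f0 : ℂ) * (eps A B D : ℂ) * x (7, B) * x (e9 i, D)) • (-(K.a (e8 i) A w)) +
        ((K.f0 : ℂ) * (eps A B D : ℂ) * x (e9 i, B) * x (8, D)) •
          ((Complex.I * (K.sg : ℂ)) • K.a (e8 i) A w) +
        ((K.f0 : ℂ) * (eps A B D : ℂ) * x (8, B) * x (e9 i, D)) •
          (-((Complex.I * (K.sg : ℂ)) • K.a (e8 i) A w))) +
      (((K.f0 : ℂ) * (eps A B D : ℂ) * x (7, B) * x (8, D)) •
          ((Complex.I * (K.sg : ℂ)) • K.a 7 A w) +
        ((K.f0 : ℂ) * (eps A B D : ℂ) * x (8, B) * x (7, D)) •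
          (-((Complex.I * (K.sg : ℂ)) • K.a 7 A w))) := by
    intro A B D
    have hc : ∀ i j, ((M.f A B D * x (i, B) * x (j, D) : ℝ) : ℂ) =
        (K.f0 : ℂ) * (eps A B D : ℂ) * x (i, B) * x (j, D) := by
      intro i j
      rw [H.f_eq]
      push_cast
      ring
    simp only [hc]
    rw [split99]
    have h77 : Th M A (g2v M 7 7 v) w = 0 := by rw [g2v_self, Th_zero]; rfl
    have h88 : Th M A (g2v M 8 8 v) w = 0 := by rw [g2v_self, Th_zero]; rfl
    rw [h77, h88, smul_zero, smul_zero, add_zero, add_zero]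
    have hkk : ∀ i j, Th M A (g2v M (e9 i) (e9 j) v) w =
        ∑ k, (Complex.I * (K.t k i j : ℂ)) • K.c (e8 k) A w := by
      intro i j
      rw [H.kk, Th_smul, Th_sum, _root_.smul_apply, _root_.sum_apply, Finset.smul_sum]
      refine Finset.sum_congr rfl fun k _ => ?_
      rw [Th_smul, _root_.smul_apply, smul_smul, H.c_eq]
    have h7 : ∀ i, Th M A (g2v M (e9 i) 7 v) w = K.a (e8 i) A w := by
      intro i; rw [H.k7, H.a_eq]
    have h7' : ∀ i, Th M A (g2v M 7 (e9 i) v) w = -(K.a (e8 i) A w) := by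
      intro i; rw [g2v_swap, H.k7, Th_neg, H.a_eq]; rfl
    have h8 : ∀ i, Th M A (g2v M (e9 i) 8 v) w = (Complex.I * (K.sg : ℂ)) • K.a (e8 i) A w := by
      intro i; rw [H.k8, H.a_eq, Th_smul]; rfl
    have h8' : ∀ i, Th M A (g2v M 8 (e9 i) v) w =
        -((Complex.I * (K.sg : ℂ)) • K.a (e8 i) A w) := by
      intro i; rw [g2v_swap, H.k8, Th_neg, H.a_eq, Th_smul]; rfl
    have h78 : Th M A (g2v M 7 8 v) w = (Complex.I * (K.sg : ℂ)) • K.a 7 A w := by
      rw [H.h78, H.a_eq, Th_smul]; rfl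
    have h87 : Th M A (g2v M 8 7 v) w = -((Complex.I * (K.sg : ℂ)) • K.a 7 A w) := by
      rw [g2v_swap, H.h78, Th_neg, H.a_eq, Th_smul]; rfl
    simp only [hkk, h7, h7', h8, h8', h78, h87]
    congr 2
    refine Finset.sum_congr rfl fun i _ => Finset.sum_congr rfl fun j _ => ?_
    rw [Finset.smul_sum]
    refine Finset.sum_congr rfl fun k _ => ?_
    rw [smul_smul]
  simp only [hs]
  rw [dist3, smul_add, smul_add, smul_add, nu_smul]
  -- the three parts
  have e1 : (-(1 / 2) : ℂ) • ∑ A, ∑ B, ∑ D, ∑ i : Fin 7, ∑ j : Fin 7, ∑ k : Fin 7,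
        ((K.f0 : ℂ) * (eps A B D : ℂ) * x (e9 i, B) * x (e9 j, D) *
          (Complex.I * (K.t k i j : ℂ))) • K.c (e8 k) A w = (-Complex.I) • K.dh x w := by
    rw [sum6, Fk.dh, _root_.sum_apply, Finset.smul_sum, Finset.smul_sum]
    refine Finset.sum_congr rfl fun k _ => ?_
    rw [_root_.sum_apply, Finset.smul_sum, Finset.smul_sum]
    refine Finset.sum_congr rfl fun A _ => ?_
    simp only [← Finset.sum_smul]
    rw [_root_.smul_apply, smul_smul, smul_smul]
    congr 1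
    rw [Fk.dhc]
    push_cast
    simp only [Finset.mul_sum]
    refine Finset.sum_congr rfl fun B _ => Finset.sum_congr rfl fun D _ =>
      Finset.sum_congr rfl fun i _ => Finset.sum_congr rfl fun j _ => ?_
    ring
  have e2 : (-(1 / 2) : ℂ) • ∑ A, ∑ B, ∑ D, ∑ i : Fin 7,
      (((K.f0 : ℂ) * (eps A B D : ℂ) * x (e9 i, B) * x (7, D)) • K.a (e8 i) A w +
        ((K.f0 : ℂ) * (eps A B D : ℂ) * x (7, B) * x (e9 i, D)) • (-(K.a (e8 i) A w)) +
        ((K.f0 : ℂ) * (eps A B D : ℂ) * x (e9 i, B) * x (8, D)) •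
          ((Complex.I * (K.sg : ℂ)) • K.a (e8 i) A w) +
        ((K.f0 : ℂ) * (eps A B D : ℂ) * x (8, B) * x (e9 i, D)) •
          (-((Complex.I * (K.sg : ℂ)) • K.a (e8 i) A w))) =
      (K.f0 : ℂ) • ∑ A, K.ph A x • ∑ i : Fin 7, ∑ B, ∑ D,
        ((eps B A D : ℂ) * (x (e9 i, D) : ℂ)) • K.a (e8 i) B w := by
    rw [sum4, Finset.smul_sum]
    have e : ∀ A, K.ph A x • ∑ i : Fin 7, ∑ B, ∑ D,
        ((eps B A D : ℂ) * (x (e9 i, D) : ℂ)) • K.a (e8 i) B w =
        ∑ i : Fin 7, K.ph A x • ∑ B, ∑ D,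
        ((eps B A D : ℂ) * (x (e9 i, D) : ℂ)) • K.a (e8 i) B w := fun A => Finset.smul_sum
    rw [Finset.sum_congr rfl fun A _ => e A, Finset.sum_comm, Finset.smul_sum]
    refine Finset.sum_congr rfl fun i _ => ?_
    exact algS2 (K.f0 : ℂ) Complex.I (K.sg : ℂ) (fun B => (x (e9 i, B) : ℂ))
      (fun B => (x (7, B) : ℂ)) (fun B => (x (8, B) : ℂ)) (fun A => K.a (e8 i) A w)
  have e3 : (-(1 / 2) : ℂ) • ∑ A, ∑ B, ∑ D,
      (((K.f0 : ℂ) * (eps A B D : ℂ) * x (7, B) * x (8, D)) •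
          ((Complex.I * (K.sg : ℂ)) • K.a 7 A w) +
        ((K.f0 : ℂ) * (eps A B D : ℂ) * x (8, B) * x (7, D)) •
          (-((Complex.I * (K.sg : ℂ)) • K.a 7 A w))) =
      (K.f0 : ℂ) • ∑ A, K.ph A x • ((1 / 2 : ℂ) • ∑ B, ∑ D,
        ((eps B A D : ℂ) * K.phb D x) • K.a 7 B w) :=
    algS3 (K.f0 : ℂ) Complex.I (K.sg : ℂ)
      (fun B => (x (7, B) : ℂ)) (fun B => (x (8, B) : ℂ)) (fun A => K.a 7 A w)
  have e4 : (K.f0 : ℂ) • ∑ A, K.ph A x • K.io A x w =
      (K.f0 : ℂ) • ∑ A, K.ph A x • ∑ i : Fin 7, ∑ B, ∑ D,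
        ((eps B A D : ℂ) * (x (e9 i, D) : ℂ)) • K.a (e8 i) B w +
      (K.f0 : ℂ) • ∑ A, K.ph A x • ((1 / 2 : ℂ) • ∑ B, ∑ D,
        ((eps B A D : ℂ) * K.phb D x) • K.a 7 B w) := by
    rw [← smul_add, ← Finset.sum_add_distrib]
    congr 1
    refine Finset.sum_congr rfl fun A _ => ?_
    rw [← smul_add]
    congr 1
  rw [e1, e2, e3, e4]
  abel

end QeqAux

open QeqAux in
/-- the supercharge of a system in Fock form -/
theorem QeqAux.Sys.Q_eq {M : Model 2 3 F} {K : Fk F} {v : Fin 16 → ℂ}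
    {C A' : Fin 8 → Fin 16 → ℂ} (H : Sys M K v C A') (u : X3 → F) (x : X3) :
    ∑ α, v α • M.Q α u x = (-Complex.I) • K.DD u x := by
  have h : ∀ α, v α • M.Q α u x =
      v α • ((-Complex.I) • ∑ i, ∑ β, ∑ A, ((M.γ i α β : ℝ) : ℂ) • M.θ β A (pd i A u x)) +
      v α • (((1 / 2 : ℝ) : ℂ) • ∑ A, ∑ B, ∑ C, ∑ i, ∑ j, ∑ β,
      ((M.f A B C * x (i, B) * x (j, C) * M.γ2 i j α β : ℝ) : ℂ) • M.θ β A (u x)) := by
    intro α
    rw [Model.Q, smul_add]
  rw [Finset.sum_congr rfl fun α _ => h α, Finset.sum_add_distrib,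
    kin M v (fun i A => pd i A u x), pot, H.pot_eq, Fk.DD, Fk.D0, ← smul_add, add_assoc]
  congr 2
  rw [split9, Fk.dd, add_assoc]
  congr 1
  · refine Finset.sum_congr rfl fun i _ => Finset.sum_congr rfl fun A _ => ?_
    rw [H.gk, H.c_eq]
  · rw [← Finset.sum_add_distrib]
    refine Finset.sum_congr rfl fun A _ => ?_
    rw [H.g7, H.g8, Th_smul, ← H.c_eq, map_add, map_smul]
    rfl

open QeqAux in
theorem Link.Q_eq {M : Model 2 3 F} {s : Spin M.γ} {K : Fk F} (L : Link M s K) (u : X3 → F)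
    (x : X3) : ∑ α, s.e α • M.Q α u x = (-Complex.I) • K.DD u x := by
  have H : Sys M K s.e s.u (fun i α => conj (s.u i α)) :=
    { c_eq := fun i B => L.c_eq i B
      a_eq := fun i B => L.a_eq i B
      gk := fun k => funext fun α => (s.u_eq k α).symm
      g7 := funext fun α => (s.g7 α).trans (s.u7_eq α).symm
      g8 := by
        funext α
        rw [L.sg_eq, Pi.smul_apply, s.u7_eq, smul_eq_mul, Complex.ofReal_one, mul_one]
        exact s.g8 α
      gkk := by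
        intro i j
        funext α
        refine (s.prod i j α).trans ?_
        rw [L.t_eq]
        simp only [Pi.add_apply, Pi.smul_apply, Finset.sum_apply, smul_eq_mul]
        split_ifs <;> rfl
      gk7 := by
        intro i
        have h7 : s.u 7 = fun α => conj (s.e α) := funext s.u7_eq
        rw [h7, gv_conj]
        funext α
        exact congrArg _ (s.u_eq i α).symm
      a7 := funext fun α => by
        rw [s.u7_eq, Complex.conj_conj]
      f_eq := L.f_eq }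
  exact H.Q_eq u x

open QeqAux in
theorem Link.Qb_eq {M : Model 2 3 F} {s : Spin M.γ} {K : Fk F} (L : Link M s K) (u : X3 → F)
    (x : X3) : ∑ α, conj (s.e α) • M.Q α u x = (-Complex.I) • K.flip.DD u x := by
  have h7 : s.u 7 = fun α => conj (s.e α) := funext s.u7_eq
  have H : Sys M K.flip (fun α => conj (s.e α)) (fun i α => conj (s.u i α)) s.u :=
    { c_eq := fun i B => L.a_eq i B
      a_eq := fun i B => L.c_eq i B
      gk := by
        intro k
        rw [gv_conj]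
        funext α
        exact congrArg _ (s.u_eq k α).symm
      g7 := by
        rw [gv_conj]
        funext α
        exact congrArg _ ((s.g7 α).trans (s.u7_eq α).symm)
      g8 := by
        rw [gv_conj]
        funext α
        have h := s.g8 α
        change conj (∑ β, (M.γ 8 α β : ℂ) * s.e β) = (Complex.I * ((-K.sg : ℝ) : ℂ)) * conj (s.u 7 α)
        rw [h, L.sg_eq, s.u7_eq, map_mul, Complex.conj_I]
        push_cast
        ring
      gkk := by
        intro i j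
        rw [gv_conj]
        funext α
        change conj (∑ β, (M.γ (e9 i) α β : ℂ) * s.u (e8 j) β) = _
        rw [s.prod i j α, map_add, map_mul, Complex.conj_I, map_sum]
        have ht : ∀ k, K.flip.t k i j = -s.t k i j := fun k => by
          change -K.t k i j = _
          rw [L.t_eq]
        simp only [ht, Pi.add_apply, Pi.smul_apply, Finset.sum_apply, smul_eq_mul, map_mul,
          Complex.conj_ofReal]
        push_cast
        simp only [neg_mul, Finset.sum_neg_distrib, mul_neg]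
        congr 1
        split_ifs
        · rfl
        · exact map_zero _
      gk7 := by
        intro i
        have : (fun α => conj (s.u 7 α)) = s.e := by
          rw [h7]
          funext α
          exact Complex.conj_conj _
        change gv M (e9 i) (fun α => conj (s.u 7 α)) = _
        rw [this]
        exact funext fun α => (s.u_eq i α).symm
      a7 := h7
      f_eq := L.f_eq }
  exact H.Q_eq u x

end Vale.Agent.P353.Ex
end

section

/-! Task EX-11: the form `q` in terms of `K.DD`, `K.flip.DD`; Gauss law.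

`DD (flip.DD u) + flip.DD (DD u) = Δ u - 2 V u - 2 F(x) u` is the contraction of the supersymmetry
algebra with a complex spinor `e` with `e·ē = 1`, `e·γ^k ē = 0`; the fermionic term uses the nine
dimensional Fierz identity (`FormAlg.lean`). -/

open MeasureTheory Filter Topology
open scoped ContDiff ComplexConjugate Matrix

namespace Vale.Agent.P353.Ex

variable {F : Type*} [NormedAddCommGroup F] [InnerProductSpace ℂ F]

/-! ### first order operators -/

section general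

variable {G G' : Fin 9 → Fin 3 → F →L[ℂ] F} {X X' : X3 → F →L[ℂ] F}

theorem fe_diff_P (hX : ContDiff ℝ ∞ X) {u : X3 → F} (hu : ContDiff ℝ ∞ u) (x : X3) (i : Fin 9)
    (A : Fin 3) :
    pd i A (fun y => (∑ j, ∑ B, G j B (pd j B u y)) + X y (u y)) x =
      (∑ j, ∑ B, G j B (pd i A (pd j B u) x)) +
        ((fderiv ℝ X x (EuclideanSpace.single (i, A) 1)) (u x) + X x (pd i A u x)) := by
  have h1 : ∀ j B, DifferentiableAt ℝ (pd j B u) x := fun j B =>
    (contDiff_pd hu).differentiable (by simp) x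
  have h2 : ∀ j B, DifferentiableAt ℝ (fun y => G j B (pd j B u y)) x := fun j B =>
    ((G j B).restrictScalars ℝ).differentiableAt.comp x (h1 j B)
  have h3 : DifferentiableAt ℝ X x := hX.differentiable (by simp) x
  have h4 : DifferentiableAt ℝ u x := hu.differentiable (by simp) x
  rw [pd_add, pd_clm_apply h3 h4, pd_sum]
  · congr 1
    refine Finset.sum_congr rfl fun j _ => ?_
    rw [pd_sum]
    · refine Finset.sum_congr rfl fun B _ => ?_
      rw [pd_clm (G j B) (h1 j B)]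
    · exact fun B _ => h2 j B
  · exact fun j _ => DifferentiableAt.fun_sum fun B _ => h2 j B
  · exact DifferentiableAt.fun_sum fun j _ => DifferentiableAt.fun_sum fun B _ => h2 j B
  · exact (Setup.contDiff_clm_apply' hX hu).differentiable (by simp) x

/-- anticommutator of two first order operators -/
theorem fe_anti (hX : ContDiff ℝ ∞ X) (hX' : ContDiff ℝ ∞ X') {u : X3 → F}
    (hu : ContDiff ℝ ∞ u) (x : X3)
    (h2 : ∀ i A j B, (G i A * G' j B + G' j B * G i A) + (G j B * G' i A + G' i A * G j B) =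
      if i = j ∧ A = B then (2 : ℂ) • (1 : F →L[ℂ] F) else 0)
    (h1 : ∀ i A, (G i A * X' x + X' x * G i A) + (G' i A * X x + X x * G' i A) = 0)
    {P P' : (X3 → F) → X3 → F}
    (hP : ∀ u x, P u x = (∑ i, ∑ A, G i A (pd i A u x)) + X x (u x))
    (hP' : ∀ u x, P' u x = (∑ i, ∑ A, G' i A (pd i A u x)) + X' x (u x)) :
    P (P' u) x + P' (P u) x =
    (∑ i, ∑ A, pd i A (pd i A u) x) + (X x * X' x + X' x * X x) (u x) +
      (∑ i, ∑ A, (G i A * fderiv ℝ X' x (EuclideanSpace.single (i, A) 1) +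
        G' i A * fderiv ℝ X x (EuclideanSpace.single (i, A) 1))) (u x) := by
  have d : ∀ i A, pd i A (P u) x = (∑ j, ∑ B, G j B (pd i A (pd j B u) x)) +
        ((fderiv ℝ X x (EuclideanSpace.single (i, A) 1)) (u x) + X x (pd i A u x)) := by
    intro i A
    have e : P u = fun y => (∑ i, ∑ A, G i A (pd i A u y)) + X y (u y) := funext (hP u)
    rw [e]
    exact fe_diff_P hX hu x i A
  have d' : ∀ i A, pd i A (P' u) x = (∑ j, ∑ B, G' j B (pd i A (pd j B u) x)) +
        ((fderiv ℝ X' x (EuclideanSpace.single (i, A) 1)) (u x) + X' x (pd i A u x)) := by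
    intro i A
    have e : P' u = fun y => (∑ i, ∑ A, G' i A (pd i A u y)) + X' y (u y) := funext (hP' u)
    rw [e]
    exact fe_diff_P hX' hu x i A
  rw [hP (P' u) x, hP' (P u) x]
  simp only [d, d', hP u x, hP' u x]
  set w : Fin 9 → Fin 3 → Fin 9 → Fin 3 → F := fun i A j B => pd i A (pd j B u) x with hw
  have hsym : ∀ i A j B, w i A j B = w j B i A := fun i A j B => pd_comm hu i j A B x
  -- second order part
  have s1 : (∑ i, ∑ A, G i A (∑ j, ∑ B, G' j B (w i A j B))) +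
      (∑ i, ∑ A, G' i A (∑ j, ∑ B, G j B (w i A j B))) = ∑ i, ∑ A, w i A i A := by
    set T : F := (∑ i, ∑ A, G i A (∑ j, ∑ B, G' j B (w i A j B))) +
      (∑ i, ∑ A, G' i A (∑ j, ∑ B, G j B (w i A j B))) with hT
    have e1 : T = ∑ i, ∑ A, ∑ j, ∑ B, (G i A * G' j B + G' j B * G i A) (w i A j B) := by
      have e2 : (∑ i, ∑ A, G' i A (∑ j, ∑ B, G j B (w i A j B))) =
          ∑ i, ∑ A, ∑ j, ∑ B, (G' j B * G i A) (w i A j B) := by
        calc _ = ∑ i, ∑ A, ∑ j, ∑ B, (G' i A * G j B) (w i A j B) := by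
              simp only [map_sum, mul_apply_eq_comp]
          _ = ∑ i, ∑ j, ∑ A, ∑ B, (G' i A * G j B) (w i A j B) :=
              Finset.sum_congr rfl fun i _ => Finset.sum_comm
          _ = ∑ j, ∑ i, ∑ A, ∑ B, (G' i A * G j B) (w i A j B) := Finset.sum_comm
          _ = ∑ j, ∑ i, ∑ B, ∑ A, (G' i A * G j B) (w i A j B) :=
              Finset.sum_congr rfl fun j _ => Finset.sum_congr rfl fun i _ => Finset.sum_comm
          _ = ∑ j, ∑ B, ∑ i, ∑ A, (G' i A * G j B) (w i A j B) :=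
              Finset.sum_congr rfl fun j _ => Finset.sum_comm
          _ = _ := by
              refine Finset.sum_congr rfl fun j _ => Finset.sum_congr rfl fun B _ =>
                Finset.sum_congr rfl fun i _ => Finset.sum_congr rfl fun A _ => ?_
              rw [hsym i A j B]
      rw [hT, e2]
      simp only [map_sum, ← Finset.sum_add_distrib, _root_.add_apply, mul_apply_eq_comp]
    have e3 : T = ∑ i, ∑ A, ∑ j, ∑ B, (G j B * G' i A + G' i A * G j B) (w i A j B) := by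
      rw [e1]
      calc _ = ∑ i, ∑ j, ∑ A, ∑ B, (G i A * G' j B + G' j B * G i A) (w i A j B) :=
            Finset.sum_congr rfl fun i _ => Finset.sum_comm
        _ = ∑ j, ∑ i, ∑ A, ∑ B, (G i A * G' j B + G' j B * G i A) (w i A j B) :=
            Finset.sum_comm
        _ = ∑ j, ∑ i, ∑ B, ∑ A, (G i A * G' j B + G' j B * G i A) (w i A j B) :=
            Finset.sum_congr rfl fun j _ => Finset.sum_congr rfl fun i _ => Finset.sum_comm
        _ = ∑ j, ∑ B, ∑ i, ∑ A, (G i A * G' j B + G' j B * G i A) (w i A j B) :=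
            Finset.sum_congr rfl fun j _ => Finset.sum_comm
        _ = _ := by
            refine Finset.sum_congr rfl fun j _ => Finset.sum_congr rfl fun B _ =>
              Finset.sum_congr rfl fun i _ => Finset.sum_congr rfl fun A _ => ?_
            rw [hsym i A j B]
    have e4 : (2 : ℂ) • T = (2 : ℂ) • ∑ i, ∑ A, w i A i A := by
      rw [two_smul]
      nth_rewrite 1 [e1]
      rw [e3]
      simp only [← Finset.sum_add_distrib, ← _root_.add_apply, h2]
      rw [Finset.smul_sum]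
      refine Finset.sum_congr rfl fun i _ => ?_
      rw [Finset.smul_sum]
      refine Finset.sum_congr rfl fun A _ => ?_
      rw [Finset.sum_eq_single i, Finset.sum_eq_single A]
      · rw [if_pos ⟨rfl, rfl⟩]
        rfl
      · intro B _ hB
        rw [if_neg fun h => hB h.2.symm]
        rfl
      · intro h
        exact absurd (Finset.mem_univ _) h
      · intro j _ hj
        refine Finset.sum_eq_zero fun B _ => ?_
        rw [if_neg fun h => hj h.1.symm]
        rfl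
      · intro h
        exact absurd (Finset.mem_univ _) h
    have e5 := congrArg (fun v : F => (1 / 2 : ℂ) • v) e4
    simp only [smul_smul] at e5
    norm_num at e5
    exact e5
  have s2 : (∑ i, ∑ A, G i A (X' x (pd i A u x))) + X x (∑ j, ∑ B, G' j B (pd j B u x)) +
      ((∑ i, ∑ A, G' i A (X x (pd i A u x))) + X' x (∑ j, ∑ B, G j B (pd j B u x))) = 0 := by
    simp only [map_sum, ← Finset.sum_add_distrib]
    refine Finset.sum_eq_zero fun i _ => Finset.sum_eq_zero fun A _ => ?_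
    have h := congrArg (fun T : F →L[ℂ] F => T (pd i A u x)) (h1 i A)
    simp only [_root_.add_apply, mul_apply_eq_comp, _root_.zero_apply] at h
    rw [← h]
    abel
  rw [← s1]
  simp only [map_add, Finset.sum_add_distrib, _root_.add_apply, _root_.sum_apply,
    mul_apply_eq_comp]
  have s3 := s2
  generalize hb1 : (∑ i, ∑ A, G i A (X' x (pd i A u x))) = b1 at s3 ⊢
  generalize hb2 : X x (∑ j, ∑ B, G' j B (pd j B u x)) = b2 at s3 ⊢
  generalize hb3 : (∑ i, ∑ A, G' i A (X x (pd i A u x))) = b3 at s3 ⊢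
  generalize hb4 : X' x (∑ j, ∑ B, G j B (pd j B u x)) = b4 at s3 ⊢
  rw [← sub_eq_zero, ← s3]
  abel

end general


/-! ### contraction of the supercharges with a vector -/

section pairs

variable (S : Setup F) (σ : ℝ) (e e' : Fin 16 → ℂ)

/-- zero order coefficient -/
noncomputable def feX (x : X3) : F →L[ℂ] F := S.opX (σ : ℂ) (fun A => S.NA A x) e

lemma feX_eq (x : X3) : feX S σ e x = (Complex.I * (σ : ℂ)) • ∑ β, e β • S.W β x := by
  rw [feX, CS.opX, ← smul_neg]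
  congr 1
  simp only [S.W_eq_NA, Finset.smul_sum]
  rw [Finset.sum_comm, ← Finset.sum_neg_distrib]
  refine Finset.sum_congr rfl fun A _ => ?_
  rw [S.sum_smul_vec, S.NA_transpose, Matrix.neg_mulVec, S.thv_neg]

lemma contDiff_feX : ContDiff ℝ ∞ (feX S σ e) := by
  have h : feX S σ e = fun x => (Complex.I * (σ : ℂ)) • ∑ β, e β • S.W β x :=
    funext (feX_eq S σ e)
  rw [h]
  exact ContDiff.const_smul _ (ContDiff.sum fun β _ => (S.contDiff_W β).const_smul (e β))

lemma fe_op (u : X3 → F) (x : X3) :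
    (Complex.I * (σ : ℂ)) • ∑ α, e α • S.Q α u x =
      (∑ i, ∑ A, S.opG (σ : ℂ) e i A (pd i A u x)) + feX S σ e x (u x) := by
  have hG : ∀ i A, S.opG (σ : ℂ) e i A (pd i A u x) =
      (σ : ℂ) • ∑ β, e β • S.vec (S.g i) A β (pd i A u x) := by
    intro i A
    have h1 := S.sum_smul_vec e (S.g i) A
    rw [S.g_symm] at h1
    rw [CS.opG, ← h1, _root_.smul_apply, _root_.sum_apply]
    rfl
  have hR : ∑ i, ∑ A, S.opG (σ : ℂ) e i A (pd i A u x) =
      (σ : ℂ) • ∑ i, ∑ A, ∑ β, e β • S.vec (S.g i) A β (pd i A u x) := by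
    simp only [hG, ← Finset.smul_sum]
  have h2 : ∀ α, e α • S.Q α u x =
      (-Complex.I) • (∑ i, ∑ A, e α • S.vec (S.g i) A α (pd i A u x)) + e α • S.W α x (u x) := by
    intro α
    rw [Setup.Q, smul_add, smul_comm]
    simp only [Finset.smul_sum]
  have h3 : Complex.I * (σ : ℂ) * -Complex.I = (σ : ℂ) := by
    linear_combination (-(σ : ℂ)) * Complex.I_mul_I
  have hX : feX S σ e x (u x) = (Complex.I * (σ : ℂ)) • ∑ α, e α • S.W α x (u x) := by
    rw [feX_eq]
    simp only [_root_.smul_apply, _root_.sum_apply]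
  rw [hR, hX, Finset.sum_congr rfl fun α _ => h2 α, Finset.sum_add_distrib, smul_add,
    ← Finset.smul_sum, smul_smul, h3]
  congr 2
  rw [Finset.sum_comm]
  refine Finset.sum_congr rfl fun i _ => ?_
  exact Finset.sum_comm

variable {S σ e e'}

lemma fe_h1 (hk : ∀ k, e ⬝ᵥ (S.g k *ᵥ e') = 0) (x : X3) (i : Fin 9) (A : Fin 3) :
    (S.opG (σ : ℂ) e i A * feX S σ e' x + feX S σ e' x * S.opG (σ : ℂ) e i A) +
      (S.opG (σ : ℂ) e' i A * feX S σ e x + feX S σ e x * S.opG (σ : ℂ) e' i A) = 0 := by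
  have h : (S.opG (σ : ℂ) e i A * S.opX (σ : ℂ) (fun A => S.NA A x) e' +
      S.opX (σ : ℂ) (fun A => S.NA A x) e' * S.opG (σ : ℂ) e i A) +
      (S.opG (σ : ℂ) e' i A * S.opX (σ : ℂ) (fun A => S.NA A x) e +
      S.opX (σ : ℂ) (fun A => S.NA A x) e * S.opG (σ : ℂ) e' i A) = 0 :=
    S.first_op (e := e) (e' := e') (σ : ℂ) i A (fun A => S.NA A x) fun A => S.pair_NA hk i A x
  unfold feX
  rw [h]

lemma fe_h0 (hσ : (σ : ℂ) * (σ : ℂ) = 1) (he : e ⬝ᵥ e' = 1) (x : X3) :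
    feX S σ e x * feX S σ e' x + feX S σ e' x * feX S σ e x =
      (-((2 * S.V x : ℝ) : ℂ)) • (1 : F →L[ℂ] F) := by
  have h : S.opX (σ : ℂ) (fun A => S.NA A x) e * S.opX (σ : ℂ) (fun A => S.NA A x) e' +
      S.opX (σ : ℂ) (fun A => S.NA A x) e' * S.opX (σ : ℂ) (fun A => S.NA A x) e =
      (-∑ A, (S.NA A x *ᵥ e) ⬝ᵥ (S.NA A x *ᵥ e')) • (1 : F →L[ℂ] F) :=
    S.zero_op (e := e) (e' := e') hσ (fun A => S.NA A x)
  rw [← S.pair_NA_NA he x]
  unfold feX
  rw [h]

lemma fderiv_feX (x : X3) (j : Fin 9) (B : Fin 3) :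
    fderiv ℝ (feX S σ e) x (EuclideanSpace.single (j, B) 1) =
      S.opD (σ : ℂ) (S.κ : ℂ) (fun l D => ((x (l, D) : ℝ) : ℂ)) e j B := by
  have hd : ∀ β, HasFDerivAt (S.W β) (fderiv ℝ (S.W β) x) x := fun β =>
    ((S.contDiff_W β).differentiable (by simp) x).hasFDerivAt
  have h : HasFDerivAt (feX S σ e) ((Complex.I * (σ : ℂ)) • ∑ β, e β • fderiv ℝ (S.W β) x) x := by
    have h0 : feX S σ e = fun x => (Complex.I * (σ : ℂ)) • ∑ β, e β • S.W β x :=
      funext (feX_eq S σ e)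
    rw [h0]
    exact (HasFDerivAt.fun_sum fun β _ => (hd β).const_smul (e β)).const_smul
      (Complex.I * (σ : ℂ))
  rw [h.fderiv]
  simp only [_root_.smul_apply, _root_.sum_apply, S.fderiv_W]
  have h2 : ∀ β, e β • (S.κ : ℂ) • ∑ A, ∑ l, ∑ D, ((eps A B D : ℂ) * (x (l, D) : ℂ)) •
      S.vec (S.g2 j l) A β = (S.κ : ℂ) • ∑ A, ∑ l, ∑ D, ((eps A B D : ℂ) * (x (l, D) : ℂ)) •
      (e β • S.vec (S.g2 j l) A β) := by
    intro β
    rw [smul_comm]
    congr 1
    simp only [Finset.smul_sum]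
    refine Finset.sum_congr rfl fun A _ => Finset.sum_congr rfl fun l _ =>
      Finset.sum_congr rfl fun D _ => ?_
    rw [smul_comm]
  simp only [h2]
  rw [← Finset.smul_sum, smul_smul, CS.opD, ← smul_neg]
  congr 1
  rw [Finset.sum_comm, ← Finset.sum_neg_distrib]
  refine Finset.sum_congr rfl fun A _ => ?_
  rw [Finset.sum_comm, ← Finset.sum_neg_distrib]
  refine Finset.sum_congr rfl fun l _ => ?_
  rw [Finset.sum_comm, ← Finset.sum_neg_distrib]
  refine Finset.sum_congr rfl fun D _ => ?_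
  rw [← Finset.smul_sum, S.sum_smul_vec, S.g2_transpose, Matrix.neg_mulVec, S.thv_neg, smul_neg]

lemma fe_Fx (x : X3) : S.opF (S.κ : ℂ) (fun l D => ((x (l, D) : ℝ) : ℂ)) = S.Fx x := by
  ext v
  simp only [CS.opF, Setup.Fx, _root_.smul_apply, _root_.sum_apply]

lemma fe_ferm (hσ : (σ : ℂ) * (σ : ℂ) = 1) (he : e ⬝ᵥ e' = 1)
    (hk : ∀ k, e ⬝ᵥ (S.g k *ᵥ e') = 0) (x : X3) :
    ∑ j, ∑ B, (S.opG (σ : ℂ) e j B * fderiv ℝ (feX S σ e') x (EuclideanSpace.single (j, B) 1) +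
      S.opG (σ : ℂ) e' j B * fderiv ℝ (feX S σ e) x (EuclideanSpace.single (j, B) 1)) =
      (-2 : ℂ) • S.Fx x := by
  have e1 : ∀ v j B, fderiv ℝ (feX S σ v) x (EuclideanSpace.single (j, B) 1) =
      S.opD (σ : ℂ) (S.κ : ℂ) (fun l D => ((x (l, D) : ℝ) : ℂ)) v j B :=
    fun v j B => fderiv_feX x j B
  calc _ = ∑ j, ∑ B, (S.opG (σ : ℂ) e j B *
        S.opD (σ : ℂ) (S.κ : ℂ) (fun l D => ((x (l, D) : ℝ) : ℂ)) e' j B +
        S.opG (σ : ℂ) e' j B *
        S.opD (σ : ℂ) (S.κ : ℂ) (fun l D => ((x (l, D) : ℝ) : ℂ)) e j B) := by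
        simp only [e1]
    _ = (-2 : ℂ) • S.opF (S.κ : ℂ) (fun l D => ((x (l, D) : ℝ) : ℂ)) :=
        S.ferm_op S.g_real hσ (S.κ : ℂ) he hk (fun l D => ((x (l, D) : ℝ) : ℂ))
    _ = _ := by rw [fe_Fx]

/-- the anticommutator of the two contracted supercharges -/
theorem fe_susy (hσ : (σ : ℂ) * (σ : ℂ) = 1) (he : e ⬝ᵥ e' = 1) (hk : ∀ k, e ⬝ᵥ (S.g k *ᵥ e') = 0)
    {P P' : (X3 → F) → X3 → F}
    (hP : ∀ u x, P u x = (Complex.I * (σ : ℂ)) • ∑ α, e α • S.Q α u x)
    (hP' : ∀ u x, P' u x = (Complex.I * (σ : ℂ)) • ∑ α, e' α • S.Q α u x)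
    {u : X3 → F} (hu : ContDiff ℝ ∞ u) (x : X3) :
    P (P' u) x + P' (P u) x = (∑ i, ∑ A, pd i A (pd i A u) x) -
      ((2 * S.V x : ℝ) : ℂ) • u x - (2 : ℂ) • (S.Fx x (u x)) := by
  have h := fe_anti (contDiff_feX S σ e) (contDiff_feX S σ e') hu x (S.kin_op hσ he)
    (fe_h1 hk x) (fun u x => (hP u x).trans (fe_op S σ e u x))
    (fun u x => (hP' u x).trans (fe_op S σ e' u x))
  rw [h, fe_h0 hσ he, fe_ferm hσ he hk]
  simp only [_root_.smul_apply, one_apply_eq_self]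
  push_cast
  module

end pairs

/-! ### the Gauss law: algebra -/

section gaussAlg

variable {R : Type*} [Ring R] [Algebra ℂ R]

lemma bil_one_frame (S : CS R) {U V : Fin 8 → Fin 16 → ℂ}
    (hUV : ∀ α β, ∑ i, (U i α * V i β + V i α * U i β) = if α = β then 1 else 0) (D E : Fin 3) :
    S.bil 1 D E = ∑ i, (S.thv (U i) D * S.thv (V i) E + S.thv (V i) D * S.thv (U i) E) := by
  have h1 : ∀ i, S.thv (U i) D * S.thv (V i) E + S.thv (V i) D * S.thv (U i) E =
      ∑ α, ∑ β, (U i α * V i β + V i α * U i β) • (S.th α D * S.th β E) := by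
    intro i
    simp only [CS.thv, Finset.sum_mul_sum, smul_mul_smul_comm, add_smul, Finset.sum_add_distrib]
  simp only [h1]
  rw [Finset.sum_comm]
  have h2 : ∀ α, ∑ i, ∑ β, (U i α * V i β + V i α * U i β) • (S.th α D * S.th β E) =
      S.th α D * S.th α E := by
    intro α
    rw [Finset.sum_comm]
    simp only [← Finset.sum_smul, hUV]
    rw [Finset.sum_eq_single α]
    · rw [if_pos rfl, one_smul]
    · intro β _ hβ
      rw [if_neg (Ne.symm hβ), zero_smul]
    · intro h; exact absurd (Finset.mem_univ _) h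
  simp only [h2, CS.bil, S.vec_one]

lemma spin_abs {c a : Fin 8 → Fin 3 → R}
    (hac : ∀ i A B, A ≠ B → a i A * c i B + c i B * a i A = 0) (A : Fin 3) :
    (-Complex.I / 2) • ∑ D, ∑ E, (eps A D E : ℂ) • ∑ i, (c i D * a i E + a i D * c i E) =
      (-Complex.I) • ∑ i, ∑ B, ∑ C, (eps B A C : ℂ) • (c i C * a i B) := by
  have h1 : ∀ D E, (eps A D E : ℂ) • ∑ i, (c i D * a i E + a i D * c i E) =
      (eps A D E : ℂ) • ∑ i, c i D * a i E + (eps A E D : ℂ) • ∑ i, c i E * a i D := by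
    intro D E
    by_cases h : D = E
    · subst h
      have : ∀ A D : Fin 3, eps A D D = 0 := by decide
      rw [this]
      simp
    · have h2 : ∀ A D E : Fin 3, eps A E D = -eps A D E := by decide
      have h3 : ∀ i, a i D * c i E = -(c i E * a i D) := fun i =>
        eq_neg_of_add_eq_zero_left (hac i D E h)
      rw [h2 A D E]
      simp only [h3, Finset.sum_add_distrib, Finset.sum_neg_distrib]
      push_cast
      rw [smul_add, smul_neg, neg_smul]
  have h4 : ∑ D, ∑ E, (eps A D E : ℂ) • ∑ i, (c i D * a i E + a i D * c i E) =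
      (2 : ℂ) • ∑ D, ∑ E, (eps A D E : ℂ) • ∑ i, c i D * a i E := by
    rw [Finset.sum_congr rfl fun D _ => Finset.sum_congr rfl fun E _ => h1 D E]
    simp only [Finset.sum_add_distrib]
    rw [two_smul]
    congr 1
    rw [Finset.sum_comm]
  have h5 : ∑ i, ∑ B, ∑ C, (eps B A C : ℂ) • (c i C * a i B) =
      ∑ D, ∑ E, (eps A D E : ℂ) • ∑ i, c i D * a i E := by
    have hc : ∀ A B C : Fin 3, eps B A C = eps A C B := by decide
    calc ∑ i, ∑ B, ∑ C, (eps B A C : ℂ) • (c i C * a i B)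
        = ∑ i, ∑ C, ∑ B, (eps A C B : ℂ) • (c i C * a i B) := by
          refine Finset.sum_congr rfl fun i _ => ?_
          rw [Finset.sum_comm]
          refine Finset.sum_congr rfl fun C _ => Finset.sum_congr rfl fun B _ => ?_
          rw [hc]
      _ = ∑ C, ∑ i, ∑ B, (eps A C B : ℂ) • (c i C * a i B) := Finset.sum_comm
      _ = ∑ C, ∑ B, ∑ i, (eps A C B : ℂ) • (c i C * a i B) :=
          Finset.sum_congr rfl fun C _ => Finset.sum_comm
      _ = _ := by simp only [Finset.smul_sum]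
  rw [h4, h5, smul_smul]
  congr 1
  ring

end gaussAlg

theorem Link.core_iff {M : Model 2 3 F} {s : Spin M.γ} {K : Fk F} (L : Link M s K) (u : X3 → F) :
    M.IsCore u ↔ K.Core u := by
  have h : ∀ U x, M.act U x = act U x := by
    intro U x
    unfold Model.act act rotm
    rw [L.hT]
  unfold Model.IsCore Fk.Core
  simp only [h, L.S_eq]

theorem Link.gauss [FiniteDimensional ℂ F] {M : Model 2 3 F} {s : Spin M.γ} {K : Fk F}
    (L : Link M s K) : K.Gauss := by
  intro u hu A x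
  have h := toSetup_G M ((L.core_iff u).2 hu) A x
  have hcS : (M.toSetup).cS A = (-Complex.I) • K.spin A := by
    have h1 : ∀ D E, (M.toSetup).bil 1 D E = ∑ i, (K.c i D * K.a i E + K.a i D * K.c i E) := by
      intro D E
      have h2 := bil_one_frame (M.toSetup).toCS (U := s.u) (V := fun i α => conj (s.u i α))
        s.compl D E
      rw [h2]
      refine Finset.sum_congr rfl fun i _ => ?_
      rw [L.c_eq, L.a_eq, L.c_eq, L.a_eq]
      rfl
    rw [Setup.cS, Fk.spin]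
    simp only [h1]
    refine spin_abs (fun i A B hAB => ?_) A
    rw [K.ac, if_neg fun h => hAB h.2]
  have horb : ∑ i, ∑ A', ∑ B, ((eps A A' B : ℂ) * (x (i, A') : ℂ)) • pd i B u x =
      Fk.orb A u x := by
    have hc : ∀ A B C : Fin 3, eps B A C = eps A C B := by decide
    rw [Fk.orb]
    refine Finset.sum_congr rfl fun i _ => ?_
    rw [Finset.sum_comm]
    refine Finset.sum_congr rfl fun B _ => Finset.sum_congr rfl fun C _ => ?_
    rw [hc A B C]
  rw [Setup.G, hcS, horb, _root_.smul_apply, ← smul_add, smul_eq_zero] at h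
  rcases h with h | h
  · exact absurd h (neg_ne_zero.2 Complex.I_ne_zero)
  · exact h

theorem Link.hP {M : Model 2 3 F} {s : Spin M.γ} {K : Fk F} (L : Link M s K) (u : X3 → F)
    (x : X3) : K.DD u x =
      (Complex.I * (sgnM M : ℂ)) • ∑ α, s.e α • (M.toSetup).Q α u x := by
  have hσ : ((sgnM M : ℝ) : ℂ) * ((sgnM M : ℝ) : ℂ) = 1 := by
    rw [← Complex.ofReal_mul, sgnM_sq, Complex.ofReal_one]
  have h1 : ∑ α, s.e α • (M.toSetup).Q α u x =
      ((sgnM M : ℝ) : ℂ) • ∑ α, s.e α • M.Q α u x := by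
    rw [Finset.smul_sum]
    refine Finset.sum_congr rfl fun α _ => ?_
    rw [toSetup_Q, smul_comm]
  rw [h1, L.Q_eq, smul_smul, smul_smul]
  have : Complex.I * ((sgnM M : ℝ) : ℂ) * ((sgnM M : ℝ) : ℂ) * -Complex.I = 1 := by
    linear_combination (-Complex.I * Complex.I) * hσ - Complex.I_mul_I
  rw [this, one_smul]

theorem Link.hPb {M : Model 2 3 F} {s : Spin M.γ} {K : Fk F} (L : Link M s K) (u : X3 → F)
    (x : X3) : K.flip.DD u x =
      (Complex.I * (sgnM M : ℂ)) • ∑ α, conj (s.e α) • (M.toSetup).Q α u x := by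
  have hσ : ((sgnM M : ℝ) : ℂ) * ((sgnM M : ℝ) : ℂ) = 1 := by
    rw [← Complex.ofReal_mul, sgnM_sq, Complex.ofReal_one]
  have h1 : ∑ α, conj (s.e α) • (M.toSetup).Q α u x =
      ((sgnM M : ℝ) : ℂ) • ∑ α, conj (s.e α) • M.Q α u x := by
    rw [Finset.smul_sum]
    refine Finset.sum_congr rfl fun α _ => ?_
    rw [toSetup_Q, smul_comm]
  rw [h1, L.Qb_eq, smul_smul, smul_smul]
  have : Complex.I * ((sgnM M : ℝ) : ℂ) * ((sgnM M : ℝ) : ℂ) * -Complex.I = 1 := by
    linear_combination (-Complex.I * Complex.I) * hσ - Complex.I_mul_I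
  rw [this, one_smul]

lemma spin_pair {M : Model 2 3 F} (s : Spin M.γ) (k : Fin 9) :
    s.e ⬝ᵥ ((M.toSetup).g k *ᵥ fun α => conj (s.e α)) = 0 := by
  have key : ∀ (k : Fin 9) (v : Fin 16 → ℂ), (∀ α, ∑ β, (M.γ k α β : ℂ) * s.e β = v α) →
      ∑ α, v α * conj (s.e α) = 0 →
      s.e ⬝ᵥ ((M.toSetup).g k *ᵥ fun α => conj (s.e α)) = 0 := by
    intro k v hv h0
    have h1 : s.e ⬝ᵥ ((M.toSetup).g k *ᵥ fun α => conj (s.e α)) =
        ((M.toSetup).g k *ᵥ s.e) ⬝ᵥ (fun α => conj (s.e α)) := by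
      rw [CS.adjv, (M.toSetup).g_symm]
    have h2 : (M.toSetup).g k *ᵥ s.e = ((sgnM M : ℝ) : ℂ) • v := by
      funext α
      rw [Pi.smul_apply, ← hv α, smul_eq_mul, Finset.mul_sum, Matrix.mulVec, dotProduct]
      refine Finset.sum_congr rfl fun β _ => ?_
      change ((sgnM M * M.γ k α β : ℝ) : ℂ) * s.e β = _
      push_cast
      ring
    rw [h1, h2, smul_dotProduct]
    have h3 : v ⬝ᵥ (fun α => conj (s.e α)) = 0 := h0
    rw [h3, smul_zero]
  have h77 : ∑ α, conj (s.e α) * conj (s.e α) = 0 := by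
    have h := s.iso 7 7
    simp only [s.u7_eq] at h
    exact h
  refine Fin.lastCases ?_ (fun j => ?_) k
  · refine key 8 (fun α => Complex.I * conj (s.e α)) s.g8 ?_
    simp only [mul_assoc]
    rw [← Finset.mul_sum, h77, mul_zero]
  · refine Fin.lastCases ?_ (fun i => ?_) j
    · exact key 7 (fun α => conj (s.e α)) s.g7 h77
    · refine key (e9 i) (s.u (e8 i)) (fun α => (s.u_eq i α).symm) ?_
      have h := s.iso (e8 i) 7
      simp only [s.u7_eq] at h
      exact h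

theorem Link.anticomm {M : Model 2 3 F} {s : Spin M.γ} {K : Fk F} (L : Link M s K)
    {u : X3 → F} (hu : ContDiff ℝ ∞ u) (x : X3) :
    K.DD (K.flip.DD u) x + K.flip.DD (K.DD u) x = (∑ i, ∑ A, pd i A (pd i A u) x) -
      ((2 * M.toSetup.V x : ℝ) : ℂ) • u x - (2 : ℂ) • (M.toSetup.Fx x (u x)) := by
  have hσ : ((sgnM M : ℝ) : ℂ) * ((sgnM M : ℝ) : ℂ) = 1 := by
    rw [← Complex.ofReal_mul, sgnM_sq, Complex.ofReal_one]
  exact fe_susy (S := M.toSetup) (σ := sgnM M) (e := s.e) (e' := fun α => conj (s.e α)) hσ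
    s.e_norm (spin_pair s) L.hP L.hPb hu x

theorem Link.form_eq {M : Model 2 3 F} {s : Spin M.γ} {K : Fk F} (L : Link M s K)
    {u : X3 → F} (hu : Setup.Tst u) :
    (M.form u u).re = (1 / 2 : ℝ) * ((∫ x, ‖K.DD u x‖ ^ 2) + ∫ x, ‖K.flip.DD u x‖ ^ 2) := by
  rw [form_self_re]
  set S := M.toSetup with hS
  have hI : ∀ v : X3 → F, ((∫ x, ‖v x‖ ^ 2 : ℝ) : ℂ) = ∫ x, inner ℂ (v x) (v x) := by
    intro v
    rw [← integral_complex_ofReal]
    exact integral_congr_ae (Filter.Eventually.of_forall fun x => (inner_self_C (v x)).symm)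
  have h1 : ((∑ β, ∫ x, ‖S.Q β u x‖ ^ 2 : ℝ) : ℂ) =
      ∫ x, inner ℂ (u x) (∑ b, S.Q b (S.Q b u) x) := by
    push_cast
    simp only [inner_sum]
    rw [integral_finsetSum]
    · refine Finset.sum_congr rfl fun b _ => ?_
      rw [hI (S.Q b u), Q_symm S b u _ hu (S.contDiff_Q b hu.1)]
    · intro b _
      exact hu.inner_int (S.contDiff_Q b (S.contDiff_Q b hu.1)).continuous
  have h2 : ∀ x, ∑ b, S.Q b (S.Q b u) x =
      (-8 : ℂ) • (K.DD (K.flip.DD u) x + K.flip.DD (K.DD u) x) := by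
    intro x
    rw [S.sum_QQ hu.1, L.anticomm hu.1 x]
    push_cast
    module
  have c1 : ContDiff ℝ ∞ (K.DD (K.flip.DD u)) := K.contDiff_DD (K.flip.contDiff_DD hu.1)
  have c2 : ContDiff ℝ ∞ (K.flip.DD (K.DD u)) := K.flip.contDiff_DD (K.contDiff_DD hu.1)
  have i1 : Integrable (fun x => inner ℂ (u x) (K.DD (K.flip.DD u) x)) :=
    hu.inner_int c1.continuous
  have i2 : Integrable (fun x => inner ℂ (u x) (K.flip.DD (K.DD u) x)) :=
    hu.inner_int c2.continuous
  have h3 : ∫ x, inner ℂ (u x) (∑ b, S.Q b (S.Q b u) x) =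
      (-8 : ℂ) * ((∫ x, inner ℂ (u x) (K.DD (K.flip.DD u) x)) +
        ∫ x, inner ℂ (u x) (K.flip.DD (K.DD u) x)) := by
    simp only [h2, inner_smul_right, inner_add_right]
    rw [integral_const_mul, integral_add i1 i2]
  have h4 : ∫ x, inner ℂ (u x) (K.flip.DD (K.DD u) x) = -((∫ x, ‖K.DD u x‖ ^ 2 : ℝ) : ℂ) := by
    rw [hI (K.DD u), K.DD_adj hu.1 (K.tst_DD hu), neg_neg]
  have h5 : ∫ x, inner ℂ (u x) (K.DD (K.flip.DD u) x) =
      -((∫ x, ‖K.flip.DD u x‖ ^ 2 : ℝ) : ℂ) := by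
    have e1 : ∫ x, inner ℂ (u x) (K.DD (K.flip.DD u) x) =
        conj (∫ x, inner ℂ (K.DD (K.flip.DD u) x) (u x)) := by
      rw [← integral_conj]
      exact integral_congr_ae (Filter.Eventually.of_forall fun x => by
        simp only [inner_conj_symm])
    rw [e1, K.DD_adj (K.flip.contDiff_DD hu.1) hu, map_neg, ← hI (K.flip.DD u),
      Complex.conj_ofReal]
  rw [h3, h4, h5] at h1
  have h6 : (∑ β, ∫ x, ‖S.Q β u x‖ ^ 2 : ℝ) =
      8 * ((∫ x, ‖K.DD u x‖ ^ 2) + ∫ x, ‖K.flip.DD u x‖ ^ 2) := by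
    have h7 : ((∑ β, ∫ x, ‖S.Q β u x‖ ^ 2 : ℝ) : ℂ) =
      ((8 * ((∫ x, ‖K.DD u x‖ ^ 2) + ∫ x, ‖K.flip.DD u x‖ ^ 2) : ℝ) : ℂ) := by
      rw [h1]
      push_cast
      ring
    exact Complex.ofReal_injective h7
  rw [h6]
  ring

end Vale.Agent.P353.Ex
end

section

/-! Task EX-26: weak zero modes are zero-energy states.

`u_n = ρ_δ ∗ (χ_R Ψ)`, `ρ_δ` a radial mollifier (`rgRho`, `rgMol`), `χ_R` a radial cut-off
(`rgCut`), `R = n + 1` and `δ = δ(n)` small.  `u_n` is in the core.  With `y = K.DD u_n` (core),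
`‖y‖² = -⟨u_n, flip.DD y⟩ = -⟨Ψ, χ_R ρ_δ∗(flip.DD y)⟩ = ⟨Ψ, D⟩`, where
`D = flip.DD(χ_R ρ_δ∗y) - χ_R ρ_δ∗(flip.DD y)` is bounded by `(C/R + ε) ρ_δ∗|y|` (`rg_est`), since
`χ_R ρ_δ∗y` is core.  Hence `‖y‖ ≤ (C/R + ε) ‖Ψ‖` (`rg_dual`). -/

open MeasureTheory Filter Topology
open scoped ContDiff ComplexConjugate Convolution

namespace Vale.Agent.P353.Ex

section

/-! ### radial bumps -/

/-- a radial bump -/
noncomputable def rgEta (x : X3) : ℝ := Real.smoothTransition (2 - ‖x‖ ^ 2)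

theorem rgEta_contDiff : ContDiff ℝ ∞ rgEta :=
  Real.smoothTransition.contDiff.comp (contDiff_const.sub (contDiff_norm_sq ℝ))

theorem rgEta_nonneg (x : X3) : 0 ≤ rgEta x := Real.smoothTransition.nonneg _

theorem rgEta_le_one (x : X3) : rgEta x ≤ 1 := Real.smoothTransition.le_one _

theorem rgEta_one {x : X3} (hx : ‖x‖ ≤ 1) : rgEta x = 1 := by
  refine Real.smoothTransition.one_of_one_le ?_
  nlinarith [norm_nonneg x]

theorem rgEta_zero {x : X3} (hx : 2 ≤ ‖x‖) : rgEta x = 0 := by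
  refine Real.smoothTransition.zero_of_nonpos ?_
  nlinarith [norm_nonneg x]

theorem rgEta_cs : HasCompactSupport rgEta := by
  refine HasCompactSupport.intro (isCompact_closedBall (0 : X3) 2) fun x hx => rgEta_zero ?_
  rw [Metric.mem_closedBall, dist_zero_right, not_le] at hx
  exact hx.le

theorem rgEta_congr {x y : X3} (h : ‖x‖ = ‖y‖) : rgEta x = rgEta y := by
  rw [rgEta, rgEta, h]

theorem rgEta_scale_int {δ : ℝ} (hδ : 0 < δ) : 0 < ∫ y : X3, rgEta (δ⁻¹ • y) := by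
  have hc : Continuous fun y : X3 => rgEta (δ⁻¹ • y) :=
    rgEta_contDiff.continuous.comp (continuous_const_smul _)
  refine hc.integral_pos_of_hasCompactSupport_nonneg_nonzero
    (rgEta_cs.comp_smul (inv_ne_zero hδ.ne')) (fun y => rgEta_nonneg _) (x := 0) ?_
  rw [smul_zero, rgEta_one (by simp)]
  exact one_ne_zero

/-- the mollifier -/
noncomputable def rgRho (δ : ℝ) (x : X3) : ℝ :=
  (∫ y : X3, rgEta (δ⁻¹ • y))⁻¹ * rgEta (δ⁻¹ • x)

theorem rgRho_contDiff (δ : ℝ) : ContDiff ℝ ∞ (rgRho δ) :=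
  contDiff_const.mul (rgEta_contDiff.comp (contDiff_const_smul _))

theorem rgRho_nonneg {δ : ℝ} (hδ : 0 < δ) (x : X3) : 0 ≤ rgRho δ x :=
  mul_nonneg (inv_nonneg.2 (rgEta_scale_int hδ).le) (rgEta_nonneg _)

theorem rgRho_cs {δ : ℝ} (hδ : 0 < δ) : HasCompactSupport (rgRho δ) :=
  HasCompactSupport.mul_left (rgEta_cs.comp_smul (inv_ne_zero hδ.ne'))

theorem rgRho_int {δ : ℝ} (hδ : 0 < δ) : ∫ x, rgRho δ x = 1 := by
  unfold rgRho
  rw [integral_const_mul, inv_mul_cancel₀ (rgEta_scale_int hδ).ne']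

theorem rgRho_congr (δ : ℝ) {x y : X3} (h : ‖x‖ = ‖y‖) : rgRho δ x = rgRho δ y := by
  rw [rgRho, rgRho, rgEta_congr (x := δ⁻¹ • x) (y := δ⁻¹ • y) (by rw [norm_smul, norm_smul, h])]

theorem rgRho_zero {δ : ℝ} (hδ : 0 < δ) {x : X3} (hx : 2 * δ ≤ ‖x‖) : rgRho δ x = 0 := by
  rw [rgRho, rgEta_zero, mul_zero]
  rw [norm_smul, norm_inv, Real.norm_of_nonneg hδ.le, le_inv_mul_iff₀ hδ]
  linarith

theorem rgRho_integrable {δ : ℝ} (hδ : 0 < δ) : Integrable (rgRho δ) :=
  (rgRho_contDiff δ).continuous.integrable_of_hasCompactSupport (rgRho_cs hδ)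

/-! ### mollification -/

variable {F : Type*} [NormedAddCommGroup F] [InnerProductSpace ℂ F]

/-- the mollification of `f` -/
noncomputable def rgMol (δ : ℝ) (f : X3 → F) (x : X3) : F := ∫ z, rgRho δ z • f (x - z)

theorem rgMol_eq (δ : ℝ) (f : X3 → F) :
    rgMol δ f = (rgRho δ) ⋆[ContinuousLinearMap.lsmul ℝ ℝ, volume] f := by
  funext x
  rw [convolution_lsmul]
  rfl

theorem rgMol_contDiff {δ : ℝ} (hδ : 0 < δ) {f : X3 → F} (hf : LocallyIntegrable f) [CompleteSpace F] :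
    ContDiff ℝ ∞ (rgMol δ f) := by
  rw [rgMol_eq]
  exact (rgRho_cs hδ).contDiff_convolution_left _ (rgRho_contDiff δ) hf

theorem rgMol_cs {δ : ℝ} (hδ : 0 < δ) {f : X3 → F} (hf : HasCompactSupport f) :
    HasCompactSupport (rgMol δ f) := by
  rw [rgMol_eq]
  exact (rgRho_cs hδ).convolution _ hf

theorem rgInt_sub_left {f : X3 → F} (hf : MemLp f 2 (volume : Measure X3)) (x : X3) :
    Integrable fun z => ‖f (x - z)‖ ^ 2 :=
  (memLp_norm_sq_int hf).comp_sub_left x

theorem rgInt_sq {δ : ℝ} (hδ : 0 < δ) {f : X3 → F} (hf : MemLp f 2 (volume : Measure X3)) (x : X3) :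
    Integrable fun z => rgRho δ z * ‖f (x - z)‖ ^ 2 := by
  obtain ⟨C, hC⟩ := (rgRho_cs hδ).exists_bound_of_continuous (rgRho_contDiff δ).continuous
  exact (rgInt_sub_left hf x).bdd_mul (c := C) (rgRho_contDiff δ).continuous.aestronglyMeasurable
    (Filter.Eventually.of_forall hC)

theorem rgAem {f : X3 → F} (hf : MemLp f 2 (volume : Measure X3)) (x : X3) :
    AEStronglyMeasurable (fun z => f (x - z)) volume :=
  hf.1.comp_measurePreserving (Measure.measurePreserving_sub_left volume x)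

theorem rgInt_norm {δ : ℝ} (hδ : 0 < δ) {f : X3 → F} (hf : MemLp f 2 (volume : Measure X3))
    (x : X3) : Integrable fun z => rgRho δ z * ‖f (x - z)‖ := by
  refine ((rgRho_integrable hδ).add (rgInt_sq hδ hf x)).mono'
    ((rgRho_contDiff δ).continuous.aestronglyMeasurable.mul (rgAem hf x).norm)
    (Filter.Eventually.of_forall fun z => ?_)
  have h1 := rgRho_nonneg hδ z
  have h2 := norm_nonneg (f (x - z))
  rw [Real.norm_of_nonneg (mul_nonneg h1 h2)]
  simp only [Pi.add_apply]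
  nlinarith [sq_nonneg (‖f (x - z)‖ - 1 / 2)]

theorem rgInt {δ : ℝ} (hδ : 0 < δ) {f : X3 → F} (hf : MemLp f 2 (volume : Measure X3))
    (x : X3) : Integrable fun z => rgRho δ z • f (x - z) := by
  refine (rgInt_norm hδ hf x).mono'
    ((rgRho_contDiff δ).continuous.aestronglyMeasurable.smul (rgAem hf x))
    (Filter.Eventually.of_forall fun z => ?_)
  rw [norm_smul, Real.norm_of_nonneg (rgRho_nonneg hδ z)]

theorem rg_norm_sq_le {δ : ℝ} (hδ : 0 < δ) {f : X3 → F} (hf : MemLp f 2 (volume : Measure X3))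
    (x : X3) : (∫ z, rgRho δ z * ‖f (x - z)‖) ^ 2 ≤ ∫ z, rgRho δ z * ‖f (x - z)‖ ^ 2 := by
  set m := ∫ z, rgRho δ z * ‖f (x - z)‖ with hm
  have h0 : 0 ≤ ∫ z, rgRho δ z * (‖f (x - z)‖ - m) ^ 2 :=
    integral_nonneg fun z => mul_nonneg (rgRho_nonneg hδ z) (sq_nonneg _)
  have i1 := rgInt_sq hδ hf x
  have i2 : Integrable fun z => 2 * m * (rgRho δ z * ‖f (x - z)‖) := (rgInt_norm hδ hf x).const_mul _
  have i3 : Integrable fun z => m ^ 2 * rgRho δ z := (rgRho_integrable hδ).const_mul _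
  have h1 : ∫ z, rgRho δ z * (‖f (x - z)‖ - m) ^ 2 =
      (∫ z, rgRho δ z * ‖f (x - z)‖ ^ 2) - 2 * m * m + m ^ 2 * 1 := by
    rw [← rgRho_int hδ, ← integral_const_mul (m ^ 2)]
    conv_rhs => rw [hm]
    rw [← hm, ← integral_const_mul (2 * m), ← integral_sub i1 i2]
    have i4 : Integrable fun z => rgRho δ z * ‖f (x - z)‖ ^ 2 -
      2 * m * (rgRho δ z * ‖f (x - z)‖) := i1.sub i2
    rw [← integral_add i4 i3]
    refine integral_congr_ae (Filter.Eventually.of_forall fun z => ?_)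
    simp only
    ring
  rw [h1] at h0
  nlinarith

theorem rgMol_norm_le {δ : ℝ} (hδ : 0 < δ) (f : X3 → F) (x : X3) :
    ‖rgMol δ f x‖ ≤ ∫ z, rgRho δ z * ‖f (x - z)‖ := by
  refine (norm_integral_le_integral_norm _).trans (le_of_eq ?_)
  refine integral_congr_ae (Filter.Eventually.of_forall fun z => ?_)
  simp only
  rw [norm_smul, Real.norm_of_nonneg (rgRho_nonneg hδ z)]

theorem rg_conv_int {δ : ℝ} (hδ : 0 < δ) {f : X3 → F} (hf : MemLp f 2 (volume : Measure X3)) :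
    Integrable (fun x => ∫ z, rgRho δ z * ‖f (x - z)‖ ^ 2) ∧
      ∫ x, (∫ z, rgRho δ z * ‖f (x - z)‖ ^ 2) = ∫ x, ‖f x‖ ^ 2 := by
  have h1 := (rgRho_integrable hδ).integrable_convolution (ContinuousLinearMap.lsmul ℝ ℝ)
    (memLp_norm_sq_int hf)
  have h2 := integral_convolution (ContinuousLinearMap.lsmul ℝ ℝ) (rgRho_integrable hδ)
    (memLp_norm_sq_int hf)
  have e : (fun x => ∫ z, rgRho δ z * ‖f (x - z)‖ ^ 2) =
      (rgRho δ) ⋆[ContinuousLinearMap.lsmul ℝ ℝ, volume] (fun x => ‖f x‖ ^ 2) := by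
    funext x
    rw [convolution_lsmul]
    simp only [smul_eq_mul]
  rw [e]
  refine ⟨h1, h2.trans ?_⟩
  rw [rgRho_int hδ]
  simp

theorem rg_locInt {f : X3 → F} (hf : MemLp f 2 (volume : Measure X3)) : LocallyIntegrable f :=
  hf.locallyIntegrable (by norm_num)

variable [FiniteDimensional ℂ F]

theorem rgMol_sq {δ : ℝ} (hδ : 0 < δ) {f : X3 → F} (hf : MemLp f 2 (volume : Measure X3)) :
    MemLp (rgMol δ f) 2 (volume : Measure X3) ∧ ∫ x, ‖rgMol δ f x‖ ^ 2 ≤ ∫ x, ‖f x‖ ^ 2 := by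
  have : CompleteSpace F := FiniteDimensional.complete ℂ F
  obtain ⟨h1, h2⟩ := rg_conv_int hδ hf
  have hm : AEStronglyMeasurable (rgMol δ f) (volume : Measure X3) :=
    (rgMol_contDiff hδ (rg_locInt hf)).continuous.aestronglyMeasurable
  have hb : ∀ x, ‖rgMol δ f x‖ ^ 2 ≤ ∫ z, rgRho δ z * ‖f (x - z)‖ ^ 2 := fun x =>
    (pow_le_pow_left₀ (norm_nonneg _) (rgMol_norm_le hδ f x) 2).trans (rg_norm_sq_le hδ hf x)
  have hi : Integrable (fun x => ‖rgMol δ f x‖ ^ 2) := by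
    refine h1.mono' (hm.norm.pow 2) (Filter.Eventually.of_forall fun x => ?_)
    rw [Real.norm_of_nonneg (by positivity)]
    exact hb x
  refine ⟨(memLp_two_iff_integrable_sq_norm hm).2 hi, ?_⟩
  rw [← h2]
  exact integral_mono hi h1 hb

theorem rg_approx_cc {g : X3 → F} (hg : Continuous g) (hc : HasCompactSupport g) {ε : ℝ}
    (hε : 0 < ε) : ∃ δ₀ : ℝ, 0 < δ₀ ∧ ∀ δ, 0 < δ → δ ≤ δ₀ →
      ∫ x, ‖rgMol δ g x - g x‖ ^ 2 ≤ ε := by
  have : CompleteSpace F := FiniteDimensional.complete ℂ F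
  obtain ⟨r, hr⟩ := hc.isCompact.isBounded.subset_closedBall (0 : X3)
  set B : Set X3 := Metric.closedBall 0 (r + 2) with hB
  have hBc : IsCompact B := isCompact_closedBall _ _
  set V : ℝ := (volume B).toReal with hV
  have hV0 : 0 ≤ V := ENNReal.toReal_nonneg
  set e : ℝ := Real.sqrt (ε / (V + 1)) with he
  have he0 : 0 < e := Real.sqrt_pos.2 (by positivity)
  have huc : UniformContinuous g := hc.uniformContinuous_of_continuous hg
  obtain ⟨d, hd0, hd⟩ := Metric.uniformContinuous_iff.1 huc e he0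
  refine ⟨min (d / 4) 1, by positivity, fun δ hδ hδ' => ?_⟩
  have hδ1 : δ ≤ 1 := hδ'.trans (min_le_right _ _)
  have hδd : 2 * δ < d := by
    have := hδ'.trans (min_le_left _ _)
    linarith
  have hgm : MemLp g 2 (volume : Measure X3) := hg.memLp_of_hasCompactSupport hc
  have hpt : ∀ x, ‖rgMol δ g x - g x‖ ≤ e := by
    intro x
    have h1 : rgMol δ g x - g x = ∫ z, rgRho δ z • (g (x - z) - g x) := by
      have i1 := rgInt hδ hgm x
      have i2 : Integrable fun z => rgRho δ z • g x := (rgRho_integrable hδ).smul_const _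
      have h2 : ∫ z, rgRho δ z • g x = g x := by
        rw [integral_smul_const, rgRho_int hδ, one_smul]
      rw [rgMol]
      conv_lhs => rw [← h2]
      rw [← integral_sub i1 i2]
      refine integral_congr_ae (Filter.Eventually.of_forall fun z => ?_)
      simp only [smul_sub]
    rw [h1]
    have h3 : ∀ z, ‖rgRho δ z • (g (x - z) - g x)‖ ≤ rgRho δ z * e := by
      intro z
      rw [norm_smul, Real.norm_of_nonneg (rgRho_nonneg hδ z)]
      by_cases hz : 2 * δ ≤ ‖z‖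
      · rw [rgRho_zero hδ hz, zero_mul, zero_mul]
      · refine mul_le_mul_of_nonneg_left ?_ (rgRho_nonneg hδ z)
        have h4 : dist (x - z) x < d := by
          rw [dist_eq_norm, sub_sub_cancel_left, norm_neg]
          linarith [not_le.1 hz]
        have h5 := hd h4
        rw [dist_eq_norm] at h5
        exact h5.le
    refine (norm_integral_le_of_norm_le ((rgRho_integrable hδ).mul_const e)
      (Filter.Eventually.of_forall h3)).trans (le_of_eq ?_)
    rw [integral_mul_const, rgRho_int hδ, one_mul]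
  have hsupp : ∀ x, x ∉ B → rgMol δ g x - g x = 0 := by
    intro x hx
    rw [hB, Metric.mem_closedBall, dist_zero_right, not_le] at hx
    have hg0 : ∀ y : X3, r < ‖y‖ → g y = 0 := by
      intro y hy
      by_contra hne
      have h1 := hr (subset_tsupport _ hne)
      rw [Metric.mem_closedBall, dist_zero_right] at h1
      linarith
    rw [hg0 x (by linarith), sub_zero, rgMol]
    refine integral_eq_zero_of_ae (Filter.Eventually.of_forall fun z => ?_)
    by_cases hz : 2 * δ ≤ ‖z‖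
    · simp only [rgRho_zero hδ hz, zero_smul, Pi.zero_apply]
    · have h2 : r < ‖x - z‖ := by
        have := norm_sub_norm_le x z
        linarith [not_le.1 hz]
      simp only [hg0 _ h2, smul_zero, Pi.zero_apply]
  have h6 : ∀ x, ‖rgMol δ g x - g x‖ ^ 2 ≤ B.indicator (fun _ => e ^ 2) x := by
    intro x
    by_cases hx : x ∈ B
    · rw [Set.indicator_of_mem hx]
      exact pow_le_pow_left₀ (norm_nonneg _) (hpt x) 2
    · rw [Set.indicator_of_notMem hx, hsupp x hx]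
      simp
  have hBi : Integrable (B.indicator fun _ : X3 => e ^ 2) :=
    (integrable_indicator_iff hBc.measurableSet).2 (integrableOn_const hBc.measure_lt_top.ne)
  have hgc : Continuous fun x => ‖rgMol δ g x - g x‖ ^ 2 :=
    (((rgMol_contDiff hδ (rg_locInt hgm)).continuous.sub hg).norm.pow 2)
  have hgi : Integrable fun x => ‖rgMol δ g x - g x‖ ^ 2 := by
    refine hBi.mono' hgc.aestronglyMeasurable (Filter.Eventually.of_forall fun x => ?_)
    rw [Real.norm_of_nonneg (by positivity)]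
    exact h6 x
  refine (integral_mono hgi hBi h6).trans ?_
  rw [integral_indicator hBc.measurableSet, setIntegral_const, smul_eq_mul, measureReal_def, ← hV,
    he, Real.sq_sqrt (by positivity)]
  rw [mul_div_assoc']
  rw [div_le_iff₀ (by positivity)]
  nlinarith

theorem rg_sq_add3 (a b c : F) : ‖a + b + c‖ ^ 2 ≤ 3 * ‖a‖ ^ 2 + 3 * ‖b‖ ^ 2 + 3 * ‖c‖ ^ 2 := by
  have h1 := norm_add₃_le (a := a) (b := b) (c := c)
  have h2 := norm_nonneg (a + b + c)
  nlinarith [sq_nonneg (‖a‖ - ‖b‖), sq_nonneg (‖a‖ - ‖c‖), sq_nonneg (‖b‖ - ‖c‖),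
    norm_nonneg a, norm_nonneg b, norm_nonneg c]

theorem rg_approx {f : X3 → F} (hf : MemLp f 2 (volume : Measure X3)) {ε : ℝ}
    (hε : 0 < ε) : ∃ δ₀ : ℝ, 0 < δ₀ ∧ ∀ δ, 0 < δ → δ ≤ δ₀ →
      ∫ x, ‖rgMol δ f x - f x‖ ^ 2 ≤ ε := by
  have : CompleteSpace F := FiniteDimensional.complete ℂ F
  have hf' : MemLp f (ENNReal.ofReal 2) (volume : Measure X3) := by
    rwa [ENNReal.ofReal_ofNat]
  obtain ⟨g, hgc, hgε, hg, hgm⟩ := hf'.exists_hasCompactSupport_integral_rpow_sub_le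
    (p := 2) (by norm_num) (ε := ε / 9) (by positivity)
  rw [ENNReal.ofReal_ofNat] at hgm
  have hgε' : ∫ x, ‖f x - g x‖ ^ 2 ≤ ε / 9 := by
    simpa only [Real.rpow_two] using hgε
  obtain ⟨δ₀, hδ₀, hδ₁⟩ := rg_approx_cc hg hgc (ε := ε / 9) (by positivity)
  refine ⟨δ₀, hδ₀, fun δ hδ hle => ?_⟩
  have h1 := hδ₁ δ hδ hle
  have hfg : MemLp (fun x => f x - g x) 2 (volume : Measure X3) := hf.sub hgm
  obtain ⟨hm1, h2⟩ := rgMol_sq hδ hfg
  obtain ⟨hm2, -⟩ := rgMol_sq hδ hgm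
  obtain ⟨hm3, -⟩ := rgMol_sq hδ hf
  have hlin : ∀ x, rgMol δ f x - rgMol δ g x = rgMol δ (fun x => f x - g x) x := by
    intro x
    rw [rgMol, rgMol, rgMol, ← integral_sub (rgInt hδ hf x) (rgInt hδ hgm x)]
    refine integral_congr_ae (Filter.Eventually.of_forall fun z => ?_)
    simp only [smul_sub]
  have h3 : ∀ x, ‖rgMol δ f x - f x‖ ^ 2 ≤ 3 * ‖rgMol δ (fun x => f x - g x) x‖ ^ 2 +
      3 * ‖rgMol δ g x - g x‖ ^ 2 + 3 * ‖f x - g x‖ ^ 2 := by
    intro x
    have e : rgMol δ f x - f x = rgMol δ (fun x => f x - g x) x + (rgMol δ g x - g x) +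
        -(f x - g x) := by
      rw [← hlin]; abel
    rw [e, ← norm_neg (f x - g x)]
    exact rg_sq_add3 _ _ _
  have hgg : MemLp (fun x => rgMol δ g x - g x) 2 (volume : Measure X3) := hm2.sub hgm
  have hff : MemLp (fun x => rgMol δ f x - f x) 2 (volume : Measure X3) := hm3.sub hf
  have i1 := (memLp_norm_sq_int hm1).const_mul 3
  have i2 := (memLp_norm_sq_int hgg).const_mul 3
  have i3 := (memLp_norm_sq_int hfg).const_mul 3
  have i12 : Integrable fun x => 3 * ‖rgMol δ (fun x => f x - g x) x‖ ^ 2 +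
      3 * ‖rgMol δ g x - g x‖ ^ 2 := i1.add i2
  have i123 : Integrable fun x => 3 * ‖rgMol δ (fun x => f x - g x) x‖ ^ 2 +
      3 * ‖rgMol δ g x - g x‖ ^ 2 + 3 * ‖f x - g x‖ ^ 2 := i12.add i3
  refine (integral_mono (memLp_norm_sq_int hff) i123 h3).trans ?_
  rw [integral_add i12 i3, integral_add i1 i2, integral_const_mul, integral_const_mul,
    integral_const_mul]
  linarith

end

section

variable {F : Type*} [NormedAddCommGroup F] [InnerProductSpace ℂ F] [FiniteDimensional ℂ F]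

theorem rgMol_core (K : Fk F) {δ : ℝ} (hδ : 0 < δ) {f : X3 → F}
    (hf : MemLp f 2 (volume : Measure X3)) (hcs : HasCompactSupport f)
    (hcov : ∀ U : SU2, ∀ᵐ x, f (act U x) = K.S U (f x)) : K.Core (rgMol δ f) := by
  have : CompleteSpace F := FiniteDimensional.complete ℂ F
  refine ⟨rgMol_contDiff hδ (rg_locInt hf), rgMol_cs hδ hcs, fun U x => ?_⟩
  have hmp := (actL U).measurePreserving
  have h1 := hmp.integral_comp (actL U).toHomeomorph.measurableEmbedding
    (fun z => rgRho δ z • f (act U x - z))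
  rw [rgMol, ← h1]
  have h2 : ∀ᵐ z : X3, f (act U (x - z)) = K.S U (f (x - z)) :=
    (Measure.measurePreserving_sub_left volume x).quasiMeasurePreserving.ae (hcov U)
  have h3 : ∀ z : X3, rgRho δ (actL U z) • f (act U x - actL U z) =
      rgRho δ z • f (act U (x - z)) := by
    intro z
    have e1 : act U x - actL U z = act U (x - z) := by
      rw [← actL_apply, ← actL_apply, map_sub]
    rw [e1, rgRho_congr δ ((actL U).norm_map z)]
  simp only [h3]
  have h4 : ∫ z, rgRho δ z • f (act U (x - z)) = ∫ z, ((K.S U).restrictScalars ℝ)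
      (rgRho δ z • f (x - z)) := by
    refine integral_congr_ae ?_
    filter_upwards [h2] with z hz
    rw [hz, map_smul]
    rfl
  rw [h4, ContinuousLinearMap.integral_comp_comm _ (rgInt hδ hf x)]
  rfl

omit [InnerProductSpace ℂ F] [FiniteDimensional ℂ F] in
theorem rg_int_of_cs {f : X3 → F}
    (hf : MemLp f 2 (volume : Measure X3)) (hcs : HasCompactSupport f) : Integrable f := by
  have h1 : IntegrableOn f (tsupport f) :=
    (hf.locallyIntegrable (by norm_num)).integrableOn_isCompact hcs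
  exact (integrableOn_iff_integrable_of_support_subset (subset_tsupport f)).1 h1

omit [FiniteDimensional ℂ F] in
theorem rg_inner_conj (a b : F) : (starRingEnd ℂ) (inner ℂ a b) = inner ℂ b a := inner_conj_symm _ _

theorem rgMol_inner {δ : ℝ} (hδ : 0 < δ) {f g : X3 → F}
    (hf : MemLp f 2 (volume : Measure X3)) (hcs : HasCompactSupport f) (hg : Continuous g)
    (hgc : HasCompactSupport g) :
    ∫ x, inner ℂ (rgMol δ f x) (g x) = ∫ x, inner ℂ (f x) (rgMol δ g x) := by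
  have : CompleteSpace F := FiniteDimensional.complete ℂ F
  have hgm : MemLp g 2 (volume : Measure X3) := hg.memLp_of_hasCompactSupport hgc
  have hfi := rg_int_of_cs hf hcs
  obtain ⟨C, hC⟩ := hgc.exists_bound_of_continuous hg
  have hC0 : 0 ≤ C := (norm_nonneg _).trans (hC 0)
  -- left side
  have hL : ∀ x, inner ℂ (rgMol δ f x) (g x) = ∫ y, ((rgRho δ (x - y) : ℝ) : ℂ) *
      inner ℂ (f y) (g x) := by
    intro x
    have e1 : inner ℂ (g x) (rgMol δ f x) = ∫ z, inner ℂ (g x) (rgRho δ z • f (x - z)) :=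
      (integral_inner (rgInt hδ hf x) (g x)).symm
    rw [← rg_inner_conj (g x) (rgMol δ f x), e1, ← integral_conj]
    have e2 : ∀ z, (starRingEnd ℂ) (inner ℂ (g x) (rgRho δ z • f (x - z))) =
        ((rgRho δ z : ℝ) : ℂ) * inner ℂ (f (x - z)) (g x) := by
      intro z
      rw [rg_inner_conj, ← Complex.coe_smul, inner_smul_left, Complex.conj_ofReal]
    simp only [e2]
    have e3 := integral_sub_left_eq_self (fun z : X3 => ((rgRho δ z : ℝ) : ℂ) *
      inner ℂ (f (x - z)) (g x)) volume x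
    rw [← e3]
    simp only [sub_sub_cancel]
  have hR : ∀ y, inner ℂ (f y) (rgMol δ g y) = ∫ x, ((rgRho δ (x - y) : ℝ) : ℂ) *
      inner ℂ (f y) (g x) := by
    intro y
    have e1 : inner ℂ (f y) (rgMol δ g y) = ∫ z, inner ℂ (f y) (rgRho δ z • g (y - z)) :=
      (integral_inner (rgInt hδ hgm y) (f y)).symm
    rw [e1]
    have e2 : ∀ z, inner ℂ (f y) (rgRho δ z • g (y - z)) =
        ((rgRho δ z : ℝ) : ℂ) * inner ℂ (f y) (g (y - z)) := by
      intro z
      rw [← Complex.coe_smul, inner_smul_right]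
    simp only [e2]
    have e3 := integral_sub_left_eq_self (fun z : X3 => ((rgRho δ z : ℝ) : ℂ) *
      inner ℂ (f y) (g (y - z))) volume y
    rw [← e3]
    refine integral_congr_ae (Filter.Eventually.of_forall fun x => ?_)
    simp only [sub_sub_cancel]
    rw [rgRho_congr δ (norm_sub_rev y x)]
  simp only [hL, hR]
  have hprod : Integrable (Function.uncurry fun x y : X3 => ((rgRho δ (x - y) : ℝ) : ℂ) *
      inner ℂ (f y) (g x)) (volume.prod volume) := by
    have h1 := (hfi.norm).convolution_integrand (ContinuousLinearMap.lsmul ℝ ℝ)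
      (rgRho_integrable hδ)
    have h2 := h1.const_mul C
    refine h2.mono' ?_ (Filter.Eventually.of_forall fun p => ?_)
    · have m1 : AEStronglyMeasurable (fun p : X3 × X3 => ((rgRho δ (p.1 - p.2) : ℝ) : ℂ))
          (volume.prod volume) :=
        (Complex.continuous_ofReal.comp ((rgRho_contDiff δ).continuous.comp
          (continuous_fst.sub continuous_snd))).aestronglyMeasurable
      have m2 : AEStronglyMeasurable (fun p : X3 × X3 => (inner ℂ (f p.2) (g p.1) : ℂ))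
          (volume.prod volume) :=
        AEStronglyMeasurable.inner hf.1.comp_snd
          (hg.comp continuous_fst).aestronglyMeasurable
      exact m1.mul m2
    · simp only [Function.uncurry, ContinuousLinearMap.lsmul_apply, smul_eq_mul]
      rw [norm_mul, Complex.norm_real, Real.norm_of_nonneg (rgRho_nonneg hδ _)]
      have h3 : ‖(inner ℂ (f p.2) (g p.1) : ℂ)‖ ≤ ‖f p.2‖ * C :=
        (norm_inner_le_norm _ _).trans (mul_le_mul_of_nonneg_left (hC _) (norm_nonneg _))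
      calc rgRho δ (p.1 - p.2) * ‖(inner ℂ (f p.2) (g p.1) : ℂ)‖
          ≤ rgRho δ (p.1 - p.2) * (‖f p.2‖ * C) :=
            mul_le_mul_of_nonneg_left h3 (rgRho_nonneg hδ _)
        _ = _ := by ring
  exact integral_integral_swap hprod

theorem rgMol_fderiv {δ : ℝ} (hδ : 0 < δ) {y : X3 → F} (hy : ContDiff ℝ 1 y)
    (hc : HasCompactSupport y) (x : X3) :
    DifferentiableAt ℝ (rgMol δ y) x ∧
      Integrable (fun z => rgRho δ z • fderiv ℝ y (x - z)) ∧
      fderiv ℝ (rgMol δ y) x = ∫ z, rgRho δ z • fderiv ℝ y (x - z) := by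
  have h1 := hc.hasFDerivAt_convolution_right (ContinuousLinearMap.lsmul ℝ ℝ)
    (rgRho_integrable hδ).locallyIntegrable hy x
  rw [← rgMol_eq] at h1
  refine ⟨h1.differentiableAt, ?_, ?_⟩
  · refine Continuous.integrable_of_hasCompactSupport ?_ ?_
    · exact (rgRho_contDiff δ).continuous.smul
        ((hy.continuous_fderiv (by simp)).comp (continuous_const.sub continuous_id))
    · exact (rgRho_cs hδ).smul_right
  · rw [h1.fderiv, convolution_def]
    refine integral_congr_ae (Filter.Eventually.of_forall fun z => ?_)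
    ext v
    simp [ContinuousLinearMap.precompR_apply]

end

section

variable {F : Type*} [NormedAddCommGroup F] [InnerProductSpace ℂ F] [FiniteDimensional ℂ F]

theorem rg_est {P : (X3 → F) → X3 → F} {T : (X3 →L[ℝ] F) →L[ℝ] F} {W : X3 → F →L[ℂ] F}
    (hP : ∀ w x, P w x = T (fderiv ℝ w x) + W x (w x)) (hW : Continuous W)
    {χ : X3 → ℝ} (hχ : ContDiff ℝ ∞ χ) (h0 : ∀ x, 0 ≤ χ x) (h1 : ∀ x, χ x ≤ 1) {R' c : ℝ}
    (hR : ∀ x, R' ≤ ‖x‖ → χ x = 0) (hc : ∀ x, ‖fderiv ℝ χ x‖ ≤ c) {δ : ℝ} (hδ : 0 < δ) {ε : ℝ}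
    (hε0 : 0 ≤ ε) (hε : ∀ x z : X3, ‖x‖ ≤ R' → ‖z‖ ≤ 2 * δ → ‖W x - W (x - z)‖ ≤ ε)
    {y : X3 → F} (hy : Setup.Tst y) (x : X3) :
    ‖P (fun x => ((χ x : ℝ) : ℂ) • rgMol δ y x) x - ((χ x : ℝ) : ℂ) • rgMol δ (P y) x‖ ≤
      (‖T‖ * c + ε) * ∫ z, rgRho δ z * ‖y (x - z)‖ := by
  have hy1 : ContDiff ℝ 1 y := hy.1.of_le (by simp)
  obtain ⟨hd, hi, hf⟩ := rgMol_fderiv hδ hy1 hy.2 x
  have hym : MemLp y 2 (volume : Measure X3) := hy.memLp
  have hI := rgInt_norm hδ hym x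
  have hI0 : 0 ≤ ∫ z, rgRho δ z * ‖y (x - z)‖ :=
    integral_nonneg fun z => mul_nonneg (rgRho_nonneg hδ z) (norm_nonneg _)
  set m : F := rgMol δ y x with hm
  have hv : fderiv ℝ (fun x => ((χ x : ℝ) : ℂ) • rgMol δ y x) x =
      χ x • fderiv ℝ (rgMol δ y) x + (fderiv ℝ χ x).smulRight m := by
    have e : (fun x => ((χ x : ℝ) : ℂ) • rgMol δ y x) = fun x => χ x • rgMol δ y x := by
      funext x
      rw [Complex.coe_smul]
    rw [e, fderiv_fun_smul ((hχ.differentiable (by simp)) x) hd]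
  -- integrability of the pieces
  have i1 : Integrable fun z => rgRho δ z • T (fderiv ℝ y (x - z)) := by
    have h := T.integrable_comp hi
    refine h.congr (Filter.Eventually.of_forall fun z => ?_)
    simp only [map_smul]
  have i2 : Integrable fun z => rgRho δ z • W (x - z) (y (x - z)) := by
    refine Continuous.integrable_of_hasCompactSupport ?_ (rgRho_cs hδ).smul_right
    exact (rgRho_contDiff δ).continuous.smul ((hW.comp (continuous_const.sub continuous_id)).clm_apply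
      (hy.1.continuous.comp (continuous_const.sub continuous_id)))
  have i3 : Integrable fun z => rgRho δ z • W x (y (x - z)) := by
    refine Continuous.integrable_of_hasCompactSupport ?_ (rgRho_cs hδ).smul_right
    exact (rgRho_contDiff δ).continuous.smul (continuous_const.clm_apply
      (hy.1.continuous.comp (continuous_const.sub continuous_id)))
  have e1 : T (fderiv ℝ (rgMol δ y) x) = ∫ z, rgRho δ z • T (fderiv ℝ y (x - z)) := by
    have : CompleteSpace F := FiniteDimensional.complete ℂ F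
    rw [hf, ← ContinuousLinearMap.integral_comp_comm T hi]
    refine integral_congr_ae (Filter.Eventually.of_forall fun z => ?_)
    simp only [map_smul]
  have e2 : W x m = ∫ z, rgRho δ z • W x (y (x - z)) := by
    have : CompleteSpace F := FiniteDimensional.complete ℂ F
    have h := ContinuousLinearMap.integral_comp_comm ((W x).restrictScalars ℝ) (rgInt hδ hym x)
    have h' : W x m = ((W x).restrictScalars ℝ) (∫ z, rgRho δ z • y (x - z)) := rfl
    rw [h', ← h]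
    refine integral_congr_ae (Filter.Eventually.of_forall fun z => ?_)
    simp only [map_smul]
    rfl
  have e3 : rgMol δ (P y) x = (∫ z, rgRho δ z • T (fderiv ℝ y (x - z))) +
      ∫ z, rgRho δ z • W (x - z) (y (x - z)) := by
    rw [rgMol, ← integral_add i1 i2]
    refine integral_congr_ae (Filter.Eventually.of_forall fun z => ?_)
    simp only [hP, smul_add]
  have e4 : P (fun x => ((χ x : ℝ) : ℂ) • rgMol δ y x) x -
      ((χ x : ℝ) : ℂ) • rgMol δ (P y) x = T ((fderiv ℝ χ x).smulRight m) +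
        χ x • ∫ z, rgRho δ z • (W x - W (x - z)) (y (x - z)) := by
    have e5 : ∫ z, rgRho δ z • (W x - W (x - z)) (y (x - z)) =
        (∫ z, rgRho δ z • W x (y (x - z))) - ∫ z, rgRho δ z • W (x - z) (y (x - z)) := by
      rw [← integral_sub i3 i2]
      refine integral_congr_ae (Filter.Eventually.of_forall fun z => ?_)
      simp only [sub_apply, smul_sub]
    rw [hP, hv, map_add, map_smul, e1, map_smul, e2, e3, e5, Complex.coe_smul, Complex.coe_smul,
      smul_add, smul_sub]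
    abel
  rw [e4]
  have b1 : ‖T ((fderiv ℝ χ x).smulRight m)‖ ≤ ‖T‖ * c * ∫ z, rgRho δ z * ‖y (x - z)‖ := by
    have h := T.le_opNorm ((fderiv ℝ χ x).smulRight m)
    rw [ContinuousLinearMap.norm_smulRight_apply] at h
    have hc0 : 0 ≤ c := (norm_nonneg _).trans (hc x)
    calc _ ≤ ‖T‖ * (‖fderiv ℝ χ x‖ * ‖m‖) := h
      _ ≤ ‖T‖ * (c * ∫ z, rgRho δ z * ‖y (x - z)‖) := by
          refine mul_le_mul_of_nonneg_left (mul_le_mul (hc x) (rgMol_norm_le hδ y x)
            (norm_nonneg _) hc0) T.opNorm_nonneg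
      _ = _ := by ring
  have b2 : ‖χ x • ∫ z, rgRho δ z • (W x - W (x - z)) (y (x - z))‖ ≤
      ε * ∫ z, rgRho δ z * ‖y (x - z)‖ := by
    by_cases hx : R' ≤ ‖x‖
    · rw [hR x hx, zero_smul, norm_zero]
      exact mul_nonneg hε0 hI0
    · rw [norm_smul, Real.norm_of_nonneg (h0 x)]
      have hz : ∀ z, ‖rgRho δ z • (W x - W (x - z)) (y (x - z))‖ ≤
          ε * (rgRho δ z * ‖y (x - z)‖) := by
        intro z
        by_cases hz : 2 * δ ≤ ‖z‖
        · rw [rgRho_zero hδ hz, zero_smul, norm_zero, zero_mul, mul_zero]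
        · rw [norm_smul, Real.norm_of_nonneg (rgRho_nonneg hδ z)]
          have h2 := (W x - W (x - z)).le_opNorm (y (x - z))
          have h3 := hε x z (not_le.1 hx).le (not_le.1 hz).le
          calc _ ≤ rgRho δ z * (ε * ‖y (x - z)‖) :=
                mul_le_mul_of_nonneg_left (h2.trans (mul_le_mul_of_nonneg_right h3
                  (norm_nonneg _))) (rgRho_nonneg hδ z)
            _ = _ := by ring
      have h4 := norm_integral_le_of_norm_le (hI.const_mul ε) (Filter.Eventually.of_forall hz)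
      rw [integral_const_mul] at h4
      calc _ ≤ 1 * (ε * ∫ z, rgRho δ z * ‖y (x - z)‖) :=
            mul_le_mul (h1 x) h4 (norm_nonneg _) zero_le_one
        _ = _ := one_mul _
  calc _ ≤ _ := norm_add_le _ _
    _ ≤ ‖T‖ * c * (∫ z, rgRho δ z * ‖y (x - z)‖) + ε * ∫ z, rgRho δ z * ‖y (x - z)‖ :=
        add_le_add b1 b2
    _ = _ := by ring

theorem rg_core_mul (K : Fk F) {χ : X3 → ℝ} (hχ : ContDiff ℝ ∞ χ)
    (hinv : ∀ U : SU2, ∀ x, χ (act U x) = χ x) {u : X3 → F} (hu : K.Core u) :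
    K.Core fun x => ((χ x : ℝ) : ℂ) • u x := by
  have h := Setup.Tst.rsmul hχ (⟨hu.1, hu.2.1⟩ : Setup.Tst u)
  refine ⟨h.1, h.2, fun U x => ?_⟩
  simp only [hinv, hu.2.2, map_smul]

theorem rg_dual (K : Fk F) {Ψ : X3 → F} (hΨ : MemLp Ψ 2 (volume : Measure X3))
    {P P' : (X3 → F) → X3 → F}
    {T : (X3 →L[ℝ] F) →L[ℝ] F} {W : X3 → F →L[ℂ] F}
    (hP : ∀ w x, P' w x = T (fderiv ℝ w x) + W x (w x)) (hW : Continuous W)
    (hadj : ∀ u v, Setup.Tst u → Setup.Tst v →
      ∫ x, inner ℂ (P u x) (v x) = - ∫ x, inner ℂ (u x) (P' v x))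
    (hPc : ∀ u, K.Core u → K.Core (P u)) (hPT : ∀ u, Setup.Tst u → Setup.Tst (P' u))
    (hw : ∀ χ, K.Core χ → ∫ x, inner ℂ (Ψ x) (P' χ x) = 0)
    {χ : X3 → ℝ} (hχ : ContDiff ℝ ∞ χ) (h0 : ∀ x, 0 ≤ χ x) (h1 : ∀ x, χ x ≤ 1)
    (hcs : HasCompactSupport χ) (hinv : ∀ U : SU2, ∀ x, χ (act U x) = χ x) {R' c : ℝ}
    (hR : ∀ x, R' ≤ ‖x‖ → χ x = 0) (hc : ∀ x, ‖fderiv ℝ χ x‖ ≤ c) {δ : ℝ} (hδ : 0 < δ) {ε : ℝ}
    (hε0 : 0 ≤ ε) (hε : ∀ x z : X3, ‖x‖ ≤ R' → ‖z‖ ≤ 2 * δ → ‖W x - W (x - z)‖ ≤ ε)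
    (hfm : MemLp (fun x => χ x • Ψ x) 2 (volume : Measure X3))
    (hu : K.Core (rgMol δ fun x => χ x • Ψ x)) :
    ∫ x, ‖P (rgMol δ fun x => χ x • Ψ x) x‖ ^ 2 ≤ (‖T‖ * c + ε) ^ 2 * ∫ x, ‖Ψ x‖ ^ 2 := by
  set f : X3 → F := fun x => χ x • Ψ x with hf
  set u := rgMol δ f with hudef
  set y := P u with hydef
  have hy : K.Core y := hPc u hu
  have hyT : Setup.Tst y := ⟨hy.1, hy.2.1⟩
  have huT : Setup.Tst u := ⟨hu.1, hu.2.1⟩
  have hym : MemLp y 2 (volume : Measure X3) := hyT.memLp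
  have hmc : K.Core (rgMol δ y) := rgMol_core K hδ hym hy.2.1
    fun U => Filter.Eventually.of_forall (hy.2.2 U)
  have hv : K.Core fun x => ((χ x : ℝ) : ℂ) • rgMol δ y x := rg_core_mul K hχ hinv hmc
  set v : X3 → F := fun x => ((χ x : ℝ) : ℂ) • rgMol δ y x with hvdef
  have hvT : Setup.Tst v := ⟨hv.1, hv.2.1⟩
  have hP'y : Setup.Tst (P' y) := hPT y hyT
  have hP'ym : MemLp (P' y) 2 (volume : Measure X3) := hP'y.memLp
  set k : ℝ := ‖T‖ * c + ε with hk
  have hc0 : 0 ≤ c := (norm_nonneg _).trans (hc 0)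
  have hk0 : 0 ≤ k := by positivity
  set D : X3 → F := fun x => P' v x - ((χ x : ℝ) : ℂ) • rgMol δ (P' y) x with hD
  have hfcs : HasCompactSupport f := hcs.smul_right
  -- `⟨y, y⟩ = ⟨Ψ, D⟩`
  have g1 : Setup.Tst (rgMol δ (P' y)) := by
    have : CompleteSpace F := FiniteDimensional.complete ℂ F
    exact ⟨rgMol_contDiff hδ (rg_locInt hP'ym), rgMol_cs hδ hP'y.2⟩
  have g2 : Setup.Tst fun x => ((χ x : ℝ) : ℂ) • rgMol δ (P' y) x := Setup.Tst.rsmul hχ g1
  have hDT : Setup.Tst D := (hPT v hvT).sub g2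
  have hA : ((∫ x, ‖y x‖ ^ 2 : ℝ) : ℂ) = ∫ x, inner ℂ (Ψ x) (D x) := by
    have s1 : ((∫ x, ‖y x‖ ^ 2 : ℝ) : ℂ) = ∫ x, inner ℂ (P u x) (y x) := by
      rw [← integral_complex_ofReal]
      exact integral_congr_ae (Filter.Eventually.of_forall fun x => (inner_self_C _).symm)
    have s2 := hadj u y huT hyT
    have s3 := rgMol_inner hδ hfm hfcs hP'y.1.continuous hP'y.2
    have s4 : ∫ x, inner ℂ (f x) (rgMol δ (P' y) x) =
        ∫ x, inner ℂ (Ψ x) (((χ x : ℝ) : ℂ) • rgMol δ (P' y) x) := by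
      refine integral_congr_ae (Filter.Eventually.of_forall fun x => ?_)
      simp only [hf]
      rw [← Complex.coe_smul, inner_smul_left, inner_smul_right, Complex.conj_ofReal]
    have s5 : ∫ x, inner ℂ (Ψ x) (D x) = (∫ x, inner ℂ (Ψ x) (P' v x)) -
        ∫ x, inner ℂ (Ψ x) (((χ x : ℝ) : ℂ) • rgMol δ (P' y) x) := by
      rw [← integral_sub (integrable_inner_memLp hΨ (hPT v hvT).memLp)
        (integrable_inner_memLp hΨ g2.memLp)]
      refine integral_congr_ae (Filter.Eventually.of_forall fun x => ?_)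
      simp only [hD, inner_sub_right]
    rw [s1, s2, s3, s4, s5, hw v hv, zero_sub]
  have hDle : ∫ x, ‖D x‖ ^ 2 ≤ k ^ 2 * ∫ x, ‖y x‖ ^ 2 := by
    obtain ⟨c1, c2⟩ := rg_conv_int hδ hym
    rw [← c2, ← integral_const_mul]
    refine integral_mono hDT.norm_sq_int (c1.const_mul _) fun x => ?_
    have h2 := rg_est hP hW hχ h0 h1 hR hc hδ hε0 hε hyT x
    have h3 := rg_norm_sq_le hδ hym x
    calc ‖D x‖ ^ 2 ≤ (k * ∫ z, rgRho δ z * ‖y (x - z)‖) ^ 2 :=
          pow_le_pow_left₀ (norm_nonneg _) h2 2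
      _ = k ^ 2 * (∫ z, rgRho δ z * ‖y (x - z)‖) ^ 2 := by ring
      _ ≤ _ := mul_le_mul_of_nonneg_left h3 (sq_nonneg k)
  have hcs2 := cs_inner hΨ hDT.memLp
  rw [← hA, Complex.norm_real, Real.norm_of_nonneg (integral_nonneg fun x => by positivity)]
    at hcs2
  set A := ∫ x, ‖y x‖ ^ 2 with hAd
  set B := ∫ x, ‖Ψ x‖ ^ 2 with hBd
  have hA0 : 0 ≤ A := integral_nonneg fun x => by positivity
  have hB0 : 0 ≤ B := integral_nonneg fun x => by positivity
  have h5 : Real.sqrt (∫ x, ‖D x‖ ^ 2) ≤ k * Real.sqrt A := by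
    rw [← Real.sqrt_sq hk0, ← Real.sqrt_mul (sq_nonneg k)]
    exact Real.sqrt_le_sqrt hDle
  have h6 : A ≤ Real.sqrt B * (k * Real.sqrt A) :=
    hcs2.trans (mul_le_mul_of_nonneg_left h5 (Real.sqrt_nonneg _))
  have h7 : Real.sqrt A * Real.sqrt A = A := Real.mul_self_sqrt hA0
  have h8 : Real.sqrt B * Real.sqrt B = B := Real.mul_self_sqrt hB0
  rcases (Real.sqrt_nonneg A).eq_or_lt with h9 | h9
  · rw [← h9, mul_zero] at h7
    rw [← h7]
    positivity
  · have h10 : Real.sqrt A ≤ k * Real.sqrt B := by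
      refine le_of_mul_le_mul_right ?_ h9
      rw [h7]
      linarith
    calc A = Real.sqrt A ^ 2 := by rw [sq, h7]
      _ ≤ (k * Real.sqrt B) ^ 2 := pow_le_pow_left₀ (Real.sqrt_nonneg _) h10 2
      _ = k ^ 2 * B := by rw [mul_pow, sq (Real.sqrt B), h8]

end

section

/-- radial cut-off -/
noncomputable def rgCut (R : ℝ) (x : X3) : ℝ := rgEta (R⁻¹ • x)

theorem exists_rgCut_bound : ∃ C : ℝ, 0 ≤ C ∧ ∀ R : ℝ, 0 < R → ∀ x, ‖fderiv ℝ (rgCut R) x‖ ≤ C / R := by
  have hc : Continuous fun x : X3 => fderiv ℝ rgEta x := rgEta_contDiff.continuous_fderiv (by simp)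
  obtain ⟨C, hC⟩ := (rgEta_cs.fderiv (𝕜 := ℝ)).exists_bound_of_continuous hc
  have hC0 : 0 ≤ C := (norm_nonneg _).trans (hC 0)
  refine ⟨C, hC0, fun R hR x => ?_⟩
  have h1 : HasFDerivAt (fun x : X3 => R⁻¹ • x) (R⁻¹ • ContinuousLinearMap.id ℝ X3) x :=
    (hasFDerivAt_id x).const_smul R⁻¹
  have h2 := ((rgEta_contDiff.differentiable (by simp)) (R⁻¹ • x)).hasFDerivAt.comp x h1
  have h3 : fderiv ℝ (rgCut R) x = _ := h2.fderiv
  rw [h3, ContinuousLinearMap.comp_smul, ContinuousLinearMap.comp_id, norm_smul, norm_inv,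
    Real.norm_of_nonneg hR.le, inv_mul_eq_div]
  exact div_le_div_of_nonneg_right (hC _) hR.le

variable {F : Type*} [NormedAddCommGroup F] [InnerProductSpace ℂ F] [FiniteDimensional ℂ F]

/-- the first order part of `K.DD` -/
noncomputable def rgT (K : Fk F) : (X3 →L[ℝ] F) →L[ℝ] F :=
  (∑ i : Fin 7, ∑ A, ((K.c (e8 i) A).restrictScalars ℝ).comp
    (ContinuousLinearMap.apply ℝ F (EuclideanSpace.single (e9 i, A) (1 : ℝ) : X3))) +
  ∑ A, (((K.c 7 A).restrictScalars ℝ).comp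
    (ContinuousLinearMap.apply ℝ F (EuclideanSpace.single (7, A) (1 : ℝ) : X3)) +
      (((Complex.I * (K.sg : ℂ)) • K.c 7 A).restrictScalars ℝ).comp
    (ContinuousLinearMap.apply ℝ F (EuclideanSpace.single (8, A) (1 : ℝ) : X3)))

/-- the zero order part of `K.DD` -/
noncomputable def rgW (K : Fk F) (x : X3) : F →L[ℂ] F :=
  K.nu • ∑ A, K.ph A x • K.io A x + K.dh x

theorem rg_DD_form (K : Fk F) (w : X3 → F) (x : X3) :
    K.DD w x = rgT K (fderiv ℝ w x) + rgW K x (w x) := by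
  simp only [Fk.DD, Fk.D0, Fk.dd, rgT, rgW, pd, add_apply, smul_apply, sum_apply,
    ContinuousLinearMap.comp_apply, ContinuousLinearMap.coe_restrictScalars',
    ContinuousLinearMap.apply_apply, map_add, map_smul]
  abel

theorem rgW_cont (K : Fk F) : Continuous (rgW K) := by
  have hx : ∀ p : Fin 9 × Fin 3, Continuous fun x : X3 => x p := fun p =>
    (Setup.contDiff_coord p).continuous
  have h1 : ∀ A, Continuous fun x => K.ph A x := by
    intro A
    unfold Fk.ph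
    have := hx (7, A)
    have := hx (8, A)
    fun_prop
  have h2 : ∀ A, Continuous (K.io A) := fun A => (K.contDiff_io A).continuous
  have h3 : Continuous K.dh := by
    unfold Fk.dh Fk.dhc
    fun_prop
  unfold rgW
  fun_prop

end

section

theorem rg_unif {G : Type*} [NormedAddCommGroup G] {W : X3 → G} (hW : Continuous W) (R' : ℝ)
    {ε : ℝ} (hε : 0 < ε) : ∃ δ₀ : ℝ, 0 < δ₀ ∧ ∀ δ ≤ δ₀, ∀ x z : X3, ‖x‖ ≤ R' → ‖z‖ ≤ 2 * δ →
      ‖W x - W (x - z)‖ ≤ ε := by
  have hc : IsCompact (Metric.closedBall (0 : X3) (R' + 2)) := isCompact_closedBall _ _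
  have hu := hc.uniformContinuousOn_of_continuous hW.continuousOn
  obtain ⟨d, hd0, hd⟩ := Metric.uniformContinuousOn_iff.1 hu ε hε
  refine ⟨min (d / 4) 1, by positivity, fun δ hδ x z hx hz => ?_⟩
  have h1 : δ ≤ 1 := hδ.trans (min_le_right _ _)
  have h2 : δ ≤ d / 4 := hδ.trans (min_le_left _ _)
  have m1 : x ∈ Metric.closedBall (0 : X3) (R' + 2) := by
    rw [Metric.mem_closedBall, dist_zero_right]; linarith
  have m2 : x - z ∈ Metric.closedBall (0 : X3) (R' + 2) := by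
    rw [Metric.mem_closedBall, dist_zero_right]
    linarith [norm_sub_le x z]
  have h3 : dist x (x - z) < d := by
    rw [dist_eq_norm, sub_sub_cancel]
    linarith
  have h4 := hd x m1 (x - z) m2 h3
  rw [dist_eq_norm] at h4
  exact h4.le

theorem rgCut_contDiff (R : ℝ) : ContDiff ℝ ∞ (rgCut R) :=
  rgEta_contDiff.comp (contDiff_const_smul _)

theorem rgCut_cs {R : ℝ} (hR : 0 < R) : HasCompactSupport (rgCut R) :=
  rgEta_cs.comp_smul (inv_ne_zero hR.ne')

theorem rgCut_zero {R : ℝ} (hR : 0 < R) {x : X3} (hx : 2 * R ≤ ‖x‖) : rgCut R x = 0 := by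
  rw [rgCut, rgEta_zero]
  rw [norm_smul, norm_inv, Real.norm_of_nonneg hR.le, le_inv_mul_iff₀ hR]
  linarith

theorem rgCut_one {R : ℝ} (hR : 0 < R) {x : X3} (hx : ‖x‖ ≤ R) : rgCut R x = 1 := by
  rw [rgCut, rgEta_one]
  rw [norm_smul, norm_inv, Real.norm_of_nonneg hR.le, inv_mul_le_iff₀ hR]
  linarith

theorem rgCut_act (R : ℝ) (U : SU2) (x : X3) : rgCut R (act U x) = rgCut R x := by
  rw [rgCut, rgCut]
  refine rgEta_congr ?_
  rw [norm_smul, norm_smul, ← actL_apply, (actL U).norm_map]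

variable {F : Type*} [NormedAddCommGroup F] [InnerProductSpace ℂ F] [FiniteDimensional ℂ F]

theorem rg_key (K : Fk F) {Ψ : X3 → F} (hΨ : MemLp Ψ 2 (volume : Measure X3))
    (hcov : ∀ U : SU2, ∀ᵐ x, Ψ (act U x) = K.S U (Ψ x))
    (hw1 : ∀ χ, K.Core χ → ∫ x, inner ℂ (Ψ x) (K.DD χ x) = 0)
    (hw2 : ∀ χ, K.Core χ → ∫ x, inner ℂ (Ψ x) (K.flip.DD χ x) = 0)
    {C : ℝ} (hC0 : 0 ≤ C) (hC : ∀ R : ℝ, 0 < R → ∀ x, ‖fderiv ℝ (rgCut R) x‖ ≤ C / R)
    {R e : ℝ} (hR : 0 < R) (he : 0 < e) :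
    ∃ u : X3 → F, K.Core u ∧ ∫ x, ‖u x - Ψ x‖ ^ 2 ≤
        2 * e + 2 * ∫ x, ‖rgCut R x • Ψ x - Ψ x‖ ^ 2 ∧
      ∫ x, ‖K.DD u x‖ ^ 2 ≤ (‖rgT K.flip‖ * (C / R) + e) ^ 2 * ∫ x, ‖Ψ x‖ ^ 2 ∧
      ∫ x, ‖K.flip.DD u x‖ ^ 2 ≤ (‖rgT K‖ * (C / R) + e) ^ 2 * ∫ x, ‖Ψ x‖ ^ 2 := by
  set f : X3 → F := fun x => rgCut R x • Ψ x with hf
  have hfm : MemLp f 2 (volume : Measure X3) := by
    refine hΨ.mono ((rgCut_contDiff R).continuous.aestronglyMeasurable.smul hΨ.1)
      (Filter.Eventually.of_forall fun x => ?_)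
    simp only [hf]
    have hc0 : 0 ≤ rgCut R x := rgEta_nonneg _
    rw [norm_smul, Real.norm_of_nonneg hc0]
    exact mul_le_of_le_one_left (norm_nonneg _) (rgEta_le_one _)
  have hfc : ∀ U : SU2, ∀ᵐ x, f (act U x) = K.S U (f x) := by
    intro U
    filter_upwards [hcov U] with x hx
    simp only [hf]
    rw [rgCut_act, hx, ← Complex.coe_smul, ← Complex.coe_smul, map_smul]
  have hfs : HasCompactSupport f := (rgCut_cs hR).smul_right
  obtain ⟨d0, hd0, hd0'⟩ := rg_approx hfm he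
  obtain ⟨d1, hd1, hd1'⟩ := rg_unif (rgW_cont K) (2 * R) he
  obtain ⟨d2, hd2, hd2'⟩ := rg_unif (rgW_cont K.flip) (2 * R) he
  set δ := min d0 (min d1 d2) with hδd
  have hδ : 0 < δ := lt_min hd0 (lt_min hd1 hd2)
  have hl0 : δ ≤ d0 := min_le_left _ _
  have hl1 : δ ≤ d1 := (min_le_right _ _).trans (min_le_left _ _)
  have hl2 : δ ≤ d2 := (min_le_right _ _).trans (min_le_right _ _)
  have hu : K.Core (rgMol δ f) := rgMol_core K hδ hfm hfs hfc
  have huT : Setup.Tst (rgMol δ f) := ⟨hu.1, hu.2.1⟩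
  refine ⟨rgMol δ f, hu, ?_, ?_, ?_⟩
  · have h1 := hd0' δ hδ hl0
    have m1 : MemLp (fun x => rgMol δ f x - f x) 2 (volume : Measure X3) := huT.memLp.sub hfm
    have m2 : MemLp (fun x => f x - Ψ x) 2 (volume : Measure X3) := hfm.sub hΨ
    have m3 : MemLp (fun x => rgMol δ f x - Ψ x) 2 (volume : Measure X3) := huT.memLp.sub hΨ
    have i1 := (memLp_norm_sq_int m1).const_mul 2
    have i2 := (memLp_norm_sq_int m2).const_mul 2
    have h2 : ∀ x, ‖rgMol δ f x - Ψ x‖ ^ 2 ≤ 2 * ‖rgMol δ f x - f x‖ ^ 2 + 2 * ‖f x - Ψ x‖ ^ 2 := by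
      intro x
      have h3 : ‖rgMol δ f x - Ψ x‖ ≤ ‖rgMol δ f x - f x‖ + ‖f x - Ψ x‖ := by
        have := norm_add_le (rgMol δ f x - f x) (f x - Ψ x)
        rwa [sub_add_sub_cancel] at this
      nlinarith [sq_nonneg (‖rgMol δ f x - f x‖ - ‖f x - Ψ x‖), norm_nonneg (rgMol δ f x - Ψ x),
        norm_nonneg (rgMol δ f x - f x), norm_nonneg (f x - Ψ x)]
    refine (integral_mono (memLp_norm_sq_int m3) (i1.add i2) h2).trans ?_
    simp only [Pi.add_apply]
    rw [integral_add i1 i2, integral_const_mul, integral_const_mul]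
    linarith
  · exact rg_dual K hΨ (P := K.DD) (P' := K.flip.DD) (rg_DD_form K.flip) (rgW_cont K.flip)
      (fun u v hu hv => K.DD_adj hu.1 hv) (fun u hu => K.core_DD hu) (fun u hu => K.flip.tst_DD hu)
      hw2 (rgCut_contDiff R) (fun x => rgEta_nonneg _) (fun x => rgEta_le_one _) (rgCut_cs hR)
      (rgCut_act R) (fun x hx => rgCut_zero hR hx) (hC R hR) hδ he.le (hd2' δ hl2) hfm hu
  · refine rg_dual K hΨ (P := K.flip.DD) (P' := K.DD) (rg_DD_form K) (rgW_cont K)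
      (fun u v hu hv => ?_) (fun u hu => K.flip.core_DD hu) (fun u hu => K.tst_DD hu)
      hw1 (rgCut_contDiff R) (fun x => rgEta_nonneg _) (fun x => rgEta_le_one _) (rgCut_cs hR)
      (rgCut_act R) (fun x hx => rgCut_zero hR hx) (hC R hR) hδ he.le (hd1' δ hl1) hfm hu
    have h1 := K.DD_adj hv.1 hu
    have h2 : ∫ x, inner ℂ (K.flip.DD u x) (v x) =
        (starRingEnd ℂ) (∫ x, inner ℂ (v x) (K.flip.DD u x)) := by
      rw [← integral_conj]
      exact integral_congr_ae (Filter.Eventually.of_forall fun x => (rg_inner_conj _ _).symm)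
    have h3 : ∫ x, inner ℂ (u x) (K.DD v x) =
        (starRingEnd ℂ) (∫ x, inner ℂ (K.DD v x) (u x)) := by
      rw [← integral_conj]
      exact integral_congr_ae (Filter.Eventually.of_forall fun x => (rg_inner_conj _ _).symm)
    rw [h2, h3, h1, map_neg, neg_neg]

theorem Fk.exists_approx (K : Fk F) {Ψ : Lp F 2 (volume : Measure X3)} (h : K.WeakZM Ψ) :
    ∃ u : ℕ → X3 → F, (∀ n, K.Core (u n)) ∧
      Tendsto (fun n => ∫ x, ‖u n x - Ψ x‖ ^ 2) atTop (𝓝 0) ∧
      Tendsto (fun n => ∫ x, ‖K.DD (u n) x‖ ^ 2) atTop (𝓝 0) ∧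
      Tendsto (fun n => ∫ x, ‖K.flip.DD (u n) x‖ ^ 2) atTop (𝓝 0) := by
  obtain ⟨hcov, hw1, hw2⟩ := h
  have hΨ : MemLp (Ψ : X3 → F) 2 (volume : Measure X3) := Lp.memLp Ψ
  obtain ⟨C, hC0, hC⟩ := exists_rgCut_bound
  have hn : ∀ n : ℕ, (0 : ℝ) < n + 1 := fun n => by positivity
  have hk := fun n : ℕ => rg_key K hΨ hcov hw1 hw2 hC0 hC (hn n) (one_div_pos.2 (hn n))
  choose u hu1 hu2 hu3 hu4 using hk
  have hlim := tendsto_one_div_add_atTop_nhds_zero_nat (𝕜 := ℝ)
  have hq : ∀ a : ℝ, Tendsto (fun n : ℕ => (a * (C / ((n : ℝ) + 1)) + 1 / ((n : ℝ) + 1)) ^ 2 *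
      ∫ x, ‖Ψ x‖ ^ 2) atTop (𝓝 0) := by
    intro a
    have h1 : Tendsto (fun n : ℕ => ((a * C + 1) * (1 / ((n : ℝ) + 1))) ^ 2 *
        ∫ x, ‖Ψ x‖ ^ 2) atTop (𝓝 (((a * C + 1) * 0) ^ 2 * ∫ x, ‖Ψ x‖ ^ 2)) :=
      ((hlim.const_mul _).pow 2).mul_const _
    rw [mul_zero, zero_pow two_ne_zero, zero_mul] at h1
    refine h1.congr fun n => ?_
    have := (hn n).ne'
    field_simp
  refine ⟨u, hu1, ?_, ?_, ?_⟩
  · have hcutlim : Tendsto (fun n : ℕ => ∫ x, ‖rgCut ((n : ℝ) + 1) x • Ψ x - Ψ x‖ ^ 2) atTop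
        (𝓝 0) := by
      have h0 : (∫ _ : X3, (0 : ℝ)) = 0 := integral_zero _ _
      rw [← h0]
      refine tendsto_integral_of_dominated_convergence (fun x => ‖Ψ x‖ ^ 2) (fun n => ?_)
        (memLp_norm_sq_int hΨ) (fun n => Filter.Eventually.of_forall fun x => ?_)
        (Filter.Eventually.of_forall fun x => ?_)
      · exact ((((rgCut_contDiff _).continuous.aestronglyMeasurable.smul hΨ.1).sub hΨ.1).norm).pow 2
      · have e : rgCut ((n : ℝ) + 1) x • Ψ x - Ψ x = -((1 - rgCut ((n : ℝ) + 1) x) • Ψ x) := by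
          rw [sub_smul, one_smul]; abel
        have h1 : rgCut ((n : ℝ) + 1) x ≤ 1 := rgEta_le_one _
        have h2 : 0 ≤ rgCut ((n : ℝ) + 1) x := rgEta_nonneg _
        rw [e, norm_neg, norm_smul, Real.norm_of_nonneg (by positivity),
          Real.norm_of_nonneg (by linarith)]
        refine pow_le_pow_left₀ (mul_nonneg (by linarith) (norm_nonneg _)) ?_ 2
        exact mul_le_of_le_one_left (norm_nonneg _) (by linarith)
      · refine tendsto_const_nhds.congr' ?_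
        obtain ⟨N, hN⟩ := exists_nat_ge ‖x‖
        filter_upwards [eventually_ge_atTop N] with n hnN
        have h3 : ‖x‖ ≤ (n : ℝ) + 1 := by
          have : (N : ℝ) ≤ n := by exact_mod_cast hnN
          linarith
        rw [rgCut_one (hn n) h3, one_smul, sub_self, norm_zero]
        norm_num
    have h4 : Tendsto (fun n : ℕ => 2 * (1 / ((n : ℝ) + 1)) +
        2 * ∫ x, ‖rgCut ((n : ℝ) + 1) x • Ψ x - Ψ x‖ ^ 2) atTop (𝓝 0) := by
      simpa using (hlim.const_mul 2).add (hcutlim.const_mul 2)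
    exact squeeze_zero (fun n => integral_nonneg fun x => by positivity) hu2 h4
  · exact squeeze_zero (fun n => integral_nonneg fun x => by positivity) hu3 (hq _)
  · exact squeeze_zero (fun n => integral_nonneg fun x => by positivity) hu4 (hq _)

end

section

variable {F : Type*} [NormedAddCommGroup F] [InnerProductSpace ℂ F] [FiniteDimensional ℂ F]

/-! ### zero-energy states from approximations -/

omit [FiniteDimensional ℂ F] in
private theorem rg_form_ofReal (M : Model 2 3 F) (u : X3 → F) :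
    M.form u u = (((M.form u u).re : ℝ) : ℂ) := by
  rw [form_eq]
  have h : ∀ α, ∫ x, inner ℂ ((M.toSetup).Q α u x) ((M.toSetup).Q α u x) =
      ((∫ x, ‖(M.toSetup).Q α u x‖ ^ 2 : ℝ) : ℂ) := by
    intro α
    rw [← integral_complex_ofReal]
    exact integral_congr_ae (Filter.Eventually.of_forall fun x => inner_self_C _)
  simp only [h]
  rw [← Complex.ofReal_sum]
  have e : (1 / 16 : ℂ) = ((1 / 16 : ℝ) : ℂ) := by norm_num
  rw [e, ← Complex.ofReal_mul, Complex.ofReal_re]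

omit [FiniteDimensional ℂ F] in
private theorem rg_DD_sub (K : Fk F) {u v : X3 → F} {x : X3} (hu : DifferentiableAt ℝ u x)
    (hv : DifferentiableAt ℝ v x) : K.DD (u - v) x = K.DD u x - K.DD v x := by
  have h : ∀ i A, pd i A (u - v) x = pd i A u x - pd i A v x := fun i A => pd_sub hu hv
  simp only [Fk.DD, Fk.D0, Fk.dd, h, Pi.sub_apply, map_sub, smul_sub, Finset.sum_sub_distrib,
    map_add, map_smul, Finset.sum_add_distrib]
  abel

omit [InnerProductSpace ℂ F] [FiniteDimensional ℂ F] in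
private theorem rg_sq_sub (a b : F) : ‖a - b‖ ^ 2 ≤ 2 * ‖a‖ ^ 2 + 2 * ‖b‖ ^ 2 := by
  have h1 := norm_sub_le a b
  have h2 := norm_nonneg (a - b)
  nlinarith [sq_nonneg (‖a‖ - ‖b‖), norm_nonneg a, norm_nonneg b]

theorem Link.zes_of_approx {M : Model 2 3 F} {s : Spin M.γ} {K : Fk F} (L : Link M s K)
    {Ψ : Lp F 2 (volume : Measure X3)} {u : ℕ → X3 → F} (hu : ∀ n, K.Core (u n))
    (h1 : Tendsto (fun n => ∫ x, ‖u n x - Ψ x‖ ^ 2) atTop (𝓝 0))
    (h2 : Tendsto (fun n => ∫ x, ‖K.DD (u n) x‖ ^ 2) atTop (𝓝 0))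
    (h3 : Tendsto (fun n => ∫ x, ‖K.flip.DD (u n) x‖ ^ 2) atTop (𝓝 0)) :
    M.IsZeroEnergyState Ψ := by
  have hT : ∀ n, Setup.Tst (u n) := fun n => ⟨(hu n).1, (hu n).2.1⟩
  have hE : Tendsto (fun n => (M.form (u n) (u n)).re) atTop (𝓝 0) := by
    have h4 := (h2.add h3).const_mul (1 / 2 : ℝ)
    rw [add_zero, mul_zero] at h4
    exact h4.congr fun n => (L.form_eq (hT n)).symm
  refine ⟨u, fun n => (L.core_iff (u n)).2 (hu n), h1, ?_, ?_⟩
  · -- Cauchy
    have hb : ∀ p : ℕ × ℕ, ‖M.form (u p.1 - u p.2) (u p.1 - u p.2)‖ ≤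
        2 * (M.form (u p.1) (u p.1)).re + 2 * (M.form (u p.2) (u p.2)).re := by
      intro p
      have hsub : Setup.Tst (u p.1 - u p.2) := (hT p.1).sub (hT p.2)
      rw [rg_form_ofReal, Complex.norm_real, Real.norm_of_nonneg (form_self_nonneg M _),
        L.form_eq hsub, L.form_eq (hT p.1), L.form_eq (hT p.2)]
      have hk : ∀ K' : Fk F, ∫ x, ‖K'.DD (u p.1 - u p.2) x‖ ^ 2 ≤
          2 * (∫ x, ‖K'.DD (u p.1) x‖ ^ 2) + 2 * ∫ x, ‖K'.DD (u p.2) x‖ ^ 2 := by
        intro K'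
        have i1 := (K'.tst_DD (hT p.1)).norm_sq_int
        have i2 := (K'.tst_DD (hT p.2)).norm_sq_int
        have i3 := (K'.tst_DD hsub).norm_sq_int
        rw [← integral_const_mul, ← integral_const_mul, ← integral_add (i1.const_mul 2)
          (i2.const_mul 2)]
        refine integral_mono i3 ((i1.const_mul 2).add (i2.const_mul 2)) fun x => ?_
        simp only
        rw [rg_DD_sub K' ((hT p.1).diff x) ((hT p.2).diff x)]
        exact rg_sq_sub _ _
      have a1 := hk K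
      have a2 := hk K.flip
      linarith
    have hlim : Tendsto (fun p : ℕ × ℕ => 2 * (M.form (u p.1) (u p.1)).re +
        2 * (M.form (u p.2) (u p.2)).re) atTop (𝓝 0) := by
      have h5 : Tendsto (fun p : ℕ × ℕ => (M.form (u p.1) (u p.1)).re) atTop (𝓝 0) := by
        rw [← prod_atTop_atTop_eq]
        exact hE.comp tendsto_fst
      have h6 : Tendsto (fun p : ℕ × ℕ => (M.form (u p.2) (u p.2)).re) atTop (𝓝 0) := by
        rw [← prod_atTop_atTop_eq]
        exact hE.comp tendsto_snd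
      simpa using (h5.const_mul 2).add (h6.const_mul 2)
    exact squeeze_zero_norm hb hlim
  · intro φ hφ
    have hφT : Setup.Tst φ := ⟨hφ.1, hφ.2.1⟩
    have hb : ∀ n, ‖M.form φ (u n)‖ ≤ (1 / 16 : ℝ) * ∑ α,
        Real.sqrt (∫ x, ‖(M.toSetup).Q α φ x‖ ^ 2) *
          Real.sqrt (∫ x, ‖(M.toSetup).Q α (u n) x‖ ^ 2) := by
      intro n
      rw [_root_.Vale.Agent.P353.form_eq, norm_mul]
      have e : ‖(1 / 16 : ℂ)‖ = 1 / 16 := by norm_num
      rw [e]
      refine mul_le_mul_of_nonneg_left ((norm_sum_le _ _).trans (Finset.sum_le_sum fun α _ => ?_))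
        (by norm_num)
      exact cs_inner (hφT.Q _ α).memLp ((hT n).Q _ α).memLp
    have hz : ∀ α, Tendsto (fun n => ∫ x, ‖(M.toSetup).Q α (u n) x‖ ^ 2) atTop (𝓝 0) := by
      intro α
      have h16 : Tendsto (fun n => 16 * (M.form (u n) (u n)).re) atTop (𝓝 0) := by
        simpa using hE.const_mul 16
      refine squeeze_zero (fun n => integral_nonneg fun x => by positivity) (fun n => ?_) h16
      rw [form_self_re]
      have h1 : ∫ x, ‖(M.toSetup).Q α (u n) x‖ ^ 2 ≤ ∑ α, ∫ x, ‖(M.toSetup).Q α (u n) x‖ ^ 2 :=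
        Finset.single_le_sum (f := fun α => ∫ x, ‖(M.toSetup).Q α (u n) x‖ ^ 2)
          (fun α _ => integral_nonneg fun x => by positivity) (Finset.mem_univ α)
      linarith
    refine squeeze_zero_norm hb ?_
    have hs : ∀ α, Tendsto (fun n => Real.sqrt (∫ x, ‖(M.toSetup).Q α φ x‖ ^ 2) *
          Real.sqrt (∫ x, ‖(M.toSetup).Q α (u n) x‖ ^ 2)) atTop (𝓝 0) := by
      intro α
      have h7 := (Real.continuous_sqrt.tendsto 0).comp (hz α)
      rw [Real.sqrt_zero] at h7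
      simpa using h7.const_mul (Real.sqrt (∫ x, ‖(M.toSetup).Q α φ x‖ ^ 2))
    have h8 := (tendsto_finsetSum Finset.univ fun α _ => hs α).const_mul (1 / 16 : ℝ)
    simpa using h8

end

end Vale.Agent.P353.Ex
end

section

/-! # P353, uniqueness: A4, the commutator of `H_m` with the supercharges -/

open MeasureTheory Filter Topology
open scoped ContDiff Matrix

namespace Vale.Agent.P353.U

variable {F : Type*} [NormedAddCommGroup F] [InnerProductSpace ℂ F] (S : Setup F)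

namespace A4

lemma contDiff_MM (β : Fin 16) : ContDiff ℝ ∞ (S.MM β) := by
  unfold Setup.MM
  refine ContDiff.sum fun i _ => ContDiff.sum fun A _ => ?_
  exact (Setup.contDiff_ofReal (contDiff_const.mul (Setup.contDiff_coord _))).smul contDiff_const

lemma contDiff_Qm (m : ℝ) (β : Fin 16) {u : X3 → F} (hu : ContDiff ℝ ∞ u) :
    ContDiff ℝ ∞ (S.Qm m β u) := by
  unfold Setup.Qm
  exact (S.contDiff_Q β hu).add (contDiff_const.smul
    (Setup.contDiff_clm_apply' (contDiff_MM S β) hu))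

lemma contDiff_G (C : Fin 3) {u : X3 → F} (hu : ContDiff ℝ ∞ u) : ContDiff ℝ ∞ (S.G C u) := by
  unfold Setup.G
  refine ContDiff.add (contDiff_const.smul (ContDiff.sum fun i _ => ContDiff.sum fun A _ =>
    ContDiff.sum fun B _ => ?_)) (Setup.contDiff_clm_apply' contDiff_const hu)
  exact (contDiff_const.mul (Setup.contDiff_ofReal (Setup.contDiff_coord _))).smul
    (contDiff_pd hu)

lemma diff {u : X3 → F} (hu : ContDiff ℝ ∞ u) (x : X3) : DifferentiableAt ℝ u x :=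
  hu.differentiable (by simp) x

lemma Qm_add (m : ℝ) (β : Fin 16) {u v : X3 → F} (hu : ContDiff ℝ ∞ u) (hv : ContDiff ℝ ∞ v)
    (x : X3) : S.Qm m β (fun y => u y + v y) x = S.Qm m β u x + S.Qm m β v x := by
  simp only [Setup.Qm, S.Q_add (diff hu x) (diff hv x), map_add, smul_add]
  abel

lemma Qm_sub (m : ℝ) (β : Fin 16) {u v : X3 → F} (hu : ContDiff ℝ ∞ u) (hv : ContDiff ℝ ∞ v)
    (x : X3) : S.Qm m β (fun y => u y - v y) x = S.Qm m β u x - S.Qm m β v x := by
  simp only [Setup.Qm, S.Q_sub (diff hu x) (diff hv x), map_sub, smul_sub]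
  abel

lemma Qm_cs (m : ℝ) (β : Fin 16) (c : ℂ) {u : X3 → F} (hu : ContDiff ℝ ∞ u) (x : X3) :
    S.Qm m β (fun y => c • u y) x = c • S.Qm m β u x := by
  simp only [Setup.Qm, S.Q_cs c (diff hu x), map_smul, smul_add, smul_comm c]

lemma Qm_zero (m : ℝ) (β : Fin 16) (x : X3) : S.Qm m β (fun _ => (0 : F)) x = 0 := by
  have h := Qm_cs S m β 0 (u := fun _ => (0 : F)) contDiff_const x
  simpa using h

lemma Qm_sum {ι : Type*} (s : Finset ι) (m : ℝ) (β : Fin 16) (u : ι → X3 → F)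
    (hu : ∀ i ∈ s, ContDiff ℝ ∞ (u i)) (x : X3) :
    S.Qm m β (fun y => ∑ i ∈ s, u i y) x = ∑ i ∈ s, S.Qm m β (u i) x := by
  classical
  induction s using Finset.induction_on with
  | empty => simpa using Qm_zero S m β x
  | insert i s hi ih =>
    have h1 : ∀ i ∈ s, ContDiff ℝ ∞ (u i) := fun j hj => hu j (Finset.mem_insert_of_mem hj)
    have h2 : (fun y => ∑ j ∈ insert i s, u j y) = fun y => u i y + ∑ j ∈ s, u j y := by
      funext y
      rw [Finset.sum_insert hi]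
    rw [h2, Qm_add S m β (hu i (Finset.mem_insert_self i s)) (ContDiff.sum h1), ih h1,
      Finset.sum_insert hi]

lemma Qm_coord (m : ℝ) (β : Fin 16) (j : Fin 9) (C : Fin 3) {u : X3 → F} (hu : ContDiff ℝ ∞ u)
    (x : X3) : S.Qm m β (fun y => (y (j, C) : ℂ) • u y) x = (x (j, C) : ℂ) • S.Qm m β u x -
      Complex.I • S.vec (S.g j) C β (u x) := by
  have h1 := Q_smul S β (fun y : X3 => y (j, C)) u x
    ((Setup.contDiff_coord (j, C)).differentiable (by simp) x) (diff hu x)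
  have h2 : ∀ i A, pdr i A (fun y : X3 => y (j, C)) x = if i = j ∧ A = C then 1 else 0 := by
    intro i A
    unfold pdr
    rw [(Setup.hasFDerivAt_coord (j, C) x).fderiv]
    simp [Prod.ext_iff, eq_comm]
  have h3 : ∑ i, ∑ A, ((pdr i A (fun y : X3 => y (j, C)) x : ℝ) : ℂ) •
      S.vec (S.g i) A β (u x) = S.vec (S.g j) C β (u x) := by
    rw [Finset.sum_eq_single j, Finset.sum_eq_single C]
    · rw [h2]; simp
    · intro A _ hA
      rw [h2]; simp [hA]
    · simp
    · intro i _ hi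
      refine Finset.sum_eq_zero fun A _ => ?_
      rw [h2]; simp [hi]
    · simp
  rw [h3] at h1
  simp only [Setup.Qm, h1, map_smul, smul_add, smul_comm ((x (j, C) : ℝ) : ℂ)]
  abel

lemma rc_zero {i j : Fin 9} (h : ¬ (i.val < 3 ↔ j.val < 3)) : rc i j = 0 := by
  unfold rc
  rw [if_neg (by omega), if_neg (by omega)]

lemma sum_rc : ∑ i : Fin 9, ∑ j : Fin 9, (if i = j then (0 : ℂ) else (rc i j : ℂ)) = -18 := by
  have h : ∀ i j : Fin 9, (if i = j then (0 : ℂ) else (rc i j : ℂ)) =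
      (((if i = j then 0 else if i.val < 3 ∧ j.val < 3 then 2 else
        if 3 ≤ i.val ∧ 3 ≤ j.val then -1 else 0 : ℤ) : ℤ) : ℂ) := by
    intro i j
    unfold rc
    split_ifs <;> norm_num
  simp only [h]
  rw [show ((-18 : ℂ)) = (((-18 : ℤ)) : ℂ) by norm_num]
  simp only [← Int.cast_sum]
  congr 1

/-- the matrix identity behind the rotation terms -/
lemma mat_id (i j : Fin 9) : (rc i j : ℂ) • ((S.Gam * S.g2 i j)ᵀ * S.g2 i j) =
    (if i = j then (0 : ℂ) else (rc i j : ℂ)) • (-S.Gam) := by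
  by_cases hij : i = j
  · subst hij
    have h0 : S.g2 i i = 0 := by simp [CS.g2]
    rw [h0, if_pos rfl, Matrix.mul_zero, smul_zero, zero_smul]
  · rw [if_neg hij]
    by_cases hs : (i.val < 3 ↔ j.val < 3)
    · congr 1
      have hS : Same i j := ⟨hij, hs⟩
      rw [Matrix.transpose_mul, S.g2_transpose', S.Gam_transpose, Matrix.neg_mul, Matrix.mul_neg,
        neg_neg, S.Gam_comm_g2 hS, Matrix.mul_assoc, S.g2_sq hij, Matrix.mul_neg, Matrix.mul_one]
    · rw [rc_zero hs]; simp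

end A4

open A4

/-- **A4** `[H_m, Q_α] = -(im/2)(ΓQ)_α - iκ∑_C θ_α^C G_C`. -/
theorem a4 (h1 : A1Stmt S) (h2 : A2Stmt S) (h3 : A3Stmt S) (h7 : A7Stmt S) : A4Stmt S := by
  intro m a u hu x
  -- smoothness
  have sQ : ∀ β {v : X3 → F}, ContDiff ℝ ∞ v → ContDiff ℝ ∞ (S.Qm m β v) :=
    fun β v hv => contDiff_Qm S m β hv
  have sH : ContDiff ℝ ∞ (S.Hm m u) := by
    have e : S.Hm m u = fun y => (1 / 16 : ℂ) • ∑ β, S.Qm m β (S.Qm m β u) y := by
      funext y
      rw [h7 m u hu y, smul_smul]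
      norm_num
    rw [e]
    exact contDiff_const.smul (ContDiff.sum fun β _ => sQ β (sQ β hu))
  -- the operator `A_β = {Q_β, Q_a}`
  set A : Fin 16 → (X3 → F) → X3 → F := fun β v y =>
    (if β = a then (2 : ℂ) • S.Hm m v y else 0) +
    (m : ℂ) • (∑ i, ∑ j, ((rc i j : ℂ) * (S.Gam * S.g2 i j) β a) • S.J i j v y) +
    (2 * S.κ : ℂ) • ∑ j, ∑ C, (S.g j β a * (y (j, C) : ℂ)) • S.G C v y with hA
  have hAe : ∀ β {v : X3 → F}, ContDiff ℝ ∞ v → ∀ y,
      S.Qm m β (S.Qm m a v) y + S.Qm m a (S.Qm m β v) y = A β v y :=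
    fun β v hv y => h1 m β a v hv y
  have hAs : ∀ β, ContDiff ℝ ∞ (A β u) := by
    intro β
    have e : A β u = fun y => S.Qm m β (S.Qm m a u) y + S.Qm m a (S.Qm m β u) y := by
      funext y
      exact (hAe β hu y).symm
    rw [e]
    exact (sQ β (sQ a hu)).add (sQ a (sQ β hu))
  have key : ∀ β, S.Qm m β (S.Qm m β (S.Qm m a u)) x - S.Qm m a (S.Qm m β (S.Qm m β u)) x =
      S.Qm m β (A β u) x - A β (S.Qm m β u) x := by
    intro β
    have e1 : S.Qm m β (S.Qm m a u) = fun y => A β u y - S.Qm m a (S.Qm m β u) y := by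
      funext y
      rw [← hAe β hu y]
      abel
    have e2 : S.Qm m β (S.Qm m β (S.Qm m a u)) x = S.Qm m β (A β u) x -
        S.Qm m β (S.Qm m a (S.Qm m β u)) x := by
      rw [e1, Qm_sub S m β (hAs β) (sQ a (sQ β hu))]
    rw [e2, ← hAe β (sQ β hu) x]
    abel
  -- evaluation of the right side
  have term : ∀ β, S.Qm m β (A β u) x - A β (S.Qm m β u) x =
      (if β = a then (2 : ℂ) • (S.Qm m a (S.Hm m u) x - S.Hm m (S.Qm m a u) x) else 0) +
      (m : ℂ) • (∑ i, ∑ j, ((rc i j : ℂ) * (S.Gam * S.g2 i j) β a) •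
        (-(Complex.I / 2) • ∑ γ, S.g2 i j β γ • S.Qm m γ u x)) +
      (2 * S.κ : ℂ) • ∑ j, ∑ C, S.g j β a • (-(Complex.I • S.vec (S.g j) C β (S.G C u x))) := by
    intro β
    have c1 : ContDiff ℝ ∞ (fun y => (if β = a then (2 : ℂ) • S.Hm m u y else 0)) := by
      split_ifs
      · exact contDiff_const.smul sH
      · exact contDiff_const
    have c2 : ∀ i j, ContDiff ℝ ∞ (fun y => ((rc i j : ℂ) * (S.Gam * S.g2 i j) β a) •
        S.J i j u y) := fun i j => contDiff_const.smul (S.contDiff_J i j hu)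
    have c3 : ∀ j C, ContDiff ℝ ∞ (fun y : X3 => (S.g j β a * (y (j, C) : ℂ)) • S.G C u y) :=
      fun j C => (contDiff_const.mul (Setup.contDiff_ofReal (Setup.contDiff_coord _))).smul
        (contDiff_G S C hu)
    have q1 : S.Qm m β (fun y => (if β = a then (2 : ℂ) • S.Hm m u y else 0)) x =
        if β = a then (2 : ℂ) • S.Qm m a (S.Hm m u) x else 0 := by
      by_cases hβ : β = a
      · simp only [if_pos hβ]
        rw [Qm_cs S m β 2 sH, hβ]
      · simp only [if_neg hβ]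
        exact Qm_zero S m β x
    have q2 : S.Qm m β (fun y => (m : ℂ) • (∑ i, ∑ j, ((rc i j : ℂ) *
        (S.Gam * S.g2 i j) β a) • S.J i j u y)) x =
        (m : ℂ) • (∑ i, ∑ j, ((rc i j : ℂ) * (S.Gam * S.g2 i j) β a) •
          S.Qm m β (S.J i j u) x) := by
      rw [Qm_cs S m β _ (ContDiff.sum fun i _ => ContDiff.sum fun j _ => c2 i j),
        Qm_sum S _ m β _ (fun i _ => ContDiff.sum fun j _ => c2 i j)]
      congr 1
      refine Finset.sum_congr rfl fun i _ => ?_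
      rw [Qm_sum S _ m β _ (fun j _ => c2 i j)]
      refine Finset.sum_congr rfl fun j _ => ?_
      rw [Qm_cs S m β _ (S.contDiff_J i j hu)]
    have q3 : S.Qm m β (fun y => (2 * S.κ : ℂ) • ∑ j, ∑ C,
        (S.g j β a * (y (j, C) : ℂ)) • S.G C u y) x =
        (2 * S.κ : ℂ) • ∑ j, ∑ C, S.g j β a • ((x (j, C) : ℂ) • S.Qm m β (S.G C u) x -
          Complex.I • S.vec (S.g j) C β (S.G C u x)) := by
      rw [Qm_cs S m β _ (ContDiff.sum fun j _ => ContDiff.sum fun C _ => c3 j C),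
        Qm_sum S _ m β _ (fun j _ => ContDiff.sum fun C _ => c3 j C)]
      congr 1
      refine Finset.sum_congr rfl fun j _ => ?_
      rw [Qm_sum S _ m β _ (fun C _ => c3 j C)]
      refine Finset.sum_congr rfl fun C _ => ?_
      have e : (fun y : X3 => (S.g j β a * (y (j, C) : ℂ)) • S.G C u y) =
          fun y => S.g j β a • ((y (j, C) : ℂ) • S.G C u y) := by
        funext y
        rw [smul_smul]
      have sC : ContDiff ℝ ∞ (fun y : X3 => (y (j, C) : ℂ) • S.G C u y) :=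
        (Setup.contDiff_ofReal (Setup.contDiff_coord _)).smul (contDiff_G S C hu)
      rw [e]
      exact (Qm_cs S m β (S.g j β a) sC x).trans (by rw [Qm_coord S m β j C (contDiff_G S C hu)])
    have q4 : S.Qm m β (A β u) x =
        (if β = a then (2 : ℂ) • S.Qm m a (S.Hm m u) x else 0) +
        (m : ℂ) • (∑ i, ∑ j, ((rc i j : ℂ) * (S.Gam * S.g2 i j) β a) •
          S.Qm m β (S.J i j u) x) +
        (2 * S.κ : ℂ) • ∑ j, ∑ C, S.g j β a • ((x (j, C) : ℂ) • S.Qm m β (S.G C u) x -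
          Complex.I • S.vec (S.g j) C β (S.G C u x)) := by
      have d2 : ContDiff ℝ ∞ (fun y => (m : ℂ) • (∑ i, ∑ j, ((rc i j : ℂ) *
          (S.Gam * S.g2 i j) β a) • S.J i j u y)) :=
        contDiff_const.smul (ContDiff.sum fun i _ => ContDiff.sum fun j _ => c2 i j)
      have d3 : ContDiff ℝ ∞ (fun y : X3 => (2 * S.κ : ℂ) • ∑ j, ∑ C,
          (S.g j β a * (y (j, C) : ℂ)) • S.G C u y) :=
        contDiff_const.smul (ContDiff.sum fun j _ => ContDiff.sum fun C _ => c3 j C)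
      have w1 := Qm_add S m β (c1.add d2) d3 x
      rw [Qm_add S m β c1 d2 x, q1, q2, q3] at w1
      exact w1
    have r2 : ∀ i j, ((rc i j : ℂ) * (S.Gam * S.g2 i j) β a) • S.Qm m β (S.J i j u) x -
        ((rc i j : ℂ) * (S.Gam * S.g2 i j) β a) • S.J i j (S.Qm m β u) x =
        ((rc i j : ℂ) * (S.Gam * S.g2 i j) β a) •
          (-(Complex.I / 2) • ∑ γ, S.g2 i j β γ • S.Qm m γ u x) := by
      intro i j
      by_cases hs : Same i j
      · rw [← smul_sub, neg_smul, ← h2 m i j hs β u hu x, neg_sub]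
      · have hz : (rc i j : ℂ) * (S.Gam * S.g2 i j) β a = 0 := by
          by_cases hij : i = j
          · subst hij
            have h0 : S.g2 i i = 0 := by simp [CS.g2]
            rw [h0]; simp
          · rw [rc_zero (fun hh => hs ⟨hij, hh⟩)]; simp
        rw [hz]; simp
    have r3 : ∀ j C, S.g j β a • ((x (j, C) : ℂ) • S.Qm m β (S.G C u) x -
          Complex.I • S.vec (S.g j) C β (S.G C u x)) -
        (S.g j β a * (x (j, C) : ℂ)) • S.G C (S.Qm m β u) x =
        S.g j β a • (-(Complex.I • S.vec (S.g j) C β (S.G C u x))) := by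
      intro j C
      rw [h3 m C β u hu x, mul_smul, smul_sub, smul_neg]
      abel
    rw [q4]
    simp only [hA]
    rw [show ∀ p q r p' q' r' : F, p + q + r - (p' + q' + r') = (p - p') + (q - q') + (r - r') from
      fun p q r p' q' r' => by abel]
    rw [← smul_sub, ← smul_sub]
    simp only [← Finset.sum_sub_distrib, r2, r3]
    congr 2
    by_cases hβ : β = a
    · rw [if_pos hβ, if_pos hβ, if_pos hβ, smul_sub, hβ]
    · rw [if_neg hβ, if_neg hβ, if_neg hβ, sub_zero]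
  -- summation over `β`
  have hsum : (16 : ℂ) • (S.Hm m (S.Qm m a u) x - S.Qm m a (S.Hm m u) x) =
      ∑ β, (S.Qm m β (S.Qm m β (S.Qm m a u)) x - S.Qm m a (S.Qm m β (S.Qm m β u)) x) := by
    rw [Finset.sum_sub_distrib, h7 m (S.Qm m a u) (sQ a hu) x, smul_sub,
      ← Qm_cs S m a 16 sH, ← Qm_sum S _ m a _ (fun β _ => sQ β (sQ β hu))]
    congr 2
    funext y
    exact (h7 m u hu y).symm
  have t2 : ∑ β, (∑ i, ∑ j, ((rc i j : ℂ) * (S.Gam * S.g2 i j) β a) •
        (-(Complex.I / 2) • ∑ γ, S.g2 i j β γ • S.Qm m γ u x)) =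
      (-9 * Complex.I) • ∑ γ, S.Gam a γ • S.Qm m γ u x := by
    have e1 : ∀ i j, ∑ β, ((rc i j : ℂ) * (S.Gam * S.g2 i j) β a) •
        (-(Complex.I / 2) • ∑ γ, S.g2 i j β γ • S.Qm m γ u x) =
        (if i = j then (0 : ℂ) else (rc i j : ℂ)) • ((Complex.I / 2) •
          ∑ γ, S.Gam a γ • S.Qm m γ u x) := by
      intro i j
      have e2 : ∀ γ, ((rc i j : ℂ) • ((S.Gam * S.g2 i j)ᵀ * S.g2 i j)) a γ =
          ((if i = j then (0 : ℂ) else (rc i j : ℂ)) • (-S.Gam)) a γ := by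
        intro γ; rw [mat_id]
      simp only [Matrix.smul_apply, Matrix.mul_apply, Matrix.transpose_apply, Matrix.neg_apply,
        smul_eq_mul] at e2
      simp only [Finset.smul_sum, smul_smul]
      rw [Finset.sum_comm]
      refine Finset.sum_congr rfl fun γ _ => ?_
      rw [← Finset.sum_smul]
      congr 1
      have e3 := e2 γ
      simp only [Matrix.mul_apply] at e3 ⊢
      calc ∑ β, (rc i j : ℂ) * (∑ k, S.Gam β k * S.g2 i j k a) * (-(Complex.I / 2) * S.g2 i j β γ)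
          = -(Complex.I / 2) * ((rc i j : ℂ) * ∑ β, (∑ k, S.Gam β k * S.g2 i j k a) *
              S.g2 i j β γ) := by
            rw [Finset.mul_sum, Finset.mul_sum]
            refine Finset.sum_congr rfl fun β _ => ?_
            ring
        _ = _ := by
            rw [e3]; ring
    rw [Finset.sum_comm]
    have e4 : ∀ i, ∑ β, ∑ j, ((rc i j : ℂ) * (S.Gam * S.g2 i j) β a) •
        (-(Complex.I / 2) • ∑ γ, S.g2 i j β γ • S.Qm m γ u x) =
        ∑ j, (if i = j then (0 : ℂ) else (rc i j : ℂ)) • ((Complex.I / 2) •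
          ∑ γ, S.Gam a γ • S.Qm m γ u x) := by
      intro i
      rw [Finset.sum_comm]
      exact Finset.sum_congr rfl fun j _ => e1 i j
    rw [Finset.sum_congr rfl fun i _ => e4 i]
    simp only [← Finset.sum_smul]
    rw [sum_rc, smul_smul]
    congr 1
    ring
  have t3 : ∑ β, (∑ j, ∑ C, S.g j β a • (-(Complex.I • S.vec (S.g j) C β (S.G C u x)))) =
      (-9 * Complex.I) • ∑ C, S.th a C (S.G C u x) := by
    have e1 : ∀ j C, ∑ β, S.g j β a • (-(Complex.I • S.vec (S.g j) C β (S.G C u x))) =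
        (-Complex.I) • S.th a C (S.G C u x) := by
      intro j C
      have e2 := S.vec_mul (S.g j) (S.g j) C a
      rw [S.g_sqE, S.vec_one] at e2
      rw [e2]
      simp only [_root_.sum_apply, _root_.smul_apply, Finset.smul_sum]
      refine Finset.sum_congr rfl fun β _ => ?_
      have e3 : S.g j β a = S.g j a β := by
        conv_lhs => rw [← S.g_symm j]
        rfl
      rw [e3, smul_neg, neg_smul, smul_comm]
    rw [Finset.sum_comm]
    have e4 : ∀ j, ∑ β, ∑ C, S.g j β a • (-(Complex.I • S.vec (S.g j) C β (S.G C u x))) =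
        ∑ C, (-Complex.I) • S.th a C (S.G C u x) := by
      intro j
      rw [Finset.sum_comm]
      exact Finset.sum_congr rfl fun C _ => e1 j C
    rw [Finset.sum_congr rfl fun j _ => e4 j, ← Finset.smul_sum, Finset.sum_const,
      Finset.card_univ, Fintype.card_fin, ← Nat.cast_smul_eq_nsmul ℂ, smul_smul]
    congr 1
    push_cast
    ring
  have tot : (16 : ℂ) • (S.Hm m (S.Qm m a u) x - S.Qm m a (S.Hm m u) x) =
      (2 : ℂ) • (S.Qm m a (S.Hm m u) x - S.Hm m (S.Qm m a u) x) +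
      (m : ℂ) • ((-9 * Complex.I) • ∑ γ, S.Gam a γ • S.Qm m γ u x) +
      (2 * S.κ : ℂ) • ((-9 * Complex.I) • ∑ C, S.th a C (S.G C u x)) := by
    rw [hsum, Finset.sum_congr rfl fun β _ => (key β).trans (term β), Finset.sum_add_distrib,
      Finset.sum_add_distrib, Finset.sum_ite_eq' Finset.univ a, if_pos (Finset.mem_univ a),
      ← Finset.smul_sum, ← Finset.smul_sum, t2, t3]
  set D := S.Hm m (S.Qm m a u) x - S.Qm m a (S.Hm m u) x with hD
  have hD' : S.Qm m a (S.Hm m u) x - S.Hm m (S.Qm m a u) x = -D := by rw [hD]; abel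
  rw [hD'] at tot
  have h18 : (18 : ℂ) • D = (m : ℂ) • ((-9 * Complex.I) • ∑ γ, S.Gam a γ • S.Qm m γ u x) +
      (2 * S.κ : ℂ) • ((-9 * Complex.I) • ∑ C, S.th a C (S.G C u x)) := by
    have : (18 : ℂ) • D = (16 : ℂ) • D + (2 : ℂ) • D := by rw [← add_smul]; norm_num
    rw [this, tot, smul_neg]
    abel
  have hfin : D = (1 / 18 : ℂ) • ((18 : ℂ) • D) := by rw [smul_smul]; norm_num
  rw [hfin, h18, smul_add, smul_smul, smul_smul, smul_smul, smul_smul, sub_eq_add_neg, ← neg_smul]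
  congr 2 <;> ring

end Vale.Agent.P353.U
end
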