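import Mathlib
import Vale.Agent.P353.BdU.B4
import Vale.Agent.P353.BdU.B11
import Vale.Agent.P353.BdU.B12
import Vale.Agent.P353.BdZ.B6
import Vale.Agent.P353.BdU.B2

set_option linter.all false

section

/-! Task EX-20: reduction of the pairing to the top form coefficients `A3`, `A2`.

Adjoints of the factors of `K.flip.aT`: `(K.flip.eeT)† = K.eeT`, `(K.flip.rho)† = K.rho`,
`(K.flip.tau0)† = K.tau0`, `(K.flip.bet)† = -∏ (c_k^2 + f0 dκ_k)`, `conj (K.flip.ph 2) = K.ph 2`.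
So `G = 4 z̄ z² e^{-expo - expo'} ⟨vacb, E ρ (-∏db⁺) τ c_7^1 c_7^0 τ ∏db ρ E vac⟩`.  Even elements
commute; `∏db⁺ ∏db = -∏(db⁺_k db_k) = -(-2 f0)^7 ∏ (c_k^2 dκ_k)`; `ρ² = 1 + (4i/m) q' c_7^2 μ` and
the term without `c_7^2` does not contribute (if `Y` (anti)commutes with some `a_j` then
`⟨vacb, Y vac⟩ = ⟨a_j vacb, a_j Y vac⟩ = 0`, using `vacb = c_j a_j vacb`); `τ² = 4z² - (4z/m) ds ds̄`,
`E² = ∏(1 + (4i/m) q X_k Y_k)`, and by degree (again the same lemma, or: terms with too many or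
too few `X, Y` vanish) only `4z² (4iq/m)³ e_3 - (4z/m) ds ds̄ (4iq/m)² e_2`, `e_j = B^j/j!`,
contributes.  `m = f0`, `f0² = 2`, `q = g z̄`. -/

open MeasureTheory Filter Topology
open scoped ContDiff ComplexConjugate

namespace Vale.Agent.P353.Ex

variable {F : Type*} [NormedAddCommGroup F] [InnerProductSpace ℂ F]

/-! ### adjoint pairs -/

/-- `T'` is the adjoint of `T` -/
def PrAdj (T T' : F →L[ℂ] F) : Prop := ∀ v w, inner ℂ (T v) w = inner ℂ v (T' w)

theorem PrAdj.one : PrAdj (1 : F →L[ℂ] F) 1 := fun _ _ => rfl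

theorem PrAdj.mul {T T' S S' : F →L[ℂ] F} (h : PrAdj T T') (h' : PrAdj S S') :
    PrAdj (T * S) (S' * T') := fun v w => by
  rw [mul_apply_eq_comp, mul_apply_eq_comp, h, h']

theorem PrAdj.add {T T' S S' : F →L[ℂ] F} (h : PrAdj T T') (h' : PrAdj S S') :
    PrAdj (T + S) (T' + S') := fun v w => by
  rw [add_apply, add_apply, inner_add_left,
    inner_add_right, h, h']

theorem PrAdj.neg {T T' : F →L[ℂ] F} (h : PrAdj T T') : PrAdj (-T) (-T') := fun v w => by
  rw [neg_apply, neg_apply, inner_neg_left,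
    inner_neg_right, h]

theorem PrAdj.sub {T T' S S' : F →L[ℂ] F} (h : PrAdj T T') (h' : PrAdj S S') :
    PrAdj (T - S) (T' - S') := by
  rw [sub_eq_add_neg, sub_eq_add_neg]
  exact h.add h'.neg

theorem PrAdj.smul {T T' : F →L[ℂ] F} (h : PrAdj T T') (z : ℂ) :
    PrAdj (z • T) ((starRingEnd ℂ z) • T') := fun v w => by
  rw [smul_apply, smul_apply, inner_smul_left,
    inner_smul_right, h]

theorem PrAdj.sum {ι : Type*} (s : Finset ι) {T T' : ι → F →L[ℂ] F}
    (h : ∀ i, PrAdj (T i) (T' i)) : PrAdj (∑ i ∈ s, T i) (∑ i ∈ s, T' i) := by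
  classical
  induction s using Finset.induction_on with
  | empty =>
    intro v w
    simp
  | insert a s ha ih =>
    rw [Finset.sum_insert ha, Finset.sum_insert ha]
    exact (h a).add ih

theorem PrAdj.congr {T T' S' : F →L[ℂ] F} (h : PrAdj T T') (e : T' = S') : PrAdj T S' := e ▸ h

theorem PrAdj.ofFn {n : ℕ} {f g : Fin n → F →L[ℂ] F} (h : ∀ k, PrAdj (f k) (g k)) :
    PrAdj (List.ofFn f).prod ((List.ofFn g).reverse).prod := by
  induction n with
  | zero => simpa using PrAdj.one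
  | succ n ih =>
    rw [List.ofFn_succ, List.ofFn_succ, List.reverse_cons, List.prod_cons, List.prod_append,
      List.prod_singleton]
    exact (h 0).mul (ih fun k => h k.succ)

/-! ### list products -/

theorem pr_smul_ofFn {n : ℕ} (z : ℂ) (f : Fin n → F →L[ℂ] F) :
    (List.ofFn fun k => z • f k).prod = z ^ n • (List.ofFn f).prod := by
  induction n with
  | zero => simp
  | succ n ih =>
    rw [List.ofFn_succ, List.ofFn_succ, List.prod_cons, List.prod_cons, ih, smul_mul_smul_comm,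
      pow_succ']

/-- binomial formula for a square zero element -/
theorem pr_binom {R : Type*} [Ring R] [Algebra ℂ R] {p S : R} (h : p * p = 0)
    (hc : p * S = S * p) (j : ℕ) :
    (p + S) ^ (j + 1) = S ^ (j + 1) + ((j : ℂ) + 1) • (p * S ^ j) := by
  induction j with
  | zero => simp [add_comm]
  | succ j ih =>
    rw [pow_succ', ih]
    have e1 : p * (p * S ^ j) = 0 := by rw [← mul_assoc, h, zero_mul]
    have e2 : S * (p * S ^ j) = p * S ^ (j + 1) := by
      rw [← mul_assoc, ← hc, mul_assoc, ← pow_succ']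
    rw [add_mul, mul_add, mul_add, mul_smul_comm, mul_smul_comm, e1, e2, smul_zero, add_zero,
      ← pow_succ']
    push_cast
    rw [add_smul (((j : ℂ) + 1)) 1 (p * S ^ (j + 1)), one_smul]
    abel

/-- a product of `1 + p_k`, `p_k` commuting of square zero, is an exponential -/
theorem pr_exp {R : Type*} [Ring R] [Algebra ℂ R] {n : ℕ} (f : Fin n → R)
    (h : ∀ k, f k * f k = 0) (hc : ∀ k l, f k * f l = f l * f k) :
    (∑ k, f k) ^ (n + 1) = 0 ∧ (List.ofFn fun k => 1 + f k).prod =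
      ∑ j ∈ Finset.range (n + 1), ((j.factorial : ℂ)⁻¹) • (∑ k, f k) ^ j := by
  induction n with
  | zero => simp
  | succ n ih =>
    obtain ⟨ih1, ih2⟩ := ih (fun k => f k.succ) (fun k => h k.succ) (fun k l => hc k.succ l.succ)
    rw [List.ofFn_succ, List.prod_cons, ih2, Fin.sum_univ_succ]
    set S := ∑ k : Fin n, f k.succ with hS
    have hpS : f 0 * S = S * f 0 := by
      rw [hS, Finset.mul_sum, Finset.sum_mul]
      exact Finset.sum_congr rfl fun k _ => hc 0 k.succ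
    constructor
    · rw [pr_binom (h 0) hpS, pow_succ, ih1]
      simp
    · rw [Finset.sum_range_succ' _ (n + 1)]
      have e1 : ∀ j ∈ Finset.range (n + 1), (((j + 1).factorial : ℂ)⁻¹) • (f 0 + S) ^ (j + 1) =
          (((j + 1).factorial : ℂ)⁻¹) • S ^ (j + 1) + ((j.factorial : ℂ)⁻¹) • (f 0 * S ^ j) := by
        intro j _
        rw [pr_binom (h 0) hpS, smul_add, smul_smul]
        congr 2
        rw [Nat.factorial_succ]
        push_cast
        have h1 : ((j : ℂ) + 1) ≠ 0 := by exact_mod_cast Nat.succ_ne_zero j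
        have h2 : ((j.factorial : ℂ)) ≠ 0 := by exact_mod_cast Nat.factorial_ne_zero j
        field_simp
      rw [Finset.sum_congr rfl e1, Finset.sum_add_distrib, add_mul, one_mul]
      have e2 : ∑ j ∈ Finset.range (n + 1), ((j.factorial : ℂ)⁻¹) • (f 0 * S ^ j) =
          f 0 * ∑ j ∈ Finset.range (n + 1), ((j.factorial : ℂ)⁻¹) • S ^ j := by
        rw [Finset.mul_sum]
        exact Finset.sum_congr rfl fun j _ => (mul_smul_comm _ _ _).symm
      have e3 : ∑ j ∈ Finset.range (n + 1), (((j + 1).factorial : ℂ)⁻¹) • S ^ (j + 1) +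
          (((0 : ℕ).factorial : ℂ)⁻¹) • (f 0 + S) ^ 0 =
          ∑ j ∈ Finset.range (n + 1), ((j.factorial : ℂ)⁻¹) • S ^ j := by
        rw [Finset.sum_range_succ, ih1, smul_zero, add_zero, Finset.sum_range_succ' _ n]
        simp
      rw [e2, ← e3]
      abel

namespace Fk

variable (K : Fk F)

/-! ### odd and even elements -/

/-- the algebra generated by the creation operators -/
def prA : Subalgebra ℂ (F →L[ℂ] F) :=
  Algebra.adjoin ℂ (Set.range fun p : Fin 8 × Fin 3 => K.c p.1 p.2)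

/-- its commutant -/
def prZ : Subalgebra ℂ (F →L[ℂ] F) :=
  Subalgebra.centralizer ℂ (Set.range fun p : Fin 8 × Fin 3 => K.c p.1 p.2)

/-- the span of the creation operators -/
def prV : Submodule ℂ (F →L[ℂ] F) :=
  Submodule.span ℂ (Set.range fun p : Fin 8 × Fin 3 => K.c p.1 p.2)

theorem pr_cV (i : Fin 8) (A : Fin 3) : K.c i A ∈ K.prV :=
  Submodule.subset_span ⟨(i, A), rfl⟩

theorem pr_VA {u : F →L[ℂ] F} (hu : u ∈ K.prV) : u ∈ K.prA := by
  have h : K.prV ≤ Subalgebra.toSubmodule K.prA :=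
    Submodule.span_le.2 fun x hx => Algebra.subset_adjoin hx
  exact h hu

theorem pr_comm {T S : F →L[ℂ] F} (hT : T ∈ K.prZ) (hS : S ∈ K.prA) : T * S = S * T := by
  have h : K.prA ≤ Subalgebra.centralizer ℂ {T} := by
    refine Algebra.adjoin_le ?_
    rintro x hx
    rw [SetLike.mem_coe, Subalgebra.mem_centralizer_iff]
    rintro g rfl
    exact ((Subalgebra.mem_centralizer_iff ℂ).1 hT x hx).symm
  exact (Subalgebra.mem_centralizer_iff ℂ).1 (h hS) T rfl

theorem pr_anti {u v : F →L[ℂ] F} (hu : u ∈ K.prV) (hv : v ∈ K.prV) : u * v + v * u = 0 := by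
  induction hu using Submodule.span_induction with
  | mem x hx =>
    obtain ⟨p, rfl⟩ := hx
    induction hv using Submodule.span_induction with
    | mem y hy =>
      obtain ⟨r, rfl⟩ := hy
      exact K.cc _ _ _ _
    | zero => simp
    | add y z _ _ hy hz =>
      rw [mul_add, add_mul]
      calc _ = (K.c p.1 p.2 * y + y * K.c p.1 p.2) + (K.c p.1 p.2 * z + z * K.c p.1 p.2) := by abel
        _ = 0 := by rw [hy, hz, add_zero]
    | smul a y _ hy => rw [mul_smul_comm, smul_mul_assoc, ← smul_add, hy, smul_zero]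
  | zero => simp
  | add x y _ _ hx hy =>
    rw [add_mul, mul_add]
    calc _ = (x * v + v * x) + (y * v + v * y) := by abel
      _ = 0 := by rw [hx, hy, add_zero]
  | smul a x _ hx => rw [mul_smul_comm, smul_mul_assoc, ← smul_add, hx, smul_zero]

theorem pr_anti' {u v : F →L[ℂ] F} (hu : u ∈ K.prV) (hv : v ∈ K.prV) : u * v = -(v * u) :=
  eq_neg_of_add_eq_zero_left (K.pr_anti hu hv)

theorem pr_sq {u : F →L[ℂ] F} (hu : u ∈ K.prV) : u * u = 0 := by
  have h := K.pr_anti hu hu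
  rw [← two_smul ℂ] at h
  exact (smul_eq_zero.1 h).resolve_left two_ne_zero

theorem pr_mulZ {u v : F →L[ℂ] F} (hu : u ∈ K.prV) (hv : v ∈ K.prV) : u * v ∈ K.prZ := by
  refine (Subalgebra.mem_centralizer_iff ℂ).2 ?_
  rintro _ ⟨p, rfl⟩
  have h1 := K.pr_anti' (K.pr_cV p.1 p.2) hu
  have h2 := K.pr_anti' (K.pr_cV p.1 p.2) hv
  show K.c p.1 p.2 * (u * v) = u * v * K.c p.1 p.2
  rw [← mul_assoc, h1, neg_mul, mul_assoc, h2, mul_neg, neg_neg, mul_assoc]

theorem pr_mulA {u v : F →L[ℂ] F} (hu : u ∈ K.prV) (hv : v ∈ K.prV) : u * v ∈ K.prA :=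
  K.prA.mul_mem (K.pr_VA hu) (K.pr_VA hv)

theorem pr_listA {n : ℕ} {f : Fin n → F →L[ℂ] F} (h : ∀ k, f k ∈ K.prA) :
    (List.ofFn f).prod ∈ K.prA := by
  refine list_prod_mem fun x hx => ?_
  obtain ⟨k, rfl⟩ := (List.mem_ofFn' f x).1 hx
  exact h k

theorem pr_listZ {n : ℕ} {f : Fin n → F →L[ℂ] F} (h : ∀ k, f k ∈ K.prZ) :
    (List.ofFn f).prod ∈ K.prZ := by
  refine list_prod_mem fun x hx => ?_
  obtain ⟨k, rfl⟩ := (List.mem_ofFn' f x).1 hx
  exact h k

theorem pr_listA' {n : ℕ} {f : Fin n → F →L[ℂ] F} (h : ∀ k, f k ∈ K.prA) :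
    ((List.ofFn f).reverse).prod ∈ K.prA := by
  refine list_prod_mem fun x hx => ?_
  obtain ⟨k, rfl⟩ := (List.mem_ofFn' f x).1 (List.mem_reverse.1 hx)
  exact h k

theorem pr_listZ' {n : ℕ} {f : Fin n → F →L[ℂ] F} (h : ∀ k, f k ∈ K.prZ) :
    ((List.ofFn f).reverse).prod ∈ K.prZ := by
  refine list_prod_mem fun x hx => ?_
  obtain ⟨k, rfl⟩ := (List.mem_ofFn' f x).1 (List.mem_reverse.1 hx)
  exact h k

theorem pr_zip {n : ℕ} {f g : Fin n → F →L[ℂ] F} (hf : ∀ k, f k ∈ K.prA)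
    (hg : ∀ k, g k ∈ K.prA) (h : ∀ k, f k * g k ∈ K.prZ) :
    ((List.ofFn f).reverse).prod * (List.ofFn g).prod = (List.ofFn fun k => f k * g k).prod := by
  induction n with
  | zero => simp
  | succ n ih =>
    have ih' := ih (f := fun k => f k.succ) (g := fun k => g k.succ) (fun k => hf _)
      (fun k => hg _) (fun k => h _)
    rw [List.ofFn_succ, List.ofFn_succ (f := g), List.ofFn_succ (f := fun k => f k * g k),
      List.reverse_cons, List.prod_append, List.prod_singleton, List.prod_cons, List.prod_cons,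
      ← ih']
    have hc := K.pr_comm (h 0) (K.pr_listA' (f := fun k => f k.succ) fun k => hf _)
    rw [mul_assoc, ← mul_assoc (f 0) (g 0), ← mul_assoc, ← hc, mul_assoc]

/-! ### number operators -/

/-- number operator of the modes in `S` -/
noncomputable def prN (S : Finset (Fin 8 × Fin 3)) : F →L[ℂ] F :=
  ∑ p ∈ S, K.c p.1 p.2 * K.a p.1 p.2

theorem pr_N_c (S : Finset (Fin 8 × Fin 3)) (i : Fin 8) (A : Fin 3) :
    K.prN S * K.c i A = K.c i A * K.prN S + (if (i, A) ∈ S then 1 else 0 : ℂ) • K.c i A := by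
  have h : ∀ p : Fin 8 × Fin 3, K.c p.1 p.2 * K.a p.1 p.2 * K.c i A =
      K.c i A * (K.c p.1 p.2 * K.a p.1 p.2) + if p = (i, A) then K.c i A else 0 := by
    intro p
    have h1 := K.ac p.1 p.2 i A
    have h2 := K.cc i A p.1 p.2
    have h3 : K.a p.1 p.2 * K.c i A = (if p.1 = i ∧ p.2 = A then 1 else 0) -
        K.c i A * K.a p.1 p.2 := by rw [← h1]; abel
    have h4 : K.c p.1 p.2 * K.c i A = - (K.c i A * K.c p.1 p.2) := by
      rw [eq_neg_iff_add_eq_zero, add_comm]; exact h2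
    rw [mul_assoc, h3, mul_sub, ← mul_assoc (K.c p.1 p.2) (K.c i A), h4]
    by_cases hp : p = (i, A)
    · rw [if_pos hp, if_pos (by rw [hp]; exact ⟨rfl, rfl⟩), hp]
      simp only [mul_one, neg_mul, sub_neg_eq_add, mul_assoc]
      abel
    · rw [if_neg hp, if_neg (fun hh => hp (Prod.ext hh.1 hh.2))]
      simp only [mul_zero, neg_mul, sub_neg_eq_add, mul_assoc, zero_add, add_zero]
  unfold prN
  rw [Finset.sum_mul, Finset.mul_sum, Finset.sum_congr rfl fun p _ => h p,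
    Finset.sum_add_distrib]
  congr 1
  rw [Finset.sum_ite_eq']
  split_ifs <;> simp

theorem pr_N_vac (S : Finset (Fin 8 × Fin 3)) : K.prN S K.vac = 0 := by
  unfold prN
  rw [sum_apply]
  refine Finset.sum_eq_zero fun p _ => ?_
  rw [mul_apply_eq_comp, K.a_vac, map_zero]

theorem pr_N_vacb (S : Finset (Fin 8 × Fin 3)) : K.prN S K.vacb = (S.card : ℂ) • K.vacb := by
  unfold prN
  rw [sum_apply]
  have h : ∀ p ∈ S, (K.c p.1 p.2 * K.a p.1 p.2) K.vacb = K.vacb := by
    intro p _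
    have h1 := congrArg (fun T : F →L[ℂ] F => T K.vacb) (K.ac p.1 p.2 p.1 p.2)
    simp only [add_apply, mul_apply_eq_comp, K.c_vacb,
      map_zero, zero_add, and_self, if_true] at h1
    rw [mul_apply_eq_comp, h1]
    rfl
  rw [Finset.sum_congr rfl h, Finset.sum_const, ← Nat.cast_smul_eq_nsmul ℂ]

theorem pr_N_adj (S : Finset (Fin 8 × Fin 3)) (v w : F) :
    inner ℂ (K.prN S v) w = inner ℂ v (K.prN S w) := by
  have h : PrAdj (K.prN S) (K.prN S) := by
    unfold prN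
    refine PrAdj.sum S fun p => ?_
    have h1 : PrAdj (K.c p.1 p.2) (K.a p.1 p.2) := fun v w => K.adj _ _ v w
    have h2 : PrAdj (K.a p.1 p.2) (K.c p.1 p.2) := fun v w => K.flip.adj _ _ v w
    exact h1.mul h2
  exact h v w

/-- `Y` has degree `d` in the modes of `S` -/
def PrD (S : Finset (Fin 8 × Fin 3)) (d : ℂ) (Y : F →L[ℂ] F) : Prop :=
  K.prN S * Y = Y * K.prN S + d • Y

variable {K} {S : Finset (Fin 8 × Fin 3)}

theorem PrD.c1 {i : Fin 8} {A : Fin 3} (h : (i, A) ∈ S) : K.PrD S 1 (K.c i A) := by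
  have := K.pr_N_c S i A
  rwa [if_pos h] at this

theorem PrD.c0 {i : Fin 8} {A : Fin 3} (h : (i, A) ∉ S) : K.PrD S 0 (K.c i A) := by
  have := K.pr_N_c S i A
  rwa [if_neg h] at this

theorem PrD.one : K.PrD S 0 1 := by simp [PrD]

theorem PrD.mul {d e : ℂ} {Y Z : F →L[ℂ] F} (hY : K.PrD S d Y) (hZ : K.PrD S e Z) :
    K.PrD S (d + e) (Y * Z) := by
  unfold PrD at *
  rw [← mul_assoc, hY, add_mul, mul_assoc, hZ, mul_add, mul_smul_comm, smul_mul_assoc, add_smul,
    mul_assoc, add_assoc, add_comm (e • _)]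

theorem PrD.add {d : ℂ} {Y Z : F →L[ℂ] F} (hY : K.PrD S d Y) (hZ : K.PrD S d Z) :
    K.PrD S d (Y + Z) := by
  unfold PrD at *
  rw [mul_add, hY, hZ, add_mul, smul_add]
  abel

theorem PrD.smul {d : ℂ} {Y : F →L[ℂ] F} (hY : K.PrD S d Y) (z : ℂ) :
    K.PrD S d (z • Y) := by
  unfold PrD at *
  rw [mul_smul_comm, hY, smul_add, smul_mul_assoc, smul_comm z d]

theorem PrD.neg {d : ℂ} {Y : F →L[ℂ] F} (hY : K.PrD S d Y) : K.PrD S d (-Y) := by
  have := hY.smul (-1)
  rwa [neg_one_smul] at this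

theorem PrD.sub {d : ℂ} {Y Z : F →L[ℂ] F} (hY : K.PrD S d Y) (hZ : K.PrD S d Z) :
    K.PrD S d (Y - Z) := by
  rw [sub_eq_add_neg]
  exact hY.add hZ.neg

theorem PrD.sum {ι : Type*} (s : Finset ι) {d : ℂ} {Y : ι → F →L[ℂ] F}
    (h : ∀ i ∈ s, K.PrD S d (Y i)) : K.PrD S d (∑ i ∈ s, Y i) := by
  unfold PrD
  rw [Finset.mul_sum, Finset.sum_mul, Finset.smul_sum, ← Finset.sum_add_distrib]
  exact Finset.sum_congr rfl fun i hi => h i hi

theorem PrD.pow {d : ℂ} {Y : F →L[ℂ] F} (hY : K.PrD S d Y) (n : ℕ) :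
    K.PrD S (n * d) (Y ^ n) := by
  induction n with
  | zero => simpa using PrD.one (K := K) (S := S)
  | succ n ih =>
    rw [pow_succ]
    have := ih.mul hY
    have e : ((n + 1 : ℕ) : ℂ) * d = n * d + d := by push_cast; ring
    rwa [e]

theorem PrD.ofFn {n : ℕ} {d : ℂ} {f : Fin n → F →L[ℂ] F} (h : ∀ k, K.PrD S d (f k)) :
    K.PrD S (n * d) (List.ofFn f).prod := by
  induction n with
  | zero => simpa using PrD.one (K := K) (S := S)
  | succ n ih =>
    rw [List.ofFn_succ, List.prod_cons]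
    have := (h 0).mul (ih fun k => h k.succ)
    have e : ((n + 1 : ℕ) : ℂ) * d = d + n * d := by push_cast; ring
    rwa [e]

/-- wrong degree: no pairing -/
theorem PrD.zero {d : ℂ} {Y : F →L[ℂ] F} (hY : K.PrD S d Y) (h : d ≠ S.card) :
    inner ℂ K.vacb (Y K.vac) = 0 := by
  have h1 : inner ℂ (K.prN S K.vacb) (Y K.vac) = inner ℂ K.vacb (K.prN S (Y K.vac)) :=
    K.pr_N_adj S _ _
  have h2 : K.prN S (Y K.vac) = d • Y K.vac := by
    have := congrArg (fun T : F →L[ℂ] F => T K.vac) hY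
    simp only [add_apply, mul_apply_eq_comp,
      smul_apply, K.pr_N_vac, map_zero, zero_add] at this
    exact this
  rw [h2, K.pr_N_vacb, inner_smul_left, inner_smul_right] at h1
  have h3 : (starRingEnd ℂ) (S.card : ℂ) = S.card := by simp
  rw [h3, ← sub_eq_zero, ← sub_mul] at h1
  rcases mul_eq_zero.1 h1 with h4 | h4
  · exact absurd (sub_eq_zero.1 h4).symm h
  · exact h4


variable (K) (x : X3)

/-! ### the elements of the pairing -/

theorem pr_muV : K.mu x ∈ K.prV := by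
  unfold mu
  refine Submodule.sum_mem _ fun i _ => Submodule.sub_mem _ ?_ ?_
  · exact Submodule.smul_mem _ _ (K.pr_cV _ _)
  · exact Submodule.smul_mem _ _ (K.pr_cV _ _)

theorem pr_dsV : K.ds x ∈ K.prV := by
  unfold ds
  refine Submodule.sum_mem _ fun i _ => Submodule.smul_mem _ _ (Submodule.add_mem _ ?_ ?_)
  · exact K.pr_cV _ _
  · exact Submodule.smul_mem _ _ (K.pr_cV _ _)

theorem pr_dsbV : K.dsb x ∈ K.prV := by
  unfold dsb
  refine Submodule.sum_mem _ fun i _ => Submodule.smul_mem _ _ (Submodule.sub_mem _ ?_ ?_)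
  · exact K.pr_cV _ _
  · exact Submodule.smul_mem _ _ (K.pr_cV _ _)

theorem pr_dkapV (k : Fin 7) : K.dkap k x ∈ K.prV := by
  unfold dkap
  refine Submodule.sum_mem _ fun i _ => Submodule.sum_mem _ fun j _ =>
    Submodule.smul_mem _ _ (Submodule.add_mem _ ?_ ?_)
  · exact Submodule.smul_mem _ _ (K.pr_cV _ _)
  · exact Submodule.smul_mem _ _ (K.pr_cV _ _)

/-- `c_k² + f0 dκ_k` -/
noncomputable def dbp (k : Fin 7) (x : X3) : F →L[ℂ] F :=
  K.c (e8 k) 2 + (K.f0 : ℂ) • K.dkap k x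

theorem pr_dbV (k : Fin 7) : K.db k x ∈ K.prV := by
  unfold db
  exact Submodule.sub_mem _ (K.pr_cV _ _) (Submodule.smul_mem _ _ (K.pr_dkapV x k))

theorem pr_dbpV (k : Fin 7) : K.dbp k x ∈ K.prV := by
  unfold dbp
  exact Submodule.add_mem _ (K.pr_cV _ _) (Submodule.smul_mem _ _ (K.pr_dkapV x k))

/-- `db⁺_k db_k = -2 f0 c_k² dκ_k` -/
theorem pr_dbp_db (k : Fin 7) :
    K.dbp k x * K.db k x = (-2 * (K.f0 : ℂ)) • (K.c (e8 k) 2 * K.dkap k x) := by
  have h1 := K.pr_sq (K.pr_cV (e8 k) 2)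
  have h2 := K.pr_sq (K.pr_dkapV x k)
  have h3 := K.pr_anti' (K.pr_dkapV x k) (K.pr_cV (e8 k) 2)
  unfold dbp db
  rw [add_mul, mul_sub, mul_sub, h1, smul_mul_assoc, smul_mul_assoc, mul_smul_comm, mul_smul_comm,
    h2, h3, smul_zero, smul_zero, sub_zero, zero_sub, smul_neg, ← sub_eq_add_neg, ← neg_add',
    ← two_smul ℂ, smul_smul, ← neg_smul]
  congr 1
  ring

/-- factors of `E` -/
noncomputable def prz : ℂ := 2 * Complex.I / (K.f0 : ℂ) * K.qq x

theorem pr_XY (k : Fin 7) : K.c (e8 k) 0 * K.c (e8 k) 1 ∈ K.prZ :=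
  K.pr_mulZ (K.pr_cV _ _) (K.pr_cV _ _)

theorem pr_XYA (k : Fin 7) : K.c (e8 k) 0 * K.c (e8 k) 1 ∈ K.prA :=
  K.pr_mulA (K.pr_cV _ _) (K.pr_cV _ _)

theorem pr_facZ (k : Fin 7) (z : ℂ) :
    (1 + z • (K.c (e8 k) 0 * K.c (e8 k) 1) : F →L[ℂ] F) ∈ K.prZ :=
  K.prZ.add_mem K.prZ.one_mem (K.prZ.smul_mem (K.pr_XY k) z)

theorem pr_facA (k : Fin 7) (z : ℂ) :
    (1 + z • (K.c (e8 k) 0 * K.c (e8 k) 1) : F →L[ℂ] F) ∈ K.prA :=
  K.prA.add_mem K.prA.one_mem (K.prA.smul_mem (K.pr_XYA k) z)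

theorem pr_XY_sq (k : Fin 7) :
    (K.c (e8 k) 0 * K.c (e8 k) 1) * (K.c (e8 k) 0 * K.c (e8 k) 1) = 0 := by
  rw [mul_assoc, ← mul_assoc (K.c (e8 k) 1), K.pr_anti' (K.pr_cV (e8 k) 1) (K.pr_cV (e8 k) 0),
    neg_mul, mul_assoc, K.pr_sq (K.pr_cV (e8 k) 1), mul_zero, neg_zero, mul_zero]

/-- `E²` (with the reversed product) is the exponential of `2 z B` -/
theorem pr_EE (z : ℂ) :
    ((List.ofFn fun k : Fin 7 => (1 + z • (K.c (e8 k) 0 * K.c (e8 k) 1) : F →L[ℂ] F)).reverse).prod *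
      (List.ofFn fun k : Fin 7 => (1 + z • (K.c (e8 k) 0 * K.c (e8 k) 1) : F →L[ℂ] F)).prod =
    ∑ j ∈ Finset.range 8, (((j.factorial : ℂ)⁻¹) * (2 * z) ^ j) • K.BB ^ j := by
  rw [K.pr_zip (fun k => K.pr_facA k z) (fun k => K.pr_facA k z)
    (fun k => K.prZ.mul_mem (K.pr_facZ k z) (K.pr_facZ k z))]
  have h : ∀ k : Fin 7, (1 + z • (K.c (e8 k) 0 * K.c (e8 k) 1) : F →L[ℂ] F) *
      (1 + z • (K.c (e8 k) 0 * K.c (e8 k) 1)) = 1 + (2 * z) • (K.c (e8 k) 0 * K.c (e8 k) 1) := by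
    intro k
    rw [mul_add, add_mul, add_mul, smul_mul_smul_comm, K.pr_XY_sq, smul_zero, add_zero, mul_one,
      one_mul, mul_one, add_assoc, ← add_smul, two_mul]
  simp only [h]
  have h2 := (pr_exp (R := F →L[ℂ] F) (fun k : Fin 7 => (2 * z) • (K.c (e8 k) 0 * K.c (e8 k) 1))
    (fun k => by rw [smul_mul_smul_comm, K.pr_XY_sq, smul_zero])
    (fun k l => by
      rw [smul_mul_smul_comm, smul_mul_smul_comm, K.pr_comm (K.pr_XY k) (K.pr_XYA l)])).2
  rw [h2]
  refine Finset.sum_congr rfl fun j _ => ?_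
  rw [← Finset.smul_sum, smul_pow, smul_smul]
  rfl

/-! ### adjoints of the flipped factors -/

theorem pr_adj_a (i : Fin 8) (A : Fin 3) : PrAdj (K.a i A) (K.c i A) :=
  fun v w => K.flip.adj i A v w

theorem pr_adj_mu : PrAdj (K.flip.mu x) (K.mu x) := by
  unfold mu
  refine PrAdj.sum _ fun i => ?_
  refine (((K.pr_adj_a (e8 i) 1).smul _).sub ((K.pr_adj_a (e8 i) 0).smul _)).congr ?_
  rw [Complex.conj_ofReal, Complex.conj_ofReal]

theorem pr_adj_ds : PrAdj (K.flip.ds x) (K.dsb x) := by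
  unfold ds dsb
  refine PrAdj.sum _ fun i => ?_
  refine (((K.pr_adj_a (e8 i) 0).add ((K.pr_adj_a (e8 i) 1).smul _)).smul _).congr ?_
  simp only [map_mul, map_add, Complex.conj_ofReal, Complex.conj_I, map_ofNat]
  rw [neg_smul, neg_mul, ← sub_eq_add_neg, ← sub_eq_add_neg]

theorem pr_adj_dsb : PrAdj (K.flip.dsb x) (K.ds x) := by
  unfold ds dsb
  refine PrAdj.sum _ fun i => ?_
  refine (((K.pr_adj_a (e8 i) 0).sub ((K.pr_adj_a (e8 i) 1).smul _)).smul _).congr ?_
  simp only [map_mul, map_sub, Complex.conj_ofReal, Complex.conj_I, map_ofNat]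
  rw [neg_smul, neg_mul, sub_neg_eq_add, sub_neg_eq_add]

theorem pr_adj_dkap (k : Fin 7) : PrAdj (K.flip.dkap k x) (-K.dkap k x) := by
  unfold dkap
  rw [← Finset.sum_neg_distrib]
  refine PrAdj.sum _ fun i => ?_
  rw [← Finset.sum_neg_distrib]
  refine PrAdj.sum _ fun j => ?_
  refine ((((K.pr_adj_a (e8 i) 0).smul _).add ((K.pr_adj_a (e8 j) 1).smul _)).smul _).congr ?_
  show (starRingEnd ℂ) (((-K.t k i j : ℝ) : ℂ)) • _ = _
  rw [Complex.conj_ofReal, Complex.conj_ofReal, Complex.conj_ofReal, Complex.ofReal_neg, neg_smul]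

theorem pr_adj_db (k : Fin 7) : PrAdj (K.flip.db k x) (K.dbp k x) := by
  unfold db dbp
  refine ((K.pr_adj_a (e8 k) 2).sub ((K.pr_adj_dkap x k).smul _)).congr ?_
  show _ - (starRingEnd ℂ) ((K.f0 : ℝ) : ℂ) • _ = _
  rw [Complex.conj_ofReal, smul_neg, sub_neg_eq_add]

theorem pr_adj_bet : PrAdj (K.flip.bet x) ((List.ofFn fun k : Fin 7 => K.dbp k x).reverse).prod :=
  PrAdj.ofFn fun k => K.pr_adj_db x k

theorem pr_conj_phb (A : Fin 3) : (starRingEnd ℂ) (K.phb A x) = K.ph A x := by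
  unfold ph phb
  simp only [map_sub, map_mul, Complex.conj_ofReal, Complex.conj_I]
  ring

theorem pr_flip_ph (A : Fin 3) : K.flip.ph A x = K.phb A x := by
  show (x (7, A) : ℂ) + Complex.I * ((-K.sg : ℝ) : ℂ) * (x (8, A) : ℂ) = _
  unfold phb
  push_cast
  ring

theorem pr_flip_phb (A : Fin 3) : K.flip.phb A x = K.ph A x := by
  show (x (7, A) : ℂ) - Complex.I * ((-K.sg : ℝ) : ℂ) * (x (8, A) : ℂ) = _
  unfold ph
  push_cast
  ring

theorem pr_conj_ph (A : Fin 3) : (starRingEnd ℂ) (K.ph A x) = K.phb A x := by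
  rw [← K.pr_conj_phb, Complex.conj_conj]

theorem pr_adj_tau : PrAdj (K.flip.tau0 x) (K.tau0 x) := by
  unfold tau0
  refine ((PrAdj.one.smul _).sub (((K.pr_adj_ds x).mul (K.pr_adj_dsb x)).smul _)).congr ?_
  rw [K.pr_flip_ph]
  show _ - (starRingEnd ℂ) (1 / ((K.f0 : ℝ) : ℂ)) • _ = _
  simp only [map_mul, map_div₀, map_one, map_ofNat, Complex.conj_ofReal, K.pr_conj_phb]

theorem pr_adj_rho : PrAdj (K.flip.rho x) (K.rho x) := by
  unfold rho dpb
  refine (PrAdj.one.add (((((K.pr_adj_a 7 2).smul 2).mul (K.pr_adj_mu x))).smul _)).congr ?_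
  show _ + (starRingEnd ℂ) (Complex.I / ((K.f0 : ℝ) : ℂ) * (qp x : ℂ)) • _ = _
  rw [mul_smul_comm, K.pr_anti' (K.pr_muV x) (K.pr_cV 7 2), smul_mul_assoc]
  simp only [map_mul, map_div₀, map_ofNat, Complex.conj_ofReal, Complex.conj_I]
  rw [smul_neg, smul_neg, ← neg_smul]
  congr 2
  ring

theorem pr_adj_ee : PrAdj (K.flip.eeT x) ((List.ofFn fun k : Fin 7 =>
    (1 + K.prz x • (K.c (e8 k) 0 * K.c (e8 k) 1) : F →L[ℂ] F)).reverse).prod := by
  refine PrAdj.ofFn fun k => ?_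
  refine (PrAdj.one.add (((K.pr_adj_a (e8 k) 0).mul (K.pr_adj_a (e8 k) 1)).smul _)).congr ?_
  rw [K.pr_anti' (K.pr_cV (e8 k) 1) (K.pr_cV (e8 k) 0), smul_neg, ← neg_smul]
  congr 2
  unfold prz qq
  rw [K.pr_flip_phb]
  show -(starRingEnd ℂ) (2 * Complex.I / ((K.f0 : ℝ) : ℂ) * _) = _
  simp only [map_mul, map_div₀, map_ofNat, Complex.conj_ofReal, Complex.conj_I, K.pr_conj_ph]
  ring


/-! ### even elements of the pairing -/

theorem pr_tauZ : K.tau0 x ∈ K.prZ := by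
  unfold tau0
  exact K.prZ.sub_mem (K.prZ.smul_mem K.prZ.one_mem _)
    (K.prZ.smul_mem (K.pr_mulZ (K.pr_dsV x) (K.pr_dsbV x)) _)

theorem pr_tauA : K.tau0 x ∈ K.prA := by
  unfold tau0
  exact K.prA.sub_mem (K.prA.smul_mem K.prA.one_mem _)
    (K.prA.smul_mem (K.pr_mulA (K.pr_dsV x) (K.pr_dsbV x)) _)

theorem pr_rhoZ : K.rho x ∈ K.prZ := by
  unfold rho dpb
  rw [smul_mul_assoc]
  exact K.prZ.add_mem K.prZ.one_mem
    (K.prZ.smul_mem (K.prZ.smul_mem (K.pr_mulZ (K.pr_cV 7 2) (K.pr_muV x)) _) _)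

theorem pr_rhoA : K.rho x ∈ K.prA := by
  unfold rho dpb
  rw [smul_mul_assoc]
  exact K.prA.add_mem K.prA.one_mem
    (K.prA.smul_mem (K.prA.smul_mem (K.pr_mulA (K.pr_cV 7 2) (K.pr_muV x)) _) _)

theorem pr_rho_sq : K.rho x * K.rho x =
    1 + (4 * (Complex.I / (K.f0 : ℂ) * (qp x : ℂ))) • (K.c 7 2 * K.mu x) := by
  unfold rho dpb
  have h : (K.c 7 2 * K.mu x) * (K.c 7 2 * K.mu x) = 0 := by
    rw [mul_assoc, ← mul_assoc (K.mu x), K.pr_anti' (K.pr_muV x) (K.pr_cV 7 2),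
      neg_mul, mul_assoc, K.pr_sq (K.pr_muV x), mul_zero, neg_zero, mul_zero]
  rw [smul_mul_assoc, smul_smul, mul_add, add_mul, add_mul, smul_mul_smul_comm, h, smul_zero,
    add_zero, mul_one, one_mul, mul_one, add_assoc, ← add_smul]
  congr 2
  ring

theorem pr_tau_sq : K.tau0 x * K.tau0 x = (4 * K.ph 2 x ^ 2) • (1 : F →L[ℂ] F) -
    (4 * K.ph 2 x / (K.f0 : ℂ)) • (K.ds x * K.dsb x) := by
  unfold tau0
  have h : (K.ds x * K.dsb x) * (K.ds x * K.dsb x) = 0 := by
    rw [mul_assoc, ← mul_assoc (K.dsb x), K.pr_anti' (K.pr_dsbV x) (K.pr_dsV x),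
      neg_mul, mul_assoc, K.pr_sq (K.pr_dsbV x), mul_zero, neg_zero, mul_zero]
  rw [mul_sub, sub_mul, sub_mul, smul_mul_smul_comm, smul_mul_smul_comm, smul_mul_smul_comm,
    smul_mul_smul_comm, h, smul_zero, sub_zero, mul_one, one_mul, mul_one, sub_sub, ← add_smul]
  congr 2
  · ring
  · ring

/-- rearrangement of the even elements -/
theorem pr_rearr {E' P r t C B E : F →L[ℂ] F} (hE'Z : E' ∈ K.prZ) (hEZ : E ∈ K.prZ) (hrZ : r ∈ K.prZ) (hrA : r ∈ K.prA) (htZ : t ∈ K.prZ)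
    (htA : t ∈ K.prA) (hCZ : C ∈ K.prZ) (hCA : C ∈ K.prA) (hP : P ∈ K.prA) (hB : B ∈ K.prA) :
    (E' * r * P * t * C) * (t * B * r * E) = (C * (r * r) * (t * t) * (E' * E)) * (P * B) := by
  have h1 : E' * r * P = P * (E' * r) := K.pr_comm (K.prZ.mul_mem hE'Z hrZ) hP
  have h2 : (E' * r * t * C * t) * B = B * (E' * r * t * C * t) :=
    K.pr_comm (K.prZ.mul_mem (K.prZ.mul_mem (K.prZ.mul_mem (K.prZ.mul_mem hE'Z hrZ) htZ) hCZ) htZ)
      hB
  have h3 : E' * r * t * C * t * (r * E) = C * (r * r) * (t * t) * (E' * E) := by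
    have c1 : E' * r = r * E' := K.pr_comm hE'Z hrA
    have c2 : E' * (t * C * t * r) = (t * C * t * r) * E' := K.pr_comm hE'Z
      (K.prA.mul_mem (K.prA.mul_mem (K.prA.mul_mem htA hCA) htA) hrA)
    have c3 : r * t * C * t * r = C * (r * r) * (t * t) := by
      have d1 : r * (t * C * t) = (t * C * t) * r := K.pr_comm hrZ
        (K.prA.mul_mem (K.prA.mul_mem htA hCA) htA)
      have d2 : t * C = C * t := K.pr_comm htZ hCA
      have d3 : (t * t) * (r * r) = (r * r) * (t * t) := K.pr_comm (K.prZ.mul_mem htZ htZ)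
        (K.prA.mul_mem hrA hrA)
      calc r * t * C * t * r = (r * (t * C * t)) * r := by simp only [mul_assoc]
        _ = (t * C) * t * r * r := by rw [d1]
        _ = C * ((t * t) * (r * r)) := by rw [d2]; simp only [mul_assoc]
        _ = _ := by rw [d3]; simp only [mul_assoc]
    calc E' * r * t * C * t * (r * E) = (E' * r) * (t * C * t * r) * E := by simp only [mul_assoc]
      _ = r * (E' * (t * C * t * r)) * E := by rw [c1]; simp only [mul_assoc]
      _ = (r * t * C * t * r) * (E' * E) := by rw [c2]; simp only [mul_assoc]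
      _ = _ := by rw [c3]
  have h4 : (P * B) * (C * (r * r) * (t * t) * (E' * E)) =
      (C * (r * r) * (t * t) * (E' * E)) * (P * B) :=
    (K.pr_comm (K.prZ.mul_mem (K.prZ.mul_mem (K.prZ.mul_mem hCZ (K.prZ.mul_mem hrZ hrZ))
      (K.prZ.mul_mem htZ htZ)) (K.prZ.mul_mem hE'Z hEZ)) (K.prA.mul_mem hP hB)).symm
  calc (E' * r * P * t * C) * (t * B * r * E) = (E' * r * P) * t * C * t * B * (r * E) := by
        simp only [mul_assoc]
    _ = P * ((E' * r * t * C * t) * B) * (r * E) := by rw [h1]; simp only [mul_assoc]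
    _ = (P * B) * (E' * r * t * C * t * (r * E)) := by rw [h2]; simp only [mul_assoc]
    _ = _ := by rw [h3, h4]

theorem pr_PB : ((List.ofFn fun k : Fin 7 => K.dbp k x).reverse).prod * K.bet x =
    (-1024 * (K.f0 : ℂ)) • K.zk x := by
  unfold bet zk
  rw [K.pr_zip (fun k => K.pr_VA (K.pr_dbpV x k)) (fun k => K.pr_VA (K.pr_dbV x k))
    (fun k => K.pr_mulZ (K.pr_dbpV x k) (K.pr_dbV x k))]
  simp only [K.pr_dbp_db]
  rw [pr_smul_ofFn]
  congr 1
  have h : (K.f0 : ℂ) * (K.f0 : ℂ) = 2 := by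
    rw [← Complex.ofReal_mul, K.f0_sq]; norm_num
  linear_combination (-128 * ((K.f0 : ℂ) ^ 5 + 2 * (K.f0 : ℂ) ^ 3 + 4 * (K.f0 : ℂ))) * h

/-! ### degrees -/

/-- the modes `c_k^A`, `k < 7`, `A < 2` -/
def prS1 : Finset (Fin 8 × Fin 3) := Finset.univ.filter fun p => p.1 ≠ 7 ∧ p.2 ≠ 2

/-- the mode `c_7^2` -/
def prS2 : Finset (Fin 8 × Fin 3) := {(7, 2)}

theorem pr_card1 : prS1.card = 14 := by decide

theorem pr_card2 : prS2.card = 1 := by decide

theorem pr_mem1 (k : Fin 7) (A : Fin 3) (h : A ≠ 2) : (e8 k, A) ∈ prS1 := by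
  simp only [prS1, Finset.mem_filter, Finset.mem_univ, true_and]
  exact ⟨fun h => absurd (congrArg Fin.val h) (by simpa using k.2.ne), h⟩

theorem pr_nmem2 (k : Fin 7) (A : Fin 3) : (e8 k, A) ∉ prS2 := by
  simp only [prS2, Finset.mem_singleton, Prod.mk.injEq, not_and]
  exact fun h => absurd (congrArg Fin.val h) (by simpa using k.2.ne)

theorem pr_D1 (k : Fin 7) (A : Fin 3) (h : A ≠ 2) : K.PrD prS1 1 (K.c (e8 k) A) :=
  PrD.c1 (pr_mem1 k A h)

theorem pr_D2 (k : Fin 7) (A : Fin 3) : K.PrD prS2 0 (K.c (e8 k) A) :=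
  PrD.c0 (pr_nmem2 k A)

theorem pr_D1_c2 (k : Fin 7) : K.PrD prS1 0 (K.c (e8 k) 2) :=
  PrD.c0 (by simp [prS1])

theorem pr_D1_c7 (A : Fin 3) : K.PrD prS1 0 (K.c 7 A) :=
  PrD.c0 (by simp [prS1])

theorem pr_D1_mu : K.PrD prS1 1 (K.mu x) := by
  unfold mu
  exact PrD.sum _ fun i _ => ((K.pr_D1 i 1 (by decide)).smul _).sub
    ((K.pr_D1 i 0 (by decide)).smul _)

theorem pr_D_ds (S : Finset (Fin 8 × Fin 3)) (d : ℂ)
    (h : ∀ (k : Fin 7) (A : Fin 3), A ≠ 2 → K.PrD S d (K.c (e8 k) A)) : K.PrD S d (K.ds x) := by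
  unfold ds
  exact PrD.sum _ fun i _ => ((h i 0 (by decide)).add ((h i 1 (by decide)).smul _)).smul _

theorem pr_D_dsb (S : Finset (Fin 8 × Fin 3)) (d : ℂ)
    (h : ∀ (k : Fin 7) (A : Fin 3), A ≠ 2 → K.PrD S d (K.c (e8 k) A)) : K.PrD S d (K.dsb x) := by
  unfold dsb
  exact PrD.sum _ fun i _ => ((h i 0 (by decide)).sub ((h i 1 (by decide)).smul _)).smul _

theorem pr_D_dkap (S : Finset (Fin 8 × Fin 3)) (d : ℂ)
    (h : ∀ (k : Fin 7) (A : Fin 3), A ≠ 2 → K.PrD S d (K.c (e8 k) A)) (k : Fin 7) :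
    K.PrD S d (K.dkap k x) := by
  unfold dkap
  exact PrD.sum _ fun i _ => PrD.sum _ fun j _ =>
    (((h i 0 (by decide)).smul _).add ((h j 1 (by decide)).smul _)).smul _

theorem pr_D_BB (S : Finset (Fin 8 × Fin 3)) (d : ℂ)
    (h : ∀ (k : Fin 7) (A : Fin 3), A ≠ 2 → K.PrD S d (K.c (e8 k) A)) :
    K.PrD S (d + d) K.BB := by
  unfold BB
  exact PrD.sum _ fun k _ => (h k 0 (by decide)).mul (h k 1 (by decide))

theorem pr_D_zk (S : Finset (Fin 8 × Fin 3)) (d : ℂ)
    (h : ∀ (k : Fin 7) (A : Fin 3), A ≠ 2 → K.PrD S d (K.c (e8 k) A))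
    (h2 : ∀ k : Fin 7, K.PrD S 0 (K.c (e8 k) 2)) :
    K.PrD S ((7 : ℕ) * (0 + d)) (K.zk x) := by
  unfold zk
  exact PrD.ofFn fun k => (h2 k).mul (K.pr_D_dkap x S d h k)

/-- selection of the power of `B` by degree -/
theorem pr_sel {Q : F →L[ℂ] F} {d j₀ : ℕ} (hQ : K.PrD prS1 d Q) (h : d + 2 * j₀ = 7)
    (hj : j₀ < 8) (z : ℂ) :
    inner ℂ K.vacb ((Q * (∑ j ∈ Finset.range 8, (((j.factorial : ℂ)⁻¹) * z ^ j) • K.BB ^ j) *
      K.zk x) K.vac) =
    (((j₀.factorial : ℂ)⁻¹) * z ^ j₀) * inner ℂ K.vacb ((Q * K.BB ^ j₀ * K.zk x) K.vac) := by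
  rw [Finset.mul_sum, Finset.sum_mul, sum_apply, inner_sum]
  rw [Finset.sum_eq_single_of_mem j₀ (Finset.mem_range.2 hj)]
  · rw [mul_smul_comm, smul_mul_assoc, smul_apply, inner_smul_right]
  · intro j _ hne
    rw [mul_smul_comm, smul_mul_assoc, smul_apply, inner_smul_right]
    have h1 := (hQ.mul ((K.pr_D_BB prS1 1 (fun k A hA => K.pr_D1 k A hA)).pow j)).mul
      (K.pr_D_zk x prS1 1 (fun k A hA => K.pr_D1 k A hA) (fun k => K.pr_D1_c2 k))
    rw [PrD.zero h1, mul_zero]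
    rw [pr_card1]
    intro h2
    have h3 : ((d + 2 * j + 7 : ℕ) : ℂ) = ((14 : ℕ) : ℂ) := by
      rw [← h2]
      push_cast
      ring
    have h4 : d + 2 * j + 7 = 14 := by exact_mod_cast h3
    omega


/-! ### the pairing -/

/-- the reversed product of `E` -/
noncomputable def prEr : F →L[ℂ] F := ((List.ofFn fun k : Fin 7 =>
    (1 + K.prz x • (K.c (e8 k) 0 * K.c (e8 k) 1) : F →L[ℂ] F)).reverse).prod

/-- the reversed product of the `db⁺` -/
noncomputable def prP : F →L[ℂ] F := ((List.ofFn fun k : Fin 7 => K.dbp k x).reverse).prod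

theorem pr_flip_vac : K.flip.vac = K.vacb := rfl

theorem pr_pairing : inner ℂ (K.flip.dpb 0 (K.flip.dpb 1 (K.flip.aT x))) (K.aT x) =
    (((Real.exp (-K.flip.expo x) : ℝ) : ℂ) * K.ph 2 x) * (((Real.exp (-K.expo x) : ℝ) : ℂ) *
      K.ph 2 x) * inner ℂ K.vacb (((K.prEr x * K.rho x * K.prP x * K.tau0 x *
        ((-4 : ℂ) • (K.c 7 0 * K.c 7 1))) * (K.tau0 x * K.bet x * K.rho x * K.eeT x)) K.vac) := by
  have hM : PrAdj (K.flip.tau0 x * K.flip.bet x * K.flip.rho x * K.flip.eeT x)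
      (K.prEr x * (K.rho x * (K.prP x * K.tau0 x))) :=
    (((K.pr_adj_tau x).mul (K.pr_adj_bet x)).mul (K.pr_adj_rho x)).mul (K.pr_adj_ee x)
  have h7 : PrAdj (K.flip.dpb 0 * K.flip.dpb 1) ((-4 : ℂ) • (K.c 7 0 * K.c 7 1)) := by
    refine ((((K.pr_adj_a 7 0).smul 2).mul ((K.pr_adj_a 7 1).smul 2))).congr ?_
    rw [smul_mul_smul_comm, K.pr_anti' (K.pr_cV 7 1) (K.pr_cV 7 0), smul_neg, ← neg_smul]
    congr 1
    simp only [map_ofNat]
    norm_num
  have h := (h7.mul hM) K.vacb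
  have e1 : K.flip.dpb 0 (K.flip.dpb 1 (K.flip.aT x)) =
      (((Real.exp (-K.flip.expo x) : ℝ) : ℂ) * K.phb 2 x) •
        (K.flip.dpb 0 * K.flip.dpb 1 * (K.flip.tau0 x * K.flip.bet x * K.flip.rho x *
          K.flip.eeT x)) K.vacb := by
    unfold aT
    rw [K.pr_flip_ph, map_smul, map_smul, mul_apply_eq_comp (K.flip.dpb 0 * K.flip.dpb 1),
      mul_apply_eq_comp (K.flip.dpb 0), K.pr_flip_vac]
  have e2 : K.aT x = (((Real.exp (-K.expo x) : ℝ) : ℂ) * K.ph 2 x) •
      (K.tau0 x * K.bet x * K.rho x * K.eeT x) K.vac := rfl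
  rw [e1, e2, inner_smul_left, inner_smul_right, h, map_mul, Complex.conj_ofReal, K.pr_conj_phb,
    ← mul_assoc, ← mul_apply_eq_comp]
  simp only [mul_assoc]

theorem pr_value : inner ℂ K.vacb (((K.prEr x * K.rho x * K.prP x * K.tau0 x *
        ((-4 : ℂ) • (K.c 7 0 * K.c 7 1))) * (K.tau0 x * K.bet x * K.rho x * K.eeT x)) K.vac) =
    (4096 * (K.f0 : ℂ)) * (4 * (Complex.I / (K.f0 : ℂ) * (qp x : ℂ))) *
      ((4 * K.ph 2 x ^ 2) * ((2 * K.prz x) ^ 3 * K.A3 x) -
        (4 * K.ph 2 x / (K.f0 : ℂ)) * ((2 * K.prz x) ^ 2 * K.A2 x)) := by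
  have hE : K.eeT x = (List.ofFn fun k : Fin 7 =>
    (1 + K.prz x • (K.c (e8 k) 0 * K.c (e8 k) 1) : F →L[ℂ] F)).prod := rfl
  have hEE : K.prEr x * K.eeT x =
      ∑ j ∈ Finset.range 8, (((j.factorial : ℂ)⁻¹) * (2 * K.prz x) ^ j) • K.BB ^ j := by
    rw [hE]
    exact K.pr_EE (K.prz x)
  have m1 : K.prEr x ∈ K.prZ := K.pr_listZ' fun k => K.pr_facZ k (K.prz x)
  have m2 : K.eeT x ∈ K.prZ := by
    rw [hE]
    exact K.pr_listZ fun k => K.pr_facZ k (K.prz x)
  have m3 : (-4 : ℂ) • (K.c 7 0 * K.c 7 1) ∈ K.prZ :=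
    K.prZ.smul_mem (K.pr_mulZ (K.pr_cV 7 0) (K.pr_cV 7 1)) _
  have m4 : (-4 : ℂ) • (K.c 7 0 * K.c 7 1) ∈ K.prA :=
    K.prA.smul_mem (K.pr_mulA (K.pr_cV 7 0) (K.pr_cV 7 1)) _
  have m5 : K.prP x ∈ K.prA := K.pr_listA' fun k => K.pr_VA (K.pr_dbpV x k)
  have m6 : K.bet x ∈ K.prA := K.pr_listA fun k => K.pr_VA (K.pr_dbV x k)
  rw [K.pr_rearr m1 m2 (K.pr_rhoZ x) (K.pr_rhoA x) (K.pr_tauZ x) (K.pr_tauA x) m3 m4 m5 m6]
  have hPB : K.prP x * K.bet x = (-1024 * (K.f0 : ℂ)) • K.zk x := K.pr_PB x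
  rw [hPB, hEE, K.pr_rho_sq, K.pr_tau_sq]
  set SS := ∑ j ∈ Finset.range 8, (((j.factorial : ℂ)⁻¹) * (2 * K.prz x) ^ j) • K.BB ^ j with hSS
  set al := 4 * (Complex.I / (K.f0 : ℂ) * (qp x : ℂ)) with hal
  set be := 4 * K.ph 2 x ^ 2 with hbe
  set ga := 4 * K.ph 2 x / (K.f0 : ℂ) with hga
  -- expansion
  have hexp : ((-4 : ℂ) • (K.c 7 0 * K.c 7 1)) * (1 + al • (K.c 7 2 * K.mu x)) *
      (be • (1 : F →L[ℂ] F) - ga • (K.ds x * K.dsb x)) * SS * ((-1024 * (K.f0 : ℂ)) • K.zk x) =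
      (4096 * (K.f0 : ℂ)) • ((K.c 7 0 * K.c 7 1) *
        (be • (1 : F →L[ℂ] F) - ga • (K.ds x * K.dsb x)) * SS * K.zk x) +
      ((4096 * (K.f0 : ℂ)) * al) • (be • (K.c777 * K.mu x * SS * K.zk x) -
        ga • (K.c777 * K.mu x * (K.ds x * K.dsb x) * SS * K.zk x)) := by
    have hc : K.c777 = K.c 7 0 * K.c 7 1 * K.c 7 2 := rfl
    rw [hc]
    simp only [mul_add, add_mul, mul_sub, sub_mul, smul_mul_assoc, mul_smul_comm, smul_smul,
      smul_sub, smul_add, mul_one, mul_assoc]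
    match_scalars <;> ring
  rw [hexp, add_apply, inner_add_right, smul_apply, smul_apply, inner_smul_right,
    inner_smul_right, sub_apply, inner_sub_right, smul_apply, smul_apply, inner_smul_right,
    inner_smul_right]
  -- the term without `c_7²`
  have hD7 : ∀ A : Fin 3, A ≠ 2 → K.PrD prS2 0 (K.c 7 A) := fun A hA =>
    PrD.c0 (by simp [prS2, hA])
  have hds := K.pr_D_ds x prS2 0 (fun k A _ => K.pr_D2 k A)
  have hdsb := K.pr_D_dsb x prS2 0 (fun k A _ => K.pr_D2 k A)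
  have hBB := K.pr_D_BB prS2 0 (fun k A _ => K.pr_D2 k A)
  have hzk := K.pr_D_zk x prS2 0 (fun k A _ => K.pr_D2 k A) (fun k => K.pr_D2 k 2)
  have hSSD : K.PrD prS2 0 SS := by
    refine PrD.sum _ fun j _ => ?_
    have := (hBB.pow j).smul (((j.factorial : ℂ)⁻¹) * (2 * K.prz x) ^ j)
    simpa using this
  have h0 : K.PrD prS2 0 ((K.c 7 0 * K.c 7 1) *
      (be • (1 : F →L[ℂ] F) - ga • (K.ds x * K.dsb x)) * SS * K.zk x) := by
    have h1 : K.PrD prS2 0 (be • (1 : F →L[ℂ] F) - ga • (K.ds x * K.dsb x)) := by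
      refine (PrD.one.smul be).sub (PrD.smul ?_ ga)
      simpa using hds.mul hdsb
    have := ((((hD7 0 (by decide)).mul (hD7 1 (by decide))).mul h1).mul hSSD).mul hzk
    simpa using this
  rw [PrD.zero h0 (by rw [pr_card2]; norm_num)]
  -- the other terms
  have hQ3 : K.PrD prS1 ((1 : ℕ) : ℂ) (K.c777 * K.mu x) := by
    show K.PrD prS1 ((1 : ℕ) : ℂ) (K.c 7 0 * K.c 7 1 * K.c 7 2 * K.mu x)
    have := (((K.pr_D1_c7 0).mul (K.pr_D1_c7 1)).mul (K.pr_D1_c7 2)).mul (K.pr_D1_mu x)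
    simpa using this
  have hQ2 : K.PrD prS1 ((3 : ℕ) : ℂ) (K.c777 * K.mu x * (K.ds x * K.dsb x)) := by
    have := hQ3.mul ((K.pr_D_ds x prS1 1 (fun k A hA => K.pr_D1 k A hA)).mul
      (K.pr_D_dsb x prS1 1 (fun k A hA => K.pr_D1 k A hA)))
    have e : ((1 : ℕ) : ℂ) + (1 + 1) = ((3 : ℕ) : ℂ) := by norm_num
    rwa [e] at this
  rw [K.pr_sel x hQ3 (j₀ := 3) (by norm_num) (by norm_num) (2 * K.prz x),
    K.pr_sel x hQ2 (j₀ := 2) (by norm_num) (by norm_num) (2 * K.prz x)]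
  have hA3 : K.A3 x = (1 / 6 : ℂ) * inner ℂ K.vacb ((K.c777 * K.mu x * K.BB ^ 3 * K.zk x) K.vac) := by
    unfold A3
    rw [mul_smul_comm, smul_mul_assoc, smul_apply, inner_smul_right, pow_succ, pow_two]
  have hA2 : K.A2 x = (1 / 2 : ℂ) * inner ℂ K.vacb ((K.c777 * K.mu x * (K.ds x * K.dsb x) *
      K.BB ^ 2 * K.zk x) K.vac) := by
    unfold A2
    rw [mul_smul_comm, smul_mul_assoc, smul_apply, inner_smul_right, pow_two]
  have f3 : ((Nat.factorial 3 : ℕ) : ℂ) = 6 := by norm_num [Nat.factorial]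
  have f2 : ((Nat.factorial 2 : ℕ) : ℂ) = 2 := by norm_num [Nat.factorial]
  rw [hA3, hA2, f3, f2]
  ring

theorem Gp_eq (x : X3) : K.Gp x =
    ((4096 * K.f0 * r3 x ^ 2 * qp x * Real.exp (-K.expo x - K.flip.expo x) : ℝ) : ℂ) *
      (((256 * gg x ^ 3 * r3 x ^ 2 : ℝ) : ℂ) * K.A3 x +
        ((64 * gg x ^ 2 * r3 x : ℝ) : ℂ) * (Complex.I * K.A2 x)) := by
  unfold Gp
  rw [K.pr_pairing, K.pr_value]
  have hr : ((r3 x : ℝ) : ℂ) = K.ph 2 x * K.phb 2 x := by
    unfold r3 ph phb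
    have h1 : (K.sg : ℂ) * (K.sg : ℂ) = 1 := by
      rw [← Complex.ofReal_mul, K.sg_sq, Complex.ofReal_one]
    have h2 := Complex.I_mul_I
    push_cast
    linear_combination ((x (8, 2) : ℂ) ^ 2 * Complex.I * Complex.I) * h1 +
      ((x (8, 2) : ℂ) ^ 2) * h2
  have hf : (K.f0 : ℂ) * (K.f0 : ℂ) = 2 := by
    rw [← Complex.ofReal_mul, K.f0_sq]; norm_num
  have hf0 : (K.f0 : ℂ) ≠ 0 := by
    intro h
    rw [h] at hf
    norm_num at hf
  have hinv : ((K.f0 : ℂ))⁻¹ = (K.f0 : ℂ) / 2 := by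
    rw [inv_eq_iff_eq_inv, inv_div, eq_div_iff hf0, hf]
  have he : ((Real.exp (-K.expo x - K.flip.expo x) : ℝ) : ℂ) =
      ((Real.exp (-K.expo x) : ℝ) : ℂ) * ((Real.exp (-K.flip.expo x) : ℝ) : ℂ) := by
    rw [← Complex.ofReal_mul, ← Real.exp_add, sub_eq_add_neg]
  have hI2 : Complex.I ^ 2 = -1 := Complex.I_sq
  have hI4 : Complex.I ^ 4 * (K.f0 : ℂ) ^ 5 = 4 * (K.f0 : ℂ) := by
    linear_combination ((Complex.I ^ 2 - 1) * (K.f0 : ℂ) ^ 5) * hI2 +
      ((K.f0 : ℂ) ^ 3 + 2 * (K.f0 : ℂ)) * hf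
  have hI3 : Complex.I ^ 3 * (K.f0 : ℂ) ^ 5 = -4 * Complex.I * (K.f0 : ℂ) := by
    linear_combination (Complex.I * (K.f0 : ℂ) ^ 5) * hI2 -
      (Complex.I * ((K.f0 : ℂ) ^ 3 + 2 * (K.f0 : ℂ))) * hf
  unfold prz qq
  rw [Complex.ofReal_mul, he]
  push_cast
  rw [hr]
  simp only [div_eq_mul_inv, hinv]
  set e1 := Complex.exp (-(K.expo x : ℂ)) with he1
  set e2 := Complex.exp (-(K.flip.expo x : ℂ)) with he2
  linear_combination (262144 * (e1 * e2) * (qp x : ℂ) * K.ph 2 x ^ 4 * K.phb 2 x ^ 4 *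
      (gg x : ℂ) ^ 3 * K.A3 x) * hI4 -
    (65536 * (e1 * e2) * (qp x : ℂ) * K.ph 2 x ^ 3 * K.phb 2 x ^ 3 * (gg x : ℂ) ^ 2 *
      K.A2 x) * hI3

end Fk

end Vale.Agent.P353.Ex
end

section

/-! Task EX-23: explicit top form in the adapted frame.

`X_k = c_k^0`, `Y_k = c_k^1`, `Z_k = c_k^2`, `x¹ = p e_0`, `x² = q e_1`.  Then (indices 0..6)
`dκ_0 = -q X_2`, `dκ_1 = -p Y_2`, `dκ_2 = q X_0 + p Y_1`, `dκ_3 = q X_5 - p Y_4`,
`dκ_4 = -q X_6 + p Y_3`, `dκ_5 = -q X_3 - p Y_6`, `dκ_6 = q X_4 + p Y_5`,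
`μ = p Y_0 - q X_1`, `ds = 2(p X_0 - q Y_1) + 2i (p Y_0 + q X_1)`, `ds̄` its conjugate.
The result is `8 (pq)⁴` times `pairc` (sign `σ = 1`).

The proof is by reflection: elements of the algebra generated by the anticommuting operators
`g n = c_{n/3}^{n%3}` are represented by lists of terms `z · p^a · q^b · g_{i_1} ⋯ g_{i_r}`, and
multiplication is computed by sorted insertion. -/

open MeasureTheory Filter Topology
open scoped ContDiff ComplexConjugate

namespace Vale.Agent.P353.Ex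

/-! ### reflection of the exterior algebra -/

namespace PT

/-- insertion of a generator into a word, with a sign (`none` = zero) -/
def ins (i : ℕ) : List ℕ → Option (Bool × List ℕ)
  | [] => some (false, [i])
  | j :: l =>
    bif Nat.blt i j then some (false, i :: j :: l) else
      bif Nat.beq i j then none else
        match ins i l with
        | none => none
        | some (s, l') => some (!s, j :: l')

/-- insertion of a word -/
def insW : List ℕ → List ℕ → Option (Bool × List ℕ)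
  | [], l => some (false, l)
  | i :: w, l =>
    match insW w l with
    | none => none
    | some (s, l') =>
      match ins i l' with
      | none => none
      | some (s', l'') => some (xor s s', l'')

/-- a term: integer coefficient, exponents of `p` and `q`, word -/
structure Tm where
  z : ℤ
  a : ℕ
  b : ℕ
  w : List ℕ

/-- product of a term with a polynomial -/
def mulT (s : Tm) : List Tm → List Tm
  | [] => []
  | t :: P =>
    match insW s.w t.w with
    | none => mulT s P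
    | some (e, l) => ⟨bif e then -(s.z * t.z) else s.z * t.z, s.a + t.a, s.b + t.b, l⟩ :: mulT s P

/-- product of polynomials -/
def mul : List Tm → List Tm → List Tm
  | [], _ => []
  | s :: S, P => mulT s P ++ mul S P

/-- the sum of the coefficients if all terms are `p^a q^b w` -/
def coef (a b : ℕ) (w : List ℕ) : List Tm → Option ℤ
  | [] => some 0
  | t :: P =>
    bif (Nat.beq t.a a && Nat.beq t.b b && (t.w == w)) then
      match coef a b w P with
      | none => none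
      | some z => some (t.z + z)
    else none

section eval

variable {R : Type*} [Ring R] [Algebra ℂ R] (g : ℕ → R) (p q : ℂ)

/-- sign -/
def sgn (e : Bool) : ℂ := bif e then -1 else 1

def mon (w : List ℕ) : R := (w.map g).prod

def evT (t : Tm) : R := ((t.z : ℂ) * p ^ t.a * q ^ t.b) • mon g t.w

def ev (P : List Tm) : R := (P.map (evT g p q)).sum

variable (hg : ∀ i j, g i * g j = -(g j * g i))

include hg

lemma ins_spec (i : ℕ) (l : List ℕ) : g i * mon g l =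
    match ins i l with
    | none => 0
    | some (s, l') => sgn s • mon g l' := by
  have h0 : g i * g i = 0 := by
    have h := hg i i
    have h2 : (2 : ℂ) • (g i * g i) = 0 := by
      rw [two_smul]
      nth_rewrite 1 [h]
      simp
    exact (smul_eq_zero_iff_right (two_ne_zero)).1 h2
  induction l with
  | nil => simp [ins, mon, sgn]
  | cons j l ih =>
    rw [ins]
    cases h1 : Nat.blt i j with
    | true => simp [mon, sgn]
    | false =>
      cases h2 : Nat.beq i j with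
      | true =>
        have hij : i = j := Nat.eq_of_beq_eq_true h2
        subst hij
        simp only [cond_false, cond_true, mon, List.map_cons, List.prod_cons]
        rw [← mul_assoc, h0, zero_mul]
      | false =>
        simp only [cond_false]
        have e1 : g i * mon g (j :: l) = -(g j * (g i * mon g l)) := by
          simp only [mon, List.map_cons, List.prod_cons]
          rw [← mul_assoc, hg i j, neg_mul, mul_assoc]
        rw [e1, ih]
        cases ins i l with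
        | none => simp
        | some r =>
          obtain ⟨s, l'⟩ := r
          cases s <;> simp [sgn, mon]

lemma insW_spec (w l : List ℕ) : mon g w * mon g l =
    match insW w l with
    | none => 0
    | some (s, l') => sgn s • mon g l' := by
  induction w with
  | nil => simp [insW, mon, sgn]
  | cons i w ih =>
    have e1 : mon g (i :: w) * mon g l = g i * (mon g w * mon g l) := by
      simp only [mon, List.map_cons, List.prod_cons, mul_assoc]
    rw [e1, ih, insW]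
    cases insW w l with
    | none => simp
    | some r =>
      obtain ⟨s, l'⟩ := r
      simp only []
      rw [mul_smul_comm, ins_spec g hg i l']
      cases ins i l' with
      | none => simp
      | some r' =>
        obtain ⟨s', l''⟩ := r'
        cases s <;> cases s' <;> simp [sgn]

lemma mulT_spec (s : Tm) (P : List Tm) : ev g p q (mulT s P) = evT g p q s * ev g p q P := by
  induction P with
  | nil => simp [mulT, ev]
  | cons t P ih =>
    have e1 : evT g p q s * evT g p q t =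
        ((s.z : ℂ) * t.z * p ^ (s.a + t.a) * q ^ (s.b + t.b)) • (mon g s.w * mon g t.w) := by
      simp only [evT, smul_mul_assoc, mul_smul_comm, smul_smul]
      congr 1
      rw [pow_add, pow_add]
      ring
    have e2 : ev g p q (t :: P) = evT g p q t + ev g p q P := by
      simp [ev]
    rw [e2, mul_add, e1, insW_spec g hg, ← ih, mulT]
    cases insW s.w t.w with
    | none => simp
    | some r =>
      obtain ⟨e, l⟩ := r
      cases e <;> simp [ev, evT, sgn]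

lemma mul_spec (S P : List Tm) : ev g p q (mul S P) = ev g p q S * ev g p q P := by
  induction S with
  | nil => simp [mul, ev]
  | cons s S ih =>
    have e2 : ev g p q (s :: S) = evT g p q s + ev g p q S := by
      simp [ev]
    rw [e2, add_mul, ← ih, ← mulT_spec g p q hg, mul]
    simp [ev]

omit hg in
lemma coef_spec (a b : ℕ) (w : List ℕ) (P : List Tm) (z : ℤ) (h : coef a b w P = some z) :
    ev g p q P = ((z : ℂ) * p ^ a * q ^ b) • mon g w := by
  induction P generalizing z with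
  | nil =>
    simp only [coef, Option.some.injEq] at h
    subst h
    simp [ev]
  | cons t P ih =>
    rw [coef] at h
    cases hc : (Nat.beq t.a a && Nat.beq t.b b && (t.w == w)) with
    | false => rw [hc] at h; simp at h
    | true =>
      rw [hc] at h
      simp only [cond_true] at h
      cases h3 : coef a b w P with
      | none => rw [h3] at h; simp at h
      | some z' =>
        rw [h3] at h
        simp only [Option.some.injEq] at h
        have e2 : ev g p q (t :: P) = evT g p q t + ev g p q P := by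
          simp [ev]
        rw [e2, ih z' h3, ← h]
        simp only [Bool.and_eq_true, beq_iff_eq] at hc
        obtain ⟨⟨ha, hb⟩, hw⟩ := hc
        have ha' := Nat.eq_of_beq_eq_true ha
        have hb' := Nat.eq_of_beq_eq_true hb
        rw [evT, ha', hb', hw, ← add_smul]
        congr 1
        push_cast
        ring

end eval

/-! the explicit polynomials -/

def pmu : List Tm := [⟨1, 1, 0, [1]⟩, ⟨-1, 0, 1, [3]⟩]
def pA : List Tm := [⟨1, 1, 0, [0]⟩, ⟨-1, 0, 1, [4]⟩]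
def pB : List Tm := [⟨1, 1, 0, [1]⟩, ⟨1, 0, 1, [3]⟩]
def pBB : List Tm := [⟨1, 0, 0, [0, 1]⟩, ⟨1, 0, 0, [3, 4]⟩, ⟨1, 0, 0, [6, 7]⟩, ⟨1, 0, 0, [9, 10]⟩,
  ⟨1, 0, 0, [12, 13]⟩, ⟨1, 0, 0, [15, 16]⟩, ⟨1, 0, 0, [18, 19]⟩]
def pc : List Tm := [⟨1, 0, 0, [21, 22, 23]⟩]
/-- `Z_k dκ_k` -/
def pz : Fin 7 → List Tm
  | 0 => [⟨-1, 0, 1, [2, 6]⟩]
  | 1 => [⟨-1, 1, 0, [5, 7]⟩]
  | 2 => [⟨1, 0, 1, [8, 0]⟩, ⟨1, 1, 0, [8, 4]⟩]
  | 3 => [⟨1, 0, 1, [11, 15]⟩, ⟨-1, 1, 0, [11, 13]⟩]
  | 4 => [⟨-1, 0, 1, [14, 18]⟩, ⟨1, 1, 0, [14, 10]⟩]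
  | 5 => [⟨-1, 0, 1, [17, 9]⟩, ⟨-1, 1, 0, [17, 19]⟩]
  | 6 => [⟨1, 0, 1, [20, 12]⟩, ⟨1, 1, 0, [20, 16]⟩]

def pzk : List Tm :=
  mul (pz 0) (mul (pz 1) (mul (pz 2) (mul (pz 3) (mul (pz 4) (mul (pz 5) (mul (pz 6)
    [⟨1, 0, 0, []⟩]))))))

def w24 : List ℕ := [0, 1, 2, 3, 4, 5, 6, 7, 8, 9, 10, 11, 12, 13, 14, 15, 16, 17, 18, 19, 20,
  21, 22, 23]

def pA3 : List Tm := mul pc (mul pmu (mul pBB (mul pBB (mul pBB pzk))))
def pA2 : List Tm := mul pc (mul pmu (mul pA (mul pB (mul pBB (mul pBB pzk)))))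


lemma coef_pA3 : coef 4 4 w24 pA3 = some 48 := by decide +kernel

lemma coef_pA2a : coef 6 4 w24 (pA2.filter fun t => Nat.beq t.a 6) = some 16 := by
  decide +kernel

lemma coef_pA2b : coef 4 6 w24 (pA2.filter fun t => !Nat.beq t.a 6) = some 16 := by
  decide +kernel

lemma ev_filter {R : Type*} [Ring R] [Algebra ℂ R] (g : ℕ → R) (p q : ℂ) (f : Tm → Bool)
    (P : List Tm) : ev g p q P = ev g p q (P.filter f) + ev g p q (P.filter fun t => !f t) := by
  induction P with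
  | nil => simp [ev]
  | cons t P ih =>
    have e2 : ∀ Q, ev g p q (t :: Q) = evT g p q t + ev g p q Q := fun Q => by
      simp [ev]
    rw [e2, ih]
    cases h : f t <;> simp [h, e2] <;> abel

end PT

open PT

variable {F : Type*} [NormedAddCommGroup F] [InnerProductSpace ℂ F]

namespace Fk

/-- numbering of the creation operators -/
noncomputable def gen (K : Fk F) (n : ℕ) : F →L[ℂ] F :=
  K.c (Fin.ofNat 8 (n / 3)) (Fin.ofNat 3 (n % 3))

lemma gen_anti (K : Fk F) (i j : ℕ) : K.gen i * K.gen j = -(K.gen j * K.gen i) :=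
  eq_neg_of_add_eq_zero_left (K.cc _ _ _ _)

lemma mu_ev (K : Fk F) (x : X3) (p q : ℝ)
    (h0 : ∀ i : Fin 7, x (e9 i, 0) = if i = 0 then p else 0)
    (h1 : ∀ i : Fin 7, x (e9 i, 1) = if i = 1 then q else 0) :
    K.mu x = ev K.gen p q pmu := by
  have e : K.mu x = (p : ℂ) • K.c (e8 0) 1 - (q : ℂ) • K.c (e8 1) 0 := by
    unfold mu
    rw [Fin.sum_univ_seven]
    simp only [h0, h1]
    simp
    abel
  rw [e]
  simp [ev, evT, pmu, mon]
  rw [sub_eq_add_neg]
  rfl

lemma ds_ev (K : Fk F) (x : X3) (p q : ℝ)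
    (h0 : ∀ i : Fin 7, x (e9 i, 0) = if i = 0 then p else 0)
    (h1 : ∀ i : Fin 7, x (e9 i, 1) = if i = 1 then q else 0) :
    K.ds x = (2 : ℂ) • ev K.gen p q pA + (2 * Complex.I) • ev K.gen p q pB := by
  have e : K.ds x = (2 * (p : ℂ)) • (K.c (e8 0) 0 + Complex.I • K.c (e8 0) 1) +
      (2 * (Complex.I * (q : ℂ))) • (K.c (e8 1) 0 + Complex.I • K.c (e8 1) 1) := by
    unfold ds
    rw [Fin.sum_univ_seven]
    simp only [h0, h1]
    simp
  have eA : ev K.gen p q pA = (p : ℂ) • K.c (e8 0) 0 + (-(q : ℂ)) • K.c (e8 1) 1 := by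
    simp [ev, evT, pA, mon]
    rfl
  have eB : ev K.gen p q pB = (p : ℂ) • K.c (e8 0) 1 + (q : ℂ) • K.c (e8 1) 0 := by
    simp [ev, evT, pB, mon]
    rfl
  rw [e, eA, eB]
  simp only [smul_add, smul_smul]
  have e3 : 2 * (Complex.I * (q : ℂ)) * Complex.I = 2 * -(q : ℂ) := by
    linear_combination (2 * (q : ℂ)) * Complex.I_mul_I
  rw [e3, show 2 * (p : ℂ) * Complex.I = 2 * Complex.I * p by ring,
    show 2 * (Complex.I * (q : ℂ)) = 2 * Complex.I * q by ring]
  abel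

lemma dsb_ev (K : Fk F) (x : X3) (p q : ℝ)
    (h0 : ∀ i : Fin 7, x (e9 i, 0) = if i = 0 then p else 0)
    (h1 : ∀ i : Fin 7, x (e9 i, 1) = if i = 1 then q else 0) :
    K.dsb x = (2 : ℂ) • ev K.gen p q pA - (2 * Complex.I) • ev K.gen p q pB := by
  have e : K.dsb x = (2 * (p : ℂ)) • (K.c (e8 0) 0 - Complex.I • K.c (e8 0) 1) -
      (2 * (Complex.I * (q : ℂ))) • (K.c (e8 1) 0 - Complex.I • K.c (e8 1) 1) := by
    unfold dsb
    rw [Fin.sum_univ_seven]
    simp only [h0, h1]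
    simp
    abel
  have eA : ev K.gen p q pA = (p : ℂ) • K.c (e8 0) 0 + (-(q : ℂ)) • K.c (e8 1) 1 := by
    simp [ev, evT, pA, mon]
    rfl
  have eB : ev K.gen p q pB = (p : ℂ) • K.c (e8 0) 1 + (q : ℂ) • K.c (e8 1) 0 := by
    simp [ev, evT, pB, mon]
    rfl
  rw [e, eA, eB]
  simp only [smul_add, smul_sub, smul_smul]
  have e3 : 2 * (Complex.I * (q : ℂ)) * Complex.I = 2 * -(q : ℂ) := by
    linear_combination (2 * (q : ℂ)) * Complex.I_mul_I
  rw [e3, show 2 * (p : ℂ) * Complex.I = 2 * Complex.I * p by ring,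
    show 2 * (Complex.I * (q : ℂ)) = 2 * Complex.I * q by ring]
  abel

lemma dsdsb_ev (K : Fk F) (x : X3) (p q : ℝ)
    (h0 : ∀ i : Fin 7, x (e9 i, 0) = if i = 0 then p else 0)
    (h1 : ∀ i : Fin 7, x (e9 i, 1) = if i = 1 then q else 0) :
    K.ds x * K.dsb x = (-8 * Complex.I) • (ev K.gen p q pA * ev K.gen p q pB) := by
  rw [K.ds_ev x p q h0 h1, K.dsb_ev x p q h0 h1]
  set A := ev K.gen p q pA with hA
  set B := ev K.gen p q pB with hB
  have hAA : A * A = 0 := by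
    rw [hA, ← mul_spec K.gen p q K.gen_anti,
      coef_spec K.gen p q 1 1 [0, 4] (mul pA pA) 0 (by decide +kernel)]
    simp
  have hBB : B * B = 0 := by
    rw [hB, ← mul_spec K.gen p q K.gen_anti,
      coef_spec K.gen p q 1 1 [1, 3] (mul pB pB) 0 (by decide +kernel)]
    simp
  have hBA : B * A = -(A * B) := by
    rw [hA, hB, ← mul_spec K.gen p q K.gen_anti, ← mul_spec K.gen p q K.gen_anti,
      show mul pB pA = [⟨-1, 2, 0, [0, 1]⟩, ⟨-1, 1, 1, [1, 4]⟩, ⟨-1, 1, 1, [0, 3]⟩,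
        ⟨-1, 0, 2, [3, 4]⟩] from rfl,
      show mul pA pB = [⟨1, 2, 0, [0, 1]⟩, ⟨1, 1, 1, [0, 3]⟩, ⟨1, 1, 1, [1, 4]⟩,
        ⟨1, 0, 2, [3, 4]⟩] from rfl]
    simp only [ev, evT, List.map_cons, List.map_nil, List.sum_cons, List.sum_nil, Int.cast_neg,
      Int.cast_one, neg_mul, neg_smul]
    abel
  simp only [add_mul, mul_sub, smul_mul_smul_comm, hAA, hBB, hBA, smul_zero, smul_neg, ← neg_smul,
    zero_add, add_zero, ← sub_smul]
  congr 1
  ring

lemma BB_ev (K : Fk F) (p q : ℝ) : K.BB = ev K.gen p q pBB := by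
  unfold BB
  rw [Fin.sum_univ_seven]
  simp [ev, evT, pBB, mon]
  simp only [← add_assoc]
  rfl

lemma c777_ev (K : Fk F) (p q : ℝ) : K.c777 = ev K.gen p q pc := by
  unfold c777
  simp [ev, evT, pc, mon]
  simp only [← mul_assoc]
  rfl

lemma Ctop_mon (K : Fk F) : K.Ctop = mon K.gen w24 := by
  unfold Ctop
  simp only [mon, w24, List.map_cons, List.map_nil, List.prod_cons, List.prod_nil, mul_one,
    List.ofFn_succ, List.ofFn_zero, mul_assoc]
  rfl

lemma zk_ev (K : Fk F) (x : X3) (p q : ℝ)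
    (t0 : ∀ k j, K.t k 0 j = L1 k j) (t1 : ∀ k j, K.t k 1 j = L2 k j)
    (h0 : ∀ i : Fin 7, x (e9 i, 0) = if i = 0 then p else 0)
    (h1 : ∀ i : Fin 7, x (e9 i, 1) = if i = 1 then q else 0) (k : Fin 7) :
    K.c (e8 k) 2 * K.dkap k x = ev K.gen p q (pz k) := by
  have e : K.dkap k x = ∑ i, ((-q * L2 k i : ℝ) : ℂ) • K.c (e8 i) 0 +
      ∑ j, ((p * L1 k j : ℝ) : ℂ) • K.c (e8 j) 1 := by
    unfold dkap
    simp only [h0, h1, smul_add, Finset.sum_add_distrib]
    congr 1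
    · refine Finset.sum_congr rfl fun i _ => ?_
      rw [Finset.sum_eq_single 1]
      · rw [if_pos rfl, K.t_swap, t1, smul_smul]
        congr 1
        push_cast
        ring
      · intro j _ hj
        simp [hj]
      · simp
    · rw [Finset.sum_comm]
      refine Finset.sum_congr rfl fun j _ => ?_
      rw [Finset.sum_eq_single 0]
      · rw [if_pos rfl, t0, smul_smul]
        congr 1
        push_cast
        ring
      · intro j _ hj
        simp [hj]
      · simp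
  rw [e, Fin.sum_univ_seven, Fin.sum_univ_seven]
  fin_cases k <;> simp [L1, L2, ev, evT, pz, mon, mul_add] <;> rfl

lemma zk_ev' (K : Fk F) (x : X3) (p q : ℝ)
    (t0 : ∀ k j, K.t k 0 j = L1 k j) (t1 : ∀ k j, K.t k 1 j = L2 k j)
    (h0 : ∀ i : Fin 7, x (e9 i, 0) = if i = 0 then p else 0)
    (h1 : ∀ i : Fin 7, x (e9 i, 1) = if i = 1 then q else 0) :
    K.zk x = ev K.gen p q pzk := by
  unfold zk pzk
  simp only [K.zk_ev x p q t0 t1 h0 h1, mul_spec K.gen p q K.gen_anti]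
  simp only [List.ofFn_succ, List.ofFn_zero, List.prod_cons, List.prod_nil]
  congr 7
  simp [ev, evT, mon]

theorem top_form : ∃ σ : ℝ, σ ^ 2 = 1 ∧ ∀ (K : Fk F) (x : X3) (p q : ℝ),
    (∀ k j, K.t k 0 j = L1 k j) → (∀ k j, K.t k 1 j = L2 k j) →
    (∀ i : Fin 7, x (e9 i, 0) = if i = 0 then p else 0) →
    (∀ i : Fin 7, x (e9 i, 1) = if i = 1 then q else 0) →
    K.A3 x = ((σ * 8 * (p * q) ^ 4 : ℝ) : ℂ) * K.pairc ∧
    Complex.I * K.A2 x = ((σ * 64 * (p * q) ^ 4 * (p ^ 2 + q ^ 2) : ℝ) : ℂ) * K.pairc := by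
  refine ⟨1, by norm_num, fun K x p q t0 t1 h0 h1 => ?_⟩
  have ea := K.gen_anti
  constructor
  · have e : K.c777 * K.mu x * ((1 / 6 : ℂ) • (K.BB * K.BB * K.BB)) * K.zk x =
        (8 * ((p : ℂ) * q) ^ 4) • K.Ctop := by
      rw [K.c777_ev p q, K.mu_ev x p q h0 h1, K.BB_ev p q, K.zk_ev' x p q t0 t1 h0 h1,
        K.Ctop_mon]
      have h := coef_spec K.gen (p : ℂ) (q : ℂ) 4 4 w24 pA3 48 coef_pA3
      unfold pA3 at h
      simp only [mul_spec K.gen (p : ℂ) (q : ℂ) ea] at h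
      rw [mul_smul_comm, smul_mul_assoc]
      simp only [mul_assoc] at h ⊢
      rw [h, smul_smul]
      congr 1
      push_cast
      ring
    unfold A3 pairc
    rw [e, _root_.smul_apply, inner_smul_right]
    push_cast
    ring
  · have e : K.c777 * K.mu x * (K.ds x * K.dsb x) * ((1 / 2 : ℂ) • (K.BB * K.BB)) * K.zk x =
        (-64 * Complex.I * ((p : ℂ) * q) ^ 4 * (p ^ 2 + q ^ 2)) • K.Ctop := by
      rw [K.dsdsb_ev x p q h0 h1, K.c777_ev p q, K.mu_ev x p q h0 h1, K.BB_ev p q,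
        K.zk_ev' x p q t0 t1 h0 h1, K.Ctop_mon]
      have h := ev_filter K.gen (p : ℂ) (q : ℂ) (fun t => Nat.beq t.a 6) pA2
      rw [coef_spec K.gen (p : ℂ) (q : ℂ) 6 4 w24 _ 16 coef_pA2a,
        coef_spec K.gen (p : ℂ) (q : ℂ) 4 6 w24 _ 16 coef_pA2b] at h
      unfold pA2 at h
      simp only [mul_spec K.gen (p : ℂ) (q : ℂ) ea] at h
      rw [mul_smul_comm, mul_smul_comm, smul_mul_assoc, smul_mul_assoc, smul_mul_assoc]
      simp only [mul_assoc] at h ⊢
      rw [h, smul_smul, ← add_smul, smul_smul]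
      congr 1
      push_cast
      ring
    unfold A2 pairc
    rw [e, _root_.smul_apply, inner_smul_right]
    push_cast
    linear_combination (-64 * ((p : ℂ) * q) ^ 4 * (p ^ 2 + q ^ 2) *
      inner ℂ K.vacb (K.Ctop K.vac)) * Complex.I_mul_I

end Fk

end Vale.Agent.P353.Ex
end

section

/-! Task EX-24: positivity.

For every `x`: rotate by `Tel θ`, take the adapted frame; get `A3 x = ±8 kapsq² pairc`,
`I A2 x = 8 wsq A3 x`.  `A3` is (real) analytic in `x` (polynomial), so from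
`(A3 - 8 kapsq² pairc)(A3 + 8 kapsq² pairc) = 0` on the connected space `X3` one of the factors
vanishes identically (identity theorem for analytic functions). -/

open MeasureTheory Filter Topology
open scoped ContDiff ComplexConjugate

namespace Vale.Agent.P353.Ex

variable {F : Type*} [NormedAddCommGroup F] [InnerProductSpace ℂ F]

theorem exp_gg_pos (x : X3) : 0 < Fk.gg x := by
  unfold Fk.gg
  have : 0 ≤ Fk.r3 x := by unfold Fk.r3; positivity
  positivity

theorem exp_r3_nonneg (x : X3) : 0 ≤ Fk.r3 x := by unfold Fk.r3; positivity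

theorem exp_wsq_nonneg (x : X3) : 0 ≤ Fk.wsq x := by
  unfold Fk.wsq
  exact Finset.sum_nonneg fun i _ => by positivity

theorem exp_qp_pos (x : X3) : 0 < Fk.qp x := by
  unfold Fk.qp
  have h1 := exp_gg_pos x
  have h2 := exp_r3_nonneg x
  positivity

namespace Fk

variable (K : Fk F)

/-- the positive weight -/
noncomputable def Wp (x : X3) : ℝ :=
  r3 x ^ 2 * qp x * Real.exp (-K.expo x - K.flip.expo x) * K.kapsq x ^ 2 *
    (256 * gg x ^ 3 * r3 x ^ 2 + 512 * gg x ^ 2 * r3 x * wsq x)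

theorem Wp_nonneg (x : X3) : 0 ≤ K.Wp x := by
  unfold Wp
  have h1 := exp_gg_pos x
  have h2 := exp_r3_nonneg x
  have h3 := exp_wsq_nonneg x
  have h4 := exp_qp_pos x
  positivity

theorem exp_cont_coord (p : Fin 9 × Fin 3) : Continuous fun x : X3 => x p := by
  fun_prop

theorem exp_cont_r3 : Continuous r3 := by
  unfold r3
  have h1 := exp_cont_coord (7, 2)
  have h2 := exp_cont_coord (8, 2)
  exact (h1.pow 2).add (h2.pow 2)

theorem exp_cont_gg : Continuous gg := by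
  unfold gg
  refine Continuous.inv₀ (Real.continuous_sqrt.comp (continuous_const.add exp_cont_r3)) fun x => ?_
  have h2 := exp_r3_nonneg x
  positivity

theorem exp_cont_qp : Continuous qp := by
  unfold qp
  have h1 := exp_cont_gg
  have h2 := exp_cont_r3
  fun_prop

theorem exp_cont_wsq : Continuous wsq := by
  unfold wsq
  refine continuous_finsetSum _ fun i _ => ?_
  exact ((exp_cont_coord _).pow 2).add ((exp_cont_coord _).pow 2)

theorem exp_cont_kap (k : Fin 7) : Continuous (K.kap k) := by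
  unfold kap
  refine continuous_finsetSum _ fun i _ => continuous_finsetSum _ fun j _ => ?_
  exact (continuous_const.mul (exp_cont_coord _)).mul (exp_cont_coord _)

theorem exp_cont_kapsq : Continuous K.kapsq := by
  unfold kapsq
  exact continuous_finsetSum _ fun k _ => (K.exp_cont_kap k).pow 2

theorem exp_cont_expo : Continuous K.expo := by
  unfold expo
  have h1 := exp_cont_gg
  have h2 := exp_cont_r3
  have h3 := exp_cont_wsq
  have h4 : Continuous ss := by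
    unfold ss
    refine continuous_finsetSum _ fun i _ => ?_
    have a := exp_cont_coord (e9 i, 0)
    have b := exp_cont_coord (e9 i, 1)
    fun_prop
  have h5 : Continuous fun x => ∑ k, K.bb k x ^ 2 := by
    refine continuous_finsetSum _ fun k _ => ?_
    unfold bb
    have a := exp_cont_coord (e9 k, 2)
    have b := K.exp_cont_kap k
    have c : Continuous fun x : X3 => x (e9 k, 2) - K.f0 * K.kap k x := by fun_prop
    exact c.pow 2
  exact ((h4.norm.pow 2).add h5).add ((h1.mul h2).mul h3)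

theorem continuous_Wp : Continuous K.Wp := by
  unfold Wp
  have h1 := exp_cont_gg
  have h2 := exp_cont_r3
  have h3 := exp_cont_wsq
  have h4 := K.exp_cont_kapsq
  have h5 := exp_cont_qp
  have h6 := K.exp_cont_expo
  have h7 := K.flip.exp_cont_expo
  fun_prop

theorem exists_Wp_pos : ∃ x, x = pr x ∧ 0 < K.Wp x := by
  let y : Fin 9 × Fin 3 → ℝ := fun p =>
    if p = (7, 2) then 1 else if p = (0, 0) then 1 else if p = (1, 1) then 1 else 0
  refine ⟨WithLp.toLp 2 y, ?_, ?_⟩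
  · ext p
    unfold pr
    show y p = if (p.1 = 7 ∨ p.1 = 8) ∧ p.2 ≠ 2 then 0 else y p
    obtain ⟨i, A⟩ := p
    simp only [y]
    fin_cases i <;> fin_cases A <;> simp
  · have hr : 0 < r3 (WithLp.toLp 2 y) := by
      unfold r3
      show 0 < y (7, 2) ^ 2 + y (8, 2) ^ 2
      simp [y]
    have hk : K.kapsq (WithLp.toLp 2 y) = 1 := by
      unfold kapsq kap
      have := K.t_norm (fun i => y (e9 i, 0)) (fun i => y (e9 i, 1))
      refine this.trans ?_
      simp only [Fin.sum_univ_succ, y]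
      simp [Fin.ext_iff]
    unfold Wp
    have h1 := exp_gg_pos (WithLp.toLp 2 y)
    have h3 := exp_wsq_nonneg (WithLp.toLp 2 y)
    have h4 := exp_qp_pos (WithLp.toLp 2 y)
    rw [hk]
    positivity


section line

variable (x v : X3)

theorem exp_an_coord (p : Fin 9 × Fin 3) (t : ℝ) :
    AnalyticAt ℝ (fun t : ℝ => (((x + t • v) p : ℝ) : ℂ)) t := by
  have h : AnalyticAt ℝ (fun t : ℝ => Complex.ofRealCLM (x p + t * v p)) t := by
    refine (Complex.ofRealCLM.analyticAt _).fun_comp ?_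
    fun_prop
  exact h

theorem exp_an_mu (t : ℝ) : AnalyticAt ℝ (fun t : ℝ => K.mu (x + t • v)) t := by
  unfold mu
  refine Finset.analyticAt_fun_sum _ fun i _ => ?_
  exact ((exp_an_coord x v _ t).fun_smul analyticAt_const).fun_sub
    ((exp_an_coord x v _ t).fun_smul analyticAt_const)

theorem exp_an_dkap (k : Fin 7) (t : ℝ) : AnalyticAt ℝ (fun t : ℝ => K.dkap k (x + t • v)) t := by
  unfold dkap
  refine Finset.analyticAt_fun_sum _ fun i _ => Finset.analyticAt_fun_sum _ fun j _ => ?_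
  exact analyticAt_const.fun_smul (((exp_an_coord x v _ t).fun_smul analyticAt_const).fun_add
    ((exp_an_coord x v _ t).fun_smul analyticAt_const))

theorem exp_an_listprod {A : Type*} [NormedRing A] [NormedAlgebra ℝ A] (t : ℝ) :
    ∀ (l : List (ℝ → A)), (∀ f ∈ l, AnalyticAt ℝ f t) →
      AnalyticAt ℝ (fun s => (l.map fun f => f s).prod) t
  | [], _ => by
    simpa using analyticAt_const
  | f :: l, h => by
    have h1 : AnalyticAt ℝ f t := h f (by simp)
    have h2 := exp_an_listprod t l fun g hg => h g (by simp [hg])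
    simpa using h1.fun_mul h2

theorem exp_an_zk (t : ℝ) : AnalyticAt ℝ (fun t : ℝ => K.zk (x + t • v)) t := by
  unfold zk
  have := exp_an_listprod t (List.ofFn fun k : Fin 7 => fun t : ℝ =>
    K.c (e8 k) 2 * K.dkap k (x + t • v)) (by
      intro f hf
      rw [List.mem_ofFn] at hf
      obtain ⟨k, rfl⟩ := hf
      exact analyticAt_const.fun_mul (K.exp_an_dkap x v k t))
  simpa [List.map_ofFn, Function.comp_def] using this

theorem exp_an_A3 (t : ℝ) : AnalyticAt ℝ (fun t : ℝ => K.A3 (x + t • v)) t := by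
  let L : (F →L[ℂ] F) →L[ℂ] ℂ := (innerSL ℂ K.vacb).comp
    (ContinuousLinearMap.apply ℂ F K.vac)
  have h : AnalyticAt ℝ (fun t : ℝ => (L.restrictScalars ℝ) (K.c777 * K.mu (x + t • v) *
      ((1 / 6 : ℂ) • (K.BB * K.BB * K.BB)) * K.zk (x + t • v))) t := by
    refine ((L.restrictScalars ℝ).analyticAt _).fun_comp ?_
    exact ((analyticAt_const.fun_mul (K.exp_an_mu x v t)).fun_mul analyticAt_const).fun_mul
      (K.exp_an_zk x v t)
  exact h

theorem exp_an_kapsq (t : ℝ) :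
    AnalyticAt ℝ (fun t : ℝ => ((K.kapsq (x + t • v) : ℝ) : ℂ)) t := by
  unfold kapsq kap
  push_cast
  refine Finset.analyticAt_fun_sum _ fun k _ => ?_
  refine AnalyticAt.fun_pow (Finset.analyticAt_fun_sum _ fun i _ =>
    Finset.analyticAt_fun_sum _ fun j _ => ?_) 2
  exact (analyticAt_const.fun_mul (exp_an_coord x v _ t)).fun_mul (exp_an_coord x v _ t)

end line

/-- identity theorem along lines -/
theorem exp_ident (f g : X3 → ℂ) (hf : ∀ x v t, AnalyticAt ℝ (fun t : ℝ => f (x + t • v)) t)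
    (hg : ∀ x v t, AnalyticAt ℝ (fun t : ℝ => g (x + t • v)) t)
    (h : ∀ x, f x * g x = 0) : (∀ x, f x = 0) ∨ ∀ x, g x = 0 := by
  by_contra hc
  push Not at hc
  obtain ⟨⟨x, hx⟩, y, hy⟩ := hc
  have := AnalyticOnNhd.eq_zero_or_eq_zero_of_mul_eq_zero (U := Set.univ)
    (fun t _ => hf x (y - x) t) (fun t _ => hg x (y - x) t) (fun t _ => h _)
    isPreconnected_univ
  rcases this with h1 | h1
  · exact hx (by simpa using h1 0 (Set.mem_univ _))
  · exact hy (by simpa using h1 1 (Set.mem_univ _))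


theorem exp_rotX (O : Matrix (Fin 7) (Fin 7) ℝ) (x : X3) (i : Fin 7) (A : Fin 3) :
    rotX O x (e9 i, A) = ∑ l, O i l * x (e9 l, A) := by
  simp [rotX, e9]

theorem exp_pointwise : ∃ σ : ℝ, σ ^ 2 = 1 ∧ ∀ (K : Fk F) (x : X3), ∃ δ : ℝ, δ ^ 2 = 1 ∧
    K.A3 x = ((σ * δ * 8 * K.kapsq x ^ 2 : ℝ) : ℂ) * K.pairc ∧
    Complex.I * K.A2 x = ((8 * wsq x : ℝ) : ℂ) * K.A3 x := by
  obtain ⟨σ, hσ, h⟩ := top_form (F := F)
  refine ⟨σ, hσ, fun K x => ?_⟩
  obtain ⟨θ, hθ⟩ := exists_Tel_orth x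
  obtain ⟨O, p, q, hO, ha, hb, h1, h2⟩ := exists_frame K.t K.t_swap K.t_cyc K.t_norm
    (fun i => act (Tel θ) x (e9 i, 0)) (fun i => act (Tel θ) x (e9 i, 1)) hθ
  have hdet : O.det ^ 2 = 1 := by
    have := congrArg Matrix.det hO
    rw [Matrix.det_mul, Matrix.det_transpose, Matrix.det_one] at this
    rw [sq, this]
  obtain ⟨hA3, hA2⟩ := h (K.rot O hO) (rotX O (act (Tel θ) x)) p q
    (fun k j => h1 k j) (fun k j => h2 k j)
    (fun i => by rw [exp_rotX]; exact ha i) (fun i => by rw [exp_rotX]; exact hb i)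
  have hw : wsq x = p ^ 2 + q ^ 2 := by
    rw [← wsq_Tel θ x, ← wsq_rotX O hO]
    unfold wsq
    simp only [exp_rotX]
    simp only [ha, hb]
    rw [Finset.sum_add_distrib]
    simp
  have hk : K.kapsq x = (p * q) ^ 2 := by
    rw [← K.kapsq_Tel θ x, ← K.kapsq_rot O hO]
    unfold kapsq kap
    have e : ∀ k : Fin 7, (∑ i, ∑ j, (K.rot O hO).t k i j * rotX O (act (Tel θ) x) (e9 i, 0) *
        rotX O (act (Tel θ) x) (e9 j, 1)) = p * q * L1 k 1 := by
      intro k
      simp only [exp_rotX, ha, hb]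
      rw [Finset.sum_eq_single 0 (by intro i _ hi; simp [hi]) (by simp),
        Finset.sum_eq_single 1 (by intro i _ hi; simp [hi]) (by simp)]
      have : (K.rot O hO).t k 0 1 = L1 k 1 := h1 k 1
      rw [this, if_pos rfl, if_pos rfl]
      ring
    simp only [e]
    simp [Fin.sum_univ_succ, L1]
  rw [K.pairc_rot O hO] at hA3 hA2
  rw [K.A3_rot O hO, K.A3_Tel] at hA3
  rw [K.A2_rot O hO, K.A2_Tel] at hA2
  refine ⟨O.det, hdet, ?_, ?_⟩
  · rw [hA3, hk]
    push_cast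
    ring
  · rw [hA2, hA3, hw]
    push_cast
    ring

theorem pos : ∃ σ : ℝ, σ ^ 2 = 1 ∧ ∀ x, K.Gp x =
    ((σ * 32768 * K.f0 * K.Wp x : ℝ) : ℂ) * K.pairc := by
  obtain ⟨σ, hσ, h⟩ := exp_pointwise (F := F)
  have h1 : (∀ x, K.A3 x - 8 * ((K.kapsq x : ℝ) : ℂ) ^ 2 * K.pairc = 0) ∨
      ∀ x, K.A3 x + 8 * ((K.kapsq x : ℝ) : ℂ) ^ 2 * K.pairc = 0 := by
    refine exp_ident _ _ (fun x v t => ?_) (fun x v t => ?_) (fun x => ?_)
    · exact (K.exp_an_A3 x v t).fun_sub ((analyticAt_const.fun_mul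
        ((K.exp_an_kapsq x v t).fun_pow 2)).fun_mul analyticAt_const)
    · exact (K.exp_an_A3 x v t).fun_add ((analyticAt_const.fun_mul
        ((K.exp_an_kapsq x v t).fun_pow 2)).fun_mul analyticAt_const)
    · obtain ⟨δ, hδ, hA, -⟩ := h K x
      have hs : ((σ : ℝ) : ℂ) ^ 2 = 1 := by exact_mod_cast hσ
      have hd : ((δ : ℝ) : ℂ) ^ 2 = 1 := by exact_mod_cast hδ
      rw [hA]
      push_cast
      linear_combination (64 * ((K.kapsq x : ℝ) : ℂ) ^ 4 * K.pairc ^ 2 * (δ : ℂ) ^ 2) * hs +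
        (64 * ((K.kapsq x : ℝ) : ℂ) ^ 4 * K.pairc ^ 2) * hd
  have h2 : ∃ τ : ℝ, τ ^ 2 = 1 ∧ ∀ x, K.A3 x =
      ((τ * 8 * K.kapsq x ^ 2 : ℝ) : ℂ) * K.pairc := by
    rcases h1 with h1 | h1
    · refine ⟨1, by norm_num, fun x => ?_⟩
      push_cast
      linear_combination h1 x
    · refine ⟨-1, by norm_num, fun x => ?_⟩
      push_cast
      linear_combination h1 x
  obtain ⟨τ, hτ, h3⟩ := h2
  refine ⟨τ, hτ, fun x => ?_⟩
  obtain ⟨δ, hδ, -, hA2⟩ := h K x
  rw [K.Gp_eq, hA2, h3, Wp]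
  push_cast
  ring

end Fk

end Vale.Agent.P353.Ex
end

section

/-! # P353, uniqueness: local Rellich theorem and global compactness (B-LR, B-GR) -/

open MeasureTheory Filter Topology
open scoped ContDiff

namespace Vale.Agent.P353.U

variable {F : Type*} [NormedAddCommGroup F] [InnerProductSpace ℂ F]

namespace Rl

open FD

/-- Poincaré inequality on cells. -/
lemma poincare [CompleteSpace F] {ι : Type*} [Fintype ι] {v : EuclideanSpace ℝ ι → F}
    (hv : ContDiff ℝ 1 v) (hvs : HasCompactSupport v) {δ : ℝ} (hδ : 0 < δ) (K : Finset (ι → ℤ))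
    (hK : ∀ x, x ∉ (⋃ k ∈ K, (cell δ k : Set (EuclideanSpace ℝ ι))) → v x = 0) :
    ∫ x, ‖v x‖ ^ 2 ≤ 2 * (2 ^ Fintype.card ι * (Fintype.card ι * δ ^ 2)) *
      (∫ x, ‖fderiv ℝ v x‖ ^ 2) +
      2 * ∑ k ∈ K, (δ ^ Fintype.card ι)⁻¹ * ‖∫ x in cell δ k, v x‖ ^ 2 := by
  have hvL : MemLp v 2 (volume : Measure (EuclideanSpace ℝ ι)) :=
    hv.continuous.memLp_of_hasCompactSupport hvs
  have hvi : Integrable v := hv.continuous.integrable_of_hasCompactSupport hvs
  have hv2 : Integrable (fun x => ‖v x‖ ^ 2) := (memLp_two_iff_integrable_sq_norm hvL.1).mp hvL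
  have hDv : Integrable (fun x => ‖fderiv ℝ v x‖ ^ 2) := by
    refine ((hv.continuous_fderiv (by simp)).norm.pow 2).integrable_of_hasCompactSupport ?_
    have h1 : HasCompactSupport (fderiv ℝ v) := hvs.fderiv (𝕜 := ℝ)
    refine h1.mono ?_
    intro x hx
    simp only [Function.mem_support] at hx ⊢
    intro h2
    exact hx (by simp [h2])
  have hfin : ∀ k : ι → ℤ,
      IsFiniteMeasure (volume.restrict (cell δ k : Set (EuclideanSpace ℝ ι))) := by
    intro k
    refine ⟨?_⟩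
    rw [Measure.restrict_apply_univ, volume_cell]
    exact ENNReal.pow_lt_top ENNReal.ofReal_lt_top
  have hvol : ∀ k : ι → ℤ, (volume (cell δ k : Set (EuclideanSpace ℝ ι))).toReal =
      δ ^ Fintype.card ι := by
    intro k
    rw [volume_cell, ENNReal.toReal_pow, ENNReal.toReal_ofReal hδ.le]
  have hδd : 0 < δ ^ Fintype.card ι := pow_pos hδ _
  let c : (ι → ℤ) → F := fun k => (volume (cell δ k : Set (EuclideanSpace ℝ ι))).toReal⁻¹ •
    ∫ y in cell δ k, v y
  have hcL : ∀ k : ι → ℤ, MemLp (fun x => v x - c k) 2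
      (volume.restrict (cell δ k : Set (EuclideanSpace ℝ ι))) := by
    intro k
    have := hfin k
    exact (hvL.restrict _).sub (memLp_const _)
  have hc2 : ∀ k : ι → ℤ, Integrable (fun x => ‖v x - c k‖ ^ 2)
      (volume.restrict (cell δ k : Set (EuclideanSpace ℝ ι))) := fun k =>
    (memLp_two_iff_integrable_sq_norm (hcL k).1).mp (hcL k)
  have hbound : ∑ k ∈ K, ∫ x in cell δ k, ‖v x - c k‖ ^ 2 ≤
      2 ^ Fintype.card ι * (Fintype.card ι * δ ^ 2) * ∫ x, ‖fderiv ℝ v x‖ ^ 2 := by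
    have h1 := cells_bound hv hvi hδ K
    have h2 : ∀ k ∈ K, ∫⁻ x in cell δ k, ‖v x - (volume (cell δ k)).toReal⁻¹ •
        ∫ y in cell δ k, v y‖ₑ ^ 2 = ENNReal.ofReal (∫ x in cell δ k, ‖v x - c k‖ ^ 2) := by
      intro k _
      exact lint_eq (hc2 k)
    rw [Finset.sum_congr rfl h2, ← ENNReal.ofReal_sum_of_nonneg
      (fun k _ => integral_nonneg fun x => by positivity)] at h1
    have h3 : ∫⁻ x, ‖fderiv ℝ v x‖ₑ ^ 2 = ENNReal.ofReal (∫ x, ‖fderiv ℝ v x‖ ^ 2) := lint_eq hDv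
    rw [h3, ← ENNReal.ofReal_mul (by positivity)] at h1
    exact (ENNReal.ofReal_le_ofReal_iff (by positivity)).mp h1
  have h1 : ∫ x, ‖v x‖ ^ 2 = ∑ k ∈ K, ∫ x in cell δ k, ‖v x‖ ^ 2 := by
    rw [← integral_biUnion_finset K (fun k _ => measurableSet_cell δ k)
      (fun k _ l _ hkl => cell_disjoint hδ hkl) (fun k _ => hv2.integrableOn)]
    symm
    refine setIntegral_eq_integral_of_forall_compl_eq_zero fun x hx => ?_
    rw [hK x hx]; simp
  have h2 : ∀ k ∈ K, ∫ x in cell δ k, ‖v x‖ ^ 2 ≤ 2 * (∫ x in cell δ k, ‖v x - c k‖ ^ 2) +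
      2 * ((δ ^ Fintype.card ι)⁻¹ * ‖∫ x in cell δ k, v x‖ ^ 2) := by
    intro k hk
    have := hfin k
    have e1 : (δ ^ Fintype.card ι)⁻¹ * ‖∫ x in cell δ k, v x‖ ^ 2 =
        ∫ _x in cell δ k, ‖c k‖ ^ 2 := by
      rw [setIntegral_const, Measure.real, hvol k]
      simp only [c, norm_smul, norm_inv, hvol k, Real.norm_of_nonneg hδd.le, smul_eq_mul, mul_pow]
      field_simp
    rw [e1, ← integral_const_mul, ← integral_const_mul, ← integral_add
      ((hc2 k).const_mul 2) ((integrable_const _).const_mul 2)]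
    refine integral_mono hv2.integrableOn
      (((hc2 k).const_mul 2).add ((integrable_const _).const_mul 2)) fun x => ?_
    have h3 : ‖v x‖ ≤ ‖v x - c k‖ + ‖c k‖ := by
      simpa using norm_add_le (v x - c k) (c k)
    have h4 : ‖v x‖ ^ 2 ≤ (‖v x - c k‖ + ‖c k‖) ^ 2 := by gcongr
    simp only
    nlinarith [sq_nonneg (‖v x - c k‖ - ‖c k‖)]
  rw [h1]
  refine (Finset.sum_le_sum h2).trans ?_
  rw [Finset.sum_add_distrib, ← Finset.mul_sum, ← Finset.mul_sum]
  nlinarith [hbound]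

lemma opNorm_sq_le (L : X3 →L[ℝ] F) :
    ‖L‖ ^ 2 ≤ ∑ i, ∑ A, ‖L (EuclideanSpace.single (i, A) 1)‖ ^ 2 := by
  have h0 : 0 ≤ ∑ i, ∑ A, ‖L (EuclideanSpace.single (i, A) 1)‖ ^ 2 := by positivity
  have h1 : ‖L‖ ≤ Real.sqrt (∑ i, ∑ A, ‖L (EuclideanSpace.single (i, A) 1)‖ ^ 2) := by
    refine L.opNorm_le_bound (Real.sqrt_nonneg _) fun x => ?_
    have hx : x = ∑ p : Fin 9 × Fin 3, x p • (EuclideanSpace.single p (1 : ℝ) : X3) := by
      ext q
      simp only [WithLp.ofLp_sum, Finset.sum_apply, WithLp.ofLp_smul, Pi.smul_apply,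
        PiLp.single_apply, smul_eq_mul, mul_ite, mul_one, mul_zero]
      simp
    have h2 : L x = ∑ p : Fin 9 × Fin 3, x p • L (EuclideanSpace.single p (1 : ℝ) : X3) := by
      conv_lhs => rw [hx]
      rw [map_sum]
      simp only [map_smul]
    have h3 : ‖L x‖ ≤ ∑ p : Fin 9 × Fin 3, |x p| * ‖L (EuclideanSpace.single p (1 : ℝ) : X3)‖ := by
      rw [h2]
      refine (norm_sum_le _ _).trans (Finset.sum_le_sum fun p _ => ?_)
      rw [norm_smul, Real.norm_eq_abs]
    have h4 := Finset.sum_mul_sq_le_sq_mul_sq (Finset.univ : Finset (Fin 9 × Fin 3))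
      (fun p => |x p|) (fun p => ‖L (EuclideanSpace.single p (1 : ℝ) : X3)‖)
    have h5 : ∑ p : Fin 9 × Fin 3, |x p| ^ 2 = ‖x‖ ^ 2 := by
      rw [EuclideanSpace.norm_sq_eq]
      simp
    have h6 : ∑ p : Fin 9 × Fin 3, ‖L (EuclideanSpace.single p (1 : ℝ) : X3)‖ ^ 2 =
        ∑ i, ∑ A, ‖L (EuclideanSpace.single (i, A) 1)‖ ^ 2 := by
      rw [Fintype.sum_prod_type]
    rw [h5, h6] at h4
    have h7 : 0 ≤ ∑ p : Fin 9 × Fin 3, |x p| * ‖L (EuclideanSpace.single p (1 : ℝ) : X3)‖ := by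
      positivity
    refine h3.trans ?_
    rw [← Real.sqrt_sq h7, ← Real.sqrt_sq (norm_nonneg x), ← Real.sqrt_mul h0]
    refine Real.sqrt_le_sqrt ?_
    linarith
  calc ‖L‖ ^ 2 ≤ (Real.sqrt (∑ i, ∑ A, ‖L (EuclideanSpace.single (i, A) 1)‖ ^ 2)) ^ 2 := by
        gcongr
    _ = _ := Real.sq_sqrt h0

lemma sq_add_le (a b : ℝ) : (a + b) ^ 2 ≤ 2 * a ^ 2 + 2 * b ^ 2 := by
  nlinarith [sq_nonneg (a - b)]

omit [InnerProductSpace ℂ F] in
lemma sq_sub_le (a b : F) : ‖a - b‖ ^ 2 ≤ 2 * ‖a‖ ^ 2 + 2 * ‖b‖ ^ 2 := by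
  have h1 : ‖a - b‖ ^ 2 ≤ (‖a‖ + ‖b‖) ^ 2 := by
    gcongr; exact norm_sub_le _ _
  exact h1.trans (sq_add_le _ _)

lemma int_ball {f : X3 → ℝ} (hf : Continuous f) (r : ℝ) :
    IntegrableOn f (Metric.ball (0 : X3) r) :=
  (hf.continuousOn.integrableOn_compact (isCompact_closedBall (0 : X3) r)).mono_set
    Metric.ball_subset_closedBall

/-- the localized functions -/
lemma loc_bound {χ : X3 → ℝ} (hχ : ContDiff ℝ ∞ χ) (hχs : HasCompactSupport χ)
    (hχ0 : ∀ x, 0 ≤ χ x) (hχ1 : ∀ x, χ x ≤ 1) {r : ℝ} (hr : ∀ x, r ≤ ‖x‖ → χ x = 0) :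
    ∃ C : ℝ, 0 ≤ C ∧ ∀ u : X3 → F, ContDiff ℝ ∞ u →
      ((∫ x, ‖χ x • u x‖ ^ 2) ≤ ∫ x in Metric.ball (0 : X3) r, ‖u x‖ ^ 2) ∧
      (∫ x, ‖fderiv ℝ (fun y => χ y • u y) x‖ ^ 2) ≤
        C * (∫ x in Metric.ball (0 : X3) r, ‖u x‖ ^ 2) +
        2 * ∑ i, ∑ A, ∫ x in Metric.ball (0 : X3) r, ‖pd i A u x‖ ^ 2 := by
  have hχd : Continuous (fderiv ℝ χ) := hχ.continuous_fderiv (by simp)
  obtain ⟨M, hM⟩ := (hχs.fderiv (𝕜 := ℝ)).exists_bound_of_continuous hχd
  have hM0 : 0 ≤ M := (norm_nonneg _).trans (hM 0)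
  have hnot : ∀ x : X3, x ∉ Metric.ball (0 : X3) r → r ≤ ‖x‖ := by
    intro x hx
    rw [Metric.mem_ball, dist_zero_right, not_lt] at hx
    exact hx
  refine ⟨2 * M ^ 2, by positivity, fun u hu => ⟨?_, ?_⟩⟩
  · rw [← setIntegral_eq_integral_of_forall_compl_eq_zero (s := Metric.ball (0 : X3) r)
      (fun x hx => by rw [hr x (hnot x hx)]; simp)]
    refine setIntegral_mono (int_ball ((hχ.continuous.smul hu.continuous).norm.pow 2) r)
      (int_ball (hu.continuous.norm.pow 2) r) fun x => ?_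
    simp only
    rw [norm_smul, mul_pow, Real.norm_of_nonneg (hχ0 x)]
    have h1 : χ x ^ 2 ≤ 1 := by
      have := hχ0 x; have := hχ1 x; nlinarith
    nlinarith [sq_nonneg ‖u x‖]
  · have hud : Continuous (fderiv ℝ u) := hu.continuous_fderiv (by simp)
    have hprod : ContDiff ℝ ∞ (fun y => χ y • u y) := hχ.smul hu
    have hpc : Continuous (fderiv ℝ (fun y => χ y • u y)) := hprod.continuous_fderiv (by simp)
    have hder : ∀ x, fderiv ℝ (fun y => χ y • u y) x =
        χ x • fderiv ℝ u x + (fderiv ℝ χ x).smulRight (u x) := by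
      intro x
      exact fderiv_smul ((hχ.differentiable (by simp)) x) ((hu.differentiable (by simp)) x)
    have hz : ∀ x, x ∉ Metric.ball (0 : X3) r →
        ‖fderiv ℝ (fun y => χ y • u y) x‖ ^ 2 = 0 := by
      intro x hx
      have h1 := hr x (hnot x hx)
      have h2 : fderiv ℝ χ x = 0 := by
        apply IsLocalMin.fderiv_eq_zero
        refine Filter.Eventually.of_forall fun y => ?_
        rw [h1]; exact hχ0 y
      rw [hder, h1, h2]
      simp
    rw [← setIntegral_eq_integral_of_forall_compl_eq_zero (s := Metric.ball (0 : X3) r) hz]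
    have hpd : ∀ i A, Continuous (fun x => ‖pd i A u x‖ ^ 2) := fun i A =>
      (hud.clm_apply continuous_const).norm.pow 2
    have hsum : ∑ i, ∑ A, ∫ x in Metric.ball (0 : X3) r, ‖pd i A u x‖ ^ 2 =
        ∫ x in Metric.ball (0 : X3) r, ∑ i, ∑ A, ‖pd i A u x‖ ^ 2 := by
      rw [integral_finsetSum _ fun i _ => integrable_finsetSum _ fun A _ => int_ball (hpd i A) r]
      refine Finset.sum_congr rfl fun i _ => ?_
      rw [integral_finsetSum _ fun A _ => int_ball (hpd i A) r]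
    have hi1 : IntegrableOn (fun x => ‖u x‖ ^ 2) (Metric.ball (0 : X3) r) :=
      int_ball (hu.continuous.norm.pow 2) r
    have hi2 : IntegrableOn (fun x => ∑ i, ∑ A, ‖pd i A u x‖ ^ 2) (Metric.ball (0 : X3) r) :=
      int_ball (continuous_finsetSum _ fun i _ => continuous_finsetSum _ fun A _ => hpd i A) r
    rw [hsum, ← integral_const_mul, ← integral_const_mul, ← integral_add (hi1.const_mul _)
      (hi2.const_mul _)]
    refine setIntegral_mono (int_ball (hpc.norm.pow 2) r) ((hi1.const_mul _).add (hi2.const_mul _))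
      fun x => ?_
    have h1 : ‖fderiv ℝ (fun y => χ y • u y) x‖ ≤ ‖fderiv ℝ u x‖ + M * ‖u x‖ := by
      rw [hder]
      refine (norm_add_le _ _).trans (add_le_add ?_ ?_)
      · rw [norm_smul, Real.norm_of_nonneg (hχ0 x)]
        exact mul_le_of_le_one_left (norm_nonneg _) (hχ1 x)
      · rw [ContinuousLinearMap.norm_smulRight_apply]
        exact mul_le_mul_of_nonneg_right (hM x) (norm_nonneg _)
    have h2 := opNorm_sq_le (fderiv ℝ u x)
    have h3 : ‖fderiv ℝ (fun y => χ y • u y) x‖ ^ 2 ≤ (‖fderiv ℝ u x‖ + M * ‖u x‖) ^ 2 := by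
      gcongr
    have h4 := sq_add_le ‖fderiv ℝ u x‖ (M * ‖u x‖)
    have h5 : ∑ i, ∑ A, ‖fderiv ℝ u x (EuclideanSpace.single (i, A) 1)‖ ^ 2 =
        ∑ i, ∑ A, ‖pd i A u x‖ ^ 2 := rfl
    rw [h5] at h2
    simp only
    calc _ ≤ _ := h3
      _ ≤ _ := h4
      _ ≤ 2 * ∑ i, ∑ A, ‖pd i A u x‖ ^ 2 + 2 * (M * ‖u x‖) ^ 2 := by gcongr
      _ = _ := by ring

omit [InnerProductSpace ℂ F] in
lemma int_sq {v : X3 → F} (hv : Continuous v) (hvs : HasCompactSupport v) :
    Integrable (fun x => ‖v x‖ ^ 2) := by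
  refine (hv.norm.pow 2).integrable_of_hasCompactSupport ?_
  refine hvs.mono ?_
  intro x hx
  simp only [Function.mem_support] at hx ⊢
  intro h2
  exact hx (by simp [h2])

lemma cauchy_of_avg [CompleteSpace F] {w : ℕ → X3 → F} (hw : ∀ n, ContDiff ℝ ∞ (w n))
    (hws : ∀ n, HasCompactSupport (w n)) {D : ℝ}
    (hD : ∀ n, ∫ x, ‖fderiv ℝ (w n) x‖ ^ 2 ≤ D) {r : ℝ} (hr : ∀ n x, r ≤ ‖x‖ → w n x = 0)
    (havg : ∀ (j : ℕ) (k : Fin 9 × Fin 3 → ℤ), ∃ l : F,
      Tendsto (fun n => ∫ x in (cell (1 / ((j : ℝ) + 1)) k : Set X3), w n x) atTop (𝓝 l)) :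
    Tendsto (fun p : ℕ × ℕ => nsq (fun x => w p.1 x - w p.2 x)) atTop (𝓝 0) := by
  have hlim : Tendsto (fun j : ℕ => 2 * (2 ^ Fintype.card (Fin 9 × Fin 3) *
      (Fintype.card (Fin 9 × Fin 3) * (1 / ((j : ℝ) + 1)) ^ 2)) * (4 * D)) atTop (𝓝 0) := by
    have h1 : Tendsto (fun j : ℕ => (1 / ((j : ℝ) + 1))) atTop (𝓝 0) :=
      tendsto_one_div_add_atTop_nhds_zero_nat
    have h2 := ((((h1.pow 2).const_mul (Fintype.card (Fin 9 × Fin 3) : ℝ)).const_mul
      ((2 : ℝ) ^ Fintype.card (Fin 9 × Fin 3))).const_mul 2).mul_const (4 * D)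
    simpa using h2
  rw [tendsto_order]
  refine ⟨fun a ha => Filter.Eventually.of_forall fun p => lt_of_lt_of_le ha (nsq_nonneg _),
    fun ε hε => ?_⟩
  obtain ⟨j, hj⟩ := (hlim.eventually_lt_const (half_pos hε)).exists
  have hδ : (0 : ℝ) < 1 / ((j : ℝ) + 1) := by positivity
  obtain ⟨K, hK⟩ := exists_cells (ι := Fin 9 × Fin 3) hδ r
  choose l hl using havg
  have hav : Tendsto (fun p : ℕ × ℕ => 2 * ∑ k ∈ K,
      ((1 / ((j : ℝ) + 1)) ^ Fintype.card (Fin 9 × Fin 3))⁻¹ *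
        ‖(∫ x in (cell (1 / ((j : ℝ) + 1)) k : Set X3), w p.1 x) -
          ∫ x in (cell (1 / ((j : ℝ) + 1)) k : Set X3), w p.2 x‖ ^ 2) atTop (𝓝 0) := by
    have h1 : ∀ k ∈ K, Tendsto (fun p : ℕ × ℕ =>
      ((1 / ((j : ℝ) + 1)) ^ Fintype.card (Fin 9 × Fin 3))⁻¹ *
        ‖(∫ x in (cell (1 / ((j : ℝ) + 1)) k : Set X3), w p.1 x) -
          ∫ x in (cell (1 / ((j : ℝ) + 1)) k : Set X3), w p.2 x‖ ^ 2) atTop (𝓝 0) := by
      intro k _
      rw [← prod_atTop_atTop_eq]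
      have e1 := (hl j k).comp (tendsto_fst (f := (atTop : Filter ℕ)) (g := (atTop : Filter ℕ)))
      have e2 := (hl j k).comp (tendsto_snd (f := (atTop : Filter ℕ)) (g := (atTop : Filter ℕ)))
      have h2 := ((e1.sub e2).norm.pow 2).const_mul
          ((1 / ((j : ℝ) + 1)) ^ Fintype.card (Fin 9 × Fin 3))⁻¹
      simpa using h2
    have h3 := (tendsto_finsetSum K h1).const_mul 2
    simpa using h3
  filter_upwards [hav.eventually_lt_const (half_pos hε)] with p hp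
  have hv : ContDiff ℝ ∞ (fun x => w p.1 x - w p.2 x) := (hw p.1).sub (hw p.2)
  have hvs : HasCompactSupport (fun x => w p.1 x - w p.2 x) := (hws p.1).sub (hws p.2)
  have h1 := poincare (hv.of_le (by simp)) hvs hδ K (fun x hx => by
    have : r ≤ ‖x‖ := by
      by_contra hcon
      push Not at hcon
      exact hx (hK x hcon)
    rw [hr _ x this, hr _ x this, sub_zero])
  have h2 : ∫ x, ‖fderiv ℝ (fun x => w p.1 x - w p.2 x) x‖ ^ 2 ≤ 4 * D := by
    have hi : ∀ n, Integrable (fun x => ‖fderiv ℝ (w n) x‖ ^ 2) := fun n =>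
      int_sq ((hw n).continuous_fderiv (by simp)) ((hws n).fderiv (𝕜 := ℝ))
    have h3 : ∫ x, ‖fderiv ℝ (fun x => w p.1 x - w p.2 x) x‖ ^ 2 ≤
        ∫ x, (2 * ‖fderiv ℝ (w p.1) x‖ ^ 2 + 2 * ‖fderiv ℝ (w p.2) x‖ ^ 2) := by
      refine integral_mono_of_nonneg (Filter.Eventually.of_forall fun x => by
        simp only [Pi.zero_apply]; positivity) (((hi p.1).const_mul 2).add ((hi p.2).const_mul 2))
        (Filter.Eventually.of_forall fun x => ?_)
      have h4 : fderiv ℝ (fun x => w p.1 x - w p.2 x) x =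
          fderiv ℝ (w p.1) x - fderiv ℝ (w p.2) x :=
        fderiv_fun_sub (((hw p.1).differentiable (by simp)) x)
          (((hw p.2).differentiable (by simp)) x)
      simp only
      rw [h4]
      exact sq_sub_le _ _
    rw [integral_add ((hi p.1).const_mul 2) ((hi p.2).const_mul 2), integral_const_mul,
      integral_const_mul] at h3
    have := hD p.1
    have := hD p.2
    linarith
  have h5 : ∀ k, ∫ x in (cell (1 / ((j : ℝ) + 1)) k : Set X3), (w p.1 x - w p.2 x) =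
      (∫ x in (cell (1 / ((j : ℝ) + 1)) k : Set X3), w p.1 x) -
          ∫ x in (cell (1 / ((j : ℝ) + 1)) k : Set X3), w p.2 x := by
    intro k
    have hi : ∀ n, Integrable (w n) := fun n =>
      (hw n).continuous.integrable_of_hasCompactSupport (hws n)
    exact integral_sub (hi p.1).integrableOn (hi p.2).integrableOn
  simp only [h5] at h1
  have h6 : 0 ≤ 2 * (2 ^ Fintype.card (Fin 9 × Fin 3) *
      (Fintype.card (Fin 9 × Fin 3) * (1 / ((j : ℝ) + 1)) ^ 2)) := by positivity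
  have h7 := mul_le_mul_of_nonneg_left h2 h6
  rw [nsq]
  linarith

lemma extraction [FiniteDimensional ℂ F] {w : ℕ → ℕ → X3 → F}
    (hwc : ∀ s n, Continuous (w s n)) (hws : ∀ s n, HasCompactSupport (w s n)) {K : ℕ → ℝ}
    (hK : ∀ s n, ∫ x, ‖w s n x‖ ^ 2 ≤ K s) :
    ∃ φ : ℕ → ℕ, StrictMono φ ∧ ∀ (s j : ℕ) (k : Fin 9 × Fin 3 → ℤ), ∃ l : F,
      Tendsto (fun n => ∫ x in (cell (1 / ((j : ℝ) + 1)) k : Set X3), w s (φ n) x)
        atTop (𝓝 l) := by
  have hprop : ProperSpace F := FiniteDimensional.proper ℂ F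
  let a : ℕ → (ℕ × ℕ × (Fin 9 × Fin 3 → ℤ)) → F := fun n p =>
    ∫ x in (cell (1 / ((p.2.1 : ℝ) + 1)) p.2.2 : Set X3), w p.1 n x
  let B : (ℕ × ℕ × (Fin 9 × Fin 3 → ℤ)) → ℝ := fun p =>
    (1 / ((p.2.1 : ℝ) + 1)) ^ Fintype.card (Fin 9 × Fin 3) + K p.1
  have ha : ∀ n, a n ∈ Set.univ.pi fun p => Metric.closedBall (0 : F) (B p) := by
    intro n p _
    rw [mem_closedBall_zero_iff]
    have hδ : (0 : ℝ) < 1 / ((p.2.1 : ℝ) + 1) := by positivity
    have hsq := int_sq (hwc p.1 n) (hws p.1 n)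
    have hint : Integrable (w p.1 n) :=
      (hwc p.1 n).integrable_of_hasCompactSupport (hws p.1 n)
    have hfin : IsFiniteMeasure (volume.restrict
        (cell (1 / ((p.2.1 : ℝ) + 1)) p.2.2 : Set X3)) := by
      refine ⟨?_⟩
      rw [Measure.restrict_apply_univ, volume_cell]
      exact ENNReal.pow_lt_top ENNReal.ofReal_lt_top
    calc ‖a n p‖ ≤ ∫ x in (cell (1 / ((p.2.1 : ℝ) + 1)) p.2.2 : Set X3), ‖w p.1 n x‖ :=
          norm_integral_le_integral_norm _
      _ ≤ ∫ x in (cell (1 / ((p.2.1 : ℝ) + 1)) p.2.2 : Set X3), (1 + ‖w p.1 n x‖ ^ 2) := by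
          refine integral_mono hint.norm.integrableOn
            ((integrable_const _).add hsq.integrableOn) fun x => ?_
          simp only
          nlinarith [sq_nonneg (‖w p.1 n x‖ - 1), norm_nonneg (w p.1 n x)]
      _ = (1 / ((p.2.1 : ℝ) + 1)) ^ Fintype.card (Fin 9 × Fin 3) +
          ∫ x in (cell (1 / ((p.2.1 : ℝ) + 1)) p.2.2 : Set X3), ‖w p.1 n x‖ ^ 2 := by
          rw [integral_add (integrable_const _) hsq.integrableOn, setIntegral_const, Measure.real,
            volume_cell, ENNReal.toReal_pow, ENNReal.toReal_ofReal hδ.le, smul_eq_mul, mul_one]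
      _ ≤ B p := by
          refine add_le_add le_rfl (le_trans ?_ (hK p.1 n))
          exact setIntegral_le_integral hsq (Filter.Eventually.of_forall fun x => by positivity)
  have hc : IsCompact (Set.univ.pi fun p : ℕ × ℕ × (Fin 9 × Fin 3 → ℤ) =>
      Metric.closedBall (0 : F) (B p)) :=
    isCompact_univ_pi fun p => isCompact_closedBall _ _
  obtain ⟨l, -, φ, hφ, hl⟩ := hc.tendsto_subseq ha
  exact ⟨φ, hφ, fun s j k => ⟨l (s, j, k), (tendsto_pi_nhds.1 hl) (s, j, k)⟩⟩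

lemma lim_of_cauchy [CompleteSpace F] {f : ℕ → X3 → F}
    (hf : ∀ n, MemLp (f n) 2 (volume : Measure X3))
    (hc : Tendsto (fun p : ℕ × ℕ => nsq (fun x => f p.1 x - f p.2 x)) atTop (𝓝 0)) :
    ∃ g : X3 → F, StronglyMeasurable g ∧ L2t f g := by
  have h1 : CauchySeq fun n => (hf n).toLp (f n) := by
    rw [cauchySeq_iff_tendsto_dist_atTop_0]
    have h2 : ∀ p : ℕ × ℕ, dist ((hf p.1).toLp (f p.1)) ((hf p.2).toLp (f p.2)) =
        Real.sqrt (nsq (fun x => f p.1 x - f p.2 x)) := by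
      intro p
      rw [dist_eq_norm, ← MemLp.toLp_sub, norm_toLp]
      rfl
    simp only [h2]
    have := (Real.continuous_sqrt.tendsto 0).comp hc
    rw [Real.sqrt_zero] at this
    exact this
  obtain ⟨g, hg⟩ := cauchySeq_tendsto_of_complete h1
  refine ⟨g, Lp.stronglyMeasurable g, ⟨hf, Lp.memLp g, ?_⟩⟩
  have h3 : ∀ n, nsq (fun x => f n x - g x) = ‖(hf n).toLp (f n) - g‖ ^ 2 := by
    intro n
    have h4 : (hf n).toLp (f n) - g =
        ((hf n).sub (Lp.memLp g)).toLp (f n - (g : X3 → F)) := by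
      rw [MemLp.toLp_sub (hf n) (Lp.memLp g), Lp.toLp_coeFn]
    rw [h4, norm_toLp, Real.sq_sqrt (nsq_nonneg _)]
    rfl
  simp only [h3]
  have h5 := (tendsto_iff_norm_sub_tendsto_zero.1 hg).pow 2
  simpa using h5

end Rl

open Rl

theorem lr [FiniteDimensional ℂ F] : LRStmt F := by
  intro u hu hK
  have hcomp : CompleteSpace F := FiniteDimensional.complete ℂ F
  obtain ⟨K0, -, hcut⟩ := exists_cut
  choose χ hχ using fun s : ℕ => hcut ((s : ℝ) + 1) (by positivity)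
  choose C hC0 hC using fun s : ℕ => loc_bound (F := F) (hχ s).1 (hχ s).2.1 (hχ s).2.2.1
    (hχ s).2.2.2.1 (hχ s).2.2.2.2.2.1
  choose KK hKK using fun s : ℕ => hK (2 * ((s : ℝ) + 1)) (by positivity)
  have hA : ∀ s n : ℕ, ∫ x in Metric.ball (0 : X3) (2 * ((s : ℝ) + 1)), ‖u n x‖ ^ 2 ≤ KK s := by
    intro s n
    have h1 := hKK s n
    have h2 : 0 ≤ ∑ i, ∑ A, (∫ x in Metric.ball (0 : X3) (2 * ((s : ℝ) + 1)),
        ‖pd i A (u n) x‖ ^ 2) := Finset.sum_nonneg fun i _ => Finset.sum_nonneg fun A _ =>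
      integral_nonneg fun x => by positivity
    linarith
  have hw1 : ∀ s n, ∫ x, ‖χ s x • u n x‖ ^ 2 ≤ KK s := fun s n =>
    ((hC s (u n) (hu n)).1).trans (hA s n)
  have hw2 : ∀ s n, ∫ x, ‖fderiv ℝ (fun y => χ s y • u n y) x‖ ^ 2 ≤ (C s + 2) * KK s := by
    intro s n
    refine ((hC s (u n) (hu n)).2).trans ?_
    have h1 := hKK s n
    have h2 : 0 ≤ ∫ x in Metric.ball (0 : X3) (2 * ((s : ℝ) + 1)), ‖u n x‖ ^ 2 :=
      integral_nonneg fun x => by positivity
    have h3 := mul_le_mul_of_nonneg_left (hA s n) (hC0 s)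
    have h4 : (C s + 2) * KK s = C s * KK s + 2 * KK s := by ring
    rw [h4]
    linarith
  have hws : ∀ s n, ContDiff ℝ ∞ (fun x => χ s x • u n x) := fun s n => (hχ s).1.smul (hu n)
  have hwc : ∀ s n, HasCompactSupport (fun x => χ s x • u n x) := fun s n =>
    (hχ s).2.1.smul_right
  have hwm : ∀ s n, MemLp (fun x => χ s x • u n x) 2 (volume : Measure X3) := fun s n =>
    (hws s n).continuous.memLp_of_hasCompactSupport (hwc s n)
  obtain ⟨φ, hφ, hex⟩ := extraction (w := fun s n x => χ s x • u n x)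
    (fun s n => (hws s n).continuous) hwc hw1
  have hlim : ∀ s : ℕ, ∃ g : X3 → F, StronglyMeasurable g ∧
      L2t (fun n x => χ s x • u (φ n) x) g := by
    intro s
    refine lim_of_cauchy (fun n => hwm s (φ n)) ?_
    exact cauchy_of_avg (w := fun n x => χ s x • u (φ n) x) (fun n => hws s (φ n))
      (fun n => hwc s (φ n)) (fun n => hw2 s (φ n)) (r := 2 * ((s : ℝ) + 1))
      (fun n x hx => by rw [(hχ s).2.2.2.2.2.1 x hx, zero_smul]) (fun j k => hex s j k)
  choose g hgm hg using hlim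
  let Ψ : X3 → F := fun x => g ⌊‖x‖⌋₊ x
  have hΨm : StronglyMeasurable Ψ := by
    have hprop : ProperSpace F := FiniteDimensional.proper ℂ F
    borelize F
    have h1 : Measurable (fun p : ℕ × X3 => g p.1 p.2) :=
      measurable_from_prod_countable_right fun s => (hgm s).measurable
    have h2 : Measurable (fun x : X3 => (⌊‖x‖⌋₊, x)) :=
      (Nat.measurable_floor.comp measurable_norm).prodMk measurable_id
    exact (h1.comp h2).stronglyMeasurable
  have hg2 : ∀ s, Integrable (fun x => ‖g s x‖ ^ 2) := fun s => memLp_norm_sq_int (hg s).mem'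
  have hfl : ∀ r : ℝ, ∀ x ∈ Metric.ball (0 : X3) r, ⌊‖x‖⌋₊ ∈ Finset.range (⌊r⌋₊ + 1) := by
    intro r x hx
    rw [Metric.mem_ball, dist_zero_right] at hx
    rw [Finset.mem_range]
    exact Nat.lt_succ_of_le (Nat.floor_le_floor hx.le)
  refine ⟨φ, hφ, Ψ, hΨm, fun r hr => ?_, fun r hr => ?_⟩
  · refine Integrable.mono' (g := fun x => ∑ s ∈ Finset.range (⌊r⌋₊ + 1), ‖g s x‖ ^ 2)
      (integrable_finsetSum _ fun s _ => (hg2 s).integrableOn)
      ((hΨm.norm.pow 2).aestronglyMeasurable) ?_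
    refine (ae_restrict_mem Metric.isOpen_ball.measurableSet).mono fun x hx => ?_
    rw [Real.norm_of_nonneg (by positivity)]
    exact Finset.single_le_sum (f := fun s => ‖g s x‖ ^ 2) (fun s _ => by positivity) (hfl r x hx)
  · have hd2 : ∀ s n, Integrable (fun x => ‖χ s x • u (φ n) x - g s x‖ ^ 2) := fun s n =>
      memLp_norm_sq_int ((hwm s (φ n)).sub (hg s).mem')
    have h1 : ∀ n, ∫ x in Metric.ball (0 : X3) r, ‖u (φ n) x - Ψ x‖ ^ 2 ≤
        ∑ s ∈ Finset.range (⌊r⌋₊ + 1), nsq (fun x => χ s x • u (φ n) x - g s x) := by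
      intro n
      have h2 : ∑ s ∈ Finset.range (⌊r⌋₊ + 1), nsq (fun x => χ s x • u (φ n) x - g s x) =
          ∫ x, ∑ s ∈ Finset.range (⌊r⌋₊ + 1), ‖χ s x • u (φ n) x - g s x‖ ^ 2 := by
        rw [integral_finsetSum _ fun s _ => hd2 s n]
        rfl
      rw [h2]
      refine le_trans ?_ (setIntegral_le_integral (s := Metric.ball (0 : X3) r)
        (integrable_finsetSum _ fun s _ => hd2 s n)
        (Filter.Eventually.of_forall fun x => Finset.sum_nonneg fun s _ => by positivity))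
      refine integral_mono_of_nonneg (Filter.Eventually.of_forall fun x => by
        simp only [Pi.zero_apply]; positivity)
        (integrable_finsetSum _ fun s _ => (hd2 s n).integrableOn) ?_
      refine (ae_restrict_mem Metric.isOpen_ball.measurableSet).mono fun x hx => ?_
      have h3 : ‖u (φ n) x - Ψ x‖ ^ 2 = ‖χ ⌊‖x‖⌋₊ x • u (φ n) x - g ⌊‖x‖⌋₊ x‖ ^ 2 := by
        have h4 : χ ⌊‖x‖⌋₊ x = 1 :=
          (hχ ⌊‖x‖⌋₊).2.2.2.2.1 x (Nat.lt_floor_add_one ‖x‖).le
        rw [h4, one_smul]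
      simp only
      rw [h3]
      exact Finset.single_le_sum (f := fun s => ‖χ s x • u (φ n) x - g s x‖ ^ 2)
        (fun s _ => by positivity) (hfl r x hx)
    have h5 : Tendsto (fun n => ∑ s ∈ Finset.range (⌊r⌋₊ + 1),
        nsq (fun x => χ s x • u (φ n) x - g s x)) atTop (𝓝 0) := by
      have := tendsto_finsetSum (Finset.range (⌊r⌋₊ + 1)) fun s _ => (hg s).lim
      simpa using this
    exact squeeze_zero (fun n => integral_nonneg fun x => by positivity) h1 h5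

theorem gr [FiniteDimensional ℂ F] (h : LRStmt F) : GRStmt F := by
  intro u K hu hK
  have hcomp : CompleteSpace F := FiniteDimensional.complete ℂ F
  have hm : ∀ n, MemLp (u n) 2 (volume : Measure X3) := fun n => (hu n).memLp
  have hu2 : ∀ n, Integrable (fun x => ‖u n x‖ ^ 2) := fun n => memLp_norm_sq_int (hm n)
  have hx2 : ∀ n, Integrable (fun x => ‖x‖ ^ 2 * ‖u n x‖ ^ 2) := by
    intro n
    refine (((continuous_norm.pow 2).mul ((hu n).1.continuous.norm.pow 2))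
      ).integrable_of_hasCompactSupport ?_
    refine (hu n).2.mono ?_
    intro x hx
    simp only [Function.mem_support] at hx ⊢
    intro h2
    exact hx (by simp [h2])
  have hp2 : ∀ n i A, Integrable (fun x => ‖pd i A (u n) x‖ ^ 2) := by
    intro n i A
    refine int_sq ((((hu n).1.continuous_fderiv (by simp))).clm_apply continuous_const) ?_
    refine ((hu n).2.fderiv (𝕜 := ℝ)).mono ?_
    intro x hx
    simp only [Function.mem_support] at hx ⊢
    intro h2
    exact hx (by rw [pd, h2]; rfl)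
  have hp0 : ∀ n, 0 ≤ ∑ i, ∑ A, nsq (pd i A (u n)) := fun n =>
    Finset.sum_nonneg fun i _ => Finset.sum_nonneg fun A _ => nsq_nonneg _
  have hx0 : ∀ n, 0 ≤ ∫ x, ‖x‖ ^ 2 * ‖u n x‖ ^ 2 := fun n => integral_nonneg fun x => by
    positivity
  have hu0 : ∀ n, 0 ≤ nsq (u n) := fun n => nsq_nonneg _
  obtain ⟨φ, hφ, Ψ, hΨm, hΨ2, hlim⟩ := h u (fun n => (hu n).1) (fun s _ => ⟨K, fun n => by
    have a1 : ∫ x in Metric.ball (0 : X3) s, ‖u n x‖ ^ 2 ≤ nsq (u n) :=
      setIntegral_le_integral (hu2 n) (Filter.Eventually.of_forall fun x => by positivity)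
    have a2 : ∑ i, ∑ A, (∫ x in Metric.ball (0 : X3) s, ‖pd i A (u n) x‖ ^ 2) ≤
        ∑ i, ∑ A, nsq (pd i A (u n)) :=
      Finset.sum_le_sum fun i _ => Finset.sum_le_sum fun A _ =>
        setIntegral_le_integral (hp2 n i A) (Filter.Eventually.of_forall fun x => by positivity)
    have a3 := hx0 n
    have a4 := hK n
    linarith⟩)
  have hc : Tendsto (fun p : ℕ × ℕ => nsq (fun x => u (φ p.1) x - u (φ p.2) x)) atTop (𝓝 0) := by
    rw [tendsto_order]
    refine ⟨fun a ha => Filter.Eventually.of_forall fun p => lt_of_lt_of_le ha (nsq_nonneg _),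
      fun ε hε => ?_⟩
    have hK0 : 0 ≤ K := by
      have := hK 0
      have := hx0 0
      have := hu0 0
      have := hp0 0
      linarith
    set s : ℝ := 8 * K / ε + 1 with hs
    have hs1 : 1 ≤ s := by
      rw [hs]
      have : 0 ≤ 8 * K / ε := by positivity
      linarith
    have hs0 : 0 < s := by linarith
    have hsK : 4 * K / s ^ 2 ≤ ε / 2 := by
      rw [div_le_iff₀ (by positivity)]
      have h1 : 8 * K ≤ ε * s := by
        rw [hs]
        have : ε * (8 * K / ε + 1) = 8 * K + ε := by field_simp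
        rw [this]; linarith
      nlinarith
    have hb := hlim s hs0
    rw [← prod_atTop_atTop_eq]
    have e1 := hb.comp (tendsto_fst (f := (atTop : Filter ℕ)) (g := (atTop : Filter ℕ)))
    have e2 := hb.comp (tendsto_snd (f := (atTop : Filter ℕ)) (g := (atTop : Filter ℕ)))
    have e3 := (e1.const_mul 2).add (e2.const_mul 2)
    have e4 : (2 * (0 : ℝ) + 2 * 0) < ε / 2 := by linarith
    filter_upwards [e3.eventually_lt_const e4] with p hp
    simp only [Function.comp_def] at hp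
    have hd : Integrable (fun x => ‖u (φ p.1) x - u (φ p.2) x‖ ^ 2) :=
      memLp_norm_sq_int ((hm _).sub (hm _))
    have hsplit : nsq (fun x => u (φ p.1) x - u (φ p.2) x) =
        (∫ x in Metric.ball (0 : X3) s, ‖u (φ p.1) x - u (φ p.2) x‖ ^ 2) +
          ∫ x in (Metric.ball (0 : X3) s)ᶜ, ‖u (φ p.1) x - u (φ p.2) x‖ ^ 2 :=
      (integral_add_compl Metric.isOpen_ball.measurableSet hd).symm
    have hmem : ∀ n, MemLp (fun x => u (φ n) x - Ψ x) 2
        (volume.restrict (Metric.ball (0 : X3) s)) := by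
      intro n
      refine ((hm (φ n)).restrict _).sub ?_
      exact (memLp_two_iff_integrable_sq_norm hΨm.aestronglyMeasurable).mpr (hΨ2 s hs0)
    have hi : ∀ n, Integrable (fun x => ‖u (φ n) x - Ψ x‖ ^ 2)
        (volume.restrict (Metric.ball (0 : X3) s)) := fun n =>
      (memLp_two_iff_integrable_sq_norm (hmem n).1).mp (hmem n)
    have h1 : ∫ x in Metric.ball (0 : X3) s, ‖u (φ p.1) x - u (φ p.2) x‖ ^ 2 ≤
        2 * (∫ x in Metric.ball (0 : X3) s, ‖u (φ p.1) x - Ψ x‖ ^ 2) +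
        2 * ∫ x in Metric.ball (0 : X3) s, ‖u (φ p.2) x - Ψ x‖ ^ 2 := by
      rw [← integral_const_mul, ← integral_const_mul,
        ← integral_add ((hi p.1).const_mul 2) ((hi p.2).const_mul 2)]
      refine integral_mono hd.integrableOn (((hi p.1).const_mul 2).add ((hi p.2).const_mul 2))
        fun x => ?_
      have h2 : u (φ p.1) x - u (φ p.2) x = (u (φ p.1) x - Ψ x) - (u (φ p.2) x - Ψ x) := by abel
      simp only
      rw [h2]
      exact sq_sub_le _ _
    have h3 : ∫ x in (Metric.ball (0 : X3) s)ᶜ, ‖u (φ p.1) x - u (φ p.2) x‖ ^ 2 ≤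
        4 * K / s ^ 2 := by
      have h4 : ∫ x in (Metric.ball (0 : X3) s)ᶜ, ‖u (φ p.1) x - u (φ p.2) x‖ ^ 2 ≤
          ∫ x in (Metric.ball (0 : X3) s)ᶜ, (2 / s ^ 2 * (‖x‖ ^ 2 * ‖u (φ p.1) x‖ ^ 2) +
            2 / s ^ 2 * (‖x‖ ^ 2 * ‖u (φ p.2) x‖ ^ 2)) := by
        refine integral_mono_of_nonneg (Filter.Eventually.of_forall fun x => by
          simp only [Pi.zero_apply]; positivity)
          ((((hx2 _).const_mul _).add ((hx2 _).const_mul _)).integrableOn) ?_
        refine (ae_restrict_mem Metric.isOpen_ball.measurableSet.compl).mono fun x hx => ?_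
        rw [Set.mem_compl_iff, Metric.mem_ball, dist_zero_right, not_lt] at hx
        simp only
        refine (sq_sub_le _ _).trans ?_
        have h5 : 1 ≤ ‖x‖ ^ 2 / s ^ 2 := by
          rw [le_div_iff₀ (by positivity), one_mul]
          gcongr
        have h6 : ∀ t : ℝ, 0 ≤ t → 2 * t ≤ 2 / s ^ 2 * (‖x‖ ^ 2 * t) := by
          intro t ht
          have h7 : 2 / s ^ 2 * (‖x‖ ^ 2 * t) = 2 * (‖x‖ ^ 2 / s ^ 2 * t) := by ring
          rw [h7]
          nlinarith
        exact add_le_add (h6 _ (by positivity)) (h6 _ (by positivity))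
      refine h4.trans ?_
      refine (setIntegral_le_integral (((hx2 _).const_mul _).add ((hx2 _).const_mul _))
        (Filter.Eventually.of_forall fun x => by simp only [Pi.zero_apply, Pi.add_apply]
                                                 positivity)).trans ?_
      rw [integral_add' ((hx2 _).const_mul _) ((hx2 _).const_mul _), integral_const_mul,
        integral_const_mul]
      have h8 : ∀ n, ∫ x, ‖x‖ ^ 2 * ‖u n x‖ ^ 2 ≤ K := by
        intro n
        have := hK n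
        have := hu0 n
        have := hp0 n
        linarith
      have h9 : 0 ≤ 2 / s ^ 2 := by positivity
      have h10 := mul_le_mul_of_nonneg_left (h8 (φ p.1)) h9
      have h11 := mul_le_mul_of_nonneg_left (h8 (φ p.2)) h9
      have h12 : 4 * K / s ^ 2 = 2 / s ^ 2 * K + 2 / s ^ 2 * K := by ring
      rw [h12]
      exact add_le_add h10 h11
    rw [hsplit]
    linarith
  obtain ⟨g, -, hg⟩ := lim_of_cauchy (fun n => hm (φ n)) hc
  exact ⟨φ, hφ, g, hg⟩

end Vale.Agent.P353.U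
end
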