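import Mathlib
import Vale.Agent.P353.BdU.B1
import Vale.Agent.P353.BdU.B2
import Vale.Agent.P353.BdU.B13
import Vale.Agent.P353.BdU.B9

set_option linter.all false

section

open MeasureTheory Filter Topology
open scoped ContDiff

namespace Vale.Agent.P353

variable {F : Type*} [NormedAddCommGroup F] [InnerProductSpace ℂ F]

/-- the weighted inequality for zero modes -/
def WIneq (S : Setup F) (s : ℝ) : Prop :=
  ∃ R C : ℝ, 0 < R ∧ 0 < C ∧ ∀ Ψ : Lp F 2 (volume : Measure X3), S.IsZM Ψ →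
    ∀ H : ℝ → ℝ, ContDiff ℝ ∞ H → HasCompactSupport H → (∀ t, t ≤ R ^ 2 → H t = 0) →
    ∀ σ : ℝ → ℝ, Continuous σ → (∀ t, 0 ≤ σ t ∧ σ t ≤ s) →
    (∫ x : X3, ‖x‖ * H (‖x‖ ^ 2) ^ 2 * ‖Ψ x‖ ^ 2) ≤
      C * (∫ x : X3, (deriv H (‖x‖ ^ 2) ^ 2 * ‖x‖ ^ 2 +
        |2 * deriv (fun t => Real.sqrt t * H t ^ 2) (‖x‖ ^ 2) * ‖x‖ ^ 2 -
          ‖x‖ * H (‖x‖ ^ 2) ^ 2 * σ (‖x‖ ^ 2)|) * ‖Ψ x‖ ^ 2)

end Vale.Agent.P353
end

section

open MeasureTheory Filter Topology
open scoped ContDiff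

namespace Vale.Agent.P353
namespace Dec

/-! ### the cutoff function on the half line -/

lemma smoothTransition_deriv_bound : ∃ D : ℝ, 0 ≤ D ∧ (∀ t, |deriv Real.smoothTransition t| ≤ D) := by
  have hc : Continuous (deriv Real.smoothTransition) :=
    (Real.smoothTransition.contDiff (n := 1)).continuous_deriv (by simp)
  obtain ⟨D, hD⟩ := (isCompact_Icc (a := (0 : ℝ)) (b := 1)).exists_bound_of_continuousOn
    hc.continuousOn
  refine ⟨max D 0, le_max_right _ _, fun t => ?_⟩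
  by_cases ht : t ∈ Set.Icc (0 : ℝ) 1
  · exact (hD t ht).trans (le_max_left _ _)
  · have : deriv Real.smoothTransition t = 0 := by
      rw [Set.mem_Icc, not_and_or, not_le, not_le] at ht
      rcases ht with ht | ht
      · have h1 : Real.smoothTransition =ᶠ[𝓝 t] fun _ => 0 := by
          filter_upwards [Iio_mem_nhds ht] with y hy
          exact Real.smoothTransition.zero_of_nonpos (le_of_lt hy)
        rw [h1.deriv_eq]; simp
      · have h1 : Real.smoothTransition =ᶠ[𝓝 t] fun _ => 1 := by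
          filter_upwards [Ioi_mem_nhds ht] with y hy
          exact Real.smoothTransition.one_of_one_le (le_of_lt hy)
        rw [h1.deriv_eq]; simp
    rw [this, abs_zero]
    exact le_max_right _ _

lemma smoothTransition_deriv_zero {t : ℝ} (ht : t < 0 ∨ 1 < t) :
    deriv Real.smoothTransition t = 0 := by
  rcases ht with ht | ht
  · have h1 : Real.smoothTransition =ᶠ[𝓝 t] fun _ => 0 := by
      filter_upwards [Iio_mem_nhds ht] with y hy
      exact Real.smoothTransition.zero_of_nonpos (le_of_lt hy)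
    rw [h1.deriv_eq]; simp
  · have h1 : Real.smoothTransition =ᶠ[𝓝 t] fun _ => 1 := by
      filter_upwards [Ioi_mem_nhds ht] with y hy
      exact Real.smoothTransition.one_of_one_le (le_of_lt hy)
    rw [h1.deriv_eq]; simp

/-- the cutoff -/
noncomputable def cc (T K t : ℝ) : ℝ :=
  Real.smoothTransition (t / T - 1) * Real.smoothTransition (2 - t / K)

lemma contDiff_cc (T K : ℝ) : ContDiff ℝ ∞ (cc T K) := by
  unfold cc
  refine ContDiff.mul ?_ ?_
  · exact Real.smoothTransition.contDiff.comp ((contDiff_id.div_const T).sub contDiff_const)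
  · exact Real.smoothTransition.contDiff.comp (contDiff_const.sub (contDiff_id.div_const K))

lemma cc_nonneg (T K t : ℝ) : 0 ≤ cc T K t :=
  mul_nonneg (Real.smoothTransition.nonneg _) (Real.smoothTransition.nonneg _)

lemma cc_le_one (T K t : ℝ) : cc T K t ≤ 1 :=
  mul_le_one₀ (Real.smoothTransition.le_one _) (Real.smoothTransition.nonneg _)
    (Real.smoothTransition.le_one _)

lemma cc_zero_left {T K t : ℝ} (hT : 0 < T) (ht : t ≤ T) : cc T K t = 0 := by
  rw [cc, Real.smoothTransition.zero_of_nonpos, zero_mul]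
  rw [sub_nonpos, div_le_one hT]; exact ht

lemma cc_zero_right {T K t : ℝ} (hK : 0 < K) (ht : 2 * K ≤ t) : cc T K t = 0 := by
  rw [cc, Real.smoothTransition.zero_of_nonpos (x := 2 - t / K), mul_zero]
  rw [sub_nonpos, le_div_iff₀ hK]; exact ht

lemma cc_one {T K t : ℝ} (hT : 0 < T) (hK : 0 < K) (h1 : 2 * T ≤ t) (h2 : t ≤ K) :
    cc T K t = 1 := by
  rw [cc, Real.smoothTransition.one_of_one_le, Real.smoothTransition.one_of_one_le, mul_one]
  · have : t / K ≤ 1 := (div_le_one hK).mpr h2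
    linarith
  · have : 2 ≤ t / T := (le_div_iff₀ hT).mpr h1
    linarith

lemma deriv_cc (T K t : ℝ) : deriv (cc T K) t =
    deriv Real.smoothTransition (t / T - 1) / T * Real.smoothTransition (2 - t / K) -
      Real.smoothTransition (t / T - 1) * (deriv Real.smoothTransition (2 - t / K) / K) := by
  have hs : ∀ y, HasDerivAt Real.smoothTransition (deriv Real.smoothTransition y) y := fun y =>
    ((Real.smoothTransition.contDiff (n := 1)).differentiable (by simp) y).hasDerivAt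
  have h1 : HasDerivAt (fun t => Real.smoothTransition (t / T - 1))
      (deriv Real.smoothTransition (t / T - 1) * (1 / T)) t := by
    have := (hs (t / T - 1)).comp t (((hasDerivAt_id t).div_const T).sub_const 1)
    exact this
  have h2 : HasDerivAt (fun t => Real.smoothTransition (2 - t / K))
      (deriv Real.smoothTransition (2 - t / K) * (-(1 / K))) t := by
    have := (hs (2 - t / K)).comp t (((hasDerivAt_id t).div_const K).const_sub 2)
    exact this
  have h3 := (h1.mul h2).deriv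
  have e : cc T K = (fun t => Real.smoothTransition (t / T - 1)) *
      fun t => Real.smoothTransition (2 - t / K) := by
    ext t; rfl
  rw [e, h3]
  ring

lemma deriv_cc_bound : ∃ D : ℝ, 0 ≤ D ∧ ∀ T K t : ℝ, 0 < T → 0 < K → 0 < t →
    |deriv (cc T K) t| * t ≤ D := by
  obtain ⟨D, hD0, hD⟩ := smoothTransition_deriv_bound
  refine ⟨4 * D, by positivity, fun T K t hT hK ht => ?_⟩
  have hA : |deriv Real.smoothTransition (t / T - 1) / T| * t ≤ 2 * D := by
    by_cases h : 1 < t / T - 1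
    · rw [smoothTransition_deriv_zero (Or.inr h)]; simp; positivity
    · push Not at h
      have h2 : t ≤ 2 * T := by
        have : t / T ≤ 2 := by linarith
        exact (div_le_iff₀ hT).mp this
      rw [abs_div, abs_of_pos hT, div_mul_eq_mul_div, div_le_iff₀ hT]
      have := hD (t / T - 1)
      have h3 : |deriv Real.smoothTransition (t / T - 1)| * t ≤ D * (2 * T) := by gcongr
      linarith
  have hB : |deriv Real.smoothTransition (2 - t / K) / K| * t ≤ 2 * D := by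
    by_cases h : 2 - t / K < 0
    · rw [smoothTransition_deriv_zero (Or.inl h)]; simp; positivity
    · push Not at h
      have h2 : t ≤ 2 * K := by
        have : t / K ≤ 2 := by linarith
        exact (div_le_iff₀ hK).mp this
      rw [abs_div, abs_of_pos hK, div_mul_eq_mul_div, div_le_iff₀ hK]
      have := hD (2 - t / K)
      have h3 : |deriv Real.smoothTransition (2 - t / K)| * t ≤ D * (2 * K) := by gcongr
      linarith
  rw [deriv_cc]
  have h1 := Real.smoothTransition.nonneg (t / T - 1)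
  have h2 := Real.smoothTransition.le_one (t / T - 1)
  have h3 := Real.smoothTransition.nonneg (2 - t / K)
  have h4 := Real.smoothTransition.le_one (2 - t / K)
  calc |deriv Real.smoothTransition (t / T - 1) / T * Real.smoothTransition (2 - t / K) -
      Real.smoothTransition (t / T - 1) * (deriv Real.smoothTransition (2 - t / K) / K)| * t
      ≤ (|deriv Real.smoothTransition (t / T - 1) / T| * 1 +
        1 * |deriv Real.smoothTransition (2 - t / K) / K|) * t := by
        refine mul_le_mul_of_nonneg_right ((abs_sub _ _).trans ?_) ht.le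
        rw [abs_mul, abs_mul, abs_of_nonneg h1, abs_of_nonneg h3]
        gcongr
    _ = |deriv Real.smoothTransition (t / T - 1) / T| * t +
        |deriv Real.smoothTransition (2 - t / K) / K| * t := by ring
    _ ≤ 4 * D := by linarith

lemma deriv_cc_zero {T K t : ℝ} (hT : 0 < T) (hK : 0 < K)
    (h : (t < T ∨ 2 * T < t) ∧ (t < K ∨ 2 * K < t)) : deriv (cc T K) t = 0 := by
  rw [deriv_cc]
  have h1 : deriv Real.smoothTransition (t / T - 1) = 0 := by
    apply smoothTransition_deriv_zero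
    rcases h.1 with h | h
    · left
      rw [sub_neg, div_lt_one hT]; exact h
    · right
      rw [lt_sub_iff_add_lt, lt_div_iff₀ hT]; linarith
  have h2 : deriv Real.smoothTransition (2 - t / K) = 0 := by
    apply smoothTransition_deriv_zero
    rcases h.2 with h | h
    · right
      have : t / K < 1 := (div_lt_one hK).mpr h
      linarith
    · left
      have : 2 < t / K := by rw [lt_div_iff₀ hK]; exact h
      linarith
  rw [h1, h2]; simp

/-! ### the weights -/

/-- `φ(t) = t^((s-1)/4) (1+t/L²)^(-s/4)` -/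
noncomputable def ph (s L t : ℝ) : ℝ := t ^ ((s - 1) / 4) * (1 + t / L ^ 2) ^ (-s / 4)

/-- `w(t) = t^(s/2) (1+t/L²)^(-s/2)` -/
noncomputable def ww (s L t : ℝ) : ℝ := t ^ (s / 2) * (1 + t / L ^ 2) ^ (-s / 2)

lemma ww_eq {s L t : ℝ} (ht : 0 < t) : Real.sqrt t * ph s L t ^ 2 = ww s L t := by
  have hu : 0 < 1 + t / L ^ 2 := by positivity
  rw [ph, ww, mul_pow, ← Real.rpow_natCast, ← Real.rpow_natCast, ← Real.rpow_mul ht.le,
    ← Real.rpow_mul hu.le, Real.sqrt_eq_rpow, ← mul_assoc, ← Real.rpow_add ht]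
  congr 2
  · push_cast; ring
  · push_cast; ring

lemma ph_pos {s L t : ℝ} (ht : 0 < t) : 0 < ph s L t := by
  unfold ph; positivity

lemma ww_pos {s L t : ℝ} (ht : 0 < t) : 0 < ww s L t := by
  unfold ww; positivity

lemma hasDerivAt_ph {s L t : ℝ} (ht : 0 < t) : HasDerivAt (ph s L)
    (ph s L t * ((s - 1) / (4 * t) - s / (4 * (L ^ 2 * (1 + t / L ^ 2))))) t := by
  have hu : 0 < 1 + t / L ^ 2 := by positivity
  have h1 := Real.hasDerivAt_rpow_const (x := t) (p := (s - 1) / 4) (Or.inl ht.ne')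
  have h2 : HasDerivAt (fun t : ℝ => 1 + t / L ^ 2) (1 / L ^ 2) t :=
    ((hasDerivAt_id t).div_const _).const_add 1
  have h3 := h2.rpow_const (p := -s / 4) (Or.inl hu.ne')
  have h4 := h1.mul h3
  refine h4.congr_deriv ?_
  rw [Real.rpow_sub_one ht.ne', Real.rpow_sub_one hu.ne', ph]
  by_cases hL : L = 0
  · subst hL; simp; ring
  · field_simp
    ring

lemma lam_bound {s L t : ℝ} (hs : 0 ≤ s) (hL : 0 < L) (ht : 0 < t) :
    ((s - 1) / (4 * t) - s / (4 * (L ^ 2 * (1 + t / L ^ 2)))) ^ 2 ≤ ((2 * s + 1) / (4 * t)) ^ 2 := by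
  have e : L ^ 2 * (1 + t / L ^ 2) = L ^ 2 + t := by field_simp
  rw [e]
  have h1 : 0 ≤ s / (4 * (L ^ 2 + t)) := by positivity
  have h2 : s / (4 * (L ^ 2 + t)) ≤ s / (4 * t) := by
    apply div_le_div_of_nonneg_left hs (by positivity)
    have : 0 < L ^ 2 := by positivity
    linarith
  have h3 : (s - 1) / (4 * t) ≤ (2 * s + 1) / (4 * t) := by
    apply div_le_div_of_nonneg_right _ (by positivity)
    linarith
  have h4 : -((2 * s + 1) / (4 * t)) ≤ (s - 1) / (4 * t) - s / (4 * t) := by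
    rw [← neg_div, ← sub_div]
    apply div_le_div_of_nonneg_right _ (by positivity)
    linarith
  apply sq_le_sq'
  · linarith
  · linarith

/-- the test function -/
noncomputable def HH (s L T K t : ℝ) : ℝ := cc T K t * ph s L t

noncomputable def sg (s L t : ℝ) : ℝ := s / (1 + |t| / L ^ 2)

lemma continuous_sg (s L : ℝ) : Continuous (sg s L) := by
  unfold sg
  refine continuous_const.div ((continuous_const).add (continuous_abs.div_const _)) fun t => ?_
  positivity

lemma sg_mem {s : ℝ} (hs : 0 ≤ s) (L t : ℝ) : 0 ≤ sg s L t ∧ sg s L t ≤ s := by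
  unfold sg
  constructor
  · positivity
  · apply div_le_self hs
    have : 0 ≤ |t| / L ^ 2 := by positivity
    linarith

lemma hasDerivAt_HH {s L T K t : ℝ} (ht : 0 < t) : HasDerivAt (HH s L T K)
    (deriv (cc T K) t * ph s L t + cc T K t * (ph s L t *
      ((s - 1) / (4 * t) - s / (4 * (L ^ 2 * (1 + t / L ^ 2)))))) t := by
  have h1 : HasDerivAt (cc T K) (deriv (cc T K) t) t :=
    ((contDiff_cc T K).differentiable (by simp) t).hasDerivAt
  exact h1.mul (hasDerivAt_ph ht)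

lemma pointwise_identity {s L T K t : ℝ} (hL : 0 < L) (ht : 0 < t) :
    2 * deriv (fun t => Real.sqrt t * HH s L T K t ^ 2) t * t -
      Real.sqrt t * HH s L T K t ^ 2 * sg s L t =
      4 * cc T K t * deriv (cc T K) t * ww s L t * t := by
  have hsq := Real.sqrt_pos.mpr ht
  have hs2 : Real.sqrt t ^ 2 = t := Real.sq_sqrt ht.le
  have h1 := (Real.hasDerivAt_sqrt ht.ne').mul ((hasDerivAt_HH (s := s) (L := L) (T := T) (K := K)
    ht).pow 2)
  have h2 : deriv (fun t => Real.sqrt t * HH s L T K t ^ 2) t = _ := h1.deriv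
  rw [h2, ← ww_eq ht, sg, abs_of_pos ht]
  have hu : 0 < 1 + t / L ^ 2 := by positivity
  simp only [HH, Pi.pow_apply]
  have e1 : 1 / (2 * Real.sqrt t) = Real.sqrt t / (2 * t) := by
    rw [div_eq_div_iff (by positivity) (by positivity)]
    nlinarith
  have e2 : s / (4 * (L ^ 2 * (1 + t / L ^ 2))) * (4 * t) = s * (t / L ^ 2) / (1 + t / L ^ 2) := by
    field_simp
  rw [e1]
  set c := cc T K t
  set c' := deriv (cc T K) t
  set p := ph s L t
  set r := Real.sqrt t
  set q := s / (4 * (L ^ 2 * (1 + t / L ^ 2))) with hq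
  have e3 : s / (1 + t / L ^ 2) = s - q * (4 * t) := by
    rw [e2]
    field_simp
    ring
  rw [e3]
  field_simp
  ring

lemma pointwise_bound_HH {s L T K t : ℝ} (hs : 0 ≤ s) (hL : 0 < L) (ht : 0 < t) :
    deriv (HH s L T K) t ^ 2 * t + |2 * deriv (fun t => Real.sqrt t * HH s L T K t ^ 2) t * t -
      Real.sqrt t * HH s L T K t ^ 2 * sg s L t| ≤
      ww s L t * (2 * deriv (cc T K) t ^ 2 * Real.sqrt t +
        (2 * s + 1) ^ 2 / 8 * cc T K t ^ 2 * (Real.sqrt t / t ^ 2) +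
        4 * cc T K t * (|deriv (cc T K) t| * t)) := by
  rw [pointwise_identity hL ht, (hasDerivAt_HH ht).deriv]
  have hw := ww_pos (s := s) (L := L) ht
  have hp := ph_pos (s := s) (L := L) ht
  have hc := cc_nonneg T K t
  have hlam := lam_bound hs hL ht
  have e0 : ph s L t ^ 2 * t = ww s L t * Real.sqrt t := by
    rw [← ww_eq ht]
    have := Real.mul_self_sqrt ht.le
    linear_combination -(ph s L t ^ 2) * this
  set lam := (s - 1) / (4 * t) - s / (4 * (L ^ 2 * (1 + t / L ^ 2)))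
  have e1 : (deriv (cc T K) t * ph s L t + cc T K t * (ph s L t * lam)) ^ 2 * t ≤
      2 * deriv (cc T K) t ^ 2 * (ph s L t ^ 2 * t) + 2 * cc T K t ^ 2 * (ph s L t ^ 2 * t) * lam ^ 2 := by
    have h1 : (deriv (cc T K) t * ph s L t + cc T K t * (ph s L t * lam)) ^ 2 ≤
        2 * (deriv (cc T K) t * ph s L t) ^ 2 + 2 * (cc T K t * (ph s L t * lam)) ^ 2 := by
      nlinarith [sq_nonneg (deriv (cc T K) t * ph s L t - cc T K t * (ph s L t * lam))]
    calc _ ≤ (2 * (deriv (cc T K) t * ph s L t) ^ 2 + 2 * (cc T K t * (ph s L t * lam)) ^ 2) * t :=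
          mul_le_mul_of_nonneg_right h1 ht.le
      _ = _ := by ring
  rw [e0] at e1
  have e2 : 2 * cc T K t ^ 2 * (ww s L t * Real.sqrt t) * lam ^ 2 ≤
      2 * cc T K t ^ 2 * (ww s L t * Real.sqrt t) * ((2 * s + 1) / (4 * t)) ^ 2 := by
    have : 0 ≤ 2 * cc T K t ^ 2 * (ww s L t * Real.sqrt t) := by positivity
    exact mul_le_mul_of_nonneg_left hlam this
  have e3 : |4 * cc T K t * deriv (cc T K) t * ww s L t * t| =
      4 * cc T K t * (|deriv (cc T K) t| * t) * ww s L t := by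
    rw [abs_mul, abs_mul, abs_mul, abs_mul, abs_of_pos hw, abs_of_pos ht, abs_of_nonneg hc]
    norm_num
    ring
  rw [e3]
  have e4 : 2 * cc T K t ^ 2 * (ww s L t * Real.sqrt t) * ((2 * s + 1) / (4 * t)) ^ 2 =
      ww s L t * ((2 * s + 1) ^ 2 / 8 * cc T K t ^ 2 * (Real.sqrt t / t ^ 2)) := by
    field_simp
    ring
  rw [e4] at e2
  calc _ ≤ (2 * deriv (cc T K) t ^ 2 * (ww s L t * Real.sqrt t) +
        ww s L t * ((2 * s + 1) ^ 2 / 8 * cc T K t ^ 2 * (Real.sqrt t / t ^ 2))) +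
        4 * cc T K t * (|deriv (cc T K) t| * t) * ww s L t := by linarith
    _ = _ := by ring

lemma contDiff_HH {s L T K : ℝ} (hT : 0 < T) (hL : 0 < L) : ContDiff ℝ ∞ (HH s L T K) := by
  rw [contDiff_iff_contDiffAt]
  intro t
  by_cases ht : t < T
  · have h1 : HH s L T K =ᶠ[𝓝 t] fun _ => 0 := by
      filter_upwards [Iio_mem_nhds ht] with y hy
      rw [HH, cc_zero_left hT (le_of_lt hy), zero_mul]
    exact contDiffAt_const.congr_of_eventuallyEq h1
  · push Not at ht
    have ht0 : 0 < t := lt_of_lt_of_le hT ht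
    have hu : 1 + t / L ^ 2 ≠ 0 := by positivity
    unfold HH ph
    refine (contDiff_cc T K).contDiffAt.mul (ContDiffAt.mul ?_ ?_)
    · exact Real.contDiffAt_rpow_const_of_ne ht0.ne'
    · exact (contDiffAt_const.add (contDiffAt_id.div_const _)).rpow_const_of_ne hu

lemma hasCompactSupport_HH {s L T K : ℝ} (hT : 0 < T) (hK : 0 < K) :
    HasCompactSupport (HH s L T K) := by
  refine HasCompactSupport.intro (isCompact_Icc (a := T) (b := 2 * K)) fun t ht => ?_
  rw [Set.mem_Icc, not_and_or, not_le, not_le] at ht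
  rcases ht with ht | ht
  · rw [HH, cc_zero_left hT ht.le, zero_mul]
  · rw [HH, cc_zero_right hK ht.le, zero_mul]

lemma ww_le_pow {s L t : ℝ} (hs : 0 ≤ s) (ht : 0 < t) : ww s L t ≤ t ^ (s / 2) := by
  have hu : 1 ≤ 1 + t / L ^ 2 := by
    have : 0 ≤ t / L ^ 2 := by positivity
    linarith
  rw [ww]
  have h1 : (1 + t / L ^ 2) ^ (-s / 2) ≤ 1 := Real.rpow_le_one_of_one_le_of_nonpos hu (by linarith)
  exact mul_le_of_le_one_right (by positivity) h1

lemma ww_le_L {s L t : ℝ} (hs : 0 ≤ s) (hL : 0 < L) (ht : 0 < t) : ww s L t ≤ L ^ s := by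
  have hu : 0 < 1 + t / L ^ 2 := by positivity
  have h1 : ww s L t = (t / (1 + t / L ^ 2)) ^ (s / 2) := by
    rw [ww, Real.div_rpow ht.le hu.le, neg_div, Real.rpow_neg hu.le]
    rfl
  rw [h1]
  have h2 : t / (1 + t / L ^ 2) ≤ L ^ 2 := by
    rw [div_le_iff₀ hu]
    have : L ^ 2 * (1 + t / L ^ 2) = L ^ 2 + t := by field_simp
    rw [this]
    have : 0 < L ^ 2 := by positivity
    linarith
  calc (t / (1 + t / L ^ 2)) ^ (s / 2) ≤ (L ^ 2) ^ (s / 2) :=
        Real.rpow_le_rpow (by positivity) h2 (by positivity)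
    _ = L ^ s := by
        rw [← Real.rpow_natCast, ← Real.rpow_mul hL.le]
        congr 1
        push_cast
        ring

end Dec
end Vale.Agent.P353
end

section

open MeasureTheory Filter Topology
open scoped ContDiff

namespace Vale.Agent.P353
namespace Dec

variable {F : Type*} [NormedAddCommGroup F] [InnerProductSpace ℂ F]

omit [InnerProductSpace ℂ F] in
lemma integrable_bdd {f : X3 → ℝ} (hf : Measurable f) {C : ℝ} (hb : ∀ x, |f x| ≤ C)
    {Ψ : X3 → F} (hΨ : Integrable (fun x => ‖Ψ x‖ ^ 2)) :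
    Integrable (fun x => f x * ‖Ψ x‖ ^ 2) := by
  refine (hΨ.const_mul C).mono' (hf.aestronglyMeasurable.mul hΨ.aestronglyMeasurable)
    (Filter.Eventually.of_forall fun x => ?_)
  rw [norm_mul, Real.norm_eq_abs, Real.norm_of_nonneg (by positivity : 0 ≤ ‖Ψ x‖ ^ 2)]
  exact mul_le_mul_of_nonneg_right (hb x) (by positivity)

/-- indicator of `t ≤ a` -/
noncomputable def lo (a t : ℝ) : ℝ := if t ≤ a then 1 else 0
/-- indicator of `a ≤ t` -/
noncomputable def hi (a t : ℝ) : ℝ := if a ≤ t then 1 else 0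

lemma measurable_lo (a : ℝ) : Measurable (lo a) :=
  Measurable.ite measurableSet_Iic measurable_const measurable_const

lemma measurable_hi (a : ℝ) : Measurable (hi a) :=
  Measurable.ite measurableSet_Ici measurable_const measurable_const

lemma measurable_nsq : Measurable (fun x : X3 => ‖x‖ ^ 2) := measurable_norm.pow_const 2

lemma measurable_ww (s L : ℝ) : Measurable (ww s L) := by
  unfold ww
  exact (measurable_id.pow_const _).mul
    ((measurable_const.add (measurable_id.div_const _)).pow_const _)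

lemma lo_nonneg (a t : ℝ) : 0 ≤ lo a t := by unfold lo; split_ifs <;> norm_num
lemma hi_nonneg (a t : ℝ) : 0 ≤ hi a t := by unfold hi; split_ifs <;> norm_num
lemma lo_abs (a t : ℝ) : |lo a t| ≤ 1 := by unfold lo; split_ifs <;> norm_num
lemma hi_abs (a t : ℝ) : |hi a t| ≤ 1 := by unfold hi; split_ifs <;> norm_num

/-- pointwise estimate for the right side of the weighted inequality -/
lemma rhs_bound {s L T K t C D : ℝ} (hs : 0 ≤ s) (hL : 0 < L) (hT : 1 ≤ T) (hK : 2 * T ≤ K)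
    (hC : 0 < C) (hD0 : 0 ≤ D) (hD : ∀ T K t : ℝ, 0 < T → 0 < K → 0 < t →
      |deriv (cc T K) t| * t ≤ D) (hTC : 2 * C * ((2 * s + 1) ^ 2 / 8) ≤ T) (ht : 0 < t) :
    C * (deriv (HH s L T K) t ^ 2 * t + |2 * deriv (fun t => Real.sqrt t * HH s L T K t ^ 2) t * t -
      Real.sqrt t * HH s L T K t ^ 2 * sg s L t|) ≤
      1 / 2 * (cc T K t ^ 2 * ww s L t) + C * (2 * D ^ 2 + 4 * D) *
        ((2 * T) ^ (s / 2) * lo (2 * T) t + L ^ s * hi K t) := by
  have hT0 : 0 < T := by linarith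
  have hK0 : 0 < K := by linarith
  have hw := ww_pos (s := s) (L := L) ht
  have hc0 := cc_nonneg T K t
  have hc1 := cc_le_one T K t
  have hb := pointwise_bound_HH (T := T) (K := K) hs hL ht
  have hd := hD T K t hT0 hK0 ht
  have hlo := lo_nonneg (2 * T) t
  have hhi := hi_nonneg K t
  have hTp : 0 < (2 * T) ^ (s / 2) := by positivity
  have hLp : 0 < L ^ s := by positivity
  refine (mul_le_mul_of_nonneg_left hb hC.le).trans ?_
  by_cases htT : t < T
  · rw [deriv_cc_zero hT0 hK0 ⟨Or.inl htT, Or.inl (by linarith)⟩, cc_zero_left hT0 htT.le]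
    simp only [abs_zero]
    have : 0 ≤ C * (2 * D ^ 2 + 4 * D) *
        ((2 * T) ^ (s / 2) * lo (2 * T) t + L ^ s * hi K t) := by positivity
    refine le_trans (le_of_eq ?_) (this.trans (le_of_eq ?_))
    · ring
    · ring
  · push Not at htT
    have ht1 : 1 ≤ t := hT.trans htT
    have hr : Real.sqrt t ≤ t :=
      (Real.sqrt_le_left ht.le).mpr (le_self_pow₀ ht1 two_ne_zero)
    have hr0 := Real.sqrt_nonneg t
    have hrt : Real.sqrt t / t ^ 2 ≤ 1 / T := by
      rw [div_le_div_iff₀ (by positivity) hT0]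
      exact (mul_le_mul hr htT hT0.le ht.le).trans (le_of_eq (by ring))
    have hrt1 : Real.sqrt t / t ^ 2 ≤ 1 := hrt.trans (by rw [div_le_one hT0]; exact hT)
    have hrt0 : 0 ≤ Real.sqrt t / t ^ 2 := by positivity
    -- first piece
    have p1 : C * (ww s L t * ((2 * s + 1) ^ 2 / 8 * cc T K t ^ 2 * (Real.sqrt t / t ^ 2))) ≤
        1 / 2 * (cc T K t ^ 2 * ww s L t) := by
      have h1 : C * ((2 * s + 1) ^ 2 / 8) * (Real.sqrt t / t ^ 2) ≤ 1 / 2 := by
        calc C * ((2 * s + 1) ^ 2 / 8) * (Real.sqrt t / t ^ 2) ≤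
            C * ((2 * s + 1) ^ 2 / 8) * (1 / T) := by gcongr
          _ ≤ 1 / 2 := by
            rw [mul_one_div, div_le_iff₀ hT0]; linarith
      have h2 : 0 ≤ cc T K t ^ 2 * ww s L t := by positivity
      calc _ = C * ((2 * s + 1) ^ 2 / 8) * (Real.sqrt t / t ^ 2) * (cc T K t ^ 2 * ww s L t) := by
            ring
        _ ≤ _ := mul_le_mul_of_nonneg_right h1 h2
    -- second piece
    have p2 : C * (ww s L t * (2 * deriv (cc T K) t ^ 2 * Real.sqrt t +
        4 * cc T K t * (|deriv (cc T K) t| * t))) ≤ C * (2 * D ^ 2 + 4 * D) *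
        ((2 * T) ^ (s / 2) * lo (2 * T) t + L ^ s * hi K t) := by
      by_cases hz : deriv (cc T K) t = 0
      · rw [hz]
        simp only [abs_zero]
        have : 0 ≤ C * (2 * D ^ 2 + 4 * D) *
          ((2 * T) ^ (s / 2) * lo (2 * T) t + L ^ s * hi K t) := by positivity
        refine le_trans (le_of_eq ?_) this
        ring
      · have hreg : t ≤ 2 * T ∨ K ≤ t := by
          by_contra hcon
          push Not at hcon
          exact hz (deriv_cc_zero hT0 hK0 ⟨Or.inr hcon.1, Or.inl hcon.2⟩)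
        have hwb : ww s L t ≤ (2 * T) ^ (s / 2) * lo (2 * T) t + L ^ s * hi K t := by
          rcases hreg with h | h
          · have h1 : ww s L t ≤ (2 * T) ^ (s / 2) :=
              (ww_le_pow hs ht).trans (Real.rpow_le_rpow ht.le h (by positivity))
            rw [lo, if_pos h]
            have : 0 ≤ L ^ s * hi K t := by positivity
            linarith
          · have h1 : ww s L t ≤ L ^ s := ww_le_L hs hL ht
            rw [hi, if_pos h]
            have : 0 ≤ (2 * T) ^ (s / 2) * lo (2 * T) t := by positivity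
            linarith
        have e1 : 2 * deriv (cc T K) t ^ 2 * Real.sqrt t =
            2 * (|deriv (cc T K) t| * t) ^ 2 * (Real.sqrt t / t ^ 2) := by
          rw [mul_pow, sq_abs]
          field_simp
        have hd0 : 0 ≤ |deriv (cc T K) t| * t := by positivity
        have e2 : 2 * deriv (cc T K) t ^ 2 * Real.sqrt t ≤ 2 * D ^ 2 := by
          rw [e1]
          calc 2 * (|deriv (cc T K) t| * t) ^ 2 * (Real.sqrt t / t ^ 2) ≤ 2 * D ^ 2 * 1 := by gcongr
            _ = _ := by ring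
        have e3 : 4 * cc T K t * (|deriv (cc T K) t| * t) ≤ 4 * D := by
          calc 4 * cc T K t * (|deriv (cc T K) t| * t) ≤ 4 * 1 * D := by gcongr
            _ = _ := by ring
        calc C * (ww s L t * (2 * deriv (cc T K) t ^ 2 * Real.sqrt t +
            4 * cc T K t * (|deriv (cc T K) t| * t))) ≤ C * (ww s L t * (2 * D ^ 2 + 4 * D)) := by
              gcongr
          _ = C * (2 * D ^ 2 + 4 * D) * ww s L t := by ring
          _ ≤ _ := by gcongr
    calc _ = C * (ww s L t * ((2 * s + 1) ^ 2 / 8 * cc T K t ^ 2 * (Real.sqrt t / t ^ 2))) +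
        C * (ww s L t * (2 * deriv (cc T K) t ^ 2 * Real.sqrt t +
        4 * cc T K t * (|deriv (cc T K) t| * t))) := by ring
      _ ≤ _ := add_le_add p1 p2

/-- truncated weight -/
noncomputable def tw (s L T K t : ℝ) : ℝ := if 2 * T ≤ t ∧ t ≤ K then ww s L t else 0

lemma measurable_tw (s L T K : ℝ) : Measurable (tw s L T K) := by
  unfold tw
  exact Measurable.ite (measurableSet_Ici.inter measurableSet_Iic) (measurable_ww s L)
    measurable_const

theorem main_bound (S : Setup F) {s : ℝ} (hs : 0 ≤ s) (hW : WIneq S s) :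
    ∃ T E : ℝ, 1 ≤ T ∧ 0 ≤ E ∧ ∀ Ψ : Lp F 2 (volume : Measure X3), S.IsZM Ψ →
      ∀ L : ℝ, 0 < L → ∀ K : ℝ, 2 * T ≤ K →
      ∫ x : X3, tw s L T K (‖x‖ ^ 2) * ‖Ψ x‖ ^ 2 ≤
        E * ((2 * T) ^ (s / 2) * (∫ x : X3, lo (2 * T) (‖x‖ ^ 2) * ‖Ψ x‖ ^ 2) +
          L ^ s * ∫ x : X3, hi K (‖x‖ ^ 2) * ‖Ψ x‖ ^ 2) := by
  obtain ⟨R, C, hR, hC, hW⟩ := hW
  obtain ⟨D, hD0, hD⟩ := deriv_cc_bound
  set T : ℝ := max 1 (max (R ^ 2) (2 * C * ((2 * s + 1) ^ 2 / 8))) with hTdef
  have hT1 : 1 ≤ T := le_max_left _ _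
  have hTR : R ^ 2 ≤ T := (le_max_left _ _).trans (le_max_right _ _)
  have hTC : 2 * C * ((2 * s + 1) ^ 2 / 8) ≤ T := (le_max_right _ _).trans (le_max_right _ _)
  have hT0 : 0 < T := by linarith
  refine ⟨T, 2 * (C * (2 * D ^ 2 + 4 * D)), hT1, by positivity, fun Ψ hΨ L hL K hK => ?_⟩
  have hK0 : 0 < K := by linarith
  have hΨ2 : Integrable (fun x => ‖Ψ x‖ ^ 2) := memLp_norm_sq_int (Lp.memLp Ψ)
  have hsm := contDiff_HH (s := s) (L := L) (T := T) (K := K) hT0 hL
  have hcs := hasCompactSupport_HH (s := s) (L := L) hT0 hK0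
  have h1 := hW Ψ hΨ (HH s L T K) hsm hcs
    (fun t ht => by rw [HH, cc_zero_left hT0 (ht.trans hTR), zero_mul]) (sg s L)
    (continuous_sg s L) (fun t => sg_mem hs L t)
  -- the function `c² w`
  have hcw : ∀ x : X3, ‖x‖ * HH s L T K (‖x‖ ^ 2) ^ 2 =
      cc T K (‖x‖ ^ 2) ^ 2 * ww s L (‖x‖ ^ 2) := by
    intro x
    by_cases hx : x = 0
    · subst hx
      have h0 : cc T K (‖(0 : X3)‖ ^ 2) = 0 := cc_zero_left hT0 (by simpa using hT0.le)
      rw [HH, h0]; ring
    · have hn : 0 < ‖x‖ := norm_pos_iff.mpr hx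
      have ht : 0 < ‖x‖ ^ 2 := by positivity
      rw [← ww_eq ht, HH, Real.sqrt_sq hn.le]
      ring
  have hcwb : ∀ x : X3, |‖x‖ * HH s L T K (‖x‖ ^ 2) ^ 2| ≤ L ^ s := by
    intro x
    rw [hcw]
    by_cases hx : x = 0
    · subst hx
      have h0 : cc T K (‖(0 : X3)‖ ^ 2) = 0 := cc_zero_left hT0 (by simpa using hT0.le)
      rw [h0]; simp; positivity
    · have hn : 0 < ‖x‖ := norm_pos_iff.mpr hx
      have ht : 0 < ‖x‖ ^ 2 := by positivity
      have hw := ww_pos (s := s) (L := L) ht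
      have hc0 := cc_nonneg T K (‖x‖ ^ 2)
      have hc1 := cc_le_one T K (‖x‖ ^ 2)
      rw [abs_of_nonneg (by positivity)]
      calc cc T K (‖x‖ ^ 2) ^ 2 * ww s L (‖x‖ ^ 2) ≤ 1 * ww s L (‖x‖ ^ 2) := by
            gcongr
            exact pow_le_one₀ hc0 hc1
        _ ≤ L ^ s := by rw [one_mul]; exact ww_le_L hs hL ht
  have hcont : Continuous (fun x : X3 => ‖x‖ * HH s L T K (‖x‖ ^ 2) ^ 2) :=
    continuous_norm.mul ((hsm.continuous.comp (continuous_norm.pow 2)).pow 2)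
  have i1 : Integrable (fun x : X3 => ‖x‖ * HH s L T K (‖x‖ ^ 2) ^ 2 * ‖Ψ x‖ ^ 2) :=
    integrable_bdd hcont.measurable hcwb hΨ2
  have i2 : Integrable (fun x : X3 => lo (2 * T) (‖x‖ ^ 2) * ‖Ψ x‖ ^ 2) :=
    integrable_bdd ((measurable_lo _).comp measurable_nsq) (fun x => lo_abs _ _) hΨ2
  have i3 : Integrable (fun x : X3 => hi K (‖x‖ ^ 2) * ‖Ψ x‖ ^ 2) :=
    integrable_bdd ((measurable_hi _).comp measurable_nsq) (fun x => hi_abs _ _) hΨ2
  set E0 := C * (2 * D ^ 2 + 4 * D) with hE0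
  have hE00 : 0 ≤ E0 := by positivity
  have i5 : Integrable (fun x : X3 => (2 * T) ^ (s / 2) * (lo (2 * T) (‖x‖ ^ 2) * ‖Ψ x‖ ^ 2) +
        L ^ s * (hi K (‖x‖ ^ 2) * ‖Ψ x‖ ^ 2)) := (i2.const_mul _).add (i3.const_mul _)
  have i6 : Integrable (fun x : X3 => E0 * ((2 * T) ^ (s / 2) *
      (lo (2 * T) (‖x‖ ^ 2) * ‖Ψ x‖ ^ 2) +
        L ^ s * (hi K (‖x‖ ^ 2) * ‖Ψ x‖ ^ 2))) := i5.const_mul _
  have i4 : Integrable (fun x : X3 => 1 / 2 * (‖x‖ * HH s L T K (‖x‖ ^ 2) ^ 2 * ‖Ψ x‖ ^ 2) +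
      E0 * ((2 * T) ^ (s / 2) * (lo (2 * T) (‖x‖ ^ 2) * ‖Ψ x‖ ^ 2) +
        L ^ s * (hi K (‖x‖ ^ 2) * ‖Ψ x‖ ^ 2))) :=
    (i1.const_mul _).add i6
  have h2 : C * (∫ x : X3, (deriv (HH s L T K) (‖x‖ ^ 2) ^ 2 * ‖x‖ ^ 2 +
        |2 * deriv (fun t => Real.sqrt t * HH s L T K t ^ 2) (‖x‖ ^ 2) * ‖x‖ ^ 2 -
          ‖x‖ * HH s L T K (‖x‖ ^ 2) ^ 2 * sg s L (‖x‖ ^ 2)|) * ‖Ψ x‖ ^ 2) ≤
      ∫ x : X3, (1 / 2 * (‖x‖ * HH s L T K (‖x‖ ^ 2) ^ 2 * ‖Ψ x‖ ^ 2) +
      E0 * ((2 * T) ^ (s / 2) * (lo (2 * T) (‖x‖ ^ 2) * ‖Ψ x‖ ^ 2) +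
        L ^ s * (hi K (‖x‖ ^ 2) * ‖Ψ x‖ ^ 2))) := by
    rw [← integral_const_mul]
    refine integral_mono_of_nonneg (Filter.Eventually.of_forall fun x => by
      simp only [Pi.zero_apply]; positivity) i4 (Filter.Eventually.of_forall fun x => ?_)
    simp only
    by_cases hx : x = 0
    · subst hx
      have a1 := lo_nonneg (2 * T) (‖(0 : X3)‖ ^ 2)
      have a2 := hi_nonneg K (‖(0 : X3)‖ ^ 2)
      have e : C * ((deriv (HH s L T K) (‖(0 : X3)‖ ^ 2) ^ 2 * ‖(0 : X3)‖ ^ 2 +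
        |2 * deriv (fun t => Real.sqrt t * HH s L T K t ^ 2) (‖(0 : X3)‖ ^ 2) * ‖(0 : X3)‖ ^ 2 -
          ‖(0 : X3)‖ * HH s L T K (‖(0 : X3)‖ ^ 2) ^ 2 * sg s L (‖(0 : X3)‖ ^ 2)|) * ‖Ψ 0‖ ^ 2) = 0 := by
        simp
      rw [e]
      positivity
    · have hn : 0 < ‖x‖ := norm_pos_iff.mpr hx
      have ht : 0 < ‖x‖ ^ 2 := by positivity
      have h3 := rhs_bound (D := D) hs hL hT1 hK hC hD0 hD hTC ht
      rw [Real.sqrt_sq hn.le, ← hcw] at h3
      have h4 := mul_le_mul_of_nonneg_right h3 (by positivity : 0 ≤ ‖Ψ x‖ ^ 2)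
      calc _ = C * (deriv (HH s L T K) (‖x‖ ^ 2) ^ 2 * ‖x‖ ^ 2 +
            |2 * deriv (fun t => Real.sqrt t * HH s L T K t ^ 2) (‖x‖ ^ 2) * ‖x‖ ^ 2 -
              ‖x‖ * HH s L T K (‖x‖ ^ 2) ^ 2 * sg s L (‖x‖ ^ 2)|) * ‖Ψ x‖ ^ 2 := by ring
        _ ≤ _ := h4
        _ = _ := by rw [hE0]; ring
  rw [integral_add (i1.const_mul _) i6,
    integral_const_mul, integral_const_mul, integral_add (i2.const_mul _) (i3.const_mul _),
    integral_const_mul, integral_const_mul] at h2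
  have h5 : ∫ x : X3, tw s L T K (‖x‖ ^ 2) * ‖Ψ x‖ ^ 2 ≤
      ∫ x : X3, ‖x‖ * HH s L T K (‖x‖ ^ 2) ^ 2 * ‖Ψ x‖ ^ 2 := by
    refine integral_mono_of_nonneg (Filter.Eventually.of_forall fun x => ?_) i1
      (Filter.Eventually.of_forall fun x => ?_)
    · simp only [Pi.zero_apply, tw]
      split_ifs with h
      · have ht : 0 < ‖x‖ ^ 2 := by linarith [h.1]
        have := ww_pos (s := s) (L := L) ht
        positivity
      · simp
    · simp only
      refine mul_le_mul_of_nonneg_right ?_ (by positivity)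
      rw [tw]
      split_ifs with h
      · rw [hcw, cc_one hT0 hK0 h.1 h.2]; simp
      · positivity
  linarith

end Dec
end Vale.Agent.P353
end

section

/-! # P353, uniqueness for `N = 2`: covariance of `om`, `vv` (task D-sm, part 3): algebra -/

open MeasureTheory Filter Topology
open scoped ContDiff

namespace Vale.Agent.P353

variable {F : Type*} [NormedAddCommGroup F] [InnerProductSpace ℂ F]

namespace Setup

variable (S : Setup F)

/-! ### the algebra generated by the `b b` -/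

lemma sm_bm_anti (A B : Fin 3) (α β : Fin 16) :
    S.bm A α * S.bm B β = -(S.bm B β * S.bm A α) := by
  have h := S.vec_anti S.n0Pb S.n0Pb A B α β
  rw [S.n0_Pb_transpose, S.n0_Pb_Pa, ← S.n0_bm, ← S.n0_bm] at h
  have h2 : (if A = B then (0 : Matrix (Fin 16) (Fin 16) ℂ) α β • (1 : F →L[ℂ] F) else 0) = 0 := by
    split_ifs
    · rw [Matrix.zero_apply, zero_smul]
    · rfl
  rw [h2] at h
  exact eq_neg_of_add_eq_zero_left h

/-- span of the products `b b` -/
noncomputable def bspan : Submodule ℂ (F →L[ℂ] F) :=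
  Submodule.span ℂ (Set.range fun p : (Fin 3 × Fin 16) × (Fin 3 × Fin 16) =>
    S.bm p.1.1 p.1.2 * S.bm p.2.1 p.2.2)

lemma bspan_comm {X Y : F →L[ℂ] F} (hX : X ∈ S.bspan) (hY : Y ∈ S.bspan) : Commute X Y := by
  have h1 : ∀ p : (Fin 3 × Fin 16) × (Fin 3 × Fin 16), ∀ Y ∈ S.bspan,
      Commute (S.bm p.1.1 p.1.2 * S.bm p.2.1 p.2.2) Y := by
    intro p Y hY
    refine Submodule.span_induction (p := fun Y _ =>
      Commute (S.bm p.1.1 p.1.2 * S.bm p.2.1 p.2.2) Y) ?_ ?_ ?_ ?_ hY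
    · rintro _ ⟨q, rfl⟩
      have e : ∀ a b c d : F →L[ℂ] F, a * c = -(c * a) → a * d = -(d * a) → b * c = -(c * b) →
          b * d = -(d * b) → Commute (a * b) (c * d) := by
        intro a b c d h1 h2 h3 h4
        have : a * b * (c * d) = c * d * (a * b) := by
          calc a * b * (c * d) = a * (b * c) * d := by simp only [mul_assoc]
            _ = -(a * c * (b * d)) := by rw [h3]; simp only [mul_assoc, mul_neg, neg_mul]
            _ = -(c * (a * d) * b) := by
                rw [h1, h4]; simp only [mul_assoc, mul_neg, neg_mul, neg_neg]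
            _ = c * d * (a * b) := by
                rw [h2]; simp only [mul_assoc, mul_neg, neg_mul, neg_neg]
        exact this
      exact e _ _ _ _ (S.sm_bm_anti _ _ _ _) (S.sm_bm_anti _ _ _ _) (S.sm_bm_anti _ _ _ _)
        (S.sm_bm_anti _ _ _ _)
    · exact Commute.zero_right _
    · intro a b _ _ ha hb
      exact ha.add_right hb
    · intro c a _ ha
      exact ha.smul_right c
  refine Submodule.span_induction (p := fun X _ => Commute X Y) ?_ ?_ ?_ ?_ hX
  · rintro _ ⟨p, rfl⟩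
    exact h1 p Y hY
  · exact Commute.zero_left _
  · intro a b _ _ ha hb
    exact ha.add_left hb
  · intro c a _ ha
    exact ha.smul_left c

lemma bilb_mem (N : Matrix (Fin 16) (Fin 16) ℂ) (A B : Fin 3) : S.bilb N A B ∈ S.bspan := by
  unfold bilb
  exact Submodule.sum_mem _ fun α _ => Submodule.sum_mem _ fun β _ =>
    Submodule.smul_mem _ _ (Submodule.subset_span ⟨((A, α), (B, β)), rfl⟩)

lemma zP1_mem (x : X3) : S.zP1 x ∈ S.bspan := by
  unfold zP1 zP1a
  exact Submodule.sum_mem _ fun _ _ => Submodule.sum_mem _ fun _ _ => Submodule.sum_mem _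
    fun _ _ => Submodule.sum_mem _ fun _ _ => Submodule.smul_mem _ _ (S.bilb_mem _ _ _)

lemma zP2_mem (x y : X3) : S.zP2 x y ∈ S.bspan := by
  unfold zP2 zP2a
  exact Submodule.sum_mem _ fun _ _ => Submodule.sum_mem _ fun _ _ => Submodule.sum_mem _
    fun _ _ => Submodule.sum_mem _ fun _ _ => Submodule.smul_mem _ _ (S.bilb_mem _ _ _)

lemma bilb_eq (N : Matrix (Fin 16) (Fin 16) ℂ) (A B : Fin 3) :
    S.bilb N A B = S.bil (S.n0Pa * (N * S.n0Pb)) A B := by
  rw [← S.n0_Pb_transpose, ← S.sum_vec_mul_vec]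
  unfold bilb
  refine Finset.sum_congr rfl fun α _ => ?_
  rw [S.vec_mul, Finset.mul_sum]
  refine Finset.sum_congr rfl fun β _ => ?_
  rw [S.n0_bm, S.n0_bm, mul_smul_comm]

lemma sm_bilb_add (N M : Matrix (Fin 16) (Fin 16) ℂ) (A B : Fin 3) :
    S.bilb (N + M) A B = S.bilb N A B + S.bilb M A B := by
  rw [bilb_eq, bilb_eq, bilb_eq, add_mul, mul_add, S.bil_add]

lemma sm_bilb_sub (N M : Matrix (Fin 16) (Fin 16) ℂ) (A B : Fin 3) :
    S.bilb (N - M) A B = S.bilb N A B - S.bilb M A B := by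
  rw [bilb_eq, bilb_eq, bilb_eq, sub_mul, mul_sub, S.bil_sub]

lemma sm_bilb_smul (c : ℂ) (N : Matrix (Fin 16) (Fin 16) ℂ) (A B : Fin 3) :
    S.bilb (c • N) A B = c • S.bilb N A B := by
  rw [bilb_eq, bilb_eq, Matrix.smul_mul, Matrix.mul_smul, S.bil_smul]

lemma sm_bilb_ite (c : Prop) [Decidable c] (N : Matrix (Fin 16) (Fin 16) ℂ) (A B : Fin 3) :
    S.bilb (if c then N else 0) A B = if c then S.bilb N A B else 0 := by
  split_ifs
  · rfl
  · rw [bilb_eq, zero_mul, mul_zero, S.bil_zero]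

/-! ### commutators -/

lemma sm_comm_mul (T x y : F →L[ℂ] F) :
    T * (x * y) - x * y * T = (T * x - x * T) * y + x * (T * y - y * T) := by
  noncomm_ring

lemma sm_cS_bil (C : Fin 3) (M : Matrix (Fin 16) (Fin 16) ℂ) (A B : Fin 3) :
    S.cS C * S.bil M A B - S.bil M A B * S.cS C = Complex.I •
      (∑ E, (eps C A E : ℂ) • S.bil M E B + ∑ E, (eps C B E : ℂ) • S.bil M A E) := by
  have e : ∀ A B : Fin 3, S.bil M A B = ∑ α, S.vec 1 A α * S.vec M B α := by
    intro A B
    unfold CS.bil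
    exact Finset.sum_congr rfl fun α _ => by rw [S.vec_one]
  rw [e, Finset.mul_sum, Finset.sum_mul, ← Finset.sum_sub_distrib]
  have h1 : ∀ α, S.cS C * (S.vec 1 A α * S.vec M B α) - S.vec 1 A α * S.vec M B α * S.cS C =
      Complex.I • (∑ E, (eps C A E : ℂ) • (S.vec 1 E α * S.vec M B α) +
        ∑ E, (eps C B E : ℂ) • (S.vec 1 A α * S.vec M E α)) := by
    intro α
    rw [sm_comm_mul, U.comm_cS, U.comm_cS, smul_mul_assoc, mul_smul_comm, ← smul_add,
      Finset.sum_mul, Finset.mul_sum]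
    simp only [smul_mul_assoc, mul_smul_comm]
  rw [Finset.sum_congr rfl fun α _ => h1 α, ← Finset.smul_sum, Finset.sum_add_distrib]
  congr 2
  · rw [Finset.sum_comm]
    exact Finset.sum_congr rfl fun E _ => by rw [e, Finset.smul_sum]
  · rw [Finset.sum_comm]
    exact Finset.sum_congr rfl fun E _ => by rw [e, Finset.smul_sum]

lemma sm_cS_bilb (C : Fin 3) (M : Matrix (Fin 16) (Fin 16) ℂ) (A B : Fin 3) :
    S.cS C * S.bilb M A B - S.bilb M A B * S.cS C = Complex.I •
      (∑ E, (eps C A E : ℂ) • S.bilb M E B + ∑ E, (eps C B E : ℂ) • S.bilb M A E) := by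
  simp only [bilb_eq]
  exact S.sm_cS_bil C _ A B

lemma sm_Sk_bil (k l : Fin 9) (M : Matrix (Fin 16) (Fin 16) ℂ) (A B : Fin 3) :
    S.Skl k l * S.bil M A B - S.bil M A B * S.Skl k l =
      (Complex.I / 2) • S.bil (M * S.g2 k l - S.g2 k l * M) A B := by
  have e : ∀ A B : Fin 3, S.bil M A B = ∑ α, S.vec 1 A α * S.vec M B α := by
    intro A B
    unfold CS.bil
    exact Finset.sum_congr rfl fun α _ => by rw [S.vec_one]
  rw [e, Finset.mul_sum, Finset.sum_mul, ← Finset.sum_sub_distrib]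
  have h1 : ∀ α, S.Skl k l * (S.vec 1 A α * S.vec M B α) -
      S.vec 1 A α * S.vec M B α * S.Skl k l =
      (Complex.I / 2) • (S.vec (1 * S.g2 k l) A α * S.vec M B α +
        S.vec 1 A α * S.vec (M * S.g2 k l) B α) := by
    intro α
    rw [sm_comm_mul, U.comm_Sk, U.comm_Sk, smul_mul_assoc, mul_smul_comm, ← smul_add]
  rw [Finset.sum_congr rfl fun α _ => h1 α, ← Finset.smul_sum, Finset.sum_add_distrib,
    S.sum_vec_mul_vec, S.sum_vec_mul_vec, ← S.bil_add, one_mul, S.g2_transpose',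
    Matrix.transpose_one, one_mul, neg_mul, neg_add_eq_sub]

lemma sm_Sk_bilb {k l : Fin 9} (h : Same k l) (N : Matrix (Fin 16) (Fin 16) ℂ) (A B : Fin 3) :
    S.Skl k l * S.bilb N A B - S.bilb N A B * S.Skl k l =
      (Complex.I / 2) • S.bilb (N * S.g2 k l - S.g2 k l * N) A B := by
  have hG := S.Gam_comm_g2 h
  have ha : S.g2 k l * S.n0Pa = S.n0Pa * S.g2 k l := by
    unfold n0Pa
    rw [Matrix.mul_smul, Matrix.smul_mul, mul_sub, sub_mul, mul_one, one_mul, Matrix.mul_smul,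
      Matrix.smul_mul, hG]
  have hb : S.g2 k l * S.n0Pb = S.n0Pb * S.g2 k l := by
    unfold n0Pb
    rw [Matrix.mul_smul, Matrix.smul_mul, mul_add, add_mul, mul_one, one_mul, Matrix.mul_smul,
      Matrix.smul_mul, hG]
  rw [bilb_eq, bilb_eq, S.sm_Sk_bil]
  congr 2
  calc S.n0Pa * (N * S.n0Pb) * S.g2 k l - S.g2 k l * (S.n0Pa * (N * S.n0Pb))
      = S.n0Pa * (N * (S.n0Pb * S.g2 k l)) - (S.g2 k l * S.n0Pa) * (N * S.n0Pb) := by
        simp only [mul_assoc]
    _ = S.n0Pa * ((N * S.g2 k l - S.g2 k l * N) * S.n0Pb) := by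
        rw [← hb, ha, sub_mul, mul_sub]
        simp only [mul_assoc]

/-! ### gauge covariance of `P1`, `P2`, `F` -/

lemma eps_P1 {M : Type*} [AddCommGroup M] [Module ℂ M] (b : Fin 3 → Fin 3 → M) (ξ : Fin 3 → ℂ)
    (C : Fin 3) :
    ∑ A, ∑ B, ∑ D, ((eps A D B : ℂ) * ξ D) • (∑ E, (eps C A E : ℂ) • b E B +
      ∑ E, (eps C B E : ℂ) • b A E) =
    ∑ A, ∑ B, ∑ D, ((eps A D B : ℂ) * (∑ E, (eps C E D : ℂ) * ξ E)) • b A B := by
  simp only [Fin.sum_univ_three]
  fin_cases C <;> simp [eps] <;> module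

lemma eps_FX {M : Type*} [AddCommGroup M] [Module ℂ M] (b : Fin 3 → Fin 3 → M) (ξ : Fin 3 → ℂ)
    (C : Fin 3) :
    ∑ A, ∑ B, ∑ D, ((eps A B D : ℂ) * ξ D) • (∑ E, (eps C A E : ℂ) • b E B +
      ∑ E, (eps C B E : ℂ) • b A E) =
    ∑ A, ∑ B, ∑ D, ((eps A B D : ℂ) * (∑ E, (eps C E D : ℂ) * ξ E)) • b A B := by
  simp only [Fin.sum_univ_three]
  fin_cases C <;> simp [eps] <;> module

lemma eps_P2 {M : Type*} [AddCommGroup M] [Module ℂ M] (b : Fin 3 → Fin 3 → M)
    (ξ η : Fin 3 → ℂ) (C : Fin 3) :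
    ∑ A, ∑ B, ((if A = B then ∑ D, ξ D * η D else 0) - ξ A * η B) •
      (∑ E, (eps C A E : ℂ) • b E B + ∑ E, (eps C B E : ℂ) • b A E) =
    ∑ A, ∑ B, ((if A = B then ∑ D, (∑ E, (eps C E D : ℂ) * ξ E) * η D else 0) -
      (∑ E, (eps C E A : ℂ) * ξ E) * η B) • b A B +
    ∑ A, ∑ B, ((if A = B then ∑ D, ξ D * (∑ E, (eps C E D : ℂ) * η E) else 0) -
      ξ A * (∑ E, (eps C E B : ℂ) * η E)) • b A B := by
  simp only [Fin.sum_univ_three]
  fin_cases C <;> simp [eps] <;> module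

end Setup

end Vale.Agent.P353
end

section

/-! # P353, uniqueness for `N = 2`: covariance of `om`, `vv` (task D-sm, part 4) -/

open MeasureTheory Filter Topology
open scoped ContDiff

namespace Vale.Agent.P353

section gen

variable {F : Type*} [NormedAddCommGroup F] [InnerProductSpace ℂ F]

lemma sm_lin3 {ι κ μ : Type*} [Fintype ι] [Fintype κ] [Fintype μ] (T : F →L[ℂ] F) (b d : ι → κ → F →L[ℂ] F)
    (c : ι → κ → μ → ℂ) (hb : ∀ A B, T * b A B - b A B * T = Complex.I • d A B) :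
    T * (∑ A, ∑ B, ∑ D, c A B D • b A B) - (∑ A, ∑ B, ∑ D, c A B D • b A B) * T =
      Complex.I • ∑ A, ∑ B, ∑ D, c A B D • d A B := by
  simp only [Finset.mul_sum, Finset.sum_mul, ← Finset.sum_sub_distrib, mul_smul_comm,
    smul_mul_assoc, ← smul_sub, hb, Finset.smul_sum]
  simp only [smul_comm _ Complex.I]

lemma sm_lin2 {ι κ : Type*} [Fintype ι] [Fintype κ] (T : F →L[ℂ] F) (b d : ι → κ → F →L[ℂ] F)
    (c : ι → κ → ℂ) (hb : ∀ A B, T * b A B - b A B * T = Complex.I • d A B) :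
    T * (∑ A, ∑ B, c A B • b A B) - (∑ A, ∑ B, c A B • b A B) * T =
      Complex.I • ∑ A, ∑ B, c A B • d A B := by
  simp only [Finset.mul_sum, Finset.sum_mul, ← Finset.sum_sub_distrib, mul_smul_comm,
    smul_mul_assoc, ← smul_sub, hb, Finset.smul_sum]
  simp only [smul_comm _ Complex.I]

lemma sm_lin1 {ι : Type*} [Fintype ι] (T : F →L[ℂ] F) (b d : ι → F →L[ℂ] F)
    (hb : ∀ a, T * b a - b a * T = Complex.I • d a) :
    T * (∑ a, b a) - (∑ a, b a) * T = Complex.I • ∑ a, d a := by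
  simp only [Finset.mul_sum, Finset.sum_mul, ← Finset.sum_sub_distrib, hb, Finset.smul_sum]

lemma sm_lin_smul (T X Y : F →L[ℂ] F) (c : ℂ) (h : T * X - X * T = Complex.I • Y) :
    T * (c • X) - (c • X) * T = Complex.I • (c • Y) := by
  rw [mul_smul_comm, smul_mul_assoc, ← smul_sub, h, smul_comm]

/-- the commutator of a linear combination over `Fin 9` -/
lemma sm_lin9 {ι : Type*} [Fintype ι] (T : F →L[ℂ] F) (b d : ι → F →L[ℂ] F) (c : ι → ℂ)
    (hb : ∀ a, T * b a - b a * T = Complex.I • d a) :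
    T * (∑ a, c a • b a) - (∑ a, c a • b a) * T = Complex.I • ∑ a, c a • d a := by
  simp only [Finset.mul_sum, Finset.sum_mul, ← Finset.sum_sub_distrib, mul_smul_comm,
    smul_mul_assoc, ← smul_sub, hb, Finset.smul_sum]
  simp only [smul_comm _ Complex.I]

/-- a sum with two Kronecker symbols -/
lemma sm_sum_kl {M : Type*} [AddCommGroup M] [Module ℂ M] {k l : Fin 9} (y : Fin 9 → ℂ)
    (X : Fin 9 → M) (s : Fin 9 → Prop) [DecidablePred s] (hs : s k ↔ s l) :
    ∑ a, (if s a then y a else 0) • ((if a = k then X l else 0) - (if a = l then X k else 0)) =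
    ∑ a, (if s a then ((if a = l then y k else 0) - (if a = k then y l else 0)) else 0) •
      X a := by
  have e1 : ∑ a, (if s a then y a else 0) • ((if a = k then X l else 0) -
      (if a = l then X k else 0)) =
      (if s k then y k else 0) • X l - (if s l then y l else 0) • X k := by
    simp only [smul_sub, Finset.sum_sub_distrib, smul_ite, smul_zero]
    rw [Finset.sum_ite_eq' , Finset.sum_ite_eq']
    simp
  have e2 : ∀ a, (if s a then ((if a = l then y k else 0) - (if a = k then y l else 0)) else 0) •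
      X a = (if a = l then (if s l then y k else 0) • X l else 0) -
        (if a = k then (if s k then y l else 0) • X k else 0) := by
    intro a
    by_cases h1 : a = l
    · subst h1
      by_cases h2 : a = k
      · subst h2
        simp
      · by_cases h3 : s a
        · simp [h2, h3]
        · simp [h2, h3]
    · by_cases h2 : a = k
      · subst h2
        by_cases h3 : s a
        · simp [h1, h3]
        · simp [h1, h3]
      · simp [h1, h2]
  rw [e1, Finset.sum_congr rfl fun a _ => e2 a, Finset.sum_sub_distrib, Finset.sum_ite_eq',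
    Finset.sum_ite_eq', if_pos (Finset.mem_univ _), if_pos (Finset.mem_univ _)]
  by_cases h : s k
  · rw [if_pos h, if_pos h, if_pos (hs.1 h), if_pos (hs.1 h)]
  · rw [if_neg h, if_neg h, if_neg fun h' => h (hs.2 h'), if_neg fun h' => h (hs.2 h')]

end gen

variable {F : Type*} [NormedAddCommGroup F] [InnerProductSpace ℂ F]

namespace Setup

variable (S : Setup F)

/-! ### gauge rotations -/

lemma sm_gauge_rot (C : Fin 3) (x : X3) (i : Fin 9) :
    ∑ A, x (i, A) * (U.gLc C x) (i, A) = 0 := by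
  simp only [U.gLc_apply, Fin.sum_univ_three]
  fin_cases C <;> simp [eps] <;> ring

lemma sm_gauge_inn (C : Fin 3) (x : X3) : inner ℝ x (U.gLc C x) = 0 := by
  rw [PiLp.inner_apply, Fintype.sum_prod_type]
  refine Finset.sum_eq_zero fun i _ => ?_
  rw [← sm_gauge_rot C x i]
  refine Finset.sum_congr rfl fun A _ => ?_
  simp [mul_comm]

lemma sm_gauge_rho (C : Fin 3) (x : X3) :
    ∑ i : Fin 9, ∑ A : Fin 3, (if 3 ≤ i.val then x (i, A) * (U.gLc C x) (i, A) else 0) = 0 := by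
  refine Finset.sum_eq_zero fun i _ => ?_
  split_ifs
  · exact sm_gauge_rot C x i
  · exact Finset.sum_const_zero

lemma sm_gauge_xh (C : Fin 3) (x : X3) (i : Fin 9) (A : Fin 3) :
    ∑ B, ((∑ j, ((U.gLc C x) (j, A) * x (j, B) + x (j, A) * (U.gLc C x) (j, B))) * x (i, B) +
      Gr x A B * (U.gLc C x) (i, B)) =
      (U.gLc C (WithLp.toLp 2 fun p => ∑ B, Gr x p.2 B * x (p.1, B))) (i, A) := by
  have h1 : ∀ B, ∑ j, ((U.gLc C x) (j, A) * x (j, B) + x (j, A) * (U.gLc C x) (j, B)) =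
      ∑ E, ((eps C E A : ℝ) * Gr x E B + (eps C E B : ℝ) * Gr x A E) := by
    intro B
    simp only [U.gLc_apply, Gr, Finset.mul_sum, Finset.sum_mul, Finset.sum_add_distrib]
    congr 1
    · rw [Finset.sum_comm]
      exact Finset.sum_congr rfl fun E _ => Finset.sum_congr rfl fun j _ => by ring
    · rw [Finset.sum_comm]
      exact Finset.sum_congr rfl fun E _ => Finset.sum_congr rfl fun j _ => by ring
  have key : ∀ (G : Fin 3 → Fin 3 → ℝ) (ξ : Fin 3 → ℝ),
      ∑ B, ((∑ E, ((eps C E A : ℝ) * G E B + (eps C E B : ℝ) * G A E)) * ξ B +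
        G A B * ∑ E, (eps C E B : ℝ) * ξ E) =
      ∑ E, (eps C E A : ℝ) * ∑ B, G E B * ξ B := by
    intro G ξ
    simp only [Fin.sum_univ_three]
    fin_cases C <;> fin_cases A <;> simp [eps] <;> ring
  have h2 := key (fun A B => Gr x A B) (fun B => x (i, B))
  rw [Finset.sum_congr rfl fun B _ => by rw [h1 B, U.gLc_apply], h2, U.gLc_apply]

lemma sm_gl_gauge (C : Fin 3) (x : X3) (j : Fin 9) (D : Fin 3) :
    (((U.gLc C x) (j, D) : ℝ) : ℂ) = ∑ E, (eps C E D : ℂ) * (x (j, E) : ℂ) := by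
  rw [U.gLc_apply]
  push_cast
  rfl

lemma zP1_sum (x : X3) : S.zP1 x = ∑ a, S.zP1a a x := rfl

lemma zP2_sum (x y : X3) : S.zP2 x y = ∑ a, ∑ i, S.zP2a a i x y := rfl

/-- summand of `F` -/
noncomputable def Fxa (a : Fin 9) (x : X3) : F →L[ℂ] F :=
  ∑ A, ∑ B, ∑ C, ((eps A B C : ℂ) * (x (a, C) : ℂ)) • S.bil (S.g a) A B

lemma Fx_sum (x : X3) : S.Fx x = (Complex.I / 2 * (S.κ : ℂ)) • ∑ a, S.Fxa a x := by
  unfold Fx
  refine congrArg _ (Finset.sum_congr rfl fun q _ => ?_)
  unfold Fxa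
  refine Finset.sum_congr rfl fun A _ => Finset.sum_congr rfl fun B _ =>
    Finset.sum_congr rfl fun C _ => ?_
  rfl

lemma zP1a_gauge (C : Fin 3) (x : X3) (a : Fin 9) :
    S.cS C * S.zP1a a x - S.zP1a a x * S.cS C = Complex.I • S.zP1a a (U.gLc C x) := by
  have h1 : ∀ y : X3, S.zP1a a y = ∑ A, ∑ B, ∑ D, (fun A B D => (if 3 ≤ a.val then
      (eps A D B : ℂ) * (y (a, D) : ℂ) else 0)) A B D • (fun A B => S.bilb (S.g a) A B) A B :=
    fun y => rfl
  rw [h1 x, sm_lin3 _ _ _ _ fun A B => S.sm_cS_bilb C (S.g a) A B, h1]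
  refine congrArg _ ?_
  by_cases ha : 3 ≤ a.val
  · simp only [if_pos ha, sm_gl_gauge]
    exact eps_P1 (fun A B => S.bilb (S.g a) A B) (fun D => (x (a, D) : ℂ)) C
  · simp only [if_neg ha, zero_smul, Finset.sum_const_zero]

lemma sm_gauge_P1 (C : Fin 3) (x : X3) :
    S.cS C * S.zP1 x - S.zP1 x * S.cS C = Complex.I • S.zP1 (U.gLc C x) := by
  rw [zP1_sum, zP1_sum]
  exact sm_lin1 (S.cS C) (fun a => S.zP1a a x) (fun a => S.zP1a a (U.gLc C x))
    fun a => S.zP1a_gauge C x a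

lemma zP2a_gauge (C : Fin 3) (x : X3) (a i : Fin 9) :
    S.cS C * S.zP2a a i x x - S.zP2a a i x x * S.cS C =
      Complex.I • (S.zP2a a i (U.gLc C x) x + S.zP2a a i x (U.gLc C x)) := by
  have h1 : ∀ y z : X3, S.zP2a a i y z = ∑ A, ∑ B, (fun A B => (if 3 ≤ a.val ∧ i.val < 3 then
        (if A = B then ∑ D, (y (a, D) : ℂ) * (z (i, D) : ℂ) else 0) -
          (y (a, A) : ℂ) * (z (i, B) : ℂ) else 0)) A B •
            (fun A B => S.bilb (S.g a * S.g i) A B) A B :=
    fun y z => rfl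
  rw [h1 x x, sm_lin2 _ _ _ _ fun A B => S.sm_cS_bilb C (S.g a * S.g i) A B, h1, h1]
  refine congrArg _ ?_
  by_cases ha : 3 ≤ a.val ∧ i.val < 3
  · simp only [if_pos ha, sm_gl_gauge]
    exact eps_P2 (fun A B => S.bilb (S.g a * S.g i) A B) (fun D => (x (a, D) : ℂ))
      (fun D => (x (i, D) : ℂ)) C
  · simp only [if_neg ha, zero_smul, Finset.sum_const_zero, add_zero]

lemma sm_gauge_P2 (C : Fin 3) (x : X3) :
    S.cS C * S.zP2 x x - S.zP2 x x * S.cS C =
      Complex.I • (S.zP2 (U.gLc C x) x + S.zP2 x (U.gLc C x)) := by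
  rw [zP2_sum, zP2_sum, zP2_sum, ← Finset.sum_add_distrib]
  refine sm_lin1 (S.cS C) (fun a => ∑ i, S.zP2a a i x x) (fun a => ∑ i, S.zP2a a i (U.gLc C x) x +
    ∑ i, S.zP2a a i x (U.gLc C x)) fun a => ?_
  rw [← Finset.sum_add_distrib]
  exact sm_lin1 (S.cS C) (fun i => S.zP2a a i x x) (fun i => S.zP2a a i (U.gLc C x) x +
    S.zP2a a i x (U.gLc C x)) fun i => S.zP2a_gauge C x a i

lemma Fxa_gauge (C : Fin 3) (x : X3) (a : Fin 9) :
    S.cS C * S.Fxa a x - S.Fxa a x * S.cS C = Complex.I • S.Fxa a (U.gLc C x) := by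
  have h1 : ∀ y : X3, S.Fxa a y = ∑ A, ∑ B, ∑ D, (fun A B D =>
      (eps A B D : ℂ) * (y (a, D) : ℂ)) A B D • (fun A B => S.bil (S.g a) A B) A B :=
    fun y => rfl
  rw [h1 x, sm_lin3 _ _ _ _ fun A B => S.sm_cS_bil C (S.g a) A B, h1]
  refine congrArg _ ?_
  simp only [sm_gl_gauge]
  exact eps_FX (fun A B => S.bil (S.g a) A B) (fun D => (x (a, D) : ℂ)) C

lemma sm_gauge_FX (C : Fin 3) (x : X3) :
    S.cS C * S.Fx x - S.Fx x * S.cS C = Complex.I • S.Fx (U.gLc C x) := by
  rw [Fx_sum, Fx_sum]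
  exact sm_lin_smul _ _ _ _ (sm_lin1 (S.cS C) (fun a => S.Fxa a x)
    (fun a => S.Fxa a (U.gLc C x)) fun a => S.Fxa_gauge C x a)

/-! ### rotations -/

lemma sm_same {k l : Fin 9} (h : Same k l) : 3 ≤ k.val ↔ 3 ≤ l.val := by
  have := h.2
  omega

lemma sm_gl (k l i : Fin 9) (A : Fin 3) (x : X3) :
    ((((-(LL k l)) x) (i, A) : ℝ) : ℂ) =
      (if i = l then (x (k, A) : ℂ) else 0) - (if i = k then (x (l, A) : ℂ) else 0) := by
  have h := U.neg_LL_apply k l i A x
  have e : ((-(LL k l)) x) (i, A) = (-(LL k l x)) (i, A) := rfl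
  rw [e, h, Complex.ofReal_sub]
  split_ifs <;> simp

lemma sm_Sk_g {k l : Fin 9} (h : Same k l) (a : Fin 9) (A B : Fin 3) :
    S.Skl k l * S.bilb (S.g a) A B - S.bilb (S.g a) A B * S.Skl k l =
      Complex.I • ((if a = k then S.bilb (S.g l) A B else 0) -
        (if a = l then S.bilb (S.g k) A B else 0)) := by
  rw [S.sm_Sk_bilb h, U.g_g2_comm, S.sm_bilb_smul, smul_smul, S.sm_bilb_sub, S.sm_bilb_ite,
    S.sm_bilb_ite, div_mul_cancel₀ _ (two_ne_zero)]

lemma sm_Sk_g' (k l : Fin 9) (a : Fin 9) (A B : Fin 3) :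
    S.Skl k l * S.bil (S.g a) A B - S.bil (S.g a) A B * S.Skl k l =
      Complex.I • ((if a = k then S.bil (S.g l) A B else 0) -
        (if a = l then S.bil (S.g k) A B else 0)) := by
  have e : ∀ (c : Prop) [Decidable c] (N : Matrix (Fin 16) (Fin 16) ℂ),
      S.bil (if c then N else 0) A B = if c then S.bil N A B else 0 := by
    intro c _ N
    split_ifs
    · rfl
    · rw [S.bil_zero]
  rw [S.sm_Sk_bil, U.g_g2_comm, S.bil_smul, smul_smul, S.bil_sub, e, e,
    div_mul_cancel₀ _ (two_ne_zero)]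

lemma sm_Sk_gg {k l : Fin 9} (h : Same k l) (a i : Fin 9) (A B : Fin 3) :
    S.Skl k l * S.bilb (S.g a * S.g i) A B - S.bilb (S.g a * S.g i) A B * S.Skl k l =
      Complex.I • (((if a = k then S.bilb (S.g l * S.g i) A B else 0) -
        (if a = l then S.bilb (S.g k * S.g i) A B else 0)) +
        ((if i = k then S.bilb (S.g a * S.g l) A B else 0) -
        (if i = l then S.bilb (S.g a * S.g k) A B else 0))) := by
  have e1 : S.g a * S.g i * S.g2 k l - S.g2 k l * (S.g a * S.g i) =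
      (S.g a * S.g2 k l - S.g2 k l * S.g a) * S.g i +
        S.g a * (S.g i * S.g2 k l - S.g2 k l * S.g i) := by
    noncomm_ring
  have e2 : ∀ (c : Prop) [Decidable c] (N M : Matrix (Fin 16) (Fin 16) ℂ),
      (if c then N else 0) * M = if c then N * M else 0 := by
    intro c _ N M
    split_ifs <;> simp
  have e3 : ∀ (c : Prop) [Decidable c] (N M : Matrix (Fin 16) (Fin 16) ℂ),
      M * (if c then N else 0) = if c then M * N else 0 := by
    intro c _ N M
    split_ifs <;> simp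
  rw [S.sm_Sk_bilb h, e1, U.g_g2_comm, U.g_g2_comm, Matrix.smul_mul, Matrix.mul_smul, ← smul_add,
    sub_mul, mul_sub, e2, e2, e3, e3, S.sm_bilb_smul, smul_smul, S.sm_bilb_add, S.sm_bilb_sub,
    S.sm_bilb_sub, S.sm_bilb_ite, S.sm_bilb_ite, S.sm_bilb_ite, S.sm_bilb_ite,
    div_mul_cancel₀ _ (two_ne_zero)]

lemma sm_rot_inn (k l : Fin 9) (x : X3) : inner ℝ x ((-(LL k l)) x) = 0 := by
  have h := LL_inner k l x x
  have e : inner ℝ x ((-(LL k l)) x) = - inner ℝ x (LL k l x) := by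
    rw [← inner_neg_right]; rfl
  rw [real_inner_comm] at h
  rw [e]
  linarith

lemma sm_rot_rho {k l : Fin 9} (hkl : Same k l) (x : X3) :
    ∑ i : Fin 9, ∑ A : Fin 3, (if 3 ≤ i.val then x (i, A) * ((-(LL k l)) x) (i, A) else 0) = 0 := by
  have e : ∀ i A, ((-(LL k l)) x) (i, A) =
      (if i = l then x (k, A) else 0) - (if i = k then x (l, A) else 0) :=
    fun i A => U.neg_LL_apply k l i A x
  simp only [e]
  rw [Finset.sum_comm]
  refine Finset.sum_eq_zero fun A _ => ?_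
  have e2 : ∀ i : Fin 9, (if 3 ≤ i.val then x (i, A) * ((if i = l then x (k, A) else 0) -
      (if i = k then x (l, A) else 0)) else 0) =
      (if i = l then (if 3 ≤ l.val then x (l, A) * x (k, A) else 0) else 0) -
      (if i = k then (if 3 ≤ k.val then x (k, A) * x (l, A) else 0) else 0) := by
    intro i
    by_cases h1 : i = l
    · subst h1
      by_cases h2 : i = k
      · subst h2
        simp
      · by_cases h3 : 3 ≤ i.val
        · simp [h2, h3]
        · simp [h2, h3]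
    · by_cases h2 : i = k
      · subst h2
        by_cases h3 : 3 ≤ i.val
        · simp [h1, h3]
        · simp [h1, h3]
      · simp [h1, h2]
  rw [Finset.sum_congr rfl fun i _ => e2 i, Finset.sum_sub_distrib, Finset.sum_ite_eq',
    Finset.sum_ite_eq', if_pos (Finset.mem_univ _), if_pos (Finset.mem_univ _)]
  by_cases h : 3 ≤ k.val
  · rw [if_pos h, if_pos ((sm_same hkl).1 h)]
    ring
  · rw [if_neg h, if_neg fun h' => h ((sm_same hkl).2 h'), sub_zero]

lemma sm_rot_xh (k l : Fin 9) (x : X3) (i : Fin 9) (A : Fin 3) :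
    ∑ B, ((∑ j, (((-(LL k l)) x) (j, A) * x (j, B) + x (j, A) * ((-(LL k l)) x) (j, B))) *
      x (i, B) + Gr x A B * ((-(LL k l)) x) (i, B)) =
      ((-(LL k l)) (WithLp.toLp 2 fun p => ∑ B, Gr x p.2 B * x (p.1, B))) (i, A) := by
  have e : ∀ (x : X3) i A, ((-(LL k l)) x) (i, A) =
      (if i = l then x (k, A) else 0) - (if i = k then x (l, A) else 0) :=
    fun x i A => U.neg_LL_apply k l i A x
  have h1 : ∀ B, ∑ j, (((-(LL k l)) x) (j, A) * x (j, B) +
      x (j, A) * ((-(LL k l)) x) (j, B)) = 0 := by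
    intro B
    simp only [e, sub_mul, mul_sub, ite_mul, zero_mul, mul_ite, mul_zero,
      Finset.sum_add_distrib, Finset.sum_sub_distrib, Finset.sum_ite_eq', Finset.mem_univ,
      if_true]
    ring
  simp only [h1, zero_mul, zero_add]
  simp only [e]
  simp only [mul_sub, mul_ite, mul_zero, Finset.sum_sub_distrib]
  refine congrArg₂ _ ?_ ?_
  · split_ifs
    · rfl
    · exact Finset.sum_const_zero
  · split_ifs
    · rfl
    · exact Finset.sum_const_zero

lemma zP1_swap (y : X3) : S.zP1 y = ∑ A, ∑ B, ∑ C, ∑ a : Fin 9,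
    (if 3 ≤ a.val then (eps A C B : ℂ) * (y (a, C) : ℂ) else 0) • S.bilb (S.g a) A B := by
  unfold zP1 zP1a
  rw [Finset.sum_comm]
  refine Finset.sum_congr rfl fun A _ => ?_
  rw [Finset.sum_comm]
  refine Finset.sum_congr rfl fun B _ => ?_
  rw [Finset.sum_comm]

/-- the kernel of `P2` -/
noncomputable def kk (A B : Fin 3) (y z : X3) (a i : Fin 9) : ℂ :=
  (if A = B then ∑ D, (y (a, D) : ℂ) * (z (i, D) : ℂ) else 0) - (y (a, A) : ℂ) * (z (i, B) : ℂ)

lemma zP2_swap (y z : X3) : S.zP2 y z = ∑ A, ∑ B, ∑ a : Fin 9, ∑ i : Fin 9,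
    (if 3 ≤ a.val ∧ i.val < 3 then kk A B y z a i else 0) • S.bilb (S.g a * S.g i) A B := by
  unfold zP2 zP2a kk
  rw [Finset.sum_congr rfl fun a _ => Finset.sum_comm (s := (Finset.univ : Finset (Fin 9)))]
  rw [Finset.sum_comm]
  refine Finset.sum_congr rfl fun A _ => ?_
  rw [Finset.sum_congr rfl fun a _ => Finset.sum_comm (s := (Finset.univ : Finset (Fin 9)))]
  rw [Finset.sum_comm]

lemma kk_left (k l : Fin 9) (A B : Fin 3) (x z : X3) (a i : Fin 9) :
    kk A B ((-(LL k l)) x) z a i = (if a = l then kk A B x z k i else 0) -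
      (if a = k then kk A B x z l i else 0) := by
  unfold kk
  simp only [sm_gl]
  by_cases h1 : a = l
  · subst h1
    by_cases h2 : a = k
    · subst h2
      simp
    · by_cases h3 : A = B <;> simp [h2, h3]
  · by_cases h2 : a = k
    · subst h2
      by_cases h3 : A = B
      · simp [h1, h3]; ring
      · simp [h1, h3]
    · by_cases h3 : A = B <;> simp [h1, h2, h3]

lemma kk_right (k l : Fin 9) (A B : Fin 3) (x z : X3) (a i : Fin 9) :
    kk A B z ((-(LL k l)) x) a i = (if i = l then kk A B z x a k else 0) -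
      (if i = k then kk A B z x a l else 0) := by
  unfold kk
  simp only [sm_gl]
  by_cases h1 : i = l
  · subst h1
    by_cases h2 : i = k
    · subst h2
      simp
    · by_cases h3 : A = B <;> simp [h2, h3]
  · by_cases h2 : i = k
    · subst h2
      by_cases h3 : A = B
      · simp [h1, h3]; ring
      · simp [h1, h3]
    · by_cases h3 : A = B <;> simp [h1, h2, h3]

lemma sm_rot_P1 {k l : Fin 9} (hkl : Same k l) (x : X3) :
    S.Skl k l * S.zP1 x - S.zP1 x * S.Skl k l = Complex.I • S.zP1 ((-(LL k l)) x) := by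
  rw [zP1_swap, zP1_swap]
  refine sm_lin1 _ _ _ fun A => sm_lin1 _ _ _ fun B => sm_lin1 _ _ _ fun C => ?_
  rw [sm_lin9 _ _ _ _ fun a => S.sm_Sk_g hkl a A B]
  refine congrArg _ ?_
  rw [sm_sum_kl (fun a => (eps A C B : ℂ) * (x (a, C) : ℂ)) (fun a => S.bilb (S.g a) A B)
    (fun a => 3 ≤ a.val) (sm_same hkl)]
  refine Finset.sum_congr rfl fun a _ => congrArg (· • _) ?_
  rw [sm_gl, mul_sub, mul_ite, mul_ite, mul_zero]

lemma sm_rot_P2 {k l : Fin 9} (hkl : Same k l) (x : X3) :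
    S.Skl k l * S.zP2 x x - S.zP2 x x * S.Skl k l =
      Complex.I • (S.zP2 ((-(LL k l)) x) x + S.zP2 x ((-(LL k l)) x)) := by
  rw [zP2_swap, zP2_swap, zP2_swap, ← Finset.sum_add_distrib]
  refine sm_lin1 _ _ _ fun A => ?_
  rw [← Finset.sum_add_distrib]
  refine sm_lin1 _ _ _ fun B => ?_
  rw [sm_lin2 _ _ _ _ fun a i => S.sm_Sk_gg hkl a i A B]
  refine congrArg _ ?_
  simp only [smul_add, Finset.sum_add_distrib]
  refine congrArg₂ _ ?_ ?_
  · rw [Finset.sum_comm]
    conv_rhs => rw [Finset.sum_comm]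
    refine Finset.sum_congr rfl fun i _ => ?_
    rw [sm_sum_kl (fun a => kk A B x x a i) (fun a => S.bilb (S.g a * S.g i) A B)
      (fun a => 3 ≤ a.val ∧ i.val < 3) (and_congr_left fun _ => sm_same hkl)]
    refine Finset.sum_congr rfl fun a _ => congrArg (· • _) ?_
    rw [kk_left]
  · refine Finset.sum_congr rfl fun a _ => ?_
    have hs : (3 ≤ a.val ∧ k.val < 3) ↔ (3 ≤ a.val ∧ l.val < 3) :=
      and_congr_right fun _ => hkl.2
    rw [sm_sum_kl (fun i => kk A B x x a i) (fun i => S.bilb (S.g a * S.g i) A B)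
      (fun i => 3 ≤ a.val ∧ i.val < 3) hs]
    refine Finset.sum_congr rfl fun i _ => congrArg (· • _) ?_
    rw [kk_right]

lemma sm_rot_FX (k l : Fin 9) (x : X3) :
    S.Skl k l * S.Fx x - S.Fx x * S.Skl k l = Complex.I • S.Fx ((-(LL k l)) x) := by
  have e : ∀ y : X3, S.Fx y = (Complex.I / 2 * (S.κ : ℂ)) • ∑ A, ∑ B, ∑ C, ∑ q : Fin 9,
      ((eps A B C : ℂ) * (y (q, C) : ℂ)) • S.bil (S.g q) A B := by
    intro y
    rw [Fx_sum]
    refine congrArg _ ?_
    unfold Fxa
    rw [Finset.sum_comm]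
    refine Finset.sum_congr rfl fun A _ => ?_
    rw [Finset.sum_comm]
    refine Finset.sum_congr rfl fun B _ => ?_
    rw [Finset.sum_comm]
  rw [e, e]
  refine sm_lin_smul _ _ _ _ ?_
  refine sm_lin1 _ _ _ fun A => sm_lin1 _ _ _ fun B => sm_lin1 _ _ _ fun C => ?_
  rw [sm_lin9 _ _ _ _ fun a => S.sm_Sk_g' k l a A B]
  refine congrArg _ ?_
  have h := sm_sum_kl (k := k) (l := l) (fun a => (eps A B C : ℂ) * (x (a, C) : ℂ))
    (fun a => S.bil (S.g a) A B) (fun _ => True) Iff.rfl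
  simp only [if_true] at h
  rw [h]
  refine Finset.sum_congr rfl fun a _ => congrArg (· • _) ?_
  rw [sm_gl, mul_sub, mul_ite, mul_ite, mul_zero]

/-- infinitesimal covariance of the building blocks -/
structure SmC (L : X3 →L[ℝ] X3) (T : F →L[ℂ] F) : Prop where
  inn : ∀ x, inner ℝ x (L x) = 0
  rho : ∀ x, ∑ i : Fin 9, ∑ A : Fin 3, (if 3 ≤ i.val then x (i, A) * (L x) (i, A) else 0) = 0
  xh : ∀ x i A, ∑ B, ((∑ j, ((L x) (j, A) * x (j, B) + x (j, A) * (L x) (j, B))) * x (i, B) +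
      Gr x A B * (L x) (i, B)) =
      (L (WithLp.toLp 2 fun p => ∑ B, Gr x p.2 B * x (p.1, B))) (i, A)
  P1 : ∀ x, T * S.zP1 x - S.zP1 x * T = Complex.I • S.zP1 (L x)
  P2 : ∀ x, T * S.zP2 x x - S.zP2 x x * T = Complex.I • (S.zP2 (L x) x + S.zP2 x (L x))
  FX : ∀ x, T * S.Fx x - S.Fx x * T = Complex.I • S.Fx (L x)

theorem smC_gauge (C : Fin 3) : S.SmC (U.gLc C) (S.cS C) where
  inn := sm_gauge_inn C
  rho := sm_gauge_rho C
  xh := sm_gauge_xh C
  P1 := S.sm_gauge_P1 C
  P2 := S.sm_gauge_P2 C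
  FX := S.sm_gauge_FX C

theorem smC_rot {k l : Fin 9} (h : Same k l) : S.SmC (-(LL k l)) (S.Skl k l) where
  inn := sm_rot_inn k l
  rho := sm_rot_rho h
  xh := sm_rot_xh k l
  P1 := S.sm_rot_P1 h
  P2 := S.sm_rot_P2 h
  FX := S.sm_rot_FX k l

end Setup

end Vale.Agent.P353
end
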