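import Mathlib
import Vale.Agent.P353.BdU.B2
import Vale.Agent.P353.BdU.B8
import Vale.Agent.P353.BdU.B3
import Vale.Agent.P353.BdU.B11

set_option linter.all false

section

/-! # P353, uniqueness for `N = 2`: Theorem C (at most two invariant zero modes for large `m`) -/

open MeasureTheory Filter Topology
open scoped ContDiff

set_option linter.unusedSectionVars false

namespace Vale.Agent.P353.U

variable {F : Type*} [NormedAddCommGroup F] [InnerProductSpace ℂ F]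

/-! ### change of variables -/

lemma ThmC_translate (f : X3 → ℝ) (z : X3) (t : ℝ) :
    ∫ y in Metric.ball (0 : X3) t, f (z + y) = ∫ x in Metric.ball z t, f x := by
  have h1 := (measurePreserving_add_left (volume : Measure X3) z).setIntegral_preimage_emb
    (MeasurableEquiv.addLeft z).measurableEmbedding f (Metric.ball z t)
  rw [← h1]
  have h2 : (fun x => z + x) ⁻¹' Metric.ball z t = Metric.ball (0 : X3) t := by
    ext y
    simp [dist_eq_norm]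
  rw [h2]

lemma ThmC_cov (f : X3 → ℝ) {m : ℝ} (hm : 0 < m) (ξ : X3) (s : ℝ) :
    ∫ w in Metric.ball (0 : X3) s, f (m • ξ + (Real.sqrt m)⁻¹ • w) =
      Real.sqrt m ^ 27 * ∫ x in Metric.ball (m • ξ) (s / Real.sqrt m), f x := by
  have hs : 0 < Real.sqrt m := Real.sqrt_pos.mpr hm
  have hr : 0 < (Real.sqrt m)⁻¹ := inv_pos.mpr hs
  have h1 := Measure.setIntegral_comp_smul_of_pos (volume : Measure X3)
    (fun y => f (m • ξ + y)) (Metric.ball (0 : X3) s) hr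
  rw [h1, smul_ball hr.ne', smul_zero, Real.norm_of_nonneg hr.le, ThmC_translate]
  have h2 : Module.finrank ℝ X3 = 27 := by
    rw [finrank_euclideanSpace]
    simp
  rw [h2, smul_eq_mul, inv_pow, inv_inv]
  congr 3
  rw [div_eq_inv_mul]

/-! ### linearity -/

lemma ThmC_pd_smul (c : ℂ) {u : X3 → F} (hu : ContDiff ℝ ∞ u) (i : Fin 9) (A : Fin 3) (x : X3) :
    pd i A (fun x => c • u x) x = c • pd i A u x := by
  unfold pd
  rw [fderiv_fun_const_smul ((hu.differentiable (by simp)) x)]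
  rfl

lemma ThmC_tst_smul (c : ℂ) {u : X3 → F} (hu : Setup.Tst u) : Setup.Tst (fun x => c • u x) :=
  ⟨hu.1.const_smul c, hu.2.comp_left (g := fun v : F => c • v) (smul_zero c)⟩

lemma ThmC_G_smul (S : Setup F) (c : ℂ) {u : X3 → F} (hu : Setup.Tst u) (C : Fin 3) (x : X3) :
    S.G C (fun x => c • u x) x = c • S.G C u x := by
  unfold Setup.G
  simp only [ThmC_pd_smul c hu.1, map_smul, smul_add, Finset.smul_sum, smul_comm c]

lemma ThmC_G_add (S : Setup F) {u v : X3 → F} (hu : Setup.Tst u) (hv : Setup.Tst v) (C : Fin 3)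
    (x : X3) : S.G C (fun x => u x + v x) x = S.G C u x + S.G C v x := by
  unfold Setup.G
  have h : ∀ i A, pd i A (fun x => u x + v x) x = pd i A u x + pd i A v x := fun i A =>
    pd_add (hu.diff x) (hv.diff x)
  simp only [h, map_add, smul_add, Finset.sum_add_distrib]
  abel

lemma ThmC_Qm_smul (S : Setup F) (m : ℝ) (c : ℂ) {u : X3 → F} (hu : Setup.Tst u) (β : Fin 16)
    (x : X3) : S.Qm m β (fun x => c • u x) x = c • S.Qm m β u x := by
  unfold Setup.Qm Setup.Q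
  simp only [ThmC_pd_smul c hu.1, map_smul, smul_add, Finset.smul_sum, smul_comm c]


lemma ThmC_cont_scl {m : ℝ} (ξ : X3) {u : X3 → F} (hu : Continuous u) :
    Continuous (scl m ξ u) := by
  unfold scl
  fun_prop

/-- local masses of rescaled functions -/
lemma ThmC_mass {m : ℝ} (hm : 0 < m) (ξ : X3) (u : X3 → F) (c : ℝ) (s : ℝ) :
    ∫ w in Metric.ball (0 : X3) s, ‖scl m ξ (fun x => (c : ℂ) • u x) w‖ ^ 2 =
      c ^ 2 * (Real.sqrt m ^ 27 * ∫ x in Metric.ball (m • ξ) (s / Real.sqrt m), ‖u x‖ ^ 2) := by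
  rw [← ThmC_cov (fun x => ‖u x‖ ^ 2) hm ξ s, ← integral_const_mul]
  refine integral_congr_ae (Filter.Eventually.of_forall fun w => ?_)
  simp only [scl, norm_smul, mul_pow, Complex.norm_real, Real.norm_eq_abs, sq_abs]

lemma ThmC_ind_mem {f : X3 → F} {s : ℝ} (hf : StronglyMeasurable f)
    (hi : IntegrableOn (fun x => ‖f x‖ ^ 2) (Metric.ball (0 : X3) s)) :
    MemLp ((Metric.ball (0 : X3) s).indicator f) 2 (volume : Measure X3) := by
  rw [memLp_two_iff_integrable_sq_norm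
    (hf.indicator Metric.isOpen_ball.measurableSet).aestronglyMeasurable]
  have h : (fun x => ‖(Metric.ball (0 : X3) s).indicator f x‖ ^ 2) =
      (Metric.ball (0 : X3) s).indicator (fun x => ‖f x‖ ^ 2) := by
    funext x
    by_cases hx : x ∈ Metric.ball (0 : X3) s
    · rw [Set.indicator_of_mem hx, Set.indicator_of_mem hx]
    · rw [Set.indicator_of_notMem hx, Set.indicator_of_notMem hx]; simp
  rw [h]
  exact hi.integrable_indicator Metric.isOpen_ball.measurableSet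

lemma ThmC_ind_nsq (f : X3 → F) (s : ℝ) :
    nsq ((Metric.ball (0 : X3) s).indicator f) = ∫ x in Metric.ball (0 : X3) s, ‖f x‖ ^ 2 := by
  rw [nsq, ← integral_indicator Metric.isOpen_ball.measurableSet]
  refine integral_congr_ae (Filter.Eventually.of_forall fun x => ?_)
  by_cases hx : x ∈ Metric.ball (0 : X3) s
  · simp only [Set.indicator_of_mem hx]
  · simp only [Set.indicator_of_notMem hx]; simp

/-- the local limit lemma -/
lemma ThmC_lim (S : Setup F) (hL : LimStmt S) (ξ : X3) (hξ : ∀ β, S.W β ξ + S.MM β ξ = 0)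
    (m : ℕ → ℝ) (hm1 : ∀ k, 1 ≤ m k) (hm : Tendsto m atTop atTop)
    (φ : ℕ → X3 → F) (hφ : ∀ k, Setup.Tst (φ k)) (hG : ∀ k C x, S.G C (φ k) x = 0)
    (a : ℕ → ℝ) (ha : ∀ k, 0 < a k) (P : ℝ → ℝ)
    (hP : ∀ k, ∀ s : ℝ, 0 < s →
      a k * ∫ x in Metric.ball (m k • ξ) (s / Real.sqrt (m k)), ‖φ k x‖ ^ 2 ≤ P s)
    (hE : Tendsto (fun k => a k * ∑ β, nsq (S.Qm (m k) β (φ k))) atTop (𝓝 0))
    (hQi : ∀ k β, Integrable (fun x => ‖S.Qm (m k) β (φ k) x‖ ^ 2))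
    (Ω : F) (hΩ : ‖Ω‖ = 1)
    (hb : ∀ k, ∫ w in Metric.ball (0 : X3) 1, inner ℂ Ω (scl (m k) ξ (φ k) w) = 0)
    (g : X3 → ℝ) (hg : Continuous g) (hg0 : ∀ x, 0 < g x)
    (hLv : ∀ u : X3 → F, StronglyMeasurable u →
      (∀ s : ℝ, 0 < s → IntegrableOn (fun x => ‖u x‖ ^ 2) (Metric.ball (0 : X3) s)) →
      (∀ s : ℝ, 0 < s → ∫ x in Metric.ball (0 : X3) s, ‖u x‖ ^ 2 ≤ P s) →
      (∀ β ζ, Setup.Tst ζ → ∫ x, inner ℂ (S.Qlin ξ β ζ x) (u x) = 0) →
      (∀ (C : Fin 3) ζ, Setup.Tst ζ → ∫ x, inner ℂ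
        (∑ i, ∑ A, ∑ B, ((eps C A B : ℂ) * (ξ (i, A) : ℂ)) • pd i B ζ x) (u x) = 0) →
      ∃ c : ℂ, ∀ᵐ x ∂(volume : Measure X3), u x = (c * (g x : ℂ)) • Ω) :
    ∃ ψ : ℕ → ℕ, StrictMono ψ ∧ ∀ s : ℝ, 0 < s →
      Tendsto (fun k => a (ψ k) * ∫ x in Metric.ball (m (ψ k) • ξ) (s / Real.sqrt (m (ψ k))),
        ‖φ (ψ k) x‖ ^ 2) atTop (𝓝 0) := by
  have hm0 : ∀ k, 0 < m k := fun k => lt_of_lt_of_le one_pos (hm1 k)
  have hsm : ∀ k, 0 < Real.sqrt (m k) := fun k => Real.sqrt_pos.mpr (hm0 k)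
  -- normalisation
  set c : ℕ → ℝ := fun k => Real.sqrt (a k / Real.sqrt (m k) ^ 27) with hc
  have hc2 : ∀ k, c k ^ 2 * Real.sqrt (m k) ^ 27 = a k := by
    intro k
    have h1 : 0 < Real.sqrt (m k) ^ 27 := pow_pos (hsm k) 27
    simp only [hc]
    rw [Real.sq_sqrt (div_nonneg (ha k).le h1.le), div_mul_cancel₀ _ h1.ne']
  set Φ : ℕ → X3 → F := fun k x => (c k : ℂ) • φ k x with hΦ
  have hΦt : ∀ k, Setup.Tst (Φ k) := fun k => ThmC_tst_smul _ (hφ k)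
  have hmass : ∀ k s, ∫ w in Metric.ball (0 : X3) s, ‖scl (m k) ξ (Φ k) w‖ ^ 2 =
      a k * ∫ x in Metric.ball (m k • ξ) (s / Real.sqrt (m k)), ‖φ k x‖ ^ 2 := by
    intro k s
    rw [ThmC_mass (hm0 k) ξ (φ k) (c k) s, ← mul_assoc, hc2]
  have hen : ∀ k s β, ∫ w in Metric.ball (0 : X3) s,
      (m k)⁻¹ * ‖scl (m k) ξ (S.Qm (m k) β (Φ k)) w‖ ^ 2 ≤
      a k * nsq (S.Qm (m k) β (φ k)) := by
    intro k s β
    have h1 : S.Qm (m k) β (Φ k) = fun x => (c k : ℂ) • S.Qm (m k) β (φ k) x := by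
      funext x
      exact ThmC_Qm_smul S (m k) (c k) (hφ k) β x
    rw [h1, integral_const_mul, ThmC_mass (hm0 k) ξ _ (c k) s, ← mul_assoc (c k ^ 2), hc2]
    have h2 : ∫ x in Metric.ball (m k • ξ) (s / Real.sqrt (m k)), ‖S.Qm (m k) β (φ k) x‖ ^ 2 ≤
        nsq (S.Qm (m k) β (φ k)) :=
      setIntegral_le_integral (hQi k β) (Filter.Eventually.of_forall fun x => by positivity)
    have h3 : (m k)⁻¹ ≤ 1 := inv_le_one_of_one_le₀ (hm1 k)
    have h4 : 0 ≤ a k * ∫ x in Metric.ball (m k • ξ) (s / Real.sqrt (m k)),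
        ‖S.Qm (m k) β (φ k) x‖ ^ 2 :=
      mul_nonneg (ha k).le (integral_nonneg fun x => by positivity)
    calc (m k)⁻¹ * (a k * ∫ x in Metric.ball (m k • ξ) (s / Real.sqrt (m k)),
          ‖S.Qm (m k) β (φ k) x‖ ^ 2)
        ≤ 1 * (a k * ∫ x in Metric.ball (m k • ξ) (s / Real.sqrt (m k)),
          ‖S.Qm (m k) β (φ k) x‖ ^ 2) := mul_le_mul_of_nonneg_right h3 h4
      _ ≤ a k * nsq (S.Qm (m k) β (φ k)) := by
          rw [one_mul]
          exact mul_le_mul_of_nonneg_left h2 (ha k).le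
  obtain ⟨ψ, hψ, u, hum, hui, hul, huQ, huG⟩ := hL ξ hξ m hm1 hm Φ hΦt P
    (fun k s hs => by rw [hmass]; exact hP k s hs)
    (fun s hs => by
      refine squeeze_zero (fun k => Finset.sum_nonneg fun β _ => integral_nonneg fun x => ?_)
        (fun k => ?_) hE
      · have := hm0 k
        positivity
      · rw [Finset.mul_sum]
        exact Finset.sum_le_sum fun β _ => hen k s β)
  have huG' := huG (fun k C x => by
    rw [hΦ]
    simp only
    rw [ThmC_G_smul S (c k) (hφ k) C x, hG, smul_zero])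
  -- convergence of the indicators
  have hsc : ∀ k, Continuous (scl (m k) ξ (Φ k)) := fun k => ThmC_cont_scl ξ (hΦt k).1.continuous
  have hiΦ : ∀ k s, IntegrableOn (fun x => ‖scl (m k) ξ (Φ k) x‖ ^ 2) (Metric.ball (0 : X3) s) := by
    intro k s
    refine (((hsc k).norm.pow 2).continuousOn.integrableOn_compact
      (isCompact_closedBall (0 : X3) s)).mono_set Metric.ball_subset_closedBall
  have hlim : ∀ s : ℝ, 0 < s → L2t (fun k => (Metric.ball (0 : X3) s).indicator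
      (scl (m (ψ k)) ξ (Φ (ψ k)))) ((Metric.ball (0 : X3) s).indicator u) := by
    intro s hs
    refine ⟨fun k => ThmC_ind_mem (hsc _).stronglyMeasurable (hiΦ _ s), ThmC_ind_mem hum (hui s hs),
      ?_⟩
    refine (hul s hs).congr fun k => ?_
    rw [← ThmC_ind_nsq]
    congr 1
    funext x
    by_cases hx : x ∈ Metric.ball (0 : X3) s
    · simp only [Set.indicator_of_mem hx]
    · simp only [Set.indicator_of_notMem hx]; simp
  have huP : ∀ s : ℝ, 0 < s → ∫ x in Metric.ball (0 : X3) s, ‖u x‖ ^ 2 ≤ P s := by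
    intro s hs
    have h1 := (hlim s hs).lim_nsq
    rw [ThmC_ind_nsq] at h1
    refine le_of_tendsto h1 (Filter.Eventually.of_forall fun k => ?_)
    simp only [ThmC_ind_nsq, hmass]
    exact hP _ s hs
  obtain ⟨d, hd⟩ := hLv u hum hui huP huQ huG'
  -- the constant vanishes
  have hgi : 0 < ∫ x in Metric.ball (0 : X3) 1, g x := by
    have hgo : IntegrableOn g (Metric.ball (0 : X3) 1) :=
      (hg.continuousOn.integrableOn_compact (isCompact_closedBall (0 : X3) 1)).mono_set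
        Metric.ball_subset_closedBall
    rw [setIntegral_pos_iff_support_of_nonneg_ae
      (Filter.Eventually.of_forall fun x => (hg0 x).le) hgo]
    have hsup : Function.support g = Set.univ := by
      ext x
      simp [(hg0 x).ne']
    rw [hsup, Set.univ_inter]
    exact Metric.measure_ball_pos _ _ one_pos
  have hd0 : d = 0 := by
    have hΩL : L2t (fun _ : ℕ => (Metric.ball (0 : X3) 1).indicator (fun _ : X3 => Ω))
        ((Metric.ball (0 : X3) 1).indicator (fun _ : X3 => Ω)) := by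
      have hmem : MemLp ((Metric.ball (0 : X3) 1).indicator (fun _ : X3 => Ω)) 2
          (volume : Measure X3) :=
        ThmC_ind_mem stronglyMeasurable_const (integrableOn_const
          (hs := (Metric.isBounded_ball.measure_lt_top).ne))
      refine ⟨fun _ => hmem, hmem, ?_⟩
      simp [nsq]
    have h1 := hΩL.lim_inner (hlim 1 one_pos)
    have h2 : ∀ f : X3 → F, ∫ x, inner ℂ ((Metric.ball (0 : X3) 1).indicator (fun _ : X3 => Ω) x)
        ((Metric.ball (0 : X3) 1).indicator f x) =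
        ∫ x in Metric.ball (0 : X3) 1, inner ℂ Ω (f x) := by
      intro f
      rw [← integral_indicator Metric.isOpen_ball.measurableSet]
      refine integral_congr_ae (Filter.Eventually.of_forall fun x => ?_)
      by_cases hx : x ∈ Metric.ball (0 : X3) 1
      · simp only [Set.indicator_of_mem hx]
      · simp only [Set.indicator_of_notMem hx]; simp
    simp only [h2] at h1
    have h3 : ∀ k, ∫ x in Metric.ball (0 : X3) 1, inner ℂ Ω (scl (m (ψ k)) ξ (Φ (ψ k)) x) = 0 := by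
      intro k
      have h4 : ∀ x, inner ℂ Ω (scl (m (ψ k)) ξ (Φ (ψ k)) x) =
          (c (ψ k) : ℂ) * inner ℂ Ω (scl (m (ψ k)) ξ (φ (ψ k)) x) := by
        intro x
        simp only [scl, hΦ, inner_smul_right]
      simp only [h4]
      rw [integral_const_mul, hb, mul_zero]
    simp only [h3] at h1
    have h5 : ∫ x in Metric.ball (0 : X3) 1, inner ℂ Ω (u x) = 0 :=
      tendsto_nhds_unique h1 tendsto_const_nhds
    have h6 : ∫ x in Metric.ball (0 : X3) 1, inner ℂ Ω (u x) =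
        d * ((∫ x in Metric.ball (0 : X3) 1, g x : ℝ) : ℂ) := by
      rw [← integral_complex_ofReal, ← integral_const_mul]
      refine integral_congr_ae (ae_restrict_of_ae ?_)
      filter_upwards [hd] with x hx
      rw [hx, inner_smul_right, inner_self_eq_norm_sq_to_K, hΩ]
      simp
    rw [h6] at h5
    rcases mul_eq_zero.mp h5 with h7 | h7
    · exact h7
    · exact absurd (Complex.ofReal_eq_zero.mp h7) hgi.ne'
  refine ⟨ψ, hψ, fun s hs => ?_⟩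
  have h1 := (hlim s hs).lim_nsq
  have h2 : nsq ((Metric.ball (0 : X3) s).indicator u) = 0 := by
    rw [ThmC_ind_nsq]
    have : ∫ x in Metric.ball (0 : X3) s, ‖u x‖ ^ 2 = ∫ x in Metric.ball (0 : X3) s, (0 : ℝ) := by
      refine integral_congr_ae (ae_restrict_of_ae ?_)
      filter_upwards [hd] with x hx
      rw [hx, hd0]
      simp
    rw [this, integral_zero]
  rw [h2] at h1
  refine h1.congr fun k => ?_
  rw [ThmC_ind_nsq, hmass]

/-! ### smoothness -/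

lemma ThmC_contDiff_MM (S : Setup F) (β : Fin 16) : ContDiff ℝ ∞ (S.MM β) := by
  unfold Setup.MM
  refine ContDiff.sum fun i _ => ContDiff.sum fun A _ => ?_
  exact (Setup.contDiff_ofReal (contDiff_const.mul (Setup.contDiff_coord _))).smul contDiff_const

lemma ThmC_tst_Qm (S : Setup F) (m : ℝ) (β : Fin 16) {u : X3 → F} (hu : Setup.Tst u) :
    Setup.Tst (S.Qm m β u) := by
  have h1 : Setup.Tst (fun x => (m : ℂ) • S.MM β x (u x)) :=
    ThmC_tst_smul _ (hu.clm (ThmC_contDiff_MM S β))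
  exact (hu.Q S β).add h1

lemma ThmC_cont_dm (S : Setup F) (m : ℝ) : Continuous (S.dm m) := by
  unfold Setup.dm
  exact continuous_norm.min (Metric.continuous_infDist_pt _)

lemma ThmC_crit0 (S : Setup F) (β : Fin 16) : S.W β 0 + S.MM β 0 = 0 := by
  simp [Setup.W, Setup.MM, Setup.FF]

/-! ### the choice of a good vector -/

lemma ThmC_pick (S : Setup F) {m ε : ℝ} (hε : 0 < ε) (hlow : S.Low m ε) (ξ₀ ξ₁ : X3) (Ω₀ Ω₁ : F) :
    ∃ φ : X3 → F, Setup.Tst φ ∧ (∀ C x, S.G C φ x = 0) ∧ nsq φ = 1 ∧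
      ∑ β, nsq (S.Qm m β φ) < ε ∧
      (∫ w in Metric.ball (0 : X3) 1, inner ℂ Ω₀ (scl m ξ₀ φ w) = 0) ∧
      (∫ w in Metric.ball (0 : X3) 1, inner ℂ Ω₁ (scl m ξ₁ φ w) = 0) := by
  obtain ⟨u, hu, hQ⟩ := hlow
  set I : X3 → F → Fin 3 → ℂ := fun ξ Ω j =>
    ∫ w in Metric.ball (0 : X3) 1, inner ℂ Ω (scl m ξ (u j) w) with hI
  -- linear dependence
  obtain ⟨a, ha, ha0, ha1⟩ : ∃ a : Fin 3 → ℂ, a ≠ 0 ∧ ∑ j, a j * I ξ₀ Ω₀ j = 0 ∧
      ∑ j, a j * I ξ₁ Ω₁ j = 0 := by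
    let T : (Fin 3 → ℂ) →ₗ[ℂ] (Fin 2 → ℂ) :=
      (Matrix.of ![fun j => I ξ₀ Ω₀ j, fun j => I ξ₁ Ω₁ j] : Matrix (Fin 2) (Fin 3) ℂ).mulVecLin
    have hT : LinearMap.ker T ≠ ⊥ := LinearMap.ker_ne_bot_of_finrank_lt (by simp)
    obtain ⟨a, ha, hne⟩ := (Submodule.ne_bot_iff _).mp hT
    refine ⟨a, hne, ?_, ?_⟩
    · have h := congrFun (LinearMap.mem_ker.mp ha) 0
      simp only [T, Matrix.mulVecLin_apply, Matrix.mulVec, dotProduct, Pi.zero_apply] at h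
      rw [← h]
      refine Finset.sum_congr rfl fun j _ => ?_
      rw [mul_comm]
      rfl
    · have h := congrFun (LinearMap.mem_ker.mp ha) 1
      simp only [T, Matrix.mulVecLin_apply, Matrix.mulVec, dotProduct, Pi.zero_apply] at h
      rw [← h]
      refine Finset.sum_congr rfl fun j _ => ?_
      rw [mul_comm]
      rfl
  set N : ℝ := nsq (fun x => ∑ j, a j • u j x) with hN
  have hNpos : 0 < N := by
    have h1 := hQ a ha
    have h2 : 0 ≤ ∑ β, nsq (S.Qm m β (fun x => ∑ j, a j • u j x)) :=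
      Finset.sum_nonneg fun β _ => nsq_nonneg _
    have h3 : 0 < ε * N := lt_of_le_of_lt h2 h1
    exact (mul_pos_iff_of_pos_left hε).mp h3
  have hsN : 0 < Real.sqrt N := Real.sqrt_pos.mpr hNpos
  set b : Fin 3 → ℂ := fun j => (((Real.sqrt N)⁻¹ : ℝ) : ℂ) * a j with hbdef
  have hb0 : b ≠ 0 := by
    intro h
    apply ha
    funext j
    have h1 := congrFun h j
    simp only [hbdef, Pi.zero_apply] at h1
    rcases mul_eq_zero.mp h1 with h2 | h2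
    · exact absurd (Complex.ofReal_eq_zero.mp h2) (inv_pos.mpr hsN).ne'
    · exact h2
  have hT : ∀ j, Setup.Tst (u j) := fun j => (hu j).1
  have hφ3 : (fun x => ∑ j, b j • u j x) = fun x => (b 0 • u 0 x + b 1 • u 1 x) + b 2 • u 2 x := by
    funext x
    rw [Fin.sum_univ_three]
  have ht : Setup.Tst (fun x => ∑ j, b j • u j x) := by
    rw [hφ3]
    exact ((ThmC_tst_smul _ (hT 0)).add (ThmC_tst_smul _ (hT 1))).add (ThmC_tst_smul _ (hT 2))
  have hnorm : nsq (fun x => ∑ j, b j • u j x) = 1 := by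
    have h1 : (fun x => ∑ j, b j • u j x) =
        fun x => (((Real.sqrt N)⁻¹ : ℝ) : ℂ) • ∑ j, a j • u j x := by
      funext x
      rw [Finset.smul_sum]
      refine Finset.sum_congr rfl fun j _ => ?_
      rw [hbdef, smul_smul]
    rw [h1, nsq]
    have h2 : ∀ x, ‖(((Real.sqrt N)⁻¹ : ℝ) : ℂ) • ∑ j, a j • u j x‖ ^ 2 =
        N⁻¹ * ‖∑ j, a j • u j x‖ ^ 2 := by
      intro x
      rw [norm_smul, mul_pow, Complex.norm_real, Real.norm_eq_abs, sq_abs, inv_pow,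
        Real.sq_sqrt hNpos.le]
    simp only [h2]
    rw [integral_const_mul]
    exact inv_mul_cancel₀ hNpos.ne'
  have hint : ∀ (ξ : X3) (Ω : F), (∑ j, a j * I ξ Ω j = 0) →
      ∫ w in Metric.ball (0 : X3) 1, inner ℂ Ω (scl m ξ (fun x => ∑ j, b j • u j x) w) = 0 := by
    intro ξ Ω h0
    have h1 : ∀ w, inner ℂ Ω (scl m ξ (fun x => ∑ j, b j • u j x) w) =
        ∑ j, b j * inner ℂ Ω (scl m ξ (u j) w) := by
      intro w
      simp only [scl, inner_sum, inner_smul_right]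
    simp only [h1]
    rw [integral_finsetSum]
    · have h2 : ∀ j, ∫ w in Metric.ball (0 : X3) 1, b j * inner ℂ Ω (scl m ξ (u j) w) =
          (((Real.sqrt N)⁻¹ : ℝ) : ℂ) * (a j * I ξ Ω j) := by
        intro j
        rw [integral_const_mul, hbdef, hI, mul_assoc]
      rw [Finset.sum_congr rfl fun j _ => h2 j, ← Finset.mul_sum, h0, mul_zero]
    · intro j _
      refine Integrable.const_mul ?_ _
      have hc : Continuous fun w => inner ℂ Ω (scl m ξ (u j) w) :=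
        continuous_const.inner (ThmC_cont_scl ξ (hT j).1.continuous)
      exact (hc.continuousOn.integrableOn_compact (isCompact_closedBall (0 : X3) 1)).mono_set
        Metric.ball_subset_closedBall
  refine ⟨fun x => ∑ j, b j • u j x, ht, ?_, hnorm, ?_, hint ξ₀ Ω₀ ha0, hint ξ₁ Ω₁ ha1⟩
  · intro C x
    rw [hφ3, ThmC_G_add S ((ThmC_tst_smul _ (hT 0)).add (ThmC_tst_smul _ (hT 1)))
      (ThmC_tst_smul _ (hT 2)), ThmC_G_add S (ThmC_tst_smul _ (hT 0)) (ThmC_tst_smul _ (hT 1)),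
      ThmC_G_smul S _ (hT 0), ThmC_G_smul S _ (hT 1), ThmC_G_smul S _ (hT 2),
      (hu 0).2.1, (hu 1).2.1, (hu 2).2.1]
    simp
  · have h1 := hQ b hb0
    rw [hnorm, mul_one] at h1
    exact h1

/-! ### splitting of the mass -/

lemma ThmC_split (S : Setup F) {m K : ℝ} (hm : 0 < m) (hK : 0 < K) {φ : X3 → F}
    (hφ : Setup.Tst φ) :
    nsq φ ≤ m / K ^ 2 * (∫ x, S.dm m x ^ 2 * ‖φ x‖ ^ 2) +
      (∫ x in Metric.ball (0 : X3) (2 * K / Real.sqrt m), ‖φ x‖ ^ 2) +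
      ∫ x, (if Metric.infDist x (S.Orb m) ≤ K / Real.sqrt m then ‖φ x‖ ^ 2 else 0) := by
  have hs : 0 < Real.sqrt m := Real.sqrt_pos.mpr hm
  have hR : 0 < K / Real.sqrt m := div_pos hK hs
  have i0 : Integrable (fun x => ‖φ x‖ ^ 2) := hφ.norm_sq_int
  have i1 : Integrable (fun x => m / K ^ 2 * (S.dm m x ^ 2 * ‖φ x‖ ^ 2)) :=
    (Setup.Tst.mul_norm_sq_int ((ThmC_cont_dm S m).pow 2) hφ).const_mul _
  have i2 : Integrable ((Metric.ball (0 : X3) (2 * K / Real.sqrt m)).indicator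
      (fun x => ‖φ x‖ ^ 2)) := i0.indicator Metric.isOpen_ball.measurableSet
  have hcl : MeasurableSet {x : X3 | Metric.infDist x (S.Orb m) ≤ K / Real.sqrt m} :=
    (isClosed_le (Metric.continuous_infDist_pt _) continuous_const).measurableSet
  have i3 : Integrable ({x : X3 | Metric.infDist x (S.Orb m) ≤ K / Real.sqrt m}.indicator
      (fun x => ‖φ x‖ ^ 2)) := i0.indicator hcl
  have e3 : (fun x => if Metric.infDist x (S.Orb m) ≤ K / Real.sqrt m then ‖φ x‖ ^ 2 else 0) =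
      {x : X3 | Metric.infDist x (S.Orb m) ≤ K / Real.sqrt m}.indicator (fun x => ‖φ x‖ ^ 2) := by
    funext x
    rw [Set.indicator_apply]
    rfl
  have hs1 := integral_add i1 i2
  have hs2 := integral_add (i1.add i2) i3
  rw [e3, ← integral_const_mul, ← integral_indicator Metric.isOpen_ball.measurableSet, ← hs1]
  refine le_trans ?_ (le_of_eq hs2)
  refine integral_mono i0 ((i1.add i2).add i3) fun x => ?_
  have n0 : 0 ≤ ‖φ x‖ ^ 2 := by positivity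
  have n1 : 0 ≤ m / K ^ 2 * (S.dm m x ^ 2 * ‖φ x‖ ^ 2) := by positivity
  have n2 : 0 ≤ (Metric.ball (0 : X3) (2 * K / Real.sqrt m)).indicator (fun x => ‖φ x‖ ^ 2) x :=
    Set.indicator_nonneg (fun _ _ => by positivity) _
  have n3 : 0 ≤ {x : X3 | Metric.infDist x (S.Orb m) ≤ K / Real.sqrt m}.indicator
      (fun x => ‖φ x‖ ^ 2) x := Set.indicator_nonneg (fun _ _ => by positivity) _
  change ‖φ x‖ ^ 2 ≤ m / K ^ 2 * (S.dm m x ^ 2 * ‖φ x‖ ^ 2) +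
    (Metric.ball (0 : X3) (2 * K / Real.sqrt m)).indicator (fun x => ‖φ x‖ ^ 2) x +
    {x : X3 | Metric.infDist x (S.Orb m) ≤ K / Real.sqrt m}.indicator (fun x => ‖φ x‖ ^ 2) x
  by_cases h3 : Metric.infDist x (S.Orb m) ≤ K / Real.sqrt m
  · rw [Set.indicator_of_mem (show x ∈ {x : X3 | Metric.infDist x (S.Orb m) ≤ K / Real.sqrt m}
      from h3)]
    linarith
  by_cases h2 : ‖x‖ ≤ K / Real.sqrt m
  · have hx : x ∈ Metric.ball (0 : X3) (2 * K / Real.sqrt m) := by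
      rw [mem_ball_zero_iff]
      have : 2 * K / Real.sqrt m = K / Real.sqrt m + K / Real.sqrt m := by ring
      rw [this]
      linarith
    rw [Set.indicator_of_mem hx]
    linarith
  · have hd : K / Real.sqrt m ≤ S.dm m x := by
      unfold Setup.dm
      exact le_min (not_le.mp h2).le (not_le.mp h3).le
    have hd2 : K ^ 2 / m ≤ S.dm m x ^ 2 := by
      have := pow_le_pow_left₀ hR.le hd 2
      rwa [div_pow, Real.sq_sqrt hm.le] at this
    have hd3 : 1 ≤ m / K ^ 2 * S.dm m x ^ 2 := by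
      calc (1 : ℝ) = m / K ^ 2 * (K ^ 2 / m) := by field_simp
        _ ≤ m / K ^ 2 * S.dm m x ^ 2 := mul_le_mul_of_nonneg_left hd2 (by positivity)
    have hd4 : ‖φ x‖ ^ 2 ≤ m / K ^ 2 * (S.dm m x ^ 2 * ‖φ x‖ ^ 2) := by
      rw [← mul_assoc]
      exact le_mul_of_one_le_left n0 hd3
    linarith

/-! ### Theorem C -/

theorem thmC (S : Setup F) (hAP : APStmt S) (hGr : GrpStmt S) (hP : PackStmt S) (hL : LimStmt S)
    (hc : CritStmt S) (h0 : L0Stmt S) (h1 : L1Stmt S) : ThmCStmt S := by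
  intro hI hne
  by_contra hcon
  push Not at hcon
  obtain ⟨Ω₀, hΩ₀, hL0⟩ := h0 hI hne
  obtain ⟨Ω₁, hΩ₁, hL1⟩ := h1 hI hne
  obtain ⟨C, hC, hAPC⟩ := hAP
  -- the sequences
  have hm' : ∀ k : ℕ, ∃ m : ℝ, (k : ℝ) + 1 ≤ m ∧ ∀ ε : ℝ, 0 < ε → S.Low m ε := by
    intro k
    exact hcon ((k : ℝ) + 1) (by positivity)
  choose m hmk hlow using hm'
  have hm1 : ∀ k, 1 ≤ m k := fun k => by
    have := hmk k
    have h2 : (0 : ℝ) ≤ k := Nat.cast_nonneg k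
    linarith
  have hm0 : ∀ k, 0 < m k := fun k => lt_of_lt_of_le one_pos (hm1 k)
  have hs0 : ∀ k, 0 < Real.sqrt (m k) := fun k => Real.sqrt_pos.mpr (hm0 k)
  have hmt : Tendsto m atTop atTop := by
    refine tendsto_atTop_mono (fun k => ?_) tendsto_natCast_atTop_atTop
    have := hmk k
    linarith
  set K : ℝ := 8 * C + 1 with hKdef
  have hK : 0 < K := by positivity
  have hK2 : 2 * C / K ^ 2 ≤ 1 / 4 := by
    rw [div_le_div_iff₀ (by positivity) (by norm_num)]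
    rw [hKdef]
    nlinarith
  have hR : ∀ k, 0 < K / Real.sqrt (m k) := fun k => div_pos hK (hs0 k)
  have hn' : ∀ k, ∃ n : ℝ, 0 < n ∧ ∀ u : X3 → F, Setup.Tst u →
      (∀ O : Matrix (Fin 3) (Fin 3) ℝ, O.transpose * O = 1 → O.det = 1 →
        ∀ x, ‖u (ro O x)‖ = ‖u x‖) →
      (∫ x, (if Metric.infDist x (S.Orb (m k)) ≤ K / Real.sqrt (m k) then ‖u x‖ ^ 2 else 0) ≤
        n * ∫ x in Metric.ball (m k • S.xi0) (2 * (K / Real.sqrt (m k))), ‖u x‖ ^ 2) ∧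
      ∀ s : ℝ, K / Real.sqrt (m k) ≤ s → n * (∫ x in Metric.ball (m k • S.xi0) s, ‖u x‖ ^ 2) ≤
        (3 * s / (K / Real.sqrt (m k))) ^ 27 * nsq u :=
    fun k => hP (m k) (K / Real.sqrt (m k)) (hm0 k) (hR k)
  choose n hn hpack using hn'
  have hε : ∀ k : ℕ, 0 < (((k : ℝ) + 1) * (1 + n k))⁻¹ := fun k => by
    have := hn k
    positivity
  have hφ' : ∀ k : ℕ, ∃ φ : X3 → F, Setup.Tst φ ∧ (∀ C x, S.G C φ x = 0) ∧ nsq φ = 1 ∧
      ∑ β, nsq (S.Qm (m k) β φ) < (((k : ℝ) + 1) * (1 + n k))⁻¹ ∧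
      (∫ w in Metric.ball (0 : X3) 1, inner ℂ Ω₀ (scl (m k) 0 φ w) = 0) ∧
      (∫ w in Metric.ball (0 : X3) 1, inner ℂ Ω₁ (scl (m k) S.xi0 φ w) = 0) :=
    fun k => ThmC_pick S (hε k) (hlow k _ (hε k)) 0 S.xi0 Ω₀ Ω₁
  choose φ hφt hφG hφ1 hφE hφ0 hφx using hφ'
  have hQint : ∀ k β, Integrable (fun x => ‖S.Qm (m k) β (φ k) x‖ ^ 2) := fun k β =>
    (ThmC_tst_Qm S (m k) β (hφt k)).norm_sq_int
  have hE0 : ∀ k, 0 ≤ ∑ β, nsq (S.Qm (m k) β (φ k)) := fun k =>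
    Finset.sum_nonneg fun β _ => nsq_nonneg _
  have hεt : Tendsto (fun k : ℕ => ((k : ℝ) + 1)⁻¹) atTop (𝓝 0) :=
    (tendsto_natCast_atTop_atTop.atTop_add (tendsto_const_nhds (x := (1 : ℝ)))).inv_tendsto_atTop
  have hεle : ∀ k : ℕ, (((k : ℝ) + 1) * (1 + n k))⁻¹ ≤ ((k : ℝ) + 1)⁻¹ := by
    intro k
    have h2 := hn k
    refine inv_anti₀ (by positivity) ?_
    nlinarith [Nat.cast_nonneg (α := ℝ) k]
  -- step 1: no mass at the origin
  obtain ⟨ψ₁, hψ₁, hlim1⟩ := ThmC_lim S hL 0 (ThmC_crit0 S) m hm1 hmt φ hφt hφG (fun _ => 1)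
    (fun _ => one_pos) (fun _ => 1)
    (fun k s _ => by
      rw [one_mul, ← hφ1 k]
      exact setIntegral_le_integral (hφt k).norm_sq_int
        (Filter.Eventually.of_forall fun x => by positivity))
    (squeeze_zero (fun k => by rw [one_mul]; exact hE0 k)
      (fun k => by rw [one_mul]; exact (hφE k).le.trans (hεle k)) hεt)
    hQint Ω₀ hΩ₀ hφ0
    (fun x => Real.exp (-(∑ i, ∑ A, aw i * x (i, A) ^ 2) / 2))
    (by fun_prop) (fun x => Real.exp_pos _)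
    (fun u hum hui huP huQ _ => by
      refine hL0 u ?_ huQ
      rw [memLp_two_iff_integrable_sq_norm hum.aestronglyMeasurable]
      have hcov : AECover (volume : Measure X3) atTop
          (fun j : ℕ => Metric.ball (0 : X3) ((j : ℝ) + 1)) :=
        aecover_ball (tendsto_natCast_atTop_atTop.atTop_add tendsto_const_nhds)
      refine hcov.integrable_of_integral_bounded_of_nonneg_ae 1 (fun j => hui _ (by positivity))
        (Filter.Eventually.of_forall fun x => by positivity)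
        (Filter.Eventually.of_forall fun j => huP _ (by positivity)))
  have hev1 : ∀ᶠ k in atTop, (1 : ℝ) * ∫ x in Metric.ball (m (ψ₁ k) • (0 : X3))
      (2 * K / Real.sqrt (m (ψ₁ k))), ‖φ (ψ₁ k) x‖ ^ 2 < 1 / 4 :=
    (hlim1 (2 * K) (by positivity)).eventually_lt_const (by norm_num)
  obtain ⟨N, hN⟩ := eventually_atTop.mp hev1
  set ψ : ℕ → ℕ := fun k => ψ₁ (k + N) with hψdef
  have hψ : StrictMono ψ := fun i j hij => hψ₁ (by omega)
  have hψk : ∀ k, k ≤ ψ k := hψ.id_le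
  have hmass0 : ∀ k, ∫ x in Metric.ball (0 : X3) (2 * K / Real.sqrt (m (ψ k))),
      ‖φ (ψ k) x‖ ^ 2 < 1 / 4 := by
    intro k
    have := hN (k + N) (by omega)
    rw [smul_zero, one_mul] at this
    exact this
  -- step 2: the mass near `m ξ₀`
  set μ : ℕ → ℝ := fun k => ∫ x in Metric.ball (m (ψ k) • S.xi0) (2 * K / Real.sqrt (m (ψ k))),
    ‖φ (ψ k) x‖ ^ 2 with hμdef
  have hrot : ∀ k, ∀ O : Matrix (Fin 3) (Fin 3) ℝ, O.transpose * O = 1 → O.det = 1 →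
      ∀ x, ‖φ k (ro O x)‖ = ‖φ k x‖ := fun k => hGr (φ k) (hφt k) (hφG k)
  have hμn : ∀ k, 1 / 2 ≤ n (ψ k) * μ k := by
    intro k
    have e1 := ThmC_split S (hm0 (ψ k)) hK (hφt (ψ k))
    rw [hφ1] at e1
    have e2 := (hpack (ψ k) (φ (ψ k)) (hφt _) (hrot _)).1
    rw [← mul_div_assoc] at e2
    have e3 := hmass0 k
    have e4 := hAPC (m (ψ k)) (hm1 _) (φ (ψ k)) (hφt _)
    rw [hφ1, mul_one] at e4
    have e5 : ∑ β, nsq (S.Qm (m (ψ k)) β (φ (ψ k))) ≤ m (ψ k) := by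
      have h2 := (hφE (ψ k)).le.trans (hεle (ψ k))
      have h3 : (((ψ k : ℕ) : ℝ) + 1)⁻¹ ≤ 1 := by
        refine inv_le_one_of_one_le₀ ?_
        have : (0 : ℝ) ≤ (ψ k : ℕ) := Nat.cast_nonneg _
        linarith
      exact h2.trans (h3.trans (hm1 _))
    have hmp := hm0 (ψ k)
    have e6 : m (ψ k) * (∫ x, S.dm (m (ψ k)) x ^ 2 * ‖φ (ψ k) x‖ ^ 2) ≤ 2 * C := by
      have h2 : m (ψ k) * (m (ψ k) * (∫ x, S.dm (m (ψ k)) x ^ 2 * ‖φ (ψ k) x‖ ^ 2)) ≤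
          m (ψ k) * (2 * C) := by
        calc m (ψ k) * (m (ψ k) * (∫ x, S.dm (m (ψ k)) x ^ 2 * ‖φ (ψ k) x‖ ^ 2))
            = m (ψ k) ^ 2 * (∫ x, S.dm (m (ψ k)) x ^ 2 * ‖φ (ψ k) x‖ ^ 2) := by ring
          _ ≤ C * (m (ψ k) + ∑ β, nsq (S.Qm (m (ψ k)) β (φ (ψ k)))) := e4
          _ ≤ C * (m (ψ k) + m (ψ k)) := by gcongr
          _ = m (ψ k) * (2 * C) := by ring
      exact le_of_mul_le_mul_left h2 hmp
    have e7 : m (ψ k) / K ^ 2 * (∫ x, S.dm (m (ψ k)) x ^ 2 * ‖φ (ψ k) x‖ ^ 2) ≤ 1 / 4 := by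
      calc m (ψ k) / K ^ 2 * (∫ x, S.dm (m (ψ k)) x ^ 2 * ‖φ (ψ k) x‖ ^ 2)
          = (m (ψ k) * (∫ x, S.dm (m (ψ k)) x ^ 2 * ‖φ (ψ k) x‖ ^ 2)) / K ^ 2 := by ring
        _ ≤ 2 * C / K ^ 2 := by gcongr
        _ ≤ 1 / 4 := hK2
    have e8 : (∫ x, (if Metric.infDist x (S.Orb (m (ψ k))) ≤ K / Real.sqrt (m (ψ k))
        then ‖φ (ψ k) x‖ ^ 2 else 0)) ≤ n (ψ k) * μ k := e2
    linarith
  have hμ0 : ∀ k, 0 < μ k := fun k => by
    have h2 := hμn k
    have h3 := hn (ψ k)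
    by_contra h4
    have h5 : n (ψ k) * μ k ≤ 0 := mul_nonpos_of_nonneg_of_nonpos h3.le (not_lt.mp h4)
    linarith
  have hinv : ∀ k, (μ k)⁻¹ ≤ 2 * n (ψ k) := by
    intro k
    rw [inv_le_iff_one_le_mul₀ (hμ0 k)]
    have := hμn k
    linarith
  obtain ⟨ψ₂, hψ₂, hlim2⟩ := ThmC_lim S hL S.xi0 hc (fun k => m (ψ k)) (fun k => hm1 _)
    (hmt.comp hψ.tendsto_atTop) (fun k => φ (ψ k)) (fun k => hφt _) (fun k => hφG _)
    (fun k => (μ k)⁻¹) (fun k => inv_pos.mpr (hμ0 k))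
    (fun s => 2 * (3 * max s K / K) ^ 27)
    (fun k s _ => by
      have h2 : ∫ x in Metric.ball (m (ψ k) • S.xi0) (s / Real.sqrt (m (ψ k))),
          ‖φ (ψ k) x‖ ^ 2 ≤
          ∫ x in Metric.ball (m (ψ k) • S.xi0) (max s K / Real.sqrt (m (ψ k))),
          ‖φ (ψ k) x‖ ^ 2 := by
        refine setIntegral_mono_set (hφt _).norm_sq_int.integrableOn
          (Filter.Eventually.of_forall fun x => by positivity) ?_
        refine (Metric.ball_subset_ball ?_).eventuallyLE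
        exact div_le_div_of_nonneg_right (le_max_left _ _) (hs0 _).le
      have h3 := (hpack (ψ k) (φ (ψ k)) (hφt _) (hrot _)).2
        (max s K / Real.sqrt (m (ψ k)))
        (div_le_div_of_nonneg_right (le_max_right _ _) (hs0 _).le)
      rw [hφ1, mul_one] at h3
      have h4 : 3 * (max s K / Real.sqrt (m (ψ k))) / (K / Real.sqrt (m (ψ k))) =
          3 * max s K / K := by
        have := (hs0 (ψ k)).ne'
        field_simp
      rw [h4] at h3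
      have hI0 : 0 ≤ ∫ x in Metric.ball (m (ψ k) • S.xi0) (max s K / Real.sqrt (m (ψ k))),
          ‖φ (ψ k) x‖ ^ 2 := integral_nonneg fun x => by positivity
      calc (μ k)⁻¹ * ∫ x in Metric.ball (m (ψ k) • S.xi0) (s / Real.sqrt (m (ψ k))),
            ‖φ (ψ k) x‖ ^ 2
          ≤ (μ k)⁻¹ * ∫ x in Metric.ball (m (ψ k) • S.xi0) (max s K / Real.sqrt (m (ψ k))),
            ‖φ (ψ k) x‖ ^ 2 := mul_le_mul_of_nonneg_left h2 (inv_pos.mpr (hμ0 k)).le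
        _ ≤ (2 * n (ψ k)) * ∫ x in Metric.ball (m (ψ k) • S.xi0)
            (max s K / Real.sqrt (m (ψ k))), ‖φ (ψ k) x‖ ^ 2 :=
          mul_le_mul_of_nonneg_right (hinv k) hI0
        _ = 2 * (n (ψ k) * ∫ x in Metric.ball (m (ψ k) • S.xi0)
            (max s K / Real.sqrt (m (ψ k))), ‖φ (ψ k) x‖ ^ 2) := by ring
        _ ≤ 2 * (3 * max s K / K) ^ 27 := by linarith)
    (by
      refine squeeze_zero (fun k => mul_nonneg (inv_pos.mpr (hμ0 k)).le (hE0 _)) (fun k => ?_)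
        (g := fun k : ℕ => 2 * ((k : ℝ) + 1)⁻¹) (by simpa using hεt.const_mul 2)
      have h2 := hn (ψ k)
      have h3 : (0 : ℝ) ≤ (ψ k : ℕ) := Nat.cast_nonneg _
      have h4 : (k : ℝ) ≤ (ψ k : ℕ) := Nat.cast_le.mpr (hψk k)
      have h6 : (0 : ℝ) ≤ k := Nat.cast_nonneg k
      calc (μ k)⁻¹ * ∑ β, nsq (S.Qm (m (ψ k)) β (φ (ψ k)))
          ≤ (2 * n (ψ k)) * ((((ψ k : ℕ) : ℝ) + 1) * (1 + n (ψ k)))⁻¹ :=
            mul_le_mul (hinv k) (hφE _).le (hE0 _) (by positivity)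
        _ = 2 * (n (ψ k) / (1 + n (ψ k))) * (((ψ k : ℕ) : ℝ) + 1)⁻¹ := by
            rw [mul_inv]
            ring
        _ ≤ 2 * 1 * (((ψ k : ℕ) : ℝ) + 1)⁻¹ := by
            have h5 : n (ψ k) / (1 + n (ψ k)) ≤ 1 := by
              rw [div_le_one (by positivity)]
              linarith
            gcongr
        _ ≤ 2 * ((k : ℝ) + 1)⁻¹ := by
            rw [mul_one]
            have h5 : (((ψ k : ℕ) : ℝ) + 1)⁻¹ ≤ ((k : ℝ) + 1)⁻¹ :=
              inv_anti₀ (by positivity) (by linarith)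
            linarith)
    (fun k => hQint _) Ω₁ hΩ₁ (fun k => hφx _)
    (fun x => Real.exp (-(∑ i, ∑ A, x (i, A) * A1 x i A) / 2))
    (by
      refine Real.continuous_exp.comp (Continuous.div_const (Continuous.neg ?_) _)
      refine continuous_finsetSum _ fun i _ => continuous_finsetSum _ fun A _ => ?_
      refine Continuous.mul (by fun_prop) ?_
      unfold A1
      by_cases hi : i.val < 3
      · simp only [hi, dite_true]
        by_cases hA : i = ci A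
        · simp only [hA, if_true]
          fun_prop
        · simp only [hA, if_false]
          fun_prop
      · simp only [hi, dite_false]
        fun_prop)
    (fun x => Real.exp_pos _)
    (fun u hum hui huP huQ huG => by
      refine hL1 u hum hui ⟨2 * (3 * max 1 K / K) ^ 27, 27, fun s hs => ?_⟩ huQ huG
      refine (huP s (by linarith)).trans ?_
      rw [mul_assoc, ← mul_pow]
      have h2 : 3 * max s K / K ≤ 3 * max 1 K / K * s := by
        rw [div_mul_eq_mul_div]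
        refine div_le_div_of_nonneg_right ?_ hK.le
        have h3 : max s K ≤ max 1 K * s := by
          refine max_le ?_ ?_
          · have := le_max_left 1 K
            nlinarith
          · have := le_max_right 1 K
            nlinarith
        linarith
      have h4 : 0 ≤ 3 * max s K / K := by
        have := le_max_right s K
        positivity
      have h5 := pow_le_pow_left₀ h4 h2 27
      linarith)
  have hone : ∀ k, (μ (ψ₂ k))⁻¹ * ∫ x in Metric.ball (m (ψ (ψ₂ k)) • S.xi0)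
      (2 * K / Real.sqrt (m (ψ (ψ₂ k)))), ‖φ (ψ (ψ₂ k)) x‖ ^ 2 = 1 := by
    intro k
    exact inv_mul_cancel₀ (hμ0 (ψ₂ k)).ne'
  have hlast := hlim2 (2 * K) (by positivity)
  simp only [hone] at hlast
  exact one_ne_zero (tendsto_nhds_unique tendsto_const_nhds hlast)

end Vale.Agent.P353.U
end

section

/-! # Second moments of mollified functions -/

open MeasureTheory Filter Topology
open scoped ContDiff

namespace Vale.Agent.P353.Moll

variable {F : Type*} [NormedAddCommGroup F] [InnerProductSpace ℂ F] {ε : ℝ} {ρ : X3 → ℝ}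

/-- `(1 + ‖x‖) Ψ` is in `L²` -/
lemma memLp_one_add {Ψ : X3 → F} (hΨ : MemLp Ψ 2 (volume : Measure X3))
    (hm : Integrable (fun x => ‖x‖ ^ 2 * ‖Ψ x‖ ^ 2)) :
    MemLp (fun x => ((1 + ‖x‖ : ℝ) : ℂ) • Ψ x) 2 (volume : Measure X3) ∧
      nsq (fun x => ((1 + ‖x‖ : ℝ) : ℂ) • Ψ x) ≤
        2 * nsq Ψ + 2 * ∫ x, ‖x‖ ^ 2 * ‖Ψ x‖ ^ 2 := by
  have hc : Continuous (fun x : X3 => ((1 + ‖x‖ : ℝ) : ℂ)) :=
    Complex.continuous_ofReal.comp (continuous_const.add continuous_norm)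
  have i1 := memLp_norm_sq_int hΨ
  have hi : Integrable (fun x => 2 * ‖Ψ x‖ ^ 2 + 2 * (‖x‖ ^ 2 * ‖Ψ x‖ ^ 2)) :=
    (i1.const_mul 2).add (hm.const_mul 2)
  have hb : ∀ x, ‖((1 + ‖x‖ : ℝ) : ℂ) • Ψ x‖ ^ 2 ≤
      2 * ‖Ψ x‖ ^ 2 + 2 * (‖x‖ ^ 2 * ‖Ψ x‖ ^ 2) := by
    intro x
    have h0 := norm_nonneg x
    rw [norm_smul, Complex.norm_real, Real.norm_of_nonneg (by positivity), mul_pow]
    have h1 : (1 + ‖x‖) ^ 2 ≤ 2 + 2 * ‖x‖ ^ 2 := by nlinarith [sq_nonneg (1 - ‖x‖)]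
    nlinarith [sq_nonneg ‖Ψ x‖]
  have hms : AEStronglyMeasurable (fun x => ((1 + ‖x‖ : ℝ) : ℂ) • Ψ x) (volume : Measure X3) :=
    hc.aestronglyMeasurable.smul hΨ.1
  refine ⟨(memLp_two_iff_integrable_sq_norm hms).mpr (hi.mono' (hms.norm.pow 2)
    (Eventually.of_forall fun x => ?_)), ?_⟩
  · rw [Real.norm_of_nonneg (by positivity)]
    exact hb x
  · have h2 : 2 * nsq Ψ + 2 * ∫ x, ‖x‖ ^ 2 * ‖Ψ x‖ ^ 2 =
        ∫ x, (2 * ‖Ψ x‖ ^ 2 + 2 * (‖x‖ ^ 2 * ‖Ψ x‖ ^ 2)) := by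
      rw [integral_add (i1.const_mul 2) (hm.const_mul 2), integral_const_mul,
        integral_const_mul, nsq]
    rw [h2, nsq]
    exact integral_mono_of_nonneg (Eventually.of_forall fun x => by positivity) hi
      (Eventually.of_forall hb)

/-- second moment of the mollification -/
lemma moment_mo (h : IsMol ε ρ) (hε : ε ≤ 1) {Ψ : X3 → F}
    (hΨ : MemLp Ψ 2 (volume : Measure X3)) (hm : Integrable (fun x => ‖x‖ ^ 2 * ‖Ψ x‖ ^ 2)) :
    Integrable (fun x => ‖x‖ ^ 2 * ‖mo ρ Ψ x‖ ^ 2) ∧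
      ∫ x, ‖x‖ ^ 2 * ‖mo ρ Ψ x‖ ^ 2 ≤ 2 * nsq Ψ + 2 * ∫ x, ‖x‖ ^ 2 * ‖Ψ x‖ ^ 2 := by
  obtain ⟨m1, m2⟩ := memLp_one_add hΨ hm
  have hcm : Continuous (mo ρ Ψ) := (contDiff_mo h.contDiff h.hcs (locInt hΨ)).continuous
  have hw : ∀ x, ‖((‖x‖ : ℝ) : ℂ) • mo ρ Ψ x‖ ≤
      1 * mo ρ (fun y => ‖((1 + ‖y‖ : ℝ) : ℂ) • Ψ y‖) x := by
    intro x
    rw [one_mul, norm_smul, Complex.norm_real, norm_norm]
    have h1 := norm_mo_le h Ψ x
    refine (mul_le_mul_of_nonneg_left h1 (norm_nonneg x)).trans ?_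
    unfold mo
    rw [← integral_const_mul]
    refine integral_mono_of_nonneg (Eventually.of_forall fun y => ?_)
      (integrable_mo h.contDiff.continuous h.hcs (fun z => (locInt m1 z).norm) x)
      (Eventually.of_forall fun y => ?_)
    · simp only [smul_eq_mul]
      exact mul_nonneg (norm_nonneg _) (mul_nonneg (h.nonneg _) (norm_nonneg _))
    · simp only [smul_eq_mul]
      rw [norm_smul, Complex.norm_real, Real.norm_of_nonneg (by positivity)]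
      rcases le_or_gt ε ‖x - y‖ with hxy | hxy
      · rw [h.supp _ hxy]
        simp
      · have h3 : ‖x‖ ≤ 1 + ‖y‖ := by
          have := norm_sub_norm_le x y
          linarith
        have h4 : 0 ≤ ρ (x - y) * ‖Ψ y‖ := mul_nonneg (h.nonneg _) (norm_nonneg _)
        nlinarith
  have hms : AEStronglyMeasurable (fun x => ((‖x‖ : ℝ) : ℂ) • mo ρ Ψ x) (volume : Measure X3) :=
    ((Complex.continuous_ofReal.comp continuous_norm).smul hcm).aestronglyMeasurable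
  obtain ⟨n1, n2⟩ := nsq_le_mo h m1 hms hw
  have e : (fun x => ‖((‖x‖ : ℝ) : ℂ) • mo ρ Ψ x‖ ^ 2) = fun x => ‖x‖ ^ 2 * ‖mo ρ Ψ x‖ ^ 2 := by
    funext x
    rw [norm_smul, Complex.norm_real, norm_norm, mul_pow]
  have n3 := memLp_norm_sq_int n1
  rw [e] at n3
  refine ⟨n3, ?_⟩
  have n4 : nsq (fun x => ((‖x‖ : ℝ) : ℂ) • mo ρ Ψ x) = ∫ x, ‖x‖ ^ 2 * ‖mo ρ Ψ x‖ ^ 2 := by
    rw [nsq, e]
  rw [n4] at n2
  linarith

end Vale.Agent.P353.Moll
end

section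

/-! # P353, D-Out, part A: integrals over shells near the cone -/

set_option linter.all false

open MeasureTheory Filter Topology
open scoped ContDiff

namespace Vale.Agent.P353.U

variable {F : Type*} [NormedAddCommGroup F] [InnerProductSpace ℂ F]

lemma out_finrank : Module.finrank ℝ X3 = 27 := by
  rw [finrank_euclideanSpace, Fintype.card_prod, Fintype.card_fin, Fintype.card_fin]

lemma out_scale (f : X3 → ℝ) {r : ℝ} (hr : 0 < r) :
    ∫ x, f x = r ^ 27 * ∫ y : X3, f (r • y) := by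
  rw [Measure.integral_comp_smul, out_finrank, abs_of_pos (by positivity), smul_eq_mul,
    ← mul_assoc, mul_inv_cancel₀ (by positivity), one_mul]

lemma out_rho6_smul (t : ℝ) (x : X3) : rho6sq (t • x) = t ^ 2 * rho6sq x := by
  unfold rho6sq
  rw [Finset.mul_sum]
  refine Finset.sum_congr rfl fun i _ => ?_
  rw [Finset.mul_sum]
  refine Finset.sum_congr rfl fun A _ => ?_
  split_ifs
  · simp only [PiLp.smul_apply, smul_eq_mul]; ring
  · simp

lemma out_rho6_cont : Continuous rho6sq := by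
  unfold rho6sq
  refine continuous_finset_sum _ fun i _ => continuous_finset_sum _ fun A _ => ?_
  split_ifs
  · fun_prop
  · exact continuous_const

lemma out_rho6_le (x : X3) : rho6sq x ≤ ‖x‖ ^ 2 := by
  rw [EuclideanSpace.norm_sq_eq, Fintype.sum_prod_type]
  unfold rho6sq
  refine Finset.sum_le_sum fun i _ => Finset.sum_le_sum fun A _ => ?_
  split_ifs
  · simp
  · positivity

lemma out_V_cont (S : Setup F) : Continuous S.V := (contDiff_V S).continuous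

/-- integrability of bounded functions on shells -/
lemma out_ind_int {a b : ℝ} {P : Set X3} (hP : MeasurableSet P) {g : X3 → ℝ} (hg : Measurable g)
    {M : ℝ} (hM : ∀ x, |g x| ≤ M) :
    Integrable (Set.indicator ({x : X3 | a ≤ ‖x‖ ∧ ‖x‖ ≤ b} ∩ P) g) := by
  have hset : MeasurableSet ({x : X3 | a ≤ ‖x‖ ∧ ‖x‖ ≤ b} ∩ P) :=
    ((measurableSet_le measurable_const measurable_norm).inter
      (measurableSet_le measurable_norm measurable_const)).inter hP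
  rw [integrable_indicator_iff hset]
  have hfin : volume ({x : X3 | a ≤ ‖x‖ ∧ ‖x‖ ≤ b} ∩ P) ≠ ⊤ := by
    refine ne_top_of_le_ne_top (measure_closedBall_lt_top (x := (0 : X3)) (r := b)).ne
      (measure_mono fun x hx => ?_)
    rw [Metric.mem_closedBall, dist_zero_right]
    exact hx.1.2
  exact Measure.integrableOn_of_bounded (M := M) hfin hg.aestronglyMeasurable
    (Eventually.of_forall fun x => hM x)

/-- `1_{a ≤ ρ ≤ b, P} e^{-kV/ρ}` -/
noncomputable def shl (S : Setup F) (k a b : ℝ) (P : Set X3) : X3 → ℝ :=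
  Set.indicator ({x : X3 | a ≤ ‖x‖ ∧ ‖x‖ ≤ b} ∩ P) (fun x => Real.exp (-(k * S.V x / ‖x‖)))

lemma shl_nonneg (S : Setup F) (k a b : ℝ) (P : Set X3) (x : X3) : 0 ≤ shl S k a b P x :=
  Set.indicator_nonneg (fun _ _ => (Real.exp_pos _).le) _

lemma shl_int (S : Setup F) {k a b : ℝ} (hk : 0 ≤ k) {P : Set X3} (hP : MeasurableSet P) :
    Integrable (shl S k a b P) := by
  refine out_ind_int hP (M := 1) ?_ fun x => ?_
  · exact (((measurable_const.mul (out_V_cont S).measurable).div measurable_norm).neg).exp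
  · rw [abs_of_pos (Real.exp_pos _), Real.exp_le_one_iff, neg_nonpos]
    exact div_nonneg (mul_nonneg hk (S.V_nonneg x)) (norm_nonneg _)

lemma shl_of_mem (S : Setup F) (k a b : ℝ) (P : Set X3) {x : X3} (h1 : a ≤ ‖x‖) (h2 : ‖x‖ ≤ b)
    (h3 : x ∈ P) : shl S k a b P x = Real.exp (-(k * S.V x / ‖x‖)) := by
  have h : x ∈ ({x : X3 | a ≤ ‖x‖ ∧ ‖x‖ ≤ b} ∩ P) := ⟨⟨h1, h2⟩, h3⟩
  exact Set.indicator_of_mem h _

/-- hypothesis on the unit shell -/
def UShell (S : Setup F) (k D : ℝ) (P : Set X3) : Prop :=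
  ∀ t : ℝ, 1 ≤ t → ∫ x : X3, Set.indicator ({x : X3 | 1 ≤ ‖x‖ ∧ ‖x‖ ≤ 2} ∩ P)
      (fun x => Real.exp (-(k * t * S.V x))) x ≤ D * t ^ (-8 : ℝ)

lemma out_rpow {r : ℝ} (hr : 0 < r) : (r ^ 3) ^ (-8 : ℝ) = (r ^ 24)⁻¹ := by
  rw [Real.rpow_neg (by positivity), show (8 : ℝ) = ((8 : ℕ) : ℝ) by norm_num,
    Real.rpow_natCast, ← pow_mul]

lemma shl_shell (S : Setup F) {k D : ℝ} (hk : 0 < k) {P : Set X3} (hP : MeasurableSet P)
    (hPs : ∀ t : ℝ, 0 < t → ∀ x, t • x ∈ P ↔ x ∈ P) (hD : UShell S k D P) {r : ℝ} (hr : 1 ≤ r) :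
    ∫ x, shl S (2 * k) r (2 * r) P x ≤ D * r ^ 3 := by
  have hr0 : 0 < r := by linarith
  rw [out_scale _ hr0]
  have h1 : ∫ y : X3, shl S (2 * k) r (2 * r) P (r • y) ≤ D * (r ^ 3) ^ (-8 : ℝ) := by
    refine le_trans ?_ (hD (r ^ 3) (one_le_pow₀ hr))
    refine integral_mono_of_nonneg (Eventually.of_forall fun y => shl_nonneg _ _ _ _ _ _)
      ?_ (Eventually.of_forall fun y => ?_)
    · refine out_ind_int hP (M := 1) ?_ fun x => ?_
      · exact ((measurable_const.mul (out_V_cont S).measurable).neg).exp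
      · rw [abs_of_pos (Real.exp_pos _), Real.exp_le_one_iff, neg_nonpos]
        have := S.V_nonneg x
        positivity
    · show shl S (2 * k) r (2 * r) P (r • y) ≤ _
      by_cases hy : (1 ≤ ‖y‖ ∧ ‖y‖ ≤ 2) ∧ y ∈ P
      · have hn : ‖r • y‖ = r * ‖y‖ := by rw [norm_smul, Real.norm_of_nonneg hr0.le]
        have hmem : y ∈ ({x : X3 | 1 ≤ ‖x‖ ∧ ‖x‖ ≤ 2} ∩ P) := ⟨hy.1, hy.2⟩
        rw [shl_of_mem S _ _ _ _ (by rw [hn]; nlinarith [hy.1.1]) (by rw [hn]; nlinarith [hy.1.2])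
          ((hPs r hr0 y).2 hy.2), Set.indicator_of_mem hmem]
        rw [Real.exp_le_exp, neg_le_neg_iff, hn, S.V_smul]
        have hV := S.V_nonneg y
        have hy0 : 0 < ‖y‖ := by linarith [hy.1.1]
        rw [le_div_iff₀ (by positivity)]
        have : k * r ^ 3 * S.V y * (r * ‖y‖) = k * r ^ 4 * S.V y * ‖y‖ := by ring
        rw [this]
        have h2 : k * r ^ 4 * S.V y * ‖y‖ ≤ k * r ^ 4 * S.V y * 2 := by
          have : 0 ≤ k * r ^ 4 * S.V y := by positivity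
          exact mul_le_mul_of_nonneg_left hy.1.2 this
        linarith
      · have hz : shl S (2 * k) r (2 * r) P (r • y) = 0 := by
          refine Set.indicator_of_notMem (fun hm => hy ?_) _
          have hn : ‖r • y‖ = r * ‖y‖ := by rw [norm_smul, Real.norm_of_nonneg hr0.le]
          obtain ⟨⟨h1, h2⟩, h3⟩ := hm
          refine ⟨⟨?_, ?_⟩, (hPs r hr0 y).1 h3⟩
          · rw [hn] at h1; nlinarith
          · rw [hn] at h2; nlinarith
        rw [hz]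
        exact Set.indicator_nonneg (fun _ _ => (Real.exp_pos _).le) _
  calc r ^ 27 * ∫ y : X3, shl S (2 * k) r (2 * r) P (r • y)
      ≤ r ^ 27 * (D * (r ^ 3) ^ (-8 : ℝ)) := by gcongr
    _ = D * r ^ 3 := by
      rw [out_rpow hr0]
      field_simp

lemma ushell_nonneg {S : Setup F} {k D : ℝ} {P : Set X3} (hD : UShell S k D P) : 0 ≤ D := by
  have h := hD 1 le_rfl
  rw [Real.one_rpow, mul_one (a := D)] at h
  exact le_trans (integral_nonneg fun x => Set.indicator_nonneg (fun _ _ => (Real.exp_pos _).le) _) h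

lemma shl_multi (S : Setup F) {k D : ℝ} (hk : 0 < k) {P : Set X3} (hP : MeasurableSet P)
    (hPs : ∀ t : ℝ, 0 < t → ∀ x, t • x ∈ P ↔ x ∈ P) (hD : UShell S k D P) {a : ℝ} (ha : 1 ≤ a)
    (J : ℕ) : ∫ x, shl S (2 * k) a (2 ^ (J + 1) * a) P x ≤ D * (J + 1) * (2 ^ J * a) ^ 3 := by
  have hD0 := ushell_nonneg hD
  induction J with
  | zero =>
    have := shl_shell S hk hP hPs hD ha
    simpa using this
  | succ J ih =>
    have hq : 1 ≤ 2 ^ (J + 1) * a := by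
      have : (1 : ℝ) ≤ 2 ^ (J + 1) := one_le_pow₀ (by norm_num)
      nlinarith
    have h1 := shl_shell S hk hP hPs hD hq
    have hle : ∀ x, shl S (2 * k) a (2 ^ (J + 1 + 1) * a) P x ≤
        shl S (2 * k) a (2 ^ (J + 1) * a) P x +
        shl S (2 * k) (2 ^ (J + 1) * a) (2 * (2 ^ (J + 1) * a)) P x := by
      intro x
      by_cases hx : x ∈ ({x : X3 | a ≤ ‖x‖ ∧ ‖x‖ ≤ 2 ^ (J + 1 + 1) * a} ∩ P)
      · obtain ⟨⟨g1, g2⟩, g3⟩ := hx
        rw [shl_of_mem S _ _ _ _ g1 g2 g3]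
        rcases le_total ‖x‖ (2 ^ (J + 1) * a) with h | h
        · rw [shl_of_mem S _ _ _ _ g1 h g3]
          linarith [shl_nonneg S (2 * k) (2 ^ (J + 1) * a) (2 * (2 ^ (J + 1) * a)) P x]
        · rw [shl_of_mem S _ (2 ^ (J + 1) * a) (2 * (2 ^ (J + 1) * a)) _ h
            (by refine g2.trans (le_of_eq ?_); ring) g3]
          linarith [shl_nonneg S (2 * k) a (2 ^ (J + 1) * a) P x]
      · have : shl S (2 * k) a (2 ^ (J + 1 + 1) * a) P x = 0 := Set.indicator_of_notMem hx _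
        rw [this]
        exact add_nonneg (shl_nonneg _ _ _ _ _ _) (shl_nonneg _ _ _ _ _ _)
    calc ∫ x, shl S (2 * k) a (2 ^ (J + 1 + 1) * a) P x
        ≤ ∫ x, (shl S (2 * k) a (2 ^ (J + 1) * a) P x +
          shl S (2 * k) (2 ^ (J + 1) * a) (2 * (2 ^ (J + 1) * a)) P x) :=
          integral_mono (shl_int S (by positivity) hP)
            ((shl_int S (by positivity) hP).add (shl_int S (by positivity) hP)) hle
      _ = (∫ x, shl S (2 * k) a (2 ^ (J + 1) * a) P x) +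
          ∫ x, shl S (2 * k) (2 ^ (J + 1) * a) (2 * (2 ^ (J + 1) * a)) P x :=
          integral_add (shl_int S (by positivity) hP) (shl_int S (by positivity) hP)
      _ ≤ D * (J + 1) * (2 ^ J * a) ^ 3 + D * (2 ^ (J + 1) * a) ^ 3 := add_le_add ih h1
      _ ≤ D * (((J + 1 : ℕ) : ℝ) + 1) * (2 ^ (J + 1) * a) ^ 3 := by
        have h2 : (2 ^ J * a) ^ 3 ≤ (2 ^ (J + 1) * a) ^ 3 := by
          have : (2 : ℝ) ^ J ≤ 2 ^ (J + 1) := pow_le_pow_right₀ (by norm_num) (by omega)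
          gcongr
        have h3 : D * (J + 1) * (2 ^ J * a) ^ 3 ≤ D * (J + 1) * (2 ^ (J + 1) * a) ^ 3 := by
          gcongr
        push_cast
        linarith

/-- the integral estimates in the form used below -/
lemma out_ints (S : Setup F) (hI : IntStmt S) {k : ℝ} (hk : 0 < k) : ∃ D : ℝ, 0 < D ∧
    UShell S k D Set.univ ∧
    (∀ δ : ℝ, 0 < δ → δ ≤ 1 / 10 → UShell S k (D * δ ^ 6) {x | rho6sq x ≤ δ ^ 2 * ‖x‖ ^ 2}) ∧
    ∀ r : ℝ, 1 ≤ r → r ^ 3 ≤ D * ∫ x : X3, Set.indicator ({x : X3 | r ≤ ‖x‖ ∧ ‖x‖ ≤ 2 * r} ∩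
      {x | ‖x‖ ^ 2 / 4 ≤ rho6sq x ∧ S.V x ≤ r}) (fun _ => (1 : ℝ)) x := by
  obtain ⟨C, hC, h1, h2, h3⟩ := hI k hk
  refine ⟨C, hC, fun t ht => ?_, fun δ hδ hδ' t ht => ?_, fun r hr => ?_⟩
  · refine le_trans (le_of_eq ?_) (h1 t ht)
    congr 1
    funext x
    by_cases hx : 1 ≤ ‖x‖ ∧ ‖x‖ ≤ 2
    · rw [if_pos hx, Set.indicator_of_mem]
      exact ⟨hx, Set.mem_univ _⟩
    · rw [if_neg hx, Set.indicator_of_notMem]
      exact fun h => hx h.1
  · refine le_trans (le_of_eq ?_) (h2 t δ ht hδ hδ')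
    congr 1
    funext x
    by_cases hx : 1 ≤ ‖x‖ ∧ ‖x‖ ≤ 2 ∧ rho6sq x ≤ δ ^ 2 * ‖x‖ ^ 2
    · rw [if_pos hx, Set.indicator_of_mem]
      exact ⟨⟨hx.1, hx.2.1⟩, hx.2.2⟩
    · rw [if_neg hx, Set.indicator_of_notMem]
      exact fun h => hx ⟨h.1.1, h.1.2, h.2⟩
  · have hr0 : 0 < r := by linarith
    have h4 := h3 (r ^ 3) (one_le_pow₀ hr)
    rw [out_rpow hr0] at h4
    rw [out_scale _ hr0]
    have h5 : ∀ y : X3, Set.indicator ({x : X3 | r ≤ ‖x‖ ∧ ‖x‖ ≤ 2 * r} ∩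
        {x | ‖x‖ ^ 2 / 4 ≤ rho6sq x ∧ S.V x ≤ r}) (fun _ => (1 : ℝ)) (r • y) =
        if 1 ≤ ‖y‖ ∧ ‖y‖ ≤ 2 ∧ ‖y‖ ^ 2 / 4 ≤ rho6sq y ∧ S.V y ≤ 1 / r ^ 3 then 1 else 0 := by
      intro y
      have hn : ‖r • y‖ = r * ‖y‖ := by rw [norm_smul, Real.norm_of_nonneg hr0.le]
      have e1 : r ≤ ‖r • y‖ ↔ 1 ≤ ‖y‖ := by
        rw [hn]
        constructor
        · intro h; nlinarith
        · intro h; nlinarith
      have e2 : ‖r • y‖ ≤ 2 * r ↔ ‖y‖ ≤ 2 := by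
        rw [hn]
        constructor
        · intro h; nlinarith
        · intro h; nlinarith
      have e3 : ‖r • y‖ ^ 2 / 4 ≤ rho6sq (r • y) ↔ ‖y‖ ^ 2 / 4 ≤ rho6sq y := by
        rw [hn, out_rho6_smul]
        have hp : 0 < r ^ 2 := by positivity
        constructor
        · intro h
          have : r ^ 2 * (‖y‖ ^ 2 / 4) ≤ r ^ 2 * rho6sq y := by
            refine le_trans (le_of_eq ?_) h; ring
          exact le_of_mul_le_mul_left this hp
        · intro h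
          refine le_trans (le_of_eq ?_) (mul_le_mul_of_nonneg_left h hp.le)
          ring
      have e4 : S.V (r • y) ≤ r ↔ S.V y ≤ 1 / r ^ 3 := by
        rw [S.V_smul, le_div_iff₀ (by positivity)]
        constructor
        · intro h
          have h' : r * (S.V y * r ^ 3) ≤ r * 1 := by
            refine le_trans (le_of_eq ?_) (h.trans (le_of_eq (mul_one r).symm)); ring
          exact le_of_mul_le_mul_left h' hr0
        · intro h
          have := mul_le_mul_of_nonneg_left h hr0.le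
          refine le_trans (le_of_eq ?_) (this.trans (le_of_eq (mul_one r))); ring
      by_cases hy : 1 ≤ ‖y‖ ∧ ‖y‖ ≤ 2 ∧ ‖y‖ ^ 2 / 4 ≤ rho6sq y ∧ S.V y ≤ 1 / r ^ 3
      · rw [if_pos hy, Set.indicator_of_mem]
        exact ⟨⟨e1.2 hy.1, e2.2 hy.2.1⟩, ⟨e3.2 hy.2.2.1, e4.2 hy.2.2.2⟩⟩
      · rw [if_neg hy, Set.indicator_of_notMem]
        exact fun h => hy ⟨e1.1 h.1.1, e2.1 h.1.2, e3.1 h.2.1, e4.1 h.2.2⟩
    simp only [h5]
    have h6 : r ^ 3 = r ^ 27 * (r ^ 24)⁻¹ := by field_simp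
    have h7 := mul_le_mul_of_nonneg_left h4 (show 0 ≤ r ^ 27 by positivity)
    rw [← h6] at h7
    refine h7.trans (le_of_eq ?_)
    exact mul_left_comm _ _ _

end Vale.Agent.P353.U
end

section

/-! # P353, D-Out, part B: cutoff functions and their invariance -/

set_option linter.all false

open MeasureTheory Filter Topology
open scoped ContDiff

namespace Vale.Agent.P353.U

variable {F : Type*} [NormedAddCommGroup F] [InnerProductSpace ℂ F]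

/-- infinitesimal rotation in the flavour indices `k,l` -/
noncomputable def jj (k l : Fin 9) (x : X3) : X3 :=
  WithLp.toLp 2 fun p => (if p.1 = l then x (k, p.2) else 0) - (if p.1 = k then x (l, p.2) else 0)

lemma fderiv_jj (k l : Fin 9) (u : X3 → F) (y : X3) :
    fderiv ℝ u y (jj k l y) =
      ∑ A, ((y (k, A) : ℂ) • pd l A u y - (y (l, A) : ℂ) • pd k A u y) := by
  have hx : jj k l y = ∑ A, (y (k, A) • (EuclideanSpace.single (l, A) (1 : ℝ) : X3) -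
      y (l, A) • (EuclideanSpace.single (k, A) (1 : ℝ) : X3)) := by
    ext ⟨i, B⟩
    simp only [jj, WithLp.ofLp_sum, WithLp.ofLp_smul, WithLp.ofLp_sub, Finset.sum_apply,
      Pi.smul_apply, Pi.sub_apply, PiLp.single_apply, smul_eq_mul, mul_ite, mul_one, mul_zero,
      Prod.mk.injEq, Finset.sum_sub_distrib]
    congr 1
    · by_cases h : i = l
      · simp [h]
      · simp [h]
    · by_cases h : i = k
      · simp [h]
      · simp [h]
  rw [hx, map_sum]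
  refine Finset.sum_congr rfl fun A _ => ?_
  rw [map_sub, map_smul, map_smul]
  unfold pd
  rfl

/-- directions of the infinitesimal symmetries -/
def IsDir (x ξ : X3) : Prop := (∃ C, ξ = kk C x) ∨ ∃ k l, Same k l ∧ ξ = jj k l x

/-- differentiable and infinitesimally invariant at `x` -/
def HI (f : X3 → ℝ) (x : X3) : Prop :=
  DifferentiableAt ℝ f x ∧ ∀ ξ, IsDir x ξ → fderiv ℝ f x ξ = 0

lemma HI.const (c : ℝ) (x : X3) : HI (fun _ => c) x :=
  ⟨differentiableAt_const _, fun ξ _ => by simp⟩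

lemma HI.add {f g : X3 → ℝ} {x : X3} (hf : HI f x) (hg : HI g x) : HI (fun y => f y + g y) x :=
  ⟨hf.1.add hg.1, fun ξ h => by
    rw [fderiv_fun_add hf.1 hg.1]
    show fderiv ℝ f x ξ + fderiv ℝ g x ξ = 0
    rw [hf.2 ξ h, hg.2 ξ h, add_zero]⟩

lemma HI.sub {f g : X3 → ℝ} {x : X3} (hf : HI f x) (hg : HI g x) : HI (fun y => f y - g y) x :=
  ⟨hf.1.sub hg.1, fun ξ h => by
    rw [fderiv_fun_sub hf.1 hg.1]
    show fderiv ℝ f x ξ - fderiv ℝ g x ξ = 0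
    rw [hf.2 ξ h, hg.2 ξ h, sub_zero]⟩

lemma HI.mul {f g : X3 → ℝ} {x : X3} (hf : HI f x) (hg : HI g x) : HI (fun y => f y * g y) x :=
  ⟨hf.1.mul hg.1, fun ξ h => by
    rw [fderiv_fun_mul hf.1 hg.1]
    show f x * fderiv ℝ g x ξ + g x * fderiv ℝ f x ξ = 0
    rw [hf.2 ξ h, hg.2 ξ h, mul_zero, mul_zero, add_zero]⟩

lemma HI.comp {f : X3 → ℝ} {x : X3} (hf : HI f x) {φ : ℝ → ℝ} (hφ : DifferentiableAt ℝ φ (f x)) :
    HI (fun y => φ (f y)) x := by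
  refine ⟨DifferentiableAt.comp x hφ hf.1, fun ξ h => ?_⟩
  have h1 : HasFDerivAt (fun y => φ (f y)) (deriv φ (f x) • fderiv ℝ f x) x :=
    hφ.hasDerivAt.comp_hasFDerivAt x hf.1.hasFDerivAt
  rw [h1.fderiv]
  show deriv φ (f x) * fderiv ℝ f x ξ = 0
  rw [hf.2 ξ h, mul_zero]

lemma HI.congr {f g : X3 → ℝ} {x : X3} (hf : HI f x) (h : g =ᶠ[𝓝 x] f) : HI g x :=
  ⟨hf.1.congr_of_eventuallyEq h, fun ξ hξ => by rw [h.fderiv_eq, hf.2 ξ hξ]⟩

lemma HI.div {f g : X3 → ℝ} {x : X3} (hf : HI f x) (hg : HI g x) (h0 : g x ≠ 0) :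
    HI (fun y => f y / g y) x := by
  have h1 : HI (fun y => (g y)⁻¹) x := hg.comp (φ := fun s => s⁻¹) (differentiableAt_inv h0)
  simpa only [div_eq_mul_inv] using hf.mul h1

lemma HI.pow {f : X3 → ℝ} {x : X3} (hf : HI f x) (n : ℕ) : HI (fun y => f y ^ n) x :=
  hf.comp (φ := fun s => s ^ n) (differentiableAt_id.pow n)

/-- weighted squares -/
noncomputable def Qw (w : Fin 9 → ℝ) (x : X3) : ℝ := ∑ i, ∑ A, w i * x (i, A) ^ 2

lemma fderiv_Qw (w : Fin 9 → ℝ) (x : X3) : DifferentiableAt ℝ (Qw w) x ∧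
    ∀ ξ, fderiv ℝ (Qw w) x ξ = ∑ i, ∑ A, w i * (2 * x (i, A) * ξ (i, A)) := by
  have h : HasFDerivAt (Qw w) (∑ i, ∑ A, w i • ((2 * x (i, A)) •
      (EuclideanSpace.proj (𝕜 := ℝ) (i, A) : X3 →L[ℝ] ℝ))) x := by
    unfold Qw
    refine HasFDerivAt.fun_sum fun i _ => HasFDerivAt.fun_sum fun A _ => ?_
    refine HasFDerivAt.const_mul ?_ (w i)
    have := (Setup.hasFDerivAt_coord (i, A) x).pow 2
    refine this.congr_fderiv ?_
    simp
  refine ⟨h.differentiableAt, fun ξ => ?_⟩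
  rw [h.fderiv]
  simp only [_root_.sum_apply, _root_.smul_apply, smul_eq_mul]
  rfl

lemma eps_anti (C A B : Fin 3) : (eps C A B : ℝ) = -(eps C B A : ℝ) := by
  fin_cases C <;> fin_cases A <;> fin_cases B <;> simp [eps]

lemma HI_Qw (w : Fin 9 → ℝ) (hw : ∀ k l, Same k l → w k = w l) (x : X3) : HI (Qw w) x := by
  refine ⟨(fderiv_Qw w x).1, fun ξ hξ => ?_⟩
  rw [(fderiv_Qw w x).2]
  rcases hξ with ⟨C, rfl⟩ | ⟨k, l, hkl, rfl⟩
  · refine Finset.sum_eq_zero fun i _ => ?_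
    have h1 : ∀ A, (kk C x) (i, A) = ∑ B, (eps C B A : ℝ) * x (i, B) := fun A => rfl
    simp only [h1, Fin.sum_univ_three]
    have e1 := eps_anti C 0 1
    have e2 := eps_anti C 0 2
    have e3 := eps_anti C 1 2
    have e4 := eps_anti C 0 0
    have e5 := eps_anti C 1 1
    have e6 := eps_anti C 2 2
    have e4' : (eps C 0 0 : ℝ) = 0 := by linarith
    have e5' : (eps C 1 1 : ℝ) = 0 := by linarith
    have e6' : (eps C 2 2 : ℝ) = 0 := by linarith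
    rw [e1, e2, e3, e4', e5', e6']
    ring
  · have h1 : ∀ i A, (jj k l x) (i, A) = (if i = l then x (k, A) else 0) -
        (if i = k then x (l, A) else 0) := fun i A => rfl
    simp only [h1]
    have h2 : ∀ i, ∑ A, w i * (2 * x (i, A) * ((if i = l then x (k, A) else 0) -
        (if i = k then x (l, A) else 0))) = (if i = l then ∑ A, w l * (2 * x (l, A) * x (k, A)) else 0)
        - (if i = k then ∑ A, w k * (2 * x (k, A) * x (l, A)) else 0) := by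
      intro i
      by_cases hl : i = l
      · subst hl
        by_cases hk : i = k
        · subst hk; simp
        · simp [hk]
      · by_cases hk : i = k
        · subst hk; simp [hl, Finset.sum_neg_distrib]
        · simp [hl, hk]
    simp only [h2, Finset.sum_sub_distrib, Finset.sum_ite_eq', Finset.mem_univ, if_true]
    rw [hw k l hkl, sub_eq_zero]
    refine Finset.sum_congr rfl fun A _ => ?_
    ring

lemma norm_eq_Qw (x : X3) : ‖x‖ = Real.sqrt (Qw (fun _ => 1) x) := by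
  rw [EuclideanSpace.norm_eq, Qw, Fintype.sum_prod_type]
  simp

lemma normsq_eq_Qw (x : X3) : ‖x‖ ^ 2 = Qw (fun _ => 1) x := by
  rw [EuclideanSpace.norm_sq_eq, Qw, Fintype.sum_prod_type]
  simp

lemma HI_norm {x : X3} (hx : x ≠ 0) : HI (fun y : X3 => ‖y‖) x := by
  have h1 : HI (fun y : X3 => Real.sqrt (Qw (fun _ => 1) y)) x := by
    refine (HI_Qw (fun _ => 1) (fun _ _ _ => rfl) x).comp (φ := Real.sqrt) ?_
    refine (Real.hasDerivAt_sqrt ?_).differentiableAt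
    rw [← normsq_eq_Qw]
    exact pow_ne_zero _ (norm_ne_zero_iff.2 hx)
  refine h1.congr (Eventually.of_forall fun y => norm_eq_Qw y)

lemma rho6_eq_Qw : rho6sq = Qw (fun i => if 3 ≤ i.val then 1 else 0) := by
  funext x
  unfold rho6sq Qw
  refine Finset.sum_congr rfl fun i _ => Finset.sum_congr rfl fun A _ => ?_
  dsimp only
  by_cases h : 3 ≤ i.val
  · rw [if_pos h, if_pos h, one_mul]
  · rw [if_neg h, if_neg h, zero_mul]

lemma HI_rho6 (x : X3) : HI rho6sq x := by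
  rw [rho6_eq_Qw]
  refine HI_Qw _ (fun k l h => ?_) x
  have := h.2
  by_cases h1 : 3 ≤ k.val
  · have h2 : 3 ≤ l.val := by
      by_contra h3
      rw [not_le] at h3
      exact absurd (this.2 h3) (by omega)
    simp [h1, h2]
  · have h2 : ¬ 3 ≤ l.val := by
      have := this.1 (by omega)
      omega
    simp [h1, h2]

lemma HI_aw (x : X3) : HI (fun y : X3 => ∑ i, ∑ A, aw i * y (i, A) ^ 2) x := by
  refine HI_Qw aw (fun k l h => ?_) x
  unfold aw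
  by_cases h1 : k.val < 3
  · rw [if_pos h1, if_pos (h.2.1 h1)]
  · rw [if_neg h1, if_neg (fun h2 => h1 (h.2.2 h2))]

/-- derivative of `FF` -/
noncomputable def dFF (S : Setup F) (A : Fin 3) (i j : Fin 9) (x ξ : X3) : ℝ :=
  S.κ * ∑ B, ∑ C, (eps A B C : ℝ) * (x (i, B) * ξ (j, C) + x (j, C) * ξ (i, B))

lemma hasFDerivAt_FF (S : Setup F) (A : Fin 3) (i j : Fin 9) (x : X3) :
    DifferentiableAt ℝ (S.FF A i j) x ∧ ∀ ξ, fderiv ℝ (S.FF A i j) x ξ = dFF S A i j x ξ := by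
  have h : HasFDerivAt (S.FF A i j) (S.κ • ∑ B, ∑ C, (((eps A B C : ℝ) * x (i, B)) •
      (EuclideanSpace.proj (𝕜 := ℝ) (j, C) : X3 →L[ℝ] ℝ) + x (j, C) • ((eps A B C : ℝ) •
      (EuclideanSpace.proj (𝕜 := ℝ) (i, B) : X3 →L[ℝ] ℝ)))) x := by
    unfold Setup.FF
    refine HasFDerivAt.const_mul ?_ S.κ
    refine HasFDerivAt.fun_sum fun B _ => HasFDerivAt.fun_sum fun C _ => ?_
    exact ((Setup.hasFDerivAt_coord (i, B) x).const_mul (eps A B C : ℝ)).mul (Setup.hasFDerivAt_coord (j, C) x)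
  refine ⟨h.differentiableAt, fun ξ => ?_⟩
  rw [h.fderiv]
  simp only [_root_.sum_apply, _root_.smul_apply, _root_.add_apply, smul_eq_mul, dFF]
  congr 1
  refine Finset.sum_congr rfl fun B _ => Finset.sum_congr rfl fun C _ => ?_
  show (eps A B C : ℝ) * x (i, B) * ξ (j, C) + x (j, C) * ((eps A B C : ℝ) * ξ (i, B)) = _
  ring

lemma hasFDerivAt_V (S : Setup F) (x : X3) : DifferentiableAt ℝ S.V x ∧
    ∀ ξ, fderiv ℝ S.V x ξ = 1 / 4 * ∑ A, ∑ i, ∑ j, 2 * S.FF A i j x * dFF S A i j x ξ := by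
  have h : HasFDerivAt S.V ((1 / 4 : ℝ) • ∑ A, ∑ i, ∑ j, (2 * S.FF A i j x) •
      fderiv ℝ (S.FF A i j) x) x := by
    unfold Setup.V
    refine HasFDerivAt.const_mul ?_ (1 / 4 : ℝ)
    refine HasFDerivAt.fun_sum fun A _ => HasFDerivAt.fun_sum fun i _ =>
      HasFDerivAt.fun_sum fun j _ => ?_
    have := ((hasFDerivAt_FF S A i j x).1.hasFDerivAt).pow 2
    refine this.congr_fderiv ?_
    simp
  refine ⟨h.differentiableAt, fun ξ => ?_⟩
  rw [h.fderiv]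
  simp only [_root_.sum_apply, _root_.smul_apply, smul_eq_mul, (hasFDerivAt_FF S _ _ _ x).2]

lemma FF_dFF_kk (S : Setup F) (C : Fin 3) (i j : Fin 9) (x : X3) :
    ∑ A, S.FF A i j x * dFF S A i j x (kk C x) = 0 := by
  have h1 : ∀ i A, (kk C x) (i, A) = ∑ B, (eps C B A : ℝ) * x (i, B) := fun i A => rfl
  simp only [Setup.FF, dFF, h1, Fin.sum_univ_three]
  fin_cases C <;> simp [eps] <;> ring

lemma dFF_jj (S : Setup F) (A : Fin 3) (k l i j : Fin 9) (x : X3) :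
    dFF S A i j x (jj k l x) = ((if j = l then S.FF A i k x else 0) -
      (if j = k then S.FF A i l x else 0)) + ((if i = l then S.FF A k j x else 0) -
      (if i = k then S.FF A l j x else 0)) := by
  have h1 : ∀ i A, (jj k l x) (i, A) = (if i = l then x (k, A) else 0) -
        (if i = k then x (l, A) else 0) := fun i A => rfl
  simp only [dFF, h1, Setup.FF]
  have e1 : ∀ (c : Prop) [Decidable c] (s : ℝ), (if c then S.κ * s else 0) =
      S.κ * (if c then s else 0) := by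
    intro c _ s; split_ifs <;> simp
  simp only [e1, ← mul_sub, ← mul_add]
  congr 1
  have e2 : ∀ (c : Prop) [Decidable c] (g : Fin 3 → Fin 3 → ℝ),
      (if c then ∑ B, ∑ C, g B C else 0) = ∑ B, ∑ C, (if c then g B C else 0) := by
    intro c _ g; split_ifs <;> simp
  simp only [e2, ← Finset.sum_sub_distrib, ← Finset.sum_add_distrib]
  refine Finset.sum_congr rfl fun B _ => Finset.sum_congr rfl fun C _ => ?_
  split_ifs <;> ring

lemma HI_V (S : Setup F) (x : X3) : HI S.V x := by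
  refine ⟨(hasFDerivAt_V S x).1, fun ξ hξ => ?_⟩
  rw [(hasFDerivAt_V S x).2]
  rcases hξ with ⟨C, rfl⟩ | ⟨k, l, hkl, rfl⟩
  · have : ∑ A, ∑ i, ∑ j, 2 * S.FF A i j x * dFF S A i j x (kk C x) = 0 := by
      rw [Finset.sum_comm]
      refine Finset.sum_eq_zero fun i _ => ?_
      rw [Finset.sum_comm]
      refine Finset.sum_eq_zero fun j _ => ?_
      simp only [mul_assoc, ← Finset.mul_sum]
      rw [FF_dFF_kk, mul_zero]
    rw [this, mul_zero]
  · have : ∀ A, ∑ i, ∑ j, 2 * S.FF A i j x * dFF S A i j x (jj k l x) = 0 := by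
      intro A
      simp only [dFF_jj]
      have e : ∀ i j, 2 * S.FF A i j x * (((if j = l then S.FF A i k x else 0) -
          (if j = k then S.FF A i l x else 0)) + ((if i = l then S.FF A k j x else 0) -
          (if i = k then S.FF A l j x else 0))) =
          (if j = l then 2 * S.FF A i l x * S.FF A i k x else 0) -
          (if j = k then 2 * S.FF A i k x * S.FF A i l x else 0) +
          ((if i = l then 2 * S.FF A l j x * S.FF A k j x else 0) -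
          (if i = k then 2 * S.FF A k j x * S.FF A l j x else 0)) := by
        intro i j
        have a1 : (2 * S.FF A i j x) * (if j = l then S.FF A i k x else 0) =
            (if j = l then 2 * S.FF A i l x * S.FF A i k x else 0) := by
          split_ifs with h
          · rw [h]
          · rw [mul_zero]
        have a2 : (2 * S.FF A i j x) * (if j = k then S.FF A i l x else 0) =
            (if j = k then 2 * S.FF A i k x * S.FF A i l x else 0) := by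
          split_ifs with h
          · rw [h]
          · rw [mul_zero]
        have a3 : (2 * S.FF A i j x) * (if i = l then S.FF A k j x else 0) =
            (if i = l then 2 * S.FF A l j x * S.FF A k j x else 0) := by
          split_ifs with h
          · rw [h]
          · rw [mul_zero]
        have a4 : (2 * S.FF A i j x) * (if i = k then S.FF A l j x else 0) =
            (if i = k then 2 * S.FF A k j x * S.FF A l j x else 0) := by
          split_ifs with h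
          · rw [h]
          · rw [mul_zero]
        rw [mul_add, mul_sub, mul_sub, a1, a2, a3, a4]
      simp only [e, Finset.sum_add_distrib, Finset.sum_sub_distrib, Finset.sum_ite_eq',
        Finset.mem_univ, if_true]
      have b1 : ∑ i, ∑ j, (if i = l then 2 * S.FF A l j x * S.FF A k j x else 0) =
          ∑ j, 2 * S.FF A l j x * S.FF A k j x := by
        rw [Finset.sum_comm]; simp
      have b2 : ∑ i, ∑ j, (if i = k then 2 * S.FF A k j x * S.FF A l j x else 0) =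
          ∑ j, 2 * S.FF A k j x * S.FF A l j x := by
        rw [Finset.sum_comm]; simp
      rw [b1, b2]
      have c1 : ∑ i, 2 * S.FF A i l x * S.FF A i k x = ∑ i, 2 * S.FF A i k x * S.FF A i l x :=
        Finset.sum_congr rfl fun i _ => by ring
      have c2 : ∑ j, 2 * S.FF A l j x * S.FF A k j x = ∑ j, 2 * S.FF A k j x * S.FF A l j x :=
        Finset.sum_congr rfl fun i _ => by ring
      rw [c1, c2]
      ring
    simp only [this, Finset.sum_const_zero, mul_zero]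

/-! gradient of homogeneous functions -/

lemma homog_grad {f : X3 → ℝ} (hf : ∀ x : X3, x ≠ 0 → ContDiffAt ℝ 1 f x)
    (hh : ∀ t : ℝ, 0 < t → ∀ x, f (t • x) = f x) :
    ∃ C, 0 ≤ C ∧ ∀ x : X3, x ≠ 0 → ∀ i A, |pdr i A f x| ≤ C / ‖x‖ := by
  have hc : ContinuousOn (fun y => fderiv ℝ f y) (Metric.sphere (0 : X3) 1) := by
    intro y hy
    have hy0 : y ≠ 0 := by
      rintro rfl
      simp at hy
    have := (hf y hy0).fderiv_right (m := 0) (by norm_num)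
    exact this.continuousAt.continuousWithinAt
  obtain ⟨C, hC⟩ := (isCompact_sphere (0 : X3) 1).exists_bound_of_continuousOn hc
  refine ⟨max C 0, le_max_right _ _, fun x hx i A => ?_⟩
  have hn : 0 < ‖x‖ := norm_pos_iff.2 hx
  have h1 : f = fun y => f (‖x‖⁻¹ • y) := by
    funext y
    rw [hh _ (inv_pos.2 hn)]
  have h2 : fderiv ℝ f x = ‖x‖⁻¹ • fderiv ℝ f (‖x‖⁻¹ • x) := by
    conv_lhs => rw [h1]
    exact fderiv_comp_smul _
  have h3 : ‖fderiv ℝ f (‖x‖⁻¹ • x)‖ ≤ max C 0 := by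
    refine (hC _ ?_).trans (le_max_left _ _)
    rw [mem_sphere_zero_iff_norm, norm_smul, norm_inv, norm_norm, inv_mul_cancel₀ hn.ne']
  rw [pdr, h2, ← Real.norm_eq_abs]
  show ‖‖x‖⁻¹ * (fderiv ℝ f (‖x‖⁻¹ • x)) (EuclideanSpace.single (i, A) (1 : ℝ))‖ ≤ _
  rw [norm_mul, norm_inv, norm_norm, div_eq_mul_inv, mul_comm]
  refine mul_le_mul_of_nonneg_right ?_ (inv_nonneg.2 hn.le)
  refine (ContinuousLinearMap.le_opNorm _ _).trans ?_
  simpa using h3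

/-! the smooth step -/

lemma st_deriv_bound : ∃ K₀, 0 ≤ K₀ ∧ (∀ s : ℝ, |deriv Real.smoothTransition s| ≤ K₀) ∧
    ∀ s : ℝ, (s < 0 ∨ 1 < s) → deriv Real.smoothTransition s = 0 := by
  have h0 : ∀ s : ℝ, (s < 0 ∨ 1 < s) → deriv Real.smoothTransition s = 0 := by
    intro s hs
    rcases hs with h | h
    · have : Real.smoothTransition =ᶠ[𝓝 s] fun _ => 0 := by
        filter_upwards [isOpen_Iio.mem_nhds h] with y hy
        exact Real.smoothTransition.zero_of_nonpos (le_of_lt hy)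
      rw [this.deriv_eq]
      simp
    · have : Real.smoothTransition =ᶠ[𝓝 s] fun _ => 1 := by
        filter_upwards [isOpen_Ioi.mem_nhds h] with y hy
        exact Real.smoothTransition.one_of_one_le (le_of_lt hy)
      rw [this.deriv_eq]
      simp
  have hc : Continuous (deriv Real.smoothTransition) :=
    (Real.smoothTransition.contDiff (n := 1)).continuous_deriv (by simp)
  have hs : HasCompactSupport (deriv Real.smoothTransition) := by
    refine HasCompactSupport.intro (isCompact_Icc (a := (0 : ℝ)) (b := 1)) fun s hs => ?_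
    rw [Set.mem_Icc, not_and_or, not_le, not_le] at hs
    exact h0 s hs
  obtain ⟨C, hC⟩ := hs.exists_bound_of_continuous hc
  exact ⟨C, (norm_nonneg _).trans (hC 0), hC, h0⟩

lemma st_diff (s : ℝ) : DifferentiableAt ℝ Real.smoothTransition s :=
  (Real.smoothTransition.contDiff (n := 1)).differentiable (by simp) s

lemma pdr_comp {φ : ℝ → ℝ} {f : X3 → ℝ} {x : X3} (hφ : DifferentiableAt ℝ φ (f x))
    (hf : DifferentiableAt ℝ f x) (i : Fin 9) (A : Fin 3) :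
    pdr i A (fun y => φ (f y)) x = deriv φ (f x) * pdr i A f x := by
  have h1 : HasFDerivAt (fun y => φ (f y)) (deriv φ (f x) • fderiv ℝ f x) x :=
    hφ.hasDerivAt.comp_hasFDerivAt x hf.hasFDerivAt
  rw [pdr, h1.fderiv]
  rfl

lemma pdr_mul_le {f g : X3 → ℝ} {x : X3} (hf : DifferentiableAt ℝ f x)
    (hg : DifferentiableAt ℝ g x) (h1 : |f x| ≤ 1) (h2 : |g x| ≤ 1) (i : Fin 9) (A : Fin 3) :
    |pdr i A (fun y => f y * g y) x| ≤ |pdr i A f x| + |pdr i A g x| := by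
  have h : pdr i A (fun y => f y * g y) x = f x * pdr i A g x + g x * pdr i A f x := by
    unfold pdr
    rw [fderiv_fun_mul hf hg]
    rfl
  rw [h]
  refine (abs_add_le _ _).trans ?_
  rw [abs_mul, abs_mul]
  have a1 := mul_le_mul_of_nonneg_right h1 (abs_nonneg (pdr i A g x))
  have a2 := mul_le_mul_of_nonneg_right h2 (abs_nonneg (pdr i A f x))
  linarith

end Vale.Agent.P353.U
end

section

/-! # P353, D-Out, part C: the cutoff `χ` -/

set_option linter.all false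

open MeasureTheory Filter Topology
open scoped ContDiff

namespace Vale.Agent.P353.U

variable {F : Type*} [NormedAddCommGroup F] [InnerProductSpace ℂ F]

/-- `ρ6²/ρ²` -/
noncomputable def q2 (x : X3) : ℝ := rho6sq x / ‖x‖ ^ 2

/-- `V/ρ⁴` -/
noncomputable def q4 (S : Setup F) (x : X3) : ℝ := S.V x / ‖x‖ ^ 4

/-- closed region containing the support of the cutoff -/
def Rg (S : Setup F) (a b δ ε : ℝ) : Set X3 :=
  {x | (a ≤ ‖x‖ ∧ ‖x‖ ^ 2 ≤ 2 * b ^ 2) ∧ (δ ^ 2 * ‖x‖ ^ 2 ≤ rho6sq x ∧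
    2 * S.V x ≤ ε ^ 2 * ‖x‖ ^ 4)}

/-- the cutoff -/
noncomputable def ct (S : Setup F) (a b δ ε : ℝ) (x : X3) : ℝ :=
  (Real.smoothTransition (‖x‖ ^ 2 / a ^ 2 - 1) *
    (1 - Real.smoothTransition (‖x‖ ^ 2 / b ^ 2 - 1))) *
  (Real.smoothTransition (q2 x / δ ^ 2 - 1) *
    (1 - Real.smoothTransition (4 / ε ^ 2 * q4 S x - 1)))

lemma st_ne {s : ℝ} (h : Real.smoothTransition s ≠ 0) : 0 < s := by
  by_contra h'
  exact h (Real.smoothTransition.zero_of_nonpos (not_lt.1 h'))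

lemma st_ne' {s : ℝ} (h : 1 - Real.smoothTransition s ≠ 0) : s < 1 := by
  by_contra h'
  exact h (by rw [Real.smoothTransition.one_of_one_le (not_lt.1 h'), sub_self])

lemma st_abs (s : ℝ) : |Real.smoothTransition s| ≤ 1 := by
  rw [abs_of_nonneg (Real.smoothTransition.nonneg s)]
  exact Real.smoothTransition.le_one s

lemma st_abs' (s : ℝ) : |1 - Real.smoothTransition s| ≤ 1 := by
  rw [abs_le]
  constructor <;> linarith [Real.smoothTransition.nonneg s, Real.smoothTransition.le_one s]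

section

variable {S : Setup F} {a b δ ε : ℝ}

lemma ct_zero (ha : 0 < a) {x : X3} (hx : ‖x‖ ≤ a) : ct S a b δ ε x = 0 := by
  unfold ct
  rw [Real.smoothTransition.zero_of_nonpos, zero_mul, zero_mul]
  rw [sub_nonpos, div_le_one (by positivity)]
  exact pow_le_pow_left₀ (norm_nonneg _) hx 2

lemma ct_supp (ha : 0 < a) (hb : 0 < b) (hδ : 0 < δ) (hε : 0 < ε) {x : X3}
    (hx : ct S a b δ ε x ≠ 0) : x ∈ Rg S a b δ ε := by
  have ha' : a < ‖x‖ := by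
    by_contra h
    exact hx (ct_zero ha (not_lt.1 h))
  have hn : 0 < ‖x‖ := ha.trans ha'
  unfold ct at hx
  have h1 := left_ne_zero_of_mul hx
  have h2 := right_ne_zero_of_mul hx
  have h3 := st_ne' (right_ne_zero_of_mul h1)
  have h4 := st_ne (left_ne_zero_of_mul h2)
  have h5 := st_ne' (right_ne_zero_of_mul h2)
  refine ⟨⟨ha'.le, ?_⟩, ?_, ?_⟩
  · have : ‖x‖ ^ 2 / b ^ 2 < 2 := by linarith
    rw [div_lt_iff₀ (by positivity)] at this
    exact this.le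
  · have : 1 < q2 x / δ ^ 2 := by linarith
    rw [lt_div_iff₀ (by positivity), q2, lt_div_iff₀ (by positivity)] at this
    linarith
  · have h6 : 4 / ε ^ 2 * q4 S x < 2 := by linarith
    rw [q4] at h6
    have h7 : 4 / ε ^ 2 * (S.V x / ‖x‖ ^ 4) = 4 * S.V x / (ε ^ 2 * ‖x‖ ^ 4) := by
      field_simp
    rw [h7, div_lt_iff₀ (by positivity)] at h6
    linarith

lemma Rg_closed : IsClosed (Rg S a b δ ε) := by
  have hV := out_V_cont S
  have h6 := out_rho6_cont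
  refine IsClosed.inter (IsClosed.inter ?_ ?_) (IsClosed.inter ?_ ?_)
  · exact isClosed_le continuous_const continuous_norm
  · exact isClosed_le (continuous_norm.pow 2) continuous_const
  · exact isClosed_le (continuous_const.mul (continuous_norm.pow 2)) h6
  · exact isClosed_le (continuous_const.mul hV) (continuous_const.mul (continuous_norm.pow 4))

lemma ct_ev (ha : 0 < a) (hb : 0 < b) (hδ : 0 < δ) (hε : 0 < ε) {x : X3}
    (hx : x ∉ Rg S a b δ ε) : ct S a b δ ε =ᶠ[𝓝 x] fun _ => 0 := by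
  filter_upwards [(Rg_closed (S := S) (a := a) (b := b) (δ := δ) (ε := ε)).isOpen_compl.mem_nhds hx]
    with y hy
  by_contra h
  exact hy (ct_supp ha hb hδ hε h)

lemma Rg_ne (ha : 0 < a) {x : X3} (hx : x ∈ Rg S a b δ ε) : x ≠ 0 := by
  rintro rfl
  have := hx.1.1
  rw [norm_zero] at this
  linarith

lemma Rg_pos (ha : 0 < a) (hδ : 0 < δ) {x : X3} (hx : x ∈ Rg S a b δ ε) : 0 < rho6sq x := by
  have hn : 0 < ‖x‖ := norm_pos_iff.2 (Rg_ne ha hx)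
  have := hx.2.1
  have h2 : 0 < δ ^ 2 * ‖x‖ ^ 2 := by positivity
  linarith

lemma cd_rho6 : ContDiff ℝ ∞ rho6sq := by
  unfold rho6sq
  refine ContDiff.sum fun i _ => ContDiff.sum fun A _ => ?_
  split_ifs
  · exact (Setup.contDiff_coord (i, A)).pow 2
  · exact contDiff_const

lemma cd_q2 {x : X3} (hx : x ≠ 0) : ContDiffAt ℝ ∞ q2 x := by
  unfold q2
  refine ContDiffAt.div cd_rho6.contDiffAt (contDiff_norm_sq ℝ).contDiffAt ?_
  exact pow_ne_zero _ (norm_ne_zero_iff.2 hx)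

lemma cd_q4 (S : Setup F) {x : X3} (hx : x ≠ 0) : ContDiffAt ℝ ∞ (q4 S) x := by
  have : q4 S = fun x : X3 => S.V x / (‖x‖ ^ 2) ^ 2 := by
    funext x
    rw [q4, ← pow_mul]
  rw [this]
  refine ContDiffAt.div (contDiff_V S).contDiffAt ((contDiff_norm_sq ℝ).contDiffAt.pow 2) ?_
  exact pow_ne_zero _ (pow_ne_zero _ (norm_ne_zero_iff.2 hx))

lemma cd_st : ContDiff ℝ ∞ Real.smoothTransition := Real.smoothTransition.contDiff

lemma cd_ct (ha : 0 < a) (hb : 0 < b) (hδ : 0 < δ) (hε : 0 < ε) : ContDiff ℝ ∞ (ct S a b δ ε) := by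
  rw [contDiff_iff_contDiffAt]
  intro x
  by_cases hx : x ∈ Rg S a b δ ε
  · have h0 := Rg_ne ha hx
    have hn : ContDiffAt ℝ ∞ (fun y : X3 => ‖y‖ ^ 2) x := (contDiff_norm_sq ℝ).contDiffAt
    unfold ct
    refine ContDiffAt.mul (ContDiffAt.mul ?_ (contDiffAt_const.sub ?_))
      (ContDiffAt.mul ?_ (contDiffAt_const.sub ?_))
    · exact cd_st.contDiffAt.comp x ((hn.div_const _).sub contDiffAt_const)
    · exact cd_st.contDiffAt.comp x ((hn.div_const _).sub contDiffAt_const)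
    · exact cd_st.contDiffAt.comp x (((cd_q2 h0).div_const _).sub contDiffAt_const)
    · exact cd_st.contDiffAt.comp x ((contDiffAt_const.mul (cd_q4 S h0)).sub contDiffAt_const)
  · exact contDiffAt_const.congr_of_eventuallyEq (ct_ev ha hb hδ hε hx)

lemma ct_hcs (ha : 0 < a) (hb : 0 < b) (hδ : 0 < δ) (hε : 0 < ε) :
    HasCompactSupport (ct S a b δ ε) := by
  refine HasCompactSupport.intro (isCompact_closedBall (0 : X3) (2 * b)) fun x hx => ?_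
  by_contra h
  have h1 := (ct_supp ha hb hδ hε h).1.2
  apply hx
  rw [Metric.mem_closedBall, dist_zero_right]
  refine le_of_sq_le_sq ?_ (by positivity)
  nlinarith [sq_nonneg b]

lemma HI_q2 {x : X3} (hx : x ≠ 0) : HI q2 x :=
  (HI_rho6 x).div ((HI_norm hx).pow 2) (pow_ne_zero _ (norm_ne_zero_iff.2 hx))

lemma HI_q4 (S : Setup F) {x : X3} (hx : x ≠ 0) : HI (q4 S) x :=
  (HI_V S x).div ((HI_norm hx).pow 4) (pow_ne_zero _ (norm_ne_zero_iff.2 hx))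

lemma HI_ct (ha : 0 < a) (hb : 0 < b) (hδ : 0 < δ) (hε : 0 < ε) (x : X3) :
    HI (ct S a b δ ε) x := by
  by_cases hx : x ∈ Rg S a b δ ε
  · have h0 := Rg_ne ha hx
    unfold ct
    refine HI.mul (HI.mul ?_ ((HI.const 1 x).sub ?_)) (HI.mul ?_ ((HI.const 1 x).sub ?_))
    · exact HI.comp (((HI_norm h0).pow 2).div (HI.const _ x) (by positivity) |>.sub (HI.const 1 x))
        (st_diff _)
    · exact HI.comp (((HI_norm h0).pow 2).div (HI.const _ x) (by positivity) |>.sub (HI.const 1 x))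
        (st_diff _)
    · exact HI.comp ((HI_q2 h0).div (HI.const _ x) (by positivity) |>.sub (HI.const 1 x))
        (st_diff _)
    · exact HI.comp (((HI.const _ x).mul (HI_q4 S h0)).sub (HI.const 1 x)) (st_diff _)
  · exact (HI.const 0 x).congr (ct_ev ha hb hδ hε hx)

lemma ct_abs (x : X3) : |ct S a b δ ε x| ≤ 1 := by
  unfold ct
  rw [abs_mul, abs_mul, abs_mul]
  have h1 := mul_le_one₀ (st_abs (‖x‖ ^ 2 / a ^ 2 - 1)) (abs_nonneg _)
    (st_abs' (‖x‖ ^ 2 / b ^ 2 - 1))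
  have h2 := mul_le_one₀ (st_abs (q2 x / δ ^ 2 - 1)) (abs_nonneg _)
    (st_abs' (4 / ε ^ 2 * q4 S x - 1))
  exact mul_le_one₀ h1 (mul_nonneg (abs_nonneg _) (abs_nonneg _)) h2

lemma ct_one (ha : 0 < a) (hb : 0 < b) (hδ : 0 < δ) (hε : 0 < ε) {x : X3} (h1 : 2 * a ^ 2 ≤ ‖x‖ ^ 2)
    (h2 : ‖x‖ ^ 2 ≤ b ^ 2) (h3 : 2 * δ ^ 2 * ‖x‖ ^ 2 ≤ rho6sq x)
    (h4 : 4 * S.V x ≤ ε ^ 2 * ‖x‖ ^ 4) : ct S a b δ ε x = 1 := by
  have hn : 0 < ‖x‖ ^ 2 := by
    have : 0 < a ^ 2 := by positivity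
    linarith
  have hn' : 0 < ‖x‖ := by
    by_contra h
    have : ‖x‖ = 0 := le_antisymm (not_lt.1 h) (norm_nonneg _)
    rw [this] at hn
    simp at hn
  unfold ct
  rw [Real.smoothTransition.one_of_one_le, Real.smoothTransition.zero_of_nonpos,
    Real.smoothTransition.one_of_one_le, Real.smoothTransition.zero_of_nonpos]
  · norm_num
  · have h7 : 4 / ε ^ 2 * (S.V x / ‖x‖ ^ 4) = 4 * S.V x / (ε ^ 2 * ‖x‖ ^ 4) := by
      field_simp
    rw [q4, h7, sub_nonpos, div_le_one (by positivity)]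
    exact h4
  · have : 2 ≤ q2 x / δ ^ 2 := by
      rw [le_div_iff₀ (by positivity), q2, le_div_iff₀ (by positivity)]
      exact h3
    linarith
  · rw [sub_nonpos, div_le_one (by positivity)]
    exact h2
  · have : 2 ≤ ‖x‖ ^ 2 / a ^ 2 := by
      rw [le_div_iff₀ (by positivity)]
      exact h1
    linarith

end

/-! ### gradient -/

lemma pdr_st_le {K₀ : ℝ} (hK : ∀ s : ℝ, |deriv Real.smoothTransition s| ≤ K₀)
    (h0 : ∀ s : ℝ, (s < 0 ∨ 1 < s) → deriv Real.smoothTransition s = 0) {f : X3 → ℝ} {x : X3}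
    (hf : DifferentiableAt ℝ f x) (i : Fin 9) (A : Fin 3) {L : ℝ} (hL0 : 0 ≤ L)
    (hL : 0 ≤ f x → f x ≤ 1 → |pdr i A f x| ≤ L) :
    |pdr i A (fun y => Real.smoothTransition (f y)) x| ≤ K₀ * L := by
  have hK0 : 0 ≤ K₀ := (abs_nonneg _).trans (hK 0)
  rw [pdr_comp (st_diff _) hf, abs_mul]
  by_cases h : 0 ≤ f x ∧ f x ≤ 1
  · exact mul_le_mul (hK _) (hL h.1 h.2) (abs_nonneg _) hK0
  · rw [h0 (f x) (by
      rw [not_and_or, not_le, not_le] at h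
      exact h), abs_zero, zero_mul]
    positivity

lemma pdr_one_sub {g : X3 → ℝ} {x : X3} (i : Fin 9) (A : Fin 3) :
    |pdr i A (fun y => 1 - g y) x| = |pdr i A g x| := by
  unfold pdr
  rw [fderiv_const_sub]
  show |-(fderiv ℝ g x) _| = _
  rw [abs_neg]

lemma pdr_normsq (i : Fin 9) (A : Fin 3) (c : ℝ) (x : X3) :
    pdr i A (fun y : X3 => ‖y‖ ^ 2 / c - 1) x = 2 * x (i, A) / c := by
  have h2 : HasFDerivAt (fun y : X3 => ‖y‖ ^ 2) (2 • (innerSL ℝ x)) x :=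
    (hasStrictFDerivAt_norm_sq x).hasFDerivAt
  have h3 : HasFDerivAt (fun y : X3 => ‖y‖ ^ 2 / c - 1) (c⁻¹ • (2 • (innerSL ℝ x))) x := by
    have := (h2.mul_const c⁻¹).sub_const 1
    simpa only [div_eq_mul_inv] using this
  rw [pdr, h3.fderiv]
  simp only [_root_.smul_apply, innerSL_apply_apply, smul_eq_mul]
  have : inner ℝ x (EuclideanSpace.single (i, A) (1 : ℝ)) = x (i, A) := by
    simp [EuclideanSpace.inner_single_right]
  rw [this]
  simp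
  ring

lemma coord_le (x : X3) (p : Fin 9 × Fin 3) : |x p| ≤ ‖x‖ := by
  rw [← Real.norm_eq_abs]
  exact PiLp.norm_apply_le x p

/-- bound for the radial factor -/
lemma rad_grad {a : ℝ} (ha : 0 < a) (x : X3) (i : Fin 9) (A : Fin 3)
    (h0 : 0 ≤ ‖x‖ ^ 2 / a ^ 2 - 1) (h1 : ‖x‖ ^ 2 / a ^ 2 - 1 ≤ 1) :
    |pdr i A (fun y : X3 => ‖y‖ ^ 2 / a ^ 2 - 1) x| ≤
      if a ≤ ‖x‖ ∧ ‖x‖ ≤ 2 * a then 4 / a else 0 := by
  have e0 : a ^ 2 ≤ ‖x‖ ^ 2 := by
    have : 1 ≤ ‖x‖ ^ 2 / a ^ 2 := by linarith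
    rw [le_div_iff₀ (by positivity)] at this
    linarith
  have e1 : ‖x‖ ^ 2 ≤ 2 * a ^ 2 := by
    have : ‖x‖ ^ 2 / a ^ 2 ≤ 2 := by linarith
    rwa [div_le_iff₀ (by positivity)] at this
  have e2 : a ≤ ‖x‖ := le_of_sq_le_sq e0 (norm_nonneg _)
  have e3 : ‖x‖ ≤ 2 * a := by
    refine le_of_sq_le_sq ?_ (by positivity)
    nlinarith [sq_nonneg a]
  rw [if_pos ⟨e2, e3⟩, pdr_normsq, abs_div, abs_mul, abs_two, abs_of_pos (show 0 < a ^ 2 by positivity)]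
  rw [div_le_div_iff₀ (by positivity) ha]
  have := coord_le x (i, A)
  nlinarith [abs_nonneg (x (i, A))]

/-- the gradient bound, with constants `K₀` (step), `Cq` (homogeneous functions) -/
noncomputable def gB (S : Setup F) (Cq a b δ ε : ℝ) (x : X3) : ℝ :=
  ((if a ≤ ‖x‖ ∧ ‖x‖ ≤ 2 * a then 4 / a else 0) + (if b ≤ ‖x‖ ∧ ‖x‖ ≤ 2 * b then 4 / b else 0)) +
  ((if rho6sq x ≤ 2 * δ ^ 2 * ‖x‖ ^ 2 then Cq / (δ ^ 2 * ‖x‖) else 0) +
    (if ε ^ 2 * ‖x‖ ^ 4 ≤ 4 * S.V x then 4 * Cq / (ε ^ 2 * ‖x‖) else 0))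

lemma gB_nonneg (S : Setup F) {Cq a b δ ε : ℝ} (hC : 0 ≤ Cq) (ha : 0 < a) (hb : 0 < b)
    (hδ : 0 < δ) (hε : 0 < ε) (x : X3) : 0 ≤ gB S Cq a b δ ε x := by
  unfold gB
  refine add_nonneg (add_nonneg ?_ ?_) (add_nonneg ?_ ?_) <;> split_ifs <;> positivity

theorem exists_gB (S : Setup F) : ∃ K₀ Cq : ℝ, 0 ≤ K₀ ∧ 0 ≤ Cq ∧ ∀ a b δ ε : ℝ, 0 < a → 0 < b →
    0 < δ → 0 < ε → ∀ i A (x : X3), |pdr i A (ct S a b δ ε) x| ≤ K₀ * gB S Cq a b δ ε x := by
  obtain ⟨K₀, hK0, hK, h0⟩ := st_deriv_bound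
  obtain ⟨C2, hC2, h2⟩ := homog_grad (f := q2) (fun x hx => (cd_q2 hx).of_le (by simp)) (by
    intro t ht x
    rw [q2, q2, out_rho6_smul, norm_smul, Real.norm_of_nonneg ht.le, mul_pow,
      mul_div_mul_left _ _ (by positivity)])
  obtain ⟨C4, hC4, h4⟩ := homog_grad (f := q4 S) (fun x hx => (cd_q4 S hx).of_le (by simp)) (by
    intro t ht x
    rw [q4, q4, S.V_smul, norm_smul, Real.norm_of_nonneg ht.le, mul_pow,
      mul_div_mul_left _ _ (by positivity)])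
  refine ⟨K₀, C2 + C4, hK0, by positivity, fun a b δ ε ha hb hδ hε i A x => ?_⟩
  by_cases hx : x ∈ Rg S a b δ ε
  · have hx0 := Rg_ne ha hx
    have hn : 0 < ‖x‖ := norm_pos_iff.2 hx0
    have dn : DifferentiableAt ℝ (fun y : X3 => ‖y‖ ^ 2) x :=
      ((contDiff_norm_sq ℝ (n := 1)).differentiable (by simp)) x
    have d1 : DifferentiableAt ℝ (fun y : X3 => ‖y‖ ^ 2 / a ^ 2 - 1) x := by
      simpa only [div_eq_mul_inv] using (dn.mul_const (a ^ 2)⁻¹).sub_const 1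
    have d3 : DifferentiableAt ℝ (fun y : X3 => ‖y‖ ^ 2 / b ^ 2 - 1) x := by
      simpa only [div_eq_mul_inv] using (dn.mul_const (b ^ 2)⁻¹).sub_const 1
    have dq2 : DifferentiableAt ℝ q2 x := (cd_q2 hx0).differentiableAt (by simp)
    have dq4 : DifferentiableAt ℝ (q4 S) x := (cd_q4 S hx0).differentiableAt (by simp)
    have d2 : DifferentiableAt ℝ (fun y : X3 => q2 y / δ ^ 2 - 1) x := by
      simpa only [div_eq_mul_inv] using (dq2.mul_const (δ ^ 2)⁻¹).sub_const 1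
    have d4 : DifferentiableAt ℝ (fun y : X3 => 4 / ε ^ 2 * q4 S y - 1) x :=
      (dq4.const_mul _).sub_const 1
    have s1 : DifferentiableAt ℝ (fun y : X3 => Real.smoothTransition (‖y‖ ^ 2 / a ^ 2 - 1)) x :=
      DifferentiableAt.comp x (st_diff _) d1
    have s3 : DifferentiableAt ℝ (fun y : X3 => 1 - Real.smoothTransition (‖y‖ ^ 2 / b ^ 2 - 1)) x :=
      (DifferentiableAt.comp x (st_diff _) d3).const_sub 1
    have s2 : DifferentiableAt ℝ (fun y : X3 => Real.smoothTransition (q2 y / δ ^ 2 - 1)) x :=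
      DifferentiableAt.comp x (st_diff _) d2
    have s4 : DifferentiableAt ℝ (fun y : X3 => 1 - Real.smoothTransition (4 / ε ^ 2 * q4 S y - 1)) x :=
      (DifferentiableAt.comp x (st_diff _) d4).const_sub 1
    have b1 : |pdr i A (fun y : X3 => Real.smoothTransition (‖y‖ ^ 2 / a ^ 2 - 1)) x| ≤
        K₀ * (if a ≤ ‖x‖ ∧ ‖x‖ ≤ 2 * a then 4 / a else 0) :=
      pdr_st_le hK h0 d1 i A (by split_ifs <;> positivity) (rad_grad ha x i A)
    have b3 : |pdr i A (fun y : X3 => 1 - Real.smoothTransition (‖y‖ ^ 2 / b ^ 2 - 1)) x| ≤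
        K₀ * (if b ≤ ‖x‖ ∧ ‖x‖ ≤ 2 * b then 4 / b else 0) := by
      rw [pdr_one_sub]
      exact pdr_st_le hK h0 d3 i A (by split_ifs <;> positivity) (rad_grad hb x i A)
    have b2 : |pdr i A (fun y : X3 => Real.smoothTransition (q2 y / δ ^ 2 - 1)) x| ≤
        K₀ * (if rho6sq x ≤ 2 * δ ^ 2 * ‖x‖ ^ 2 then (C2 + C4) / (δ ^ 2 * ‖x‖) else 0) := by
      refine pdr_st_le hK h0 d2 i A (by split_ifs <;> positivity) fun e0 e1 => ?_
      have e2 : rho6sq x ≤ 2 * δ ^ 2 * ‖x‖ ^ 2 := by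
        have : q2 x / δ ^ 2 ≤ 2 := by linarith
        rwa [div_le_iff₀ (by positivity), q2, div_le_iff₀ (by positivity)] at this
      rw [if_pos e2]
      have e3 : pdr i A (fun y : X3 => q2 y / δ ^ 2 - 1) x = pdr i A q2 x / δ ^ 2 := by
        unfold pdr
        rw [fderiv_sub_const]
        simp only [div_eq_mul_inv]
        rw [fderiv_mul_const dq2]
        show (δ ^ 2)⁻¹ * (fderiv ℝ q2 x) (EuclideanSpace.single (i, A) (1 : ℝ)) = _
        ring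
      rw [e3, abs_div, abs_of_pos (show 0 < δ ^ 2 by positivity), div_le_iff₀ (by positivity)]
      refine (h2 x hx0 i A).trans ?_
      have e4 : (C2 + C4) / (δ ^ 2 * ‖x‖) * δ ^ 2 = (C2 + C4) / ‖x‖ := by
        field_simp
      rw [e4]
      exact div_le_div_of_nonneg_right (by linarith) hn.le
    have b4 : |pdr i A (fun y : X3 => 1 - Real.smoothTransition (4 / ε ^ 2 * q4 S y - 1)) x| ≤
        K₀ * (if ε ^ 2 * ‖x‖ ^ 4 ≤ 4 * S.V x then 4 * (C2 + C4) / (ε ^ 2 * ‖x‖) else 0) := by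
      rw [pdr_one_sub]
      refine pdr_st_le hK h0 d4 i A (by split_ifs <;> positivity) fun e0 e1 => ?_
      have e2 : ε ^ 2 * ‖x‖ ^ 4 ≤ 4 * S.V x := by
        have e5 : 1 ≤ 4 / ε ^ 2 * q4 S x := by linarith
        have h7 : 4 / ε ^ 2 * (S.V x / ‖x‖ ^ 4) = 4 * S.V x / (ε ^ 2 * ‖x‖ ^ 4) := by
          field_simp
        rw [q4, h7, le_div_iff₀ (by positivity)] at e5
        linarith
      rw [if_pos e2]
      have e3 : pdr i A (fun y : X3 => 4 / ε ^ 2 * q4 S y - 1) x = 4 / ε ^ 2 * pdr i A (q4 S) x := by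
        unfold pdr
        rw [fderiv_sub_const, fderiv_const_mul dq4]
        rfl
      rw [e3, abs_mul, abs_of_pos (show 0 < 4 / ε ^ 2 by positivity)]
      have e5 := mul_le_mul_of_nonneg_left (h4 x hx0 i A) (show 0 ≤ 4 / ε ^ 2 by positivity)
      refine e5.trans ?_
      have e4 : 4 * (C2 + C4) / (ε ^ 2 * ‖x‖) = 4 / ε ^ 2 * ((C2 + C4) / ‖x‖) := by
        field_simp
      rw [e4]
      exact mul_le_mul_of_nonneg_left (div_le_div_of_nonneg_right (by linarith) hn.le)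
        (by positivity)
    have p13 := pdr_mul_le s1 s3 (st_abs _) (st_abs' _) i A
    have p24 := pdr_mul_le s2 s4 (st_abs _) (st_abs' _) i A
    have m13 : |Real.smoothTransition (‖x‖ ^ 2 / a ^ 2 - 1) *
        (1 - Real.smoothTransition (‖x‖ ^ 2 / b ^ 2 - 1))| ≤ 1 := by
      rw [abs_mul]; exact mul_le_one₀ (st_abs _) (abs_nonneg _) (st_abs' _)
    have m24 : |Real.smoothTransition (q2 x / δ ^ 2 - 1) *
        (1 - Real.smoothTransition (4 / ε ^ 2 * q4 S x - 1))| ≤ 1 := by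
      rw [abs_mul]; exact mul_le_one₀ (st_abs _) (abs_nonneg _) (st_abs' _)
    have pall := pdr_mul_le (s1.mul s3) (s2.mul s4) m13 m24 i A
    have heq : ct S a b δ ε = fun y : X3 => (Real.smoothTransition (‖y‖ ^ 2 / a ^ 2 - 1) *
        (1 - Real.smoothTransition (‖y‖ ^ 2 / b ^ 2 - 1))) *
        (Real.smoothTransition (q2 y / δ ^ 2 - 1) *
        (1 - Real.smoothTransition (4 / ε ^ 2 * q4 S y - 1))) := rfl
    rw [heq]
    refine pall.trans ?_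
    unfold gB
    rw [mul_add, mul_add, mul_add]
    exact add_le_add (p13.trans (add_le_add b1 b3)) (p24.trans (add_le_add b2 b4))
  · have h1 : pdr i A (ct S a b δ ε) x = 0 := by
      rw [pdr, (ct_ev ha hb hδ hε hx).fderiv_eq]
      simp
    rw [h1, abs_zero]
    exact mul_nonneg hK0 (gB_nonneg S (by positivity) ha hb hδ hε x)

end Vale.Agent.P353.U
end

section

/-! # P353, D-Out, part D: the outer state and pointwise bounds -/

set_option linter.all false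

open MeasureTheory Filter Topology
open scoped ContDiff

namespace Vale.Agent.P353.U

variable {F : Type*} [NormedAddCommGroup F] [InnerProductSpace ℂ F]

/-! ### products with invariant functions -/

lemma fd_rsmul {φ : X3 → ℝ} {v : X3 → F} {x : X3} (hφ : DifferentiableAt ℝ φ x)
    (hv : DifferentiableAt ℝ v x) (ξ : X3) :
    fderiv ℝ (fun y => ((φ y : ℝ) : ℂ) • v y) x ξ =
      ((fderiv ℝ φ x ξ : ℝ) : ℂ) • v x + ((φ x : ℝ) : ℂ) • fderiv ℝ v x ξ := by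
  have hc : DifferentiableAt ℝ (fun y => ((φ y : ℝ) : ℂ)) x :=
    Complex.ofRealCLM.differentiableAt.comp x hφ
  rw [fderiv_fun_smul hc hv]
  have := fderiv_ofReal_comp hφ ξ
  simp only [_root_.add_apply, _root_.smul_apply, ContinuousLinearMap.smulRight_apply, this]
  rw [add_comm]

lemma G_HI (S : Setup F) (C : Fin 3) {φ : X3 → ℝ} {v : X3 → F} {x : X3} (hφ : HI φ x)
    (hv : DifferentiableAt ℝ v x) :
    S.G C (fun y => ((φ y : ℝ) : ℂ) • v y) x = ((φ x : ℝ) : ℂ) • S.G C v x := by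
  rw [Setup.G, Setup.G, ← fderiv_kk, ← fderiv_kk, fd_rsmul hφ.1 hv, hφ.2 _ (Or.inl ⟨C, rfl⟩)]
  rw [Complex.ofReal_zero, zero_smul, zero_add, map_smul, smul_add,
    smul_comm (-Complex.I) ((φ x : ℝ) : ℂ)]

lemma J_HI (S : Setup F) {k l : Fin 9} (hkl : Same k l) {φ : X3 → ℝ} {v : X3 → F} {x : X3}
    (hφ : HI φ x) (hv : DifferentiableAt ℝ v x) :
    S.J k l (fun y => ((φ y : ℝ) : ℂ) • v y) x = ((φ x : ℝ) : ℂ) • S.J k l v x := by
  rw [Setup.J, Setup.J, ← fderiv_jj, ← fderiv_jj, fd_rsmul hφ.1 hv,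
    hφ.2 _ (Or.inr ⟨k, l, hkl, rfl⟩)]
  rw [Complex.ofReal_zero, zero_smul, zero_add, map_smul, smul_add,
    smul_comm (-Complex.I) ((φ x : ℝ) : ℂ)]

/-! ### the weight `φ_m` -/

lemma cd_ph (S : Setup F) (m : ℝ) {x : X3} (hx : x ≠ 0) : ContDiffAt ℝ ∞ (S.ph m) x := by
  unfold Setup.ph
  have hn : ContDiffAt ℝ ∞ (fun y : X3 => ‖y‖) x := contDiffAt_norm ℝ hx
  have hw : ContDiff ℝ ∞ (fun y : X3 => ∑ i, ∑ A, aw i * y (i, A) ^ 2) :=
    ContDiff.sum fun i _ => ContDiff.sum fun A _ =>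
      contDiff_const.mul ((Setup.contDiff_coord (i, A)).pow 2)
  refine (hn.pow 3).mul (ContDiffAt.exp ?_)
  refine ContDiffAt.sub (ContDiffAt.neg ?_) (contDiffAt_const.mul hw.contDiffAt)
  exact (contDiff_V S).contDiffAt.div (contDiffAt_const.mul hn)
    (mul_ne_zero S.κ_pos.ne' (norm_ne_zero_iff.2 hx))

lemma HI_ph (S : Setup F) (m : ℝ) {x : X3} (hx : x ≠ 0) : HI (S.ph m) x := by
  unfold Setup.ph
  refine ((HI_norm hx).pow 3).mul (HI.comp (φ := Real.exp) ?_ Real.differentiable_exp.differentiableAt)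
  refine HI.sub ?_ ((HI.const _ x).mul (HI_aw x))
  have h1 : HI (fun y : X3 => S.V y / (S.κ * ‖y‖)) x :=
    (HI_V S x).div ((HI.const _ x).mul (HI_norm hx))
      (mul_ne_zero S.κ_pos.ne' (norm_ne_zero_iff.2 hx))
  exact h1.comp (φ := fun s => -s) differentiable_neg.differentiableAt

lemma ww_ge (x : X3) : ‖x‖ ^ 2 ≤ ∑ i, ∑ A, aw i * x (i, A) ^ 2 := by
  rw [normsq_eq_Qw, Qw]
  refine Finset.sum_le_sum fun i _ => Finset.sum_le_sum fun A _ => ?_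
  refine mul_le_mul_of_nonneg_right ?_ (sq_nonneg _)
  unfold aw
  split_ifs <;> norm_num

lemma ww_le (x : X3) : ∑ i, ∑ A, aw i * x (i, A) ^ 2 ≤ 2 * ‖x‖ ^ 2 := by
  rw [normsq_eq_Qw, Qw, Finset.mul_sum]
  refine Finset.sum_le_sum fun i _ => ?_
  rw [Finset.mul_sum]
  refine Finset.sum_le_sum fun A _ => ?_
  rw [one_mul]
  refine mul_le_mul_of_nonneg_right ?_ (sq_nonneg _)
  unfold aw
  split_ifs <;> norm_num

/-- `e^{-V/(κρ)}` -/
noncomputable def oEE (S : Setup F) (x : X3) : ℝ := Real.exp (-(2 * (1 / (2 * S.κ)) * S.V x / ‖x‖))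

lemma oEE_eq (S : Setup F) (x : X3) : oEE S x = Real.exp (-(S.V x / (S.κ * ‖x‖))) := by
  unfold oEE
  congr 2
  have := S.κ_pos
  by_cases h : ‖x‖ = 0
  · rw [h]; simp
  · field_simp

lemma oEE_pos (S : Setup F) (x : X3) : 0 < oEE S x := Real.exp_pos _

lemma oEE_le_one (S : Setup F) (x : X3) : oEE S x ≤ 1 := by
  rw [oEE_eq, Real.exp_le_one_iff, neg_nonpos]
  exact div_nonneg (S.V_nonneg x) (mul_nonneg S.κ_pos.le (norm_nonneg _))

lemma ph_nonneg (S : Setup F) (m : ℝ) (x : X3) : 0 ≤ S.ph m x := by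
  unfold Setup.ph; positivity

lemma ph_sq (S : Setup F) (m : ℝ) (x : X3) : S.ph m x ^ 2 =
    ‖x‖ ^ 6 * oEE S x ^ 2 * Real.exp (-(m * ∑ i, ∑ A, aw i * x (i, A) ^ 2)) := by
  rw [oEE_eq, Setup.ph, mul_pow, ← Real.exp_nat_mul, ← Real.exp_nat_mul, mul_assoc, ← Real.exp_add]
  congr 1
  · ring
  · congr 1
    push_cast
    ring

lemma ph_sq_le (S : Setup F) {m : ℝ} (hm : 0 ≤ m) (x : X3) :
    S.ph m x ^ 2 ≤ ‖x‖ ^ 6 * oEE S x ^ 2 * Real.exp (-(m * ‖x‖ ^ 2)) := by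
  rw [ph_sq]
  refine mul_le_mul_of_nonneg_left ?_ (by positivity)
  rw [Real.exp_le_exp, neg_le_neg_iff]
  exact mul_le_mul_of_nonneg_left (ww_ge x) hm

lemma ph_sq_le' (S : Setup F) {m : ℝ} (hm : 0 ≤ m) (x : X3) :
    S.ph m x ^ 2 ≤ ‖x‖ ^ 6 * oEE S x ^ 2 := by
  refine (ph_sq_le S hm x).trans ?_
  refine mul_le_of_le_one_right (by have := oEE_pos S x; positivity) ?_
  rw [Real.exp_le_one_iff, neg_nonpos]
  positivity

lemma ph_sq_ge (S : Setup F) {m : ℝ} (hm : 0 ≤ m) (x : X3) :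
    ‖x‖ ^ 6 * oEE S x ^ 2 * Real.exp (-(2 * m * ‖x‖ ^ 2)) ≤ S.ph m x ^ 2 := by
  rw [ph_sq]
  refine mul_le_mul_of_nonneg_left ?_ (by positivity)
  rw [Real.exp_le_exp, neg_le_neg_iff]
  refine (mul_le_mul_of_nonneg_left (ww_le x) hm).trans (le_of_eq ?_)
  ring

lemma VE_le (S : Setup F) {x : X3} (hx : x ≠ 0) : S.V x * oEE S x ≤ S.κ * ‖x‖ := by
  have hn : 0 < ‖x‖ := norm_pos_iff.2 hx
  have hκ := S.κ_pos
  rw [oEE_eq, Real.exp_neg, ← div_eq_mul_inv, div_le_iff₀ (Real.exp_pos _)]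
  have h1 := Real.add_one_le_exp (S.V x / (S.κ * ‖x‖))
  have h2 : S.V x = S.κ * ‖x‖ * (S.V x / (S.κ * ‖x‖)) := by field_simp
  calc S.V x = S.κ * ‖x‖ * (S.V x / (S.κ * ‖x‖)) := h2
    _ ≤ S.κ * ‖x‖ * Real.exp (S.V x / (S.κ * ‖x‖)) := by
      refine mul_le_mul_of_nonneg_left (by linarith) (by positivity)

lemma V3E_le (S : Setup F) {x : X3} (hx : x ≠ 0) :
    S.V x ^ 3 * oEE S x ≤ 6 * S.κ ^ 3 * ‖x‖ ^ 3 := by
  have hn : 0 < ‖x‖ := norm_pos_iff.2 hx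
  have hκ := S.κ_pos
  rw [oEE_eq, Real.exp_neg, ← div_eq_mul_inv, div_le_iff₀ (Real.exp_pos _)]
  have h0 : 0 ≤ S.V x / (S.κ * ‖x‖) := div_nonneg (S.V_nonneg x) (by positivity)
  have h1 := Real.pow_div_factorial_le_exp (S.V x / (S.κ * ‖x‖)) h0 3
  have h3 : ((Nat.factorial 3 : ℕ) : ℝ) = 6 := by norm_num [Nat.factorial]
  rw [h3, div_le_iff₀ (by norm_num)] at h1
  have h2 : S.V x ^ 3 = S.κ ^ 3 * ‖x‖ ^ 3 * (S.V x / (S.κ * ‖x‖)) ^ 3 := by field_simp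
  calc S.V x ^ 3 = S.κ ^ 3 * ‖x‖ ^ 3 * (S.V x / (S.κ * ‖x‖)) ^ 3 := h2
    _ ≤ S.κ ^ 3 * ‖x‖ ^ 3 * (Real.exp (S.V x / (S.κ * ‖x‖)) * 6) := by
      refine mul_le_mul_of_nonneg_left h1 (by positivity)
    _ = _ := by ring

/-- the quantity of D-Est -/
noncomputable def tt (S : Setup F) (m : ℝ) (x : X3) : ℝ :=
  (S.V x) ^ (3 / 2 : ℝ) / ‖x‖ ^ 4 + Real.sqrt (S.V x) / ‖x‖ ^ 3 + m * Real.sqrt (S.V x) / ‖x‖

lemma tt_sq (S : Setup F) (m : ℝ) (x : X3) : tt S m x ^ 2 ≤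
    3 * (S.V x ^ 3 / ‖x‖ ^ 8 + S.V x / ‖x‖ ^ 6 + m ^ 2 * S.V x / ‖x‖ ^ 2) := by
  have hV := S.V_nonneg x
  have h1 : ((S.V x) ^ (3 / 2 : ℝ)) ^ 2 = S.V x ^ 3 := by
    rw [← Real.rpow_natCast, ← Real.rpow_mul hV, ← Real.rpow_natCast (S.V x) 3]
    norm_num
  have h2 : Real.sqrt (S.V x) ^ 2 = S.V x := Real.sq_sqrt hV
  have e1 : S.V x ^ 3 / ‖x‖ ^ 8 = ((S.V x) ^ (3 / 2 : ℝ) / ‖x‖ ^ 4) ^ 2 := by
    rw [div_pow, h1, ← pow_mul]
  have e2 : S.V x / ‖x‖ ^ 6 = (Real.sqrt (S.V x) / ‖x‖ ^ 3) ^ 2 := by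
    rw [div_pow, h2, ← pow_mul]
  have e3 : m ^ 2 * S.V x / ‖x‖ ^ 2 = (m * Real.sqrt (S.V x) / ‖x‖) ^ 2 := by
    rw [div_pow, mul_pow, h2]
  rw [e1, e2, e3]
  unfold tt
  nlinarith [sq_nonneg ((S.V x) ^ (3 / 2 : ℝ) / ‖x‖ ^ 4 - Real.sqrt (S.V x) / ‖x‖ ^ 3),
    sq_nonneg ((S.V x) ^ (3 / 2 : ℝ) / ‖x‖ ^ 4 - m * Real.sqrt (S.V x) / ‖x‖),
    sq_nonneg (Real.sqrt (S.V x) / ‖x‖ ^ 3 - m * Real.sqrt (S.V x) / ‖x‖)]

lemma ph_tt (S : Setup F) {m : ℝ} (hm : 0 ≤ m) {x : X3} (hx : x ≠ 0) :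
    S.ph m x ^ 2 * tt S m x ^ 2 ≤
      3 * oEE S x * (6 * S.κ ^ 3 * ‖x‖ + S.κ * ‖x‖ + S.κ * m ^ 2 * ‖x‖ ^ 5) := by
  have hn : 0 < ‖x‖ := norm_pos_iff.2 hx
  have hE := oEE_pos S x
  have hV := S.V_nonneg x
  have hκ := S.κ_pos
  have a1 := VE_le S hx
  have a3 := V3E_le S hx
  calc S.ph m x ^ 2 * tt S m x ^ 2
      ≤ (‖x‖ ^ 6 * oEE S x ^ 2) * (3 * (S.V x ^ 3 / ‖x‖ ^ 8 + S.V x / ‖x‖ ^ 6 +
        m ^ 2 * S.V x / ‖x‖ ^ 2)) :=
        mul_le_mul (ph_sq_le' S hm x) (tt_sq S m x) (sq_nonneg _) (by positivity)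
    _ = 3 * oEE S x * ((S.V x ^ 3 * oEE S x) / ‖x‖ ^ 2 + S.V x * oEE S x +
        m ^ 2 * ‖x‖ ^ 4 * (S.V x * oEE S x)) := by
        field_simp
    _ ≤ 3 * oEE S x * ((6 * S.κ ^ 3 * ‖x‖ ^ 3) / ‖x‖ ^ 2 + S.κ * ‖x‖ +
        m ^ 2 * ‖x‖ ^ 4 * (S.κ * ‖x‖)) := by
        refine mul_le_mul_of_nonneg_left ?_ (by positivity)
        refine add_le_add (add_le_add ?_ a1) ?_
        · exact div_le_div_of_nonneg_right a3 (by positivity)
        · exact mul_le_mul_of_nonneg_left a1 (by positivity)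
    _ = _ := by
        field_simp

/-! ### bounds for the gradient terms -/

section

variable (S : Setup F) {Cq a b δ ε m : ℝ}

lemma shl_EE (a b : ℝ) (P : Set X3) {x : X3} (h1 : a ≤ ‖x‖) (h2 : ‖x‖ ≤ b) (h3 : x ∈ P) :
    shl S (2 * (1 / (2 * S.κ))) a b P x = oEE S x :=
  shl_of_mem S _ a b P h1 h2 h3

lemma g1_bd (ha : 0 < a) (hm : 0 ≤ m) (x : X3) :
    (if a ≤ ‖x‖ ∧ ‖x‖ ≤ 2 * a then 4 / a else 0) ^ 2 * S.ph m x ^ 2 ≤
      1024 * a ^ 4 * Real.exp (-(m * a ^ 2)) *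
        shl S (2 * (1 / (2 * S.κ))) a (2 * a) Set.univ x := by
  have hE := oEE_pos S x
  by_cases h : a ≤ ‖x‖ ∧ ‖x‖ ≤ 2 * a
  · rw [if_pos h, shl_EE S a (2 * a) Set.univ h.1 h.2 (Set.mem_univ _)]
    have h1 : S.ph m x ^ 2 ≤ (2 * a) ^ 6 * oEE S x * Real.exp (-(m * a ^ 2)) := by
      refine (ph_sq_le S hm x).trans ?_
      have e1 : ‖x‖ ^ 6 ≤ (2 * a) ^ 6 := pow_le_pow_left₀ (norm_nonneg _) h.2 6
      have e2 : oEE S x ^ 2 ≤ oEE S x := by
        rw [sq]; exact mul_le_of_le_one_left hE.le (oEE_le_one S x)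
      have e3 : Real.exp (-(m * ‖x‖ ^ 2)) ≤ Real.exp (-(m * a ^ 2)) := by
        rw [Real.exp_le_exp, neg_le_neg_iff]
        exact mul_le_mul_of_nonneg_left (pow_le_pow_left₀ ha.le h.1 2) hm
      gcongr
    calc (4 / a) ^ 2 * S.ph m x ^ 2
        ≤ (4 / a) ^ 2 * ((2 * a) ^ 6 * oEE S x * Real.exp (-(m * a ^ 2))) :=
          mul_le_mul_of_nonneg_left h1 (by positivity)
      _ = _ := by field_simp; ring
  · rw [if_neg h, zero_pow two_ne_zero, zero_mul]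
    exact mul_nonneg (by positivity) (shl_nonneg _ _ _ _ _ _)

lemma g2_bd (ha : 0 < a) (hb : 0 < b) (hδ : 0 < δ) (hm : 0 ≤ m) (x : X3)
    (h1 : a ≤ ‖x‖) (h2 : ‖x‖ ≤ 2 * b) :
    (if rho6sq x ≤ 2 * δ ^ 2 * ‖x‖ ^ 2 then Cq / (δ ^ 2 * ‖x‖) else 0) ^ 2 * S.ph m x ^ 2 ≤
      16 * Cq ^ 2 * b ^ 4 / δ ^ 4 *
        shl S (2 * (1 / (2 * S.κ))) a (2 * b) {x | rho6sq x ≤ (2 * δ) ^ 2 * ‖x‖ ^ 2} x := by
  have hE := oEE_pos S x
  have hn : 0 < ‖x‖ := ha.trans_le h1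
  by_cases h : rho6sq x ≤ 2 * δ ^ 2 * ‖x‖ ^ 2
  · have hP : x ∈ {x : X3 | rho6sq x ≤ (2 * δ) ^ 2 * ‖x‖ ^ 2} := by
      show rho6sq x ≤ (2 * δ) ^ 2 * ‖x‖ ^ 2
      have : 0 ≤ δ ^ 2 * ‖x‖ ^ 2 := by positivity
      nlinarith
    rw [if_pos h, shl_EE S a (2 * b) _ h1 h2 hP]
    have h3 : S.ph m x ^ 2 ≤ ‖x‖ ^ 6 * oEE S x := by
      refine (ph_sq_le' S hm x).trans ?_
      have e2 : oEE S x ^ 2 ≤ oEE S x := by
        rw [sq]; exact mul_le_of_le_one_left hE.le (oEE_le_one S x)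
      gcongr
    calc (Cq / (δ ^ 2 * ‖x‖)) ^ 2 * S.ph m x ^ 2
        ≤ (Cq / (δ ^ 2 * ‖x‖)) ^ 2 * (‖x‖ ^ 6 * oEE S x) :=
          mul_le_mul_of_nonneg_left h3 (by positivity)
      _ = Cq ^ 2 / δ ^ 4 * ‖x‖ ^ 4 * oEE S x := by field_simp
      _ ≤ Cq ^ 2 / δ ^ 4 * (2 * b) ^ 4 * oEE S x := by
          have e1 : ‖x‖ ^ 4 ≤ (2 * b) ^ 4 := pow_le_pow_left₀ (norm_nonneg _) h2 4
          gcongr
      _ = _ := by ring
  · rw [if_neg h, zero_pow two_ne_zero, zero_mul]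
    exact mul_nonneg (by positivity) (shl_nonneg _ _ _ _ _ _)

lemma g4_bd (ha : 0 < a) (hb : 0 < b) (hε : 0 < ε) (hm : 0 ≤ m) (x : X3)
    (h1 : a ≤ ‖x‖) (h2 : ‖x‖ ≤ 2 * b) :
    (if ε ^ 2 * ‖x‖ ^ 4 ≤ 4 * S.V x then 4 * Cq / (ε ^ 2 * ‖x‖) else 0) ^ 2 * S.ph m x ^ 2 ≤
      128 * Cq ^ 2 * S.κ / ε ^ 6 * b *
        shl S (2 * (1 / (2 * S.κ))) a (2 * b) Set.univ x := by
  have hE := oEE_pos S x
  have hn : 0 < ‖x‖ := ha.trans_le h1
  have hx : x ≠ 0 := norm_pos_iff.1 hn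
  have hκ := S.κ_pos
  by_cases h : ε ^ 2 * ‖x‖ ^ 4 ≤ 4 * S.V x
  · rw [if_pos h, shl_EE S a (2 * b) _ h1 h2 (Set.mem_univ _)]
    have e0 : ‖x‖ ^ 4 ≤ 4 * S.V x / ε ^ 2 := by
      rw [le_div_iff₀ (by positivity)]
      linarith
    calc (4 * Cq / (ε ^ 2 * ‖x‖)) ^ 2 * S.ph m x ^ 2
        ≤ (4 * Cq / (ε ^ 2 * ‖x‖)) ^ 2 * (‖x‖ ^ 6 * oEE S x ^ 2) :=
          mul_le_mul_of_nonneg_left (ph_sq_le' S hm x) (by positivity)
      _ = 16 * Cq ^ 2 / ε ^ 4 * oEE S x ^ 2 * ‖x‖ ^ 4 := by field_simp; ring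
      _ ≤ 16 * Cq ^ 2 / ε ^ 4 * oEE S x ^ 2 * (4 * S.V x / ε ^ 2) := by gcongr
      _ = 64 * Cq ^ 2 / ε ^ 6 * oEE S x * (S.V x * oEE S x) := by field_simp; ring
      _ ≤ 64 * Cq ^ 2 / ε ^ 6 * oEE S x * (S.κ * (2 * b)) := by
          refine mul_le_mul_of_nonneg_left ((VE_le S hx).trans ?_) (by positivity)
          exact mul_le_mul_of_nonneg_left h2 hκ.le
      _ = _ := by ring
  · rw [if_neg h, zero_pow two_ne_zero, zero_mul]
    exact mul_nonneg (by positivity) (shl_nonneg _ _ _ _ _ _)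

end

end Vale.Agent.P353.U
end

section

/-! # P353, D-Out: the outer state -/

set_option linter.all false

open MeasureTheory Filter Topology
open scoped ContDiff

namespace Vale.Agent.P353.U

variable {F : Type*} [NormedAddCommGroup F] [InnerProductSpace ℂ F]

/-- the outer state -/
noncomputable def uu (S : Setup F) (Ω : F) (m a b δ ε : ℝ) (x : X3) : F :=
  ((ct S a b δ ε x : ℝ) : ℂ) • (((S.ph m x : ℝ) : ℂ) • S.vv Ω x)

section

variable (S : Setup F)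

lemma pd_ev0 {u : X3 → F} {x : X3} (h : u =ᶠ[𝓝 x] fun _ => 0) (i : Fin 9) (A : Fin 3) :
    pd i A u x = 0 := by
  unfold pd
  rw [h.fderiv_eq]
  simp

lemma G_ev0 {u : X3 → F} {x : X3} (h : u =ᶠ[𝓝 x] fun _ => 0) (C : Fin 3) : S.G C u x = 0 := by
  unfold Setup.G
  simp only [pd_ev0 h, h.eq_of_nhds, smul_zero, Finset.sum_const_zero, map_zero, add_zero]

lemma J_ev0 {u : X3 → F} {x : X3} (h : u =ᶠ[𝓝 x] fun _ => 0) (k l : Fin 9) :
    S.J k l u x = 0 := by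
  unfold Setup.J
  simp only [pd_ev0 h, h.eq_of_nhds, smul_zero, sub_zero, Finset.sum_const_zero, map_zero, add_zero]

lemma Qm_ev0 {u : X3 → F} {x : X3} (h : u =ᶠ[𝓝 x] fun _ => 0) (m : ℝ) (β : Fin 16) :
    S.Qm m β u x = 0 := by
  unfold Setup.Qm Setup.Q
  simp only [pd_ev0 h, h.eq_of_nhds, map_zero, Finset.sum_const_zero, smul_zero, add_zero]

variable {S} {Ω : F} {m a b δ ε : ℝ}

lemma uu_ev (ha : 0 < a) (hb : 0 < b) (hδ : 0 < δ) (hε : 0 < ε) {x : X3}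
    (hx : x ∉ Rg S a b δ ε) : uu S Ω m a b δ ε =ᶠ[𝓝 x] fun _ => 0 := by
  filter_upwards [ct_ev ha hb hδ hε hx] with y hy
  rw [uu, hy, Complex.ofReal_zero, zero_smul]

lemma ww_cd (hs : SmStmt S) (hΩ : ∀ A α, S.am A α Ω = 0) {x : X3} (hx : 0 < rho6sq x) :
    ContDiffAt ℝ ∞ (fun y => ((S.ph m y : ℝ) : ℂ) • S.vv Ω y) x := by
  have hx0 : x ≠ 0 := by
    rintro rfl
    have := out_rho6_le (0 : X3)
    rw [norm_zero] at this
    norm_num at this
    linarith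
  have h1 : ContDiffAt ℝ ∞ (S.vv Ω) x :=
    (hs Ω hΩ).2.1.contDiffAt ((isOpen_lt continuous_const out_rho6_cont).mem_nhds hx)
  exact (Complex.ofRealCLM.contDiff.contDiffAt.comp x (cd_ph S m hx0)).smul h1

lemma uu_Tst (hs : SmStmt S) (hΩ : ∀ A α, S.am A α Ω = 0) (ha : 0 < a) (hb : 0 < b) (hδ : 0 < δ)
    (hε : 0 < ε) : Setup.Tst (uu S Ω m a b δ ε) := by
  constructor
  · rw [contDiff_iff_contDiffAt]
    intro x
    by_cases hx : x ∈ Rg S a b δ ε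
    · have h1 : ContDiffAt ℝ ∞ (fun y => ((ct S a b δ ε y : ℝ) : ℂ)) x :=
        Complex.ofRealCLM.contDiff.contDiffAt.comp x (cd_ct (S := S) ha hb hδ hε).contDiffAt
      have h2 := ww_cd (m := m) hs hΩ (Rg_pos ha hδ hx)
      exact h1.smul h2
    · have h := uu_ev (S := S) (Ω := Ω) (m := m) ha hb hδ hε hx
      exact contDiffAt_const.congr_of_eventuallyEq h
  · refine (ct_hcs (S := S) ha hb hδ hε).mono ?_
    intro x hx
    simp only [Function.mem_support] at hx ⊢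
    intro h0
    exact hx (by rw [uu, h0, Complex.ofReal_zero, zero_smul])

lemma uu_Inv (hs : SmStmt S) (hΩ : ∀ A α, S.am A α Ω = 0) (ha : 0 < a) (hb : 0 < b) (hδ : 0 < δ)
    (hε : 0 < ε) : S.Inv (uu S Ω m a b δ ε) := by
  refine ⟨uu_Tst hs hΩ ha hb hδ hε, fun C x => ?_, fun k l hkl x => ?_⟩
  · by_cases hx : x ∈ Rg S a b δ ε
    · have hp := Rg_pos ha hδ hx
      have h0 := Rg_ne ha hx
      have hv : DifferentiableAt ℝ (S.vv Ω) x :=
        ((hs Ω hΩ).2.1.contDiffAt ((isOpen_lt continuous_const out_rho6_cont).mem_nhds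
          hp)).differentiableAt (by simp)
      have hw := (ww_cd (m := m) hs hΩ hp).differentiableAt (by simp)
      have e1 := G_HI S C (HI_ct (S := S) ha hb hδ hε x) hw
      have e2 := G_HI S C (HI_ph S m h0) hv
      have e3 := (((hs Ω hΩ).2.2.2.2.2 x hp).1 C).2
      show S.G C (fun y => ((ct S a b δ ε y : ℝ) : ℂ) • (((S.ph m y : ℝ) : ℂ) • S.vv Ω y)) x = 0
      rw [e1, e2, e3, smul_zero, smul_zero]
    · exact G_ev0 S (uu_ev ha hb hδ hε hx) C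
  · by_cases hx : x ∈ Rg S a b δ ε
    · have hp := Rg_pos ha hδ hx
      have h0 := Rg_ne ha hx
      have hv : DifferentiableAt ℝ (S.vv Ω) x :=
        ((hs Ω hΩ).2.1.contDiffAt ((isOpen_lt continuous_const out_rho6_cont).mem_nhds
          hp)).differentiableAt (by simp)
      have hw := (ww_cd (m := m) hs hΩ hp).differentiableAt (by simp)
      have e1 := J_HI S hkl (HI_ct (S := S) ha hb hδ hε x) hw
      have e2 := J_HI S hkl (HI_ph S m h0) hv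
      have e3 := (((hs Ω hΩ).2.2.2.2.2 x hp).2 k l hkl).2
      show S.J k l (fun y => ((ct S a b δ ε y : ℝ) : ℂ) • (((S.ph m y : ℝ) : ℂ) • S.vv Ω y)) x = 0
      rw [e1, e2, e3, smul_zero, smul_zero]
    · exact J_ev0 S (uu_ev ha hb hδ hε hx) k l

end

/-- `∑_{i,A} ‖(γ^iθ^A)_β‖` -/
noncomputable def Nb (S : Setup F) (β : Fin 16) : ℝ := ∑ i, ∑ A, ‖S.vec (S.g i) A β‖

lemma Nb_nonneg (S : Setup F) (β : Fin 16) : 0 ≤ Nb S β :=
  Finset.sum_nonneg fun i _ => Finset.sum_nonneg fun A _ => norm_nonneg _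

lemma gradOp_le (S : Setup F) {χ : X3 → ℝ} {x : X3} {D : ℝ}
    (h : ∀ i A, |pdr i A χ x| ≤ D) (β : Fin 16) : ‖S.gradOp χ β x‖ ≤ D * Nb S β := by
  rw [Setup.gradOp, norm_smul, norm_neg, Complex.norm_I, one_mul, Nb, Finset.mul_sum]
  refine (norm_sum_le _ _).trans (Finset.sum_le_sum fun i _ => ?_)
  rw [Finset.mul_sum]
  refine (norm_sum_le _ _).trans (Finset.sum_le_sum fun A _ => ?_)
  rw [norm_smul, Complex.norm_real]
  exact mul_le_mul_of_nonneg_right (h i A) (norm_nonneg _)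

lemma final_arith {L K₀ c N C2 ft gf P s1 s2 s3 s4 X1 X2 X3 X4 b mb : ℝ} (hN : 0 ≤ N)
    (hX4 : 0 ≤ X4) (hb : 0 ≤ b) (hmb : 0 ≤ mb) (hs4 : 0 ≤ s4)
    (hsum : L ≤ 32 * C2 * ft + (8 * K₀ ^ 2 * c ^ 2) * gf * N)
    (hA : 32 * C2 * ft ≤ 96 * C2 * P * (b + mb) * s4)
    (hB : gf ≤ 4 * (X1 * s1 + X3 * s3 + X2 * s2 + X4 * b * s4)) :
    L ≤ (32 * K₀ ^ 2 * c ^ 2 * N) * (X1 * s1 + X3 * s3 + X2 * s2) +
      ((32 * K₀ ^ 2 * c ^ 2 * N) * X4 + 96 * C2 * P) * (b + mb) * s4 := by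
  have h1 : (8 * K₀ ^ 2 * c ^ 2) * gf * N ≤
      (8 * K₀ ^ 2 * c ^ 2) * (4 * (X1 * s1 + X3 * s3 + X2 * s2 + X4 * b * s4)) * N := by
    gcongr
  have h2 : 0 ≤ (32 * K₀ ^ 2 * c ^ 2 * N) * X4 * mb * s4 := by positivity
  have h3 : (8 * K₀ ^ 2 * c ^ 2) * (4 * (X1 * s1 + X3 * s3 + X2 * s2 + X4 * b * s4)) * N =
      (32 * K₀ ^ 2 * c ^ 2 * N) * (X1 * s1 + X3 * s3 + X2 * s2) +
      (32 * K₀ ^ 2 * c ^ 2 * N) * X4 * b * s4 := by ring
  have h4 : ((32 * K₀ ^ 2 * c ^ 2 * N) * X4 + 96 * C2 * P) * (b + mb) * s4 =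
      (32 * K₀ ^ 2 * c ^ 2 * N) * X4 * b * s4 + (32 * K₀ ^ 2 * c ^ 2 * N) * X4 * mb * s4 +
      96 * C2 * P * (b + mb) * s4 := by ring
  rw [h3] at h1
  rw [h4]
  linarith

lemma term_bd (S : Setup F) (hs : SmStmt S) {Ω : F} (hΩ : ∀ A α, S.am A α Ω = 0)
    {K₀ Cq c Ce m a b δ ε : ℝ} (hK0 : 0 ≤ K₀) (hCq : 0 ≤ Cq)
    (ha : 0 < a) (hb : 0 < b) (hδ : 0 < δ) (hε : 0 < ε)
    (hG : ∀ i A (x : X3), |pdr i A (ct S a b δ ε) x| ≤ K₀ * gB S Cq a b δ ε x) {x : X3}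
    (hx : x ∈ Rg S a b δ ε) (hv2 : ‖S.vv Ω x‖ ≤ 2 * c) (β : Fin 16)
    (hQ : ‖S.Qm m β (fun y => ((S.ph m y : ℝ) : ℂ) • S.vv Ω y) x‖ ≤ Ce * S.ph m x * tt S m x) :
    ‖S.Qm m β (uu S Ω m a b δ ε) x‖ ^ 2 ≤
        2 * Ce ^ 2 * (S.ph m x ^ 2 * tt S m x ^ 2) +
          (8 * K₀ ^ 2 * c ^ 2) * (gB S Cq a b δ ε x ^ 2 * S.ph m x ^ 2) * Nb S β ^ 2 := by
  have hp := Rg_pos ha hδ hx
  have hw := (ww_cd (m := m) hs hΩ hp).differentiableAt (by simp)
  have hφ := ph_nonneg S m x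
  have hg0 : 0 ≤ gB S Cq a b δ ε x := gB_nonneg S hCq ha hb hδ hε x
  have e1 : S.Qm m β (uu S Ω m a b δ ε) x = ((ct S a b δ ε x : ℝ) : ℂ) •
      S.Qm m β (fun y => ((S.ph m y : ℝ) : ℂ) • S.vv Ω y) x +
      S.gradOp (ct S a b δ ε) β x (((S.ph m x : ℝ) : ℂ) • S.vv Ω x) := by
    have h1 := S.Q_cut (ct S a b δ ε) β (fun y => ((S.ph m y : ℝ) : ℂ) • S.vv Ω y) x
      (HI_ct ha hb hδ hε x).1 hw
    have h2 : S.Q β (uu S Ω m a b δ ε) x = _ := h1
    have h3 : S.MM β x (uu S Ω m a b δ ε x) = ((ct S a b δ ε x : ℝ) : ℂ) •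
        S.MM β x (((S.ph m x : ℝ) : ℂ) • S.vv Ω x) := by rw [uu, map_smul]
    unfold Setup.Qm
    rw [h2, h3, smul_add, smul_comm (m : ℂ)]
    beta_reduce
    abel
  have n1 : ‖((ct S a b δ ε x : ℝ) : ℂ) •
      S.Qm m β (fun y => ((S.ph m y : ℝ) : ℂ) • S.vv Ω y) x‖ ≤ Ce * S.ph m x * tt S m x := by
    rw [norm_smul, Complex.norm_real, Real.norm_eq_abs]
    exact (mul_le_of_le_one_left (norm_nonneg _) (ct_abs x)).trans hQ
  have n2 : ‖S.gradOp (ct S a b δ ε) β x (((S.ph m x : ℝ) : ℂ) • S.vv Ω x)‖ ≤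
      (K₀ * gB S Cq a b δ ε x * Nb S β) * (S.ph m x * (2 * c)) := by
    refine (ContinuousLinearMap.le_opNorm _ _).trans ?_
    refine mul_le_mul (gradOp_le S (fun i A => hG i A x) β) ?_ (norm_nonneg _) ?_
    · rw [norm_smul, Complex.norm_real, Real.norm_of_nonneg hφ]
      exact mul_le_mul_of_nonneg_left hv2 hφ
    · exact mul_nonneg (mul_nonneg hK0 hg0) (Nb_nonneg S β)
  rw [e1]
  generalize S.ph m x = φ at *
  generalize gB S Cq a b δ ε x = g at *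
  generalize tt S m x = t at *
  have n4 := pow_le_pow_left₀ (norm_nonneg _) ((norm_add_le _ _).trans (add_le_add n1 n2)) 2
  refine n4.trans ?_
  nlinarith [sq_nonneg (Ce * φ * t - (K₀ * g * Nb S β) * (φ * (2 * c)))]

lemma gB_sq_bd (S : Setup F) {Cq m a b δ ε : ℝ} (hm : 0 ≤ m) (ha : 0 < a) (hb : 0 < b)
    (hδ : 0 < δ) (hε : 0 < ε) {x : X3} (hxa : a ≤ ‖x‖) (hxb : ‖x‖ ≤ 2 * b) :
    gB S Cq a b δ ε x ^ 2 * S.ph m x ^ 2 ≤
      4 * (1024 * a ^ 4 * shl S (2 * (1 / (2 * S.κ))) a (2 * a) Set.univ x +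
        1024 * b ^ 4 * Real.exp (-(m * b ^ 2)) *
          shl S (2 * (1 / (2 * S.κ))) b (2 * b) Set.univ x +
        16 * Cq ^ 2 * b ^ 4 / δ ^ 4 *
          shl S (2 * (1 / (2 * S.κ))) a (2 * b) {x | rho6sq x ≤ (2 * δ) ^ 2 * ‖x‖ ^ 2} x +
        128 * Cq ^ 2 * S.κ / ε ^ 6 * b *
          shl S (2 * (1 / (2 * S.κ))) a (2 * b) Set.univ x) := by
  have hs1 := shl_nonneg S (2 * (1 / (2 * S.κ))) a (2 * a) Set.univ x
  have b1 := g1_bd S ha hm x
  have b3 := g1_bd S hb hm x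
  have b2 := g2_bd S (Cq := Cq) ha hb hδ hm x hxa hxb
  have b4 := g4_bd S (Cq := Cq) ha hb hε hm x hxa hxb
  have b1' : (if a ≤ ‖x‖ ∧ ‖x‖ ≤ 2 * a then 4 / a else 0) ^ 2 * S.ph m x ^ 2 ≤
      1024 * a ^ 4 * shl S (2 * (1 / (2 * S.κ))) a (2 * a) Set.univ x := by
    refine b1.trans ?_
    refine mul_le_mul_of_nonneg_right ?_ hs1
    refine mul_le_of_le_one_right (by positivity) ?_
    rw [Real.exp_le_one_iff, neg_nonpos]
    positivity
  have hsq : ∀ p q r s : ℝ, ((p + q) + (r + s)) ^ 2 ≤ 4 * (p ^ 2 + q ^ 2 + r ^ 2 + s ^ 2) := by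
    intro p q r s
    nlinarith [sq_nonneg (p - q), sq_nonneg (r - s), sq_nonneg (p + q - r - s)]
  unfold gB
  refine (mul_le_mul_of_nonneg_right (hsq _ _ _ _) (sq_nonneg _)).trans ?_
  rw [mul_assoc]
  refine mul_le_mul_of_nonneg_left ?_ (by norm_num)
  rw [add_mul, add_mul, add_mul]
  exact add_le_add (add_le_add (add_le_add b1' b3) b2) b4

lemma tt_bd (S : Setup F) {Ce m a b : ℝ} (hm : 0 ≤ m) (ha : 0 < a) (hb : 0 < b)
    {x : X3} (hxa : a ≤ ‖x‖) (hxb : ‖x‖ ≤ 2 * b) :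
    32 * Ce ^ 2 * (S.ph m x ^ 2 * tt S m x ^ 2) ≤
      96 * Ce ^ 2 * (12 * S.κ ^ 3 + 34 * S.κ) * (b + m ^ 2 * b ^ 5) *
        shl S (2 * (1 / (2 * S.κ))) a (2 * b) Set.univ x := by
  have hκ := S.κ_pos
  have h0 : x ≠ 0 := norm_pos_iff.1 (ha.trans_le hxa)
  have ht := ph_tt S hm h0
  have hE0 := oEE_pos S x
  rw [shl_EE S a (2 * b) Set.univ hxa hxb (Set.mem_univ x)]
  have hpoly : 6 * S.κ ^ 3 * ‖x‖ + S.κ * ‖x‖ + S.κ * m ^ 2 * ‖x‖ ^ 5 ≤
      (12 * S.κ ^ 3 + 34 * S.κ) * (b + m ^ 2 * b ^ 5) := by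
    have p5 : ‖x‖ ^ 5 ≤ (2 * b) ^ 5 := pow_le_pow_left₀ (norm_nonneg _) hxb 5
    have q1 : 6 * S.κ ^ 3 * ‖x‖ ≤ 6 * S.κ ^ 3 * (2 * b) := by gcongr
    have q2 : S.κ * ‖x‖ ≤ S.κ * (2 * b) := by gcongr
    have q3 : S.κ * m ^ 2 * ‖x‖ ^ 5 ≤ S.κ * m ^ 2 * (2 * b) ^ 5 := by gcongr
    have q4 : 0 ≤ S.κ ^ 3 * (m ^ 2 * b ^ 5) := by positivity
    have q5 : 0 ≤ S.κ * b := by positivity
    have q6 : 0 ≤ S.κ * (m ^ 2 * b ^ 5) := by positivity
    have e : (12 * S.κ ^ 3 + 34 * S.κ) * (b + m ^ 2 * b ^ 5) = 6 * S.κ ^ 3 * (2 * b) +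
        S.κ * (2 * b) + S.κ * m ^ 2 * (2 * b) ^ 5 + (12 * (S.κ ^ 3 * (m ^ 2 * b ^ 5)) +
        32 * (S.κ * b) + 2 * (S.κ * (m ^ 2 * b ^ 5))) := by ring
    rw [e]
    linarith
  calc 32 * Ce ^ 2 * (S.ph m x ^ 2 * tt S m x ^ 2)
      ≤ 32 * Ce ^ 2 * (3 * oEE S x * ((12 * S.κ ^ 3 + 34 * S.κ) * (b + m ^ 2 * b ^ 5))) := by
        refine mul_le_mul_of_nonneg_left (ht.trans ?_) (by positivity)
        exact mul_le_mul_of_nonneg_left hpoly (by positivity)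
    _ = _ := by ring

/-- pointwise bound -/
theorem point_bd (S : Setup F) (hs : SmStmt S) {Ω : F} (hΩ : ∀ A α, S.am A α Ω = 0)
    {K₀ Cq c Ce m a b δ ε : ℝ} (hK0 : 0 ≤ K₀) (hCq : 0 ≤ Cq)
    (hm : 0 ≤ m) (ha : 0 < a) (hb : 0 < b) (hδ : 0 < δ) (hε : 0 < ε)
    (hG : ∀ i A (x : X3), |pdr i A (ct S a b δ ε) x| ≤ K₀ * gB S Cq a b δ ε x)
    (hE : ∀ x : X3, x ≠ 0 → δ ^ 2 * ‖x‖ ^ 2 ≤ rho6sq x → S.V x ≤ ε ^ 2 * ‖x‖ ^ 4 →
      ‖S.vv Ω x‖ ≤ 2 * c ∧ ∀ β,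
        ‖S.Qm m β (fun y => ((S.ph m y : ℝ) : ℂ) • S.vv Ω y) x‖ ≤ Ce * S.ph m x * tt S m x)
    (x : X3) :
    ∑ β, ‖S.Qm m β (uu S Ω m a b δ ε) x‖ ^ 2 ≤
      (32 * K₀ ^ 2 * c ^ 2 * ∑ β, Nb S β ^ 2) *
        (1024 * a ^ 4 * shl S (2 * (1 / (2 * S.κ))) a (2 * a) Set.univ x +
        1024 * b ^ 4 * Real.exp (-(m * b ^ 2)) *
          shl S (2 * (1 / (2 * S.κ))) b (2 * b) Set.univ x +
        16 * Cq ^ 2 * b ^ 4 / δ ^ 4 *
          shl S (2 * (1 / (2 * S.κ))) a (2 * b) {x | rho6sq x ≤ (2 * δ) ^ 2 * ‖x‖ ^ 2} x) +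
      ((32 * K₀ ^ 2 * c ^ 2 * ∑ β, Nb S β ^ 2) * (128 * Cq ^ 2 * S.κ / ε ^ 6) +
        96 * Ce ^ 2 * (12 * S.κ ^ 3 + 34 * S.κ)) * (b + m ^ 2 * b ^ 5) *
        shl S (2 * (1 / (2 * S.κ))) a (2 * b) Set.univ x := by
  have hκ := S.κ_pos
  have hN : 0 ≤ ∑ β, Nb S β ^ 2 := Finset.sum_nonneg fun β _ => sq_nonneg _
  have hs1 := shl_nonneg S (2 * (1 / (2 * S.κ))) a (2 * a) Set.univ x
  have hs3 := shl_nonneg S (2 * (1 / (2 * S.κ))) b (2 * b) Set.univ x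
  have hs2 := shl_nonneg S (2 * (1 / (2 * S.κ))) a (2 * b) {x | rho6sq x ≤ (2 * δ) ^ 2 * ‖x‖ ^ 2} x
  have hs4 := shl_nonneg S (2 * (1 / (2 * S.κ))) a (2 * b) Set.univ x
  by_cases hx : x ∈ Rg S a b δ ε
  · have h0 := Rg_ne ha hx
    have hxa : a ≤ ‖x‖ := hx.1.1
    have hxb : ‖x‖ ≤ 2 * b := by
      refine le_of_sq_le_sq ?_ (by positivity)
      nlinarith [hx.1.2, sq_nonneg b]
    have hV := S.V_nonneg x
    have hV2 : S.V x ≤ ε ^ 2 * ‖x‖ ^ 4 := by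
      have := hx.2.2
      linarith
    obtain ⟨hv2, hQ⟩ := hE x h0 hx.2.1 hV2
    have hsum : ∑ β, ‖S.Qm m β (uu S Ω m a b δ ε) x‖ ^ 2 ≤
        32 * Ce ^ 2 * (S.ph m x ^ 2 * tt S m x ^ 2) +
          (8 * K₀ ^ 2 * c ^ 2) * (gB S Cq a b δ ε x ^ 2 * S.ph m x ^ 2) * ∑ β, Nb S β ^ 2 := by
      refine (Finset.sum_le_sum fun β _ =>
        term_bd S hs hΩ hK0 hCq ha hb hδ hε hG hx hv2 β (hQ β)).trans (le_of_eq ?_)
      rw [Finset.sum_add_distrib, Finset.sum_const, Finset.card_univ,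
        Fintype.card_fin, nsmul_eq_mul, Finset.mul_sum]
      push_cast
      ring
    exact final_arith hN (by positivity) hb.le (by positivity) hs4 hsum
      (tt_bd S hm ha hb hxa hxb) (gB_sq_bd S hm ha hb hδ hε hxa hxb)
  · have hz : ∑ β, ‖S.Qm m β (uu S Ω m a b δ ε) x‖ ^ 2 = 0 := by
      refine Finset.sum_eq_zero fun β _ => ?_
      rw [Qm_ev0 S (uu_ev ha hb hδ hε hx) m β]
      simp
    rw [hz]
    positivity

/-! ### integrated bounds -/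

lemma hPs_univ : ∀ t : ℝ, 0 < t → ∀ x : X3, t • x ∈ (Set.univ : Set X3) ↔ x ∈ (Set.univ : Set X3) :=
  fun _ _ _ => by simp

lemma hPs_rho (δ : ℝ) : ∀ t : ℝ, 0 < t → ∀ x : X3, t • x ∈ {x : X3 | rho6sq x ≤ δ ^ 2 * ‖x‖ ^ 2} ↔
    x ∈ {x : X3 | rho6sq x ≤ δ ^ 2 * ‖x‖ ^ 2} := by
  intro t ht x
  show rho6sq (t • x) ≤ δ ^ 2 * ‖t • x‖ ^ 2 ↔ rho6sq x ≤ δ ^ 2 * ‖x‖ ^ 2
  rw [out_rho6_smul, norm_smul, Real.norm_of_nonneg ht.le, mul_pow]
  have hp : 0 < t ^ 2 := by positivity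
  constructor
  · intro h
    refine le_of_mul_le_mul_left (h.trans (le_of_eq ?_)) hp
    ring
  · intro h
    refine (mul_le_mul_of_nonneg_left h hp.le).trans (le_of_eq ?_)
    ring

lemma hP_rho (δ : ℝ) : MeasurableSet {x : X3 | rho6sq x ≤ δ ^ 2 * ‖x‖ ^ 2} :=
  (isClosed_le out_rho6_cont (continuous_const.mul (continuous_norm.pow 2))).measurableSet

lemma int4 {s1 s2 s3 s4 : X3 → ℝ} (h1 : Integrable s1) (h2 : Integrable s2) (h3 : Integrable s3)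
    (h4 : Integrable s4) (A x1 x2 x3 x4 : ℝ) :
    Integrable (fun x => A * (x1 * s1 x + x3 * s3 x + x2 * s2 x) + x4 * s4 x) ∧
    ∫ x, (A * (x1 * s1 x + x3 * s3 x + x2 * s2 x) + x4 * s4 x) =
      A * (x1 * (∫ x, s1 x) + x3 * (∫ x, s3 x) + x2 * (∫ x, s2 x)) + x4 * ∫ x, s4 x := by
  have i1 := h1.const_mul x1
  have i2 := h2.const_mul x2
  have i3 := h3.const_mul x3
  have i4 := h4.const_mul x4
  have i13 := i1.add i3
  have i132 := i13.add i2
  refine ⟨(i132.const_mul A).add i4, ?_⟩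
  have e1 : ∫ x, (A * (x1 * s1 x + x3 * s3 x + x2 * s2 x) + x4 * s4 x) =
      (∫ x, A * (x1 * s1 x + x3 * s3 x + x2 * s2 x)) + ∫ x, x4 * s4 x :=
    integral_add (i132.const_mul A) i4
  have e2 : ∫ x, (x1 * s1 x + x3 * s3 x + x2 * s2 x) =
      (∫ x, (x1 * s1 x + x3 * s3 x)) + ∫ x, x2 * s2 x := integral_add i13 i2
  have e3 : ∫ x, (x1 * s1 x + x3 * s3 x) = (∫ x, x1 * s1 x) + ∫ x, x3 * s3 x := integral_add i1 i3
  rw [e1, integral_const_mul, integral_const_mul, e2, e3, integral_const_mul, integral_const_mul,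
    integral_const_mul]

/-- integrated upper bound -/
theorem upper_bd (S : Setup F) (hs : SmStmt S) {Ω : F} (hΩ : ∀ A α, S.am A α Ω = 0)
    {K₀ Cq c Ce m a δ ε D : ℝ} (J : ℕ) (hK0 : 0 ≤ K₀) (hCq : 0 ≤ Cq)
    (hm : 0 ≤ m) (ha : 1 ≤ a) (hδ : 0 < δ) (hδ' : 2 * δ ≤ 1 / 10) (hε : 0 < ε)
    (hG : ∀ i A (x : X3), |pdr i A (ct S a (2 ^ J * a) δ ε) x| ≤
      K₀ * gB S Cq a (2 ^ J * a) δ ε x)
    (hE : ∀ x : X3, x ≠ 0 → δ ^ 2 * ‖x‖ ^ 2 ≤ rho6sq x → S.V x ≤ ε ^ 2 * ‖x‖ ^ 4 →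
      ‖S.vv Ω x‖ ≤ 2 * c ∧ ∀ β,
        ‖S.Qm m β (fun y => ((S.ph m y : ℝ) : ℂ) • S.vv Ω y) x‖ ≤ Ce * S.ph m x * tt S m x)
    (hD1 : UShell S (1 / (2 * S.κ)) D Set.univ)
    (hD2 : ∀ δ : ℝ, 0 < δ → δ ≤ 1 / 10 →
      UShell S (1 / (2 * S.κ)) (D * δ ^ 6) {x | rho6sq x ≤ δ ^ 2 * ‖x‖ ^ 2}) :
    ∑ β, nsq (S.Qm m β (uu S Ω m a (2 ^ J * a) δ ε)) ≤
      (32 * K₀ ^ 2 * c ^ 2 * ∑ β, Nb S β ^ 2) *
        (1024 * a ^ 4 * (D * a ^ 3) +
        1024 * (2 ^ J * a) ^ 4 * Real.exp (-(m * (2 ^ J * a) ^ 2)) * (D * (2 ^ J * a) ^ 3) +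
        16 * Cq ^ 2 * (2 ^ J * a) ^ 4 / δ ^ 4 *
          (D * (2 * δ) ^ 6 * (J + 1) * (2 ^ J * a) ^ 3)) +
      ((32 * K₀ ^ 2 * c ^ 2 * ∑ β, Nb S β ^ 2) * (128 * Cq ^ 2 * S.κ / ε ^ 6) +
        96 * Ce ^ 2 * (12 * S.κ ^ 3 + 34 * S.κ)) * ((2 ^ J * a) + m ^ 2 * (2 ^ J * a) ^ 5) *
        (D * (J + 1) * (2 ^ J * a) ^ 3) := by
  have hκ := S.κ_pos
  have hk : 0 < 1 / (2 * S.κ) := by positivity
  have hk2 : 0 ≤ 2 * (1 / (2 * S.κ)) := by positivity
  have ha0 : 0 < a := by linarith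
  have hN : 0 ≤ ∑ β, Nb S β ^ 2 := Finset.sum_nonneg fun β _ => sq_nonneg _
  have h2J : (1 : ℝ) ≤ 2 ^ J := one_le_pow₀ (by norm_num)
  obtain ⟨b, hbdef⟩ : ∃ b, b = 2 ^ J * a := ⟨_, rfl⟩
  have h2b : 2 * b = 2 ^ (J + 1) * a := by rw [hbdef]; ring
  rw [← hbdef] at hG ⊢
  have hb1 : 1 ≤ b := by rw [hbdef]; nlinarith
  have hb0 : 0 < b := by linarith
  have hT : Setup.Tst (uu S Ω m a b δ ε) := uu_Tst hs hΩ ha0 hb0 hδ hε
  -- sum of integrals
  have hsum : ∑ β, nsq (S.Qm m β (uu S Ω m a b δ ε)) =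
      ∫ x, ∑ β, ‖S.Qm m β (uu S Ω m a b δ ε) x‖ ^ 2 := by
    rw [integral_finsetSum]
    · rfl
    · intro β _
      exact memLp_norm_sq_int (Setup.Tst.Qm S hT m β).memLp
  rw [hsum]
  have j1 := shl_int S (a := a) (b := 2 * a) hk2 MeasurableSet.univ
  have j3 := shl_int S (a := b) (b := 2 * b) hk2 MeasurableSet.univ
  have j2 := shl_int S (a := a) (b := 2 * b) hk2 (hP_rho (2 * δ))
  have j4 := shl_int S (a := a) (b := 2 * b) hk2 MeasurableSet.univ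
  obtain ⟨hi, he⟩ := int4 j1 j2 j3 j4 (32 * K₀ ^ 2 * c ^ 2 * ∑ β, Nb S β ^ 2) (1024 * a ^ 4)
    (16 * Cq ^ 2 * b ^ 4 / δ ^ 4) (1024 * b ^ 4 * Real.exp (-(m * b ^ 2)))
    (((32 * K₀ ^ 2 * c ^ 2 * ∑ β, Nb S β ^ 2) * (128 * Cq ^ 2 * S.κ / ε ^ 6) +
        96 * Ce ^ 2 * (12 * S.κ ^ 3 + 34 * S.κ)) * (b + m ^ 2 * b ^ 5))
  have hle := integral_mono_of_nonneg (μ := (volume : Measure X3))
    (Eventually.of_forall fun x => Finset.sum_nonneg fun β _ => sq_nonneg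
      ‖S.Qm m β (uu S Ω m a b δ ε) x‖) hi
    (Eventually.of_forall fun x => point_bd S hs hΩ hK0 hCq hm ha0 hb0 hδ hε hG hE x)
  refine hle.trans ?_
  rw [he]
  have I1 := shl_shell S hk MeasurableSet.univ hPs_univ hD1 ha
  have I3 := shl_shell S hk MeasurableSet.univ hPs_univ hD1 hb1
  have I2 := shl_multi S hk (hP_rho (2 * δ)) (hPs_rho (2 * δ)) (hD2 (2 * δ) (by positivity) hδ')
    ha J
  have I4 := shl_multi S hk MeasurableSet.univ hPs_univ hD1 ha J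
  rw [← h2b, ← hbdef] at I2 I4
  gcongr

/-- integrated lower bound -/
theorem lower_bd (S : Setup F) (hs : SmStmt S) {Ω : F} (hΩ : ∀ A α, S.am A α Ω = 0)
    {c m r a b δ ε D : ℝ} (hc : 0 < c) (hr : 1 ≤ r) (hm : m = 1 / r ^ 2) (ha : 0 < a)
    (ha2 : 2 * a ^ 2 ≤ r ^ 2) (hb : 0 < b) (hb2 : 2 * r ≤ b) (hδ : 0 < δ) (hδ' : 8 * δ ^ 2 ≤ 1)
    (hε : 0 < ε) (hr3 : 4 ≤ ε ^ 2 * r ^ 3) (hD : 0 < D)
    (hE : ∀ x : X3, x ≠ 0 → δ ^ 2 * ‖x‖ ^ 2 ≤ rho6sq x → S.V x ≤ ε ^ 2 * ‖x‖ ^ 4 →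
      c / 2 ≤ ‖S.vv Ω x‖)
    (hD3 : r ^ 3 ≤ D * ∫ x : X3, Set.indicator ({x : X3 | r ≤ ‖x‖ ∧ ‖x‖ ≤ 2 * r} ∩
      {x | ‖x‖ ^ 2 / 4 ≤ rho6sq x ∧ S.V x ≤ r}) (fun _ => (1 : ℝ)) x) :
    c ^ 2 / (4 * D) * Real.exp (-(2 / S.κ + 8)) * r ^ 9 ≤ nsq (uu S Ω m a b δ ε) := by
  have hκ := S.κ_pos
  have hr0 : 0 < r := by linarith
  have hm0 : 0 ≤ m := by rw [hm]; positivity
  have hT : Setup.Tst (uu S Ω m a b δ ε) := uu_Tst hs hΩ ha hb hδ hε
  set T : Set X3 := {x : X3 | r ≤ ‖x‖ ∧ ‖x‖ ≤ 2 * r} ∩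
      {x | ‖x‖ ^ 2 / 4 ≤ rho6sq x ∧ S.V x ≤ r} with hTdef
  set q : ℝ := c ^ 2 / 4 * (r ^ 6 * Real.exp (-(2 / S.κ + 8))) with hq
  have hq0 : 0 ≤ q := by positivity
  have hpt : ∀ x : X3, q * Set.indicator T (fun _ => (1 : ℝ)) x ≤ ‖uu S Ω m a b δ ε x‖ ^ 2 := by
    intro x
    by_cases hx : x ∈ T
    · rw [Set.indicator_of_mem hx, mul_one]
      obtain ⟨⟨h1, h2⟩, h3, h4⟩ := hx
      have hn : 0 < ‖x‖ := by linarith
      have hx0 : x ≠ 0 := norm_pos_iff.1 hn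
      have hsq : r ^ 2 ≤ ‖x‖ ^ 2 := pow_le_pow_left₀ hr0.le h1 2
      have hV := S.V_nonneg x
      have h5 : 4 * S.V x ≤ ε ^ 2 * ‖x‖ ^ 4 := by
        have e1 : r ^ 4 ≤ ‖x‖ ^ 4 := pow_le_pow_left₀ hr0.le h1 4
        have e2 : 4 * r ≤ ε ^ 2 * r ^ 4 := by
          have := mul_le_mul_of_nonneg_right hr3 hr0.le
          refine this.trans (le_of_eq ?_)
          ring
        have e3 : ε ^ 2 * r ^ 4 ≤ ε ^ 2 * ‖x‖ ^ 4 := by gcongr
        linarith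
      have h6 : 2 * δ ^ 2 * ‖x‖ ^ 2 ≤ rho6sq x := by
        have : 0 ≤ ‖x‖ ^ 2 := by positivity
        nlinarith
      have h7 : ct S a b δ ε x = 1 := by
        refine ct_one ha hb hδ hε (ha2.trans hsq) ?_ h6 h5
        exact pow_le_pow_left₀ hn.le (h2.trans hb2) 2
      have h8 : c / 2 ≤ ‖S.vv Ω x‖ := by
        refine hE x hx0 ?_ ?_
        · have : 0 ≤ δ ^ 2 * ‖x‖ ^ 2 := by positivity
          linarith
        · have : 0 ≤ ε ^ 2 * ‖x‖ ^ 4 := by positivity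
          linarith
      have h9 : Real.exp (-(1 / S.κ)) ≤ oEE S x := by
        rw [oEE_eq, Real.exp_le_exp, neg_le_neg_iff, div_le_div_iff₀ (by positivity) hκ, one_mul]
        have : S.V x ≤ ‖x‖ := h4.trans h1
        nlinarith
      have h10 : Real.exp (-8) ≤ Real.exp (-(2 * m * ‖x‖ ^ 2)) := by
        rw [Real.exp_le_exp, neg_le_neg_iff, hm]
        have e1 : ‖x‖ ^ 2 ≤ (2 * r) ^ 2 := pow_le_pow_left₀ hn.le h2 2
        have e2 : 2 * (1 / r ^ 2) * ‖x‖ ^ 2 ≤ 2 * (1 / r ^ 2) * (2 * r) ^ 2 := by gcongr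
        refine e2.trans (le_of_eq ?_)
        field_simp
        norm_num
      have h11 : r ^ 6 * Real.exp (-(2 / S.κ + 8)) ≤ S.ph m x ^ 2 := by
        refine le_trans ?_ (ph_sq_ge S hm0 x)
        have e1 : Real.exp (-(2 / S.κ + 8)) = Real.exp (-(1 / S.κ)) ^ 2 * Real.exp (-8) := by
          rw [← Real.exp_nat_mul, ← Real.exp_add]
          congr 1
          push_cast
          ring
        rw [e1, ← mul_assoc]
        have e2 : r ^ 6 ≤ ‖x‖ ^ 6 := pow_le_pow_left₀ hr0.le h1 6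
        gcongr
      rw [uu, h7, Complex.ofReal_one, one_smul, norm_smul, Complex.norm_real,
        Real.norm_of_nonneg (ph_nonneg S m x), mul_pow, hq]
      calc c ^ 2 / 4 * (r ^ 6 * Real.exp (-(2 / S.κ + 8)))
          ≤ c ^ 2 / 4 * S.ph m x ^ 2 := by gcongr
        _ = S.ph m x ^ 2 * (c / 2) ^ 2 := by ring
        _ ≤ S.ph m x ^ 2 * ‖S.vv Ω x‖ ^ 2 := by gcongr
    · rw [Set.indicator_of_notMem hx, mul_zero]
      positivity
  have hint : q * ∫ x : X3, Set.indicator T (fun _ => (1 : ℝ)) x ≤ nsq (uu S Ω m a b δ ε) := by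
    rw [← integral_const_mul]
    refine integral_mono_of_nonneg (Eventually.of_forall fun x => ?_) hT.norm_sq_int
      (Eventually.of_forall hpt)
    exact mul_nonneg hq0 (Set.indicator_nonneg (fun _ _ => zero_le_one) _)
  refine le_trans ?_ hint
  have h12 : r ^ 3 / D ≤ ∫ x : X3, Set.indicator T (fun _ => (1 : ℝ)) x := by
    rw [div_le_iff₀ hD]
    linarith
  calc c ^ 2 / (4 * D) * Real.exp (-(2 / S.κ + 8)) * r ^ 9 = q * (r ^ 3 / D) := by
        rw [hq]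
        field_simp
    _ ≤ _ := mul_le_mul_of_nonneg_left h12 hq0

lemma ch_small {A q s : ℝ} (hA : 0 ≤ A) (hq : 0 < q) (hs : 0 < s) (hs1 : s ≤ 1) {n : ℕ}
    (hn : n ≠ 0) : ∃ t : ℝ, 0 < t ∧ t ≤ s ∧ A * t ^ n ≤ q := by
  refine ⟨min s (q / (A + 1)), lt_min hs (by positivity), min_le_left _ _, ?_⟩
  have t0 : 0 ≤ min s (q / (A + 1)) := le_min hs.le (by positivity)
  have t1 : min s (q / (A + 1)) ≤ 1 := (min_le_left _ _).trans hs1
  have t2 : min s (q / (A + 1)) ≤ q / (A + 1) := min_le_right _ _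
  have t3 : min s (q / (A + 1)) ^ n ≤ min s (q / (A + 1)) := pow_le_of_le_one t0 t1 hn
  rw [le_div_iff₀ (by positivity)] at t2
  calc A * min s (q / (A + 1)) ^ n ≤ A * min s (q / (A + 1)) := by gcongr
    _ ≤ q := by linarith

lemma ch_J {A q c0 : ℝ} (hA : 0 ≤ A) (hq : 0 < q) (hc0 : 0 < c0) : ∃ J : ℕ, 2 ≤ (2 : ℝ) ^ J * c0 ∧
    A * ((2 ^ J * c0) ^ 7 * Real.exp (-(2 ^ J * c0) ^ 2)) ≤ q := by
  have h1 : Tendsto (fun J : ℕ => (2 : ℝ) ^ J * c0) atTop atTop :=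
    (tendsto_pow_atTop_atTop_of_one_lt (by norm_num)).atTop_mul_const hc0
  have h2 : Tendsto (fun x : ℝ => A * (x ^ 7 * Real.exp (-x))) atTop (𝓝 0) := by
    have := (Real.tendsto_pow_mul_exp_neg_atTop_nhds_zero 7).const_mul A
    simpa using this
  have h3 := (h2.comp h1).eventually (gt_mem_nhds hq)
  have h4 := h1.eventually (eventually_ge_atTop 2)
  obtain ⟨J, hJ, hJ'⟩ := (h3.and h4).exists
  refine ⟨J, hJ', ?_⟩
  have hJ0 : A * (((2 : ℝ) ^ J * c0) ^ 7 * Real.exp (-((2 : ℝ) ^ J * c0))) < q := hJ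
  refine le_trans ?_ hJ0.le
  have h5 : Real.exp (-(2 ^ J * c0) ^ 2) ≤ Real.exp (-((2 : ℝ) ^ J * c0)) := by
    rw [Real.exp_le_exp, neg_le_neg_iff]
    nlinarith
  gcongr

lemma fin_calc {A0 D c0 K Cq Jr δ A1 m r q η L ns : ℝ} (hδ : 0 < δ) (hr : 0 < r)
    (hmr : m = 1 / r ^ 2) (hc02 : A0 * 1024 * D * c0 ^ 7 ≤ q)
    (hJ2 : A0 * 1024 * D * (K ^ 7 * Real.exp (-K ^ 2)) ≤ q)
    (hδ2 : A0 * 1024 * D * Cq ^ 2 * (Jr + 1) * K ^ 7 * δ ^ 2 ≤ q)
    (hrq : A1 * D * (Jr + 1) * (K + K ^ 5) * K ^ 3 ≤ q * r ^ 3) (hq : q = η * L / 4)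
    (hη : 0 < η) (hlow : L * r ^ 9 ≤ ns) :
    A0 * (1024 * (c0 * r) ^ 4 * (D * (c0 * r) ^ 3) +
        1024 * (K * r) ^ 4 * Real.exp (-(m * (K * r) ^ 2)) * (D * (K * r) ^ 3) +
        16 * Cq ^ 2 * (K * r) ^ 4 / δ ^ 4 *
          (D * (2 * δ) ^ 6 * (Jr + 1) * (K * r) ^ 3)) +
      A1 * (K * r + m ^ 2 * (K * r) ^ 5) * (D * (Jr + 1) * (K * r) ^ 3) ≤ η * m * ns := by
  have hexp : m * (K * r) ^ 2 = K ^ 2 := by
    rw [hmr]; field_simp
  have hb5 : K * r + m ^ 2 * (K * r) ^ 5 = (K + K ^ 5) * r := by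
    rw [hmr]; field_simp
  rw [hexp, hb5]
  have e1 : 16 * Cq ^ 2 * (K * r) ^ 4 / δ ^ 4 * (D * (2 * δ) ^ 6 * (Jr + 1) * (K * r) ^ 3) =
      1024 * D * Cq ^ 2 * (Jr + 1) * K ^ 7 * δ ^ 2 * r ^ 7 := by
    field_simp
    ring
  rw [e1]
  have hr7 : 0 < r ^ 7 := by positivity
  have f1 := mul_le_mul_of_nonneg_right hc02 hr7.le
  have f2 := mul_le_mul_of_nonneg_right hJ2 hr7.le
  have f3 := mul_le_mul_of_nonneg_right hδ2 hr7.le
  have f4 := mul_le_mul_of_nonneg_right hrq (show 0 ≤ r ^ 4 by positivity)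
  have f5 : 4 * q * r ^ 7 ≤ η * m * ns := by
    have g1 : 4 * q * r ^ 7 = η * m * (L * r ^ 9) := by
      rw [hq, hmr]; field_simp
    rw [g1]
    refine mul_le_mul_of_nonneg_left hlow ?_
    rw [hmr]
    positivity
  refine le_trans (le_of_eq ?_) ((add_le_add (add_le_add (add_le_add f1 f2) f3) f4).trans ?_)
  · ring
  · refine le_trans (le_of_eq ?_) f5
    ring

/-- properties of `r = m^{-1/2}` -/
lemma r_props {c0 ε Z q r0 m : ℝ} (hc0 : 0 < c0) (hε : 0 < ε) (hZ : 0 ≤ Z) (hq : 0 < q)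
    (hr0 : r0 = 1 / c0 + 4 / ε ^ 2 + Z / q + 1) (hm : 0 < m) (hm0 : m < 1 / r0 ^ 2) :
    0 < 1 / Real.sqrt m ∧ m = 1 / (1 / Real.sqrt m) ^ 2 ∧ 1 ≤ 1 / Real.sqrt m ∧
      1 ≤ c0 * (1 / Real.sqrt m) ∧ 4 ≤ ε ^ 2 * (1 / Real.sqrt m) ^ 3 ∧
      Z ≤ q * (1 / Real.sqrt m) ^ 3 := by
  obtain ⟨r, hr⟩ : ∃ r, r = 1 / Real.sqrt m := ⟨_, rfl⟩
  rw [← hr]
  have hsm : 0 < Real.sqrt m := Real.sqrt_pos.2 hm
  have hrpos : 0 < r := by rw [hr]; positivity
  have hr0' : 0 < r0 := by rw [hr0]; positivity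
  have hmr : m = 1 / r ^ 2 := by
    rw [hr, div_pow, one_pow, Real.sq_sqrt hm.le]
    field_simp
  have hrr : r0 < r := by
    have h1 : 1 / r ^ 2 < 1 / r0 ^ 2 := by rw [← hmr]; exact hm0
    rw [div_lt_div_iff₀ (by positivity) (by positivity), one_mul, one_mul] at h1
    exact lt_of_pow_lt_pow_left₀ 2 hrpos.le h1
  have p1 : 0 < 1 / c0 := by positivity
  have p2 : 0 < 4 / ε ^ 2 := by positivity
  have p3 : 0 ≤ Z / q := by positivity
  have hr1 : 1 ≤ r := by linarith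
  have hr3 : r ≤ r ^ 3 := le_self_pow₀ hr1 (by norm_num)
  refine ⟨hrpos, hmr, hr1, ?_, ?_, ?_⟩
  · have : 1 / c0 ≤ r := by linarith
    rw [div_le_iff₀ hc0] at this
    linarith
  · have : 4 / ε ^ 2 ≤ r ^ 3 := by linarith
    rw [div_le_iff₀ (by positivity)] at this
    linarith
  · have : Z / q ≤ r ^ 3 := by linarith
    rw [div_le_iff₀ hq] at this
    linarith

/-- **D-Out** -/
theorem out (S : Setup F) (hs : SmStmt S) (hE : EstStmt S) (hI : IntStmt S) : OutStmt S := by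
  intro Ω hΩ0 hΩ η hη
  have hκ := S.κ_pos
  obtain ⟨K₀, Cq, hK0, hCq, hG⟩ := exists_gB S
  obtain ⟨c, hc, hEst⟩ := hE Ω hΩ0 hΩ
  obtain ⟨D, hD, hD1, hD2, hD3⟩ := out_ints S hI (k := 1 / (2 * S.κ)) (by positivity)
  have hN : 0 ≤ ∑ β, Nb S β ^ 2 := Finset.sum_nonneg fun β _ => sq_nonneg _
  obtain ⟨A0, hA0⟩ : ∃ A0, A0 = 32 * K₀ ^ 2 * c ^ 2 * ∑ β, Nb S β ^ 2 := ⟨_, rfl⟩
  have hA0' : 0 ≤ A0 := by rw [hA0]; positivity
  obtain ⟨L, hL⟩ : ∃ L, L = c ^ 2 / (4 * D) * Real.exp (-(2 / S.κ + 8)) := ⟨_, rfl⟩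
  have hL' : 0 < L := by rw [hL]; positivity
  obtain ⟨q, hq⟩ : ∃ q, q = η * L / 4 := ⟨_, rfl⟩
  have hq' : 0 < q := by rw [hq]; positivity
  have hAD : 0 ≤ A0 * 1024 * D := by positivity
  obtain ⟨c0, hc0, hc01, hc02⟩ := ch_small hAD hq' (s := 1 / 2) (by norm_num) (by norm_num)
    (n := 7) (by norm_num)
  obtain ⟨J, hJ1, hJ2⟩ := ch_J hAD hq' hc0
  obtain ⟨K, hK⟩ : ∃ K, K = (2 : ℝ) ^ J * c0 := ⟨_, rfl⟩
  rw [← hK] at hJ1 hJ2
  have hK' : 0 < K := by linarith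
  obtain ⟨δ, hδ, hδ1, hδ2⟩ := ch_small (A := A0 * 1024 * D * Cq ^ 2 * (J + 1) * K ^ 7)
    (by positivity) hq' (s := 1 / 20) (by norm_num) (by norm_num) (n := 2) (by norm_num)
  obtain ⟨ε, Ce, hε, hCe, hEs⟩ := hEst δ hδ
  obtain ⟨A1, hA1⟩ : ∃ A1, A1 = A0 * (128 * Cq ^ 2 * S.κ / ε ^ 6) +
      96 * Ce ^ 2 * (12 * S.κ ^ 3 + 34 * S.κ) := ⟨_, rfl⟩
  have hA1' : 0 ≤ A1 := by rw [hA1]; positivity
  obtain ⟨r0, hr0⟩ : ∃ r0, r0 = 1 / c0 + 4 / ε ^ 2 +
      (A1 * D * (J + 1) * (K + K ^ 5) * K ^ 3) / q + 1 := ⟨_, rfl⟩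
  have hr0' : 0 < r0 := by rw [hr0]; positivity
  refine ⟨c0, 1 / r0 ^ 2, hc0, by positivity, fun m hm hm0 => ?_⟩
  obtain ⟨hrpos, hmr, hr1, hrc, hre, hrq⟩ := r_props hc0 hε (by positivity) hq' hr0 hm hm0
  obtain ⟨r, hr⟩ : ∃ r, r = 1 / Real.sqrt m := ⟨_, rfl⟩
  rw [← hr] at hrpos hmr hr1 hrc hre hrq
  have hKr : (2 : ℝ) ^ J * (c0 * r) = K * r := by rw [hK]; ring
  have hcr : 0 < c0 * r := by positivity
  have hKr0 : 0 < K * r := by positivity
  have hc2 : 2 * (c0 * r) ^ 2 ≤ r ^ 2 := by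
    rw [mul_pow]
    have h1 : c0 ^ 2 ≤ (1 / 2) ^ 2 := pow_le_pow_left₀ hc0.le hc01 2
    have h2 := mul_le_mul_of_nonneg_right h1 (sq_nonneg r)
    linarith [sq_nonneg r]
  have hδ8 : 8 * δ ^ 2 ≤ 1 := by
    have : δ ^ 2 ≤ (1 / 20) ^ 2 := pow_le_pow_left₀ hδ.le hδ1 2
    linarith
  have hlow : L * r ^ 9 ≤ nsq (uu S Ω m (c0 * r) (K * r) δ ε) := by
    rw [hL]
    exact lower_bd S hs hΩ hc hr1 hmr hcr hc2 hKr0 (mul_le_mul_of_nonneg_right hJ1 hrpos.le)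
      hδ hδ8 hε hre hD (fun x hx h1 h2 => (hEs x hx h1 h2).1.1) (hD3 r hr1)
  have hup := upper_bd S hs hΩ (c := c) (Ce := Ce) (m := m) (a := c0 * r) (δ := δ) (ε := ε) (D := D)
    J hK0 hCq hm.le hrc hδ (by linarith) hε
    (hG (c0 * r) (2 ^ J * (c0 * r)) δ ε hcr (by positivity) hδ hε)
    (fun x hx h1 h2 => ⟨(hEs x hx h1 h2).1.2, fun β => (hEs x hx h1 h2).2 m hm.le β⟩) hD1 hD2
  rw [hKr, ← hA0, ← hA1] at hup
  refine ⟨uu S Ω m (c0 * r) (K * r) δ ε, uu_Inv hs hΩ hcr hKr0 hδ hε, fun x hx => ?_,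
    lt_of_lt_of_le (by positivity) hlow,
    hup.trans (fin_calc hδ hrpos hmr hc02 hJ2 hδ2 hrq hq hη hlow)⟩
  rw [uu, ct_zero hcr, Complex.ofReal_zero, zero_smul]
  refine hx.trans (le_of_eq ?_)
  rw [hr]
  ring

end Vale.Agent.P353.U
end
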