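import Mathlib
import Vale.Agent.P353.BdU.B4

set_option linter.all false

section

/-! Task EX-09: the `T`-level form is closed.

`D_T := d + ν φ_2 ι_2` (index 2 = third component, `z = φ_2`).  For functions `f` that do not
depend on `φ_0, φ_1` and `φ_2` only through ... one has the rules
`d (f ψ) = (df) ψ + f dψ`, `{D_T, df} = ι_V df`, `V = ν z R_2`, `R_2 x¹ = -x²`, `R_2 x² = x¹`,
`R_2 x³ = 0`: so `V w = -m z w` (`m = f0`), `V b = 0`, `V s = -2 m z s`, `V s̄ = 2 m z s̄`,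
`{D_T, dκ} = {D_T, db} = 0`, `{D_T, dz̄} = 0`, `dz = 0`.
* `τ = e^{-|s|²}(2z - (1/m) ds ds̄)` commutes with `D_T`:
  `[D_T, ds ds̄] = -2mz s ds̄ - 2mz s̄ ds` and `ds̄` terms cancel against `-d|s|²·2z`.
* `β = e^{-|b|²} ∏ db_k`: `D_T β = -β D_T` (7 anticommuting factors, `db_k ∏ db = 0`).
* `E_T`: `[D_T, (i/m) q' dz̄ μ] = -(i/m) q' dz̄ (dμ + ν z |w|²)`, `dμ = 2 ∑ dx¹_k dx²_k`,
  `[D_T, (2i/m) q dx¹_k dx²_k] = (2i/m) (q' dz̄ dx¹_k dx²_k - ν z q (x¹_k dx¹_k + x²_k dx²_k))`,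
  `d (g|z|²|w|²) = z q' |w|² dz̄ + z q d|w|²` : everything cancels.
* `a_2`-type operators kill the vacuum; constants are killed by `d`.
The form depends on `φ` only through `φ_2`, and only `dφ̄_2` occurs, hence `dph_*`, `a7_*`,
and `D0 a - D_T a = ν(φ_0 ι_0 + φ_1 ι_1) a` trivially. -/

open MeasureTheory Filter Topology
open scoped ContDiff ComplexConjugate

namespace Vale.Agent.P353.Ex

variable {F : Type*} [NormedAddCommGroup F] [InnerProductSpace ℂ F]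

/-- direction of the coordinate `(i, A)` -/
noncomputable abbrev tcdir (i : Fin 9) (A : Fin 3) : X3 := EuclideanSpace.single (i, A) 1

namespace Fk

variable (K : Fk F)

/-- exterior derivative of a scalar function, as an operator -/
noncomputable def tcdS (f : X3 → ℂ) (x : X3) : F →L[ℂ] F :=
  (∑ i : Fin 7, ∑ A, (fderiv ℝ f x (tcdir (e9 i) A)) • K.c (e8 i) A) +
    ∑ A, (fderiv ℝ f x (tcdir 7 A) + Complex.I * (K.sg : ℂ) * fderiv ℝ f x (tcdir 8 A)) • K.c 7 A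

/-- exterior derivative of an operator function -/
noncomputable def tcdO (P : X3 → F →L[ℂ] F) (x : X3) : F →L[ℂ] F :=
  (∑ i : Fin 7, ∑ A, K.c (e8 i) A * (fderiv ℝ P x (tcdir (e9 i) A))) +
    ∑ A, K.c 7 A * (fderiv ℝ P x (tcdir 7 A) + (Complex.I * (K.sg : ℂ)) • fderiv ℝ P x (tcdir 8 A))

/-- smooth scalar functions with exterior derivative `f'` -/
structure tcSD (f : X3 → ℂ) (f' : X3 → F →L[ℂ] F) : Prop where
  cd : ContDiff ℝ ∞ f
  eq : ∀ x, K.tcdS f x = f' x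

/-- smooth exterior operators with parity `ε` and twisted derivative `P'` -/
structure tcGD (ε : ℂ) (P P' : X3 → F →L[ℂ] F) : Prop where
  cd : ContDiff ℝ ∞ P
  comm : ∀ x i A, K.c i A * P x = ε • (P x * K.c i A)
  com7 : ∀ x A, A ≠ 2 → K.a 7 A * P x = ε • (P x * K.a 7 A)
  der : ∀ x, K.tcdO P x + (K.nu * K.ph 2 x) • (K.io 2 x * P x - ε • (P x * K.io 2 x)) = P' x

variable {K}

theorem tcSD.df {f : X3 → ℂ} {f' : X3 → F →L[ℂ] F} (h : K.tcSD f f') (x : X3) :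
    DifferentiableAt ℝ f x := (h.cd.differentiable (by simp)) x

theorem tcGD.df {ε : ℂ} {P P' : X3 → F →L[ℂ] F} (h : K.tcGD ε P P') (x : X3) :
    DifferentiableAt ℝ P x := (h.cd.differentiable (by simp)) x

theorem tcSD.congr {f g : X3 → ℂ} {f' g' : X3 → F →L[ℂ] F} (h : K.tcSD f f') (hf : ∀ x, g x = f x)
    (hg : ∀ x, g' x = f' x) : K.tcSD g g' := by
  obtain rfl : g = f := funext hf
  obtain rfl : g' = f' := funext hg
  exact h

theorem tcGD.congr {ε : ℂ} {f g : X3 → F →L[ℂ] F} {f' g' : X3 → F →L[ℂ] F} (h : K.tcGD ε f f')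
    (hf : ∀ x, g x = f x) (hg : ∀ x, g' x = f' x) : K.tcGD ε g g' := by
  obtain rfl : g = f := funext hf
  obtain rfl : g' = f' := funext hg
  exact h

theorem tcSD.const (c : ℂ) : K.tcSD (fun _ => c) (fun _ => 0) := by
  refine ⟨contDiff_const, fun x => ?_⟩
  simp [tcdS]

theorem tcSD.add {f g : X3 → ℂ} {f' g' : X3 → F →L[ℂ] F} (hf : K.tcSD f f') (hg : K.tcSD g g') :
    K.tcSD (fun x => f x + g x) (fun x => f' x + g' x) := by
  refine ⟨hf.cd.add hg.cd, fun x => ?_⟩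
  rw [← hf.eq, ← hg.eq]
  simp only [tcdS, fderiv_fun_add (hf.df x) (hg.df x), add_apply, mul_add, add_smul,
    Finset.sum_add_distrib]
  abel

theorem tcSD.mul {f g : X3 → ℂ} {f' g' : X3 → F →L[ℂ] F} (hf : K.tcSD f f') (hg : K.tcSD g g') :
    K.tcSD (fun x => f x * g x) (fun x => f x • g' x + g x • f' x) := by
  refine ⟨hf.cd.mul hg.cd, fun x => ?_⟩
  rw [← hf.eq, ← hg.eq]
  simp only [tcdS, fderiv_fun_mul (hf.df x) (hg.df x), add_apply,
    smul_apply, smul_eq_mul, smul_add, Finset.smul_sum, smul_smul]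
  rw [add_add_add_comm, ← Finset.sum_add_distrib, ← Finset.sum_add_distrib]
  congr 1
  · refine Finset.sum_congr rfl fun i _ => ?_
    rw [← Finset.sum_add_distrib]
    refine Finset.sum_congr rfl fun A _ => ?_
    rw [← add_smul]
  · refine Finset.sum_congr rfl fun A _ => ?_
    rw [← add_smul]
    congr 1
    ring


theorem tcSD.sum {ι : Type*} (s : Finset ι) {f : ι → X3 → ℂ} {f' : ι → X3 → F →L[ℂ] F}
    (h : ∀ i, K.tcSD (f i) (f' i)) : K.tcSD (fun x => ∑ i ∈ s, f i x) (fun x => ∑ i ∈ s, f' i x) := by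
  classical
  induction s using Finset.induction_on with
  | empty => simpa using tcSD.const (K := K) 0
  | insert a s ha ih =>
    simp only [Finset.sum_insert ha]
    exact (h a).add ih

theorem tcSD.cmul (c : ℂ) {f : X3 → ℂ} {f' : X3 → F →L[ℂ] F} (h : K.tcSD f f') :
    K.tcSD (fun x => c * f x) (fun x => c • f' x) :=
  ((tcSD.const c).mul h).congr (fun _ => rfl) (fun x => by simp)

theorem tcSD.sub {f g : X3 → ℂ} {f' g' : X3 → F →L[ℂ] F} (hf : K.tcSD f f') (hg : K.tcSD g g') :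
    K.tcSD (fun x => f x - g x) (fun x => f' x - g' x) :=
  (hf.add (hg.cmul (-1))).congr (fun x => by ring) (fun x => by module)

theorem tcSD.neg {f : X3 → ℂ} {f' : X3 → F →L[ℂ] F} (hf : K.tcSD f f') :
    K.tcSD (fun x => -f x) (fun x => -f' x) :=
  (hf.cmul (-1)).congr (fun x => by ring) (fun x => by module)

theorem tcSD.sq {f : X3 → ℂ} {f' : X3 → F →L[ℂ] F} (hf : K.tcSD f f') :
    K.tcSD (fun x => f x ^ 2) (fun x => (2 * f x) • f' x) :=
  (hf.mul hf).congr (fun x => by ring) (fun x => by module)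

theorem tcSD.exp {f : X3 → ℂ} {f' : X3 → F →L[ℂ] F} (hf : K.tcSD f f') :
    K.tcSD (fun x => Complex.exp (f x)) (fun x => Complex.exp (f x) • f' x) := by
  refine ⟨hf.cd.cexp, fun x => ?_⟩
  rw [← hf.eq]
  have h : ∀ v, fderiv ℝ (fun x => Complex.exp (f x)) x v = Complex.exp (f x) * fderiv ℝ f x v := by
    intro v
    rw [((hf.df x).hasFDerivAt.cexp).fderiv]
    simp
  simp only [tcdS, h, smul_add, Finset.smul_sum, smul_smul]
  congr 1
  refine Finset.sum_congr rfl fun A _ => ?_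
  congr 1
  ring

theorem tcdco (p q : Fin 9 × Fin 3) (x : X3) :
    fderiv ℝ (fun x : X3 => ((x p : ℝ) : ℂ)) x (EuclideanSpace.single q (1 : ℝ)) =
      if q = p then 1 else 0 := by
  have h : HasFDerivAt (fun x : X3 => ((x p : ℝ) : ℂ))
      (Complex.ofRealCLM.comp (EuclideanSpace.proj p : X3 →L[ℝ] ℝ)) x :=
    (Complex.ofRealCLM.hasFDerivAt (x := x p)).comp x (EuclideanSpace.proj p : X3 →L[ℝ] ℝ).hasFDerivAt
  rw [h.fderiv]
  by_cases hq : q = p
  · subst hq; simp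
  · simp [hq, Ne.symm hq]

theorem tccdco (p : Fin 9 × Fin 3) : ContDiff ℝ ∞ (fun x : X3 => ((x p : ℝ) : ℂ)) :=
  Complex.ofRealCLM.contDiff.comp (EuclideanSpace.proj p : X3 →L[ℝ] ℝ).contDiff

theorem tce9_ne7 (i : Fin 7) : e9 i ≠ 7 := by
  intro h
  have := congrArg Fin.val h
  simp at this
  omega

theorem tce9_ne8 (i : Fin 7) : e9 i ≠ 8 := by
  intro h
  have := congrArg Fin.val h
  simp at this
  omega

theorem tce9_inj {i j : Fin 7} (h : e9 i = e9 j) : i = j := by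
  have := congrArg Fin.val h
  exact Fin.ext (by simpa using this)

/-- coordinates `x_k^B`, `k < 7` -/
theorem tcSD.co (k : Fin 7) (B : Fin 3) :
    K.tcSD (fun x => ((x (e9 k, B) : ℝ) : ℂ)) (fun _ => K.c (e8 k) B) := by
  refine ⟨tccdco _, fun x => ?_⟩
  simp only [tcdS, tcdir, tcdco, Prod.mk.injEq]
  rw [Finset.sum_eq_single k, Finset.sum_eq_single B]
  · simp [(tce9_ne7 k).symm, (tce9_ne8 k).symm]
  · intro A _ hA; simp [hA]
  · simp
  · intro i _ hi
    refine Finset.sum_eq_zero fun A _ => ?_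
    have : e9 i ≠ e9 k := fun h => hi (tce9_inj h)
    simp [this]
  · simp

theorem tcSD.ph (A : Fin 3) : K.tcSD (K.ph A) (fun _ => 0) := by
  have h7 : K.tcSD (fun x => ((x (7, A) : ℝ) : ℂ)) (fun _ => K.c 7 A) := by
    refine ⟨tccdco _, fun x => ?_⟩
    simp only [tcdS, tcdir, tcdco, Prod.mk.injEq]
    rw [Finset.sum_eq_zero, Finset.sum_eq_single A]
    · simp
    · intro B _ hB; simp [hB]
    · simp
    · intro i _
      refine Finset.sum_eq_zero fun B _ => ?_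
      simp [tce9_ne7 i]
  have h8 : K.tcSD (fun x => ((x (8, A) : ℝ) : ℂ))
      (fun _ => (Complex.I * (K.sg : ℂ)) • K.c 7 A) := by
    refine ⟨tccdco _, fun x => ?_⟩
    simp only [tcdS, tcdir, tcdco, Prod.mk.injEq]
    rw [Finset.sum_eq_zero, Finset.sum_eq_single A]
    · simp
    · intro B _ hB; simp [hB]
    · simp
    · intro i _
      refine Finset.sum_eq_zero fun B _ => ?_
      simp [tce9_ne8 i]
  have hs : (K.sg : ℂ) * (K.sg : ℂ) = 1 := by
    rw [← Complex.ofReal_mul, K.sg_sq, Complex.ofReal_one]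
  refine (h7.add (h8.cmul (Complex.I * (K.sg : ℂ)))).congr (fun x => rfl) (fun x => ?_)
  rw [smul_smul]
  have : Complex.I * (K.sg : ℂ) * (Complex.I * (K.sg : ℂ)) = -1 := by
    calc Complex.I * (K.sg : ℂ) * (Complex.I * (K.sg : ℂ))
        = (Complex.I * Complex.I) * ((K.sg : ℂ) * (K.sg : ℂ)) := by ring
      _ = -1 := by rw [hs, Complex.I_mul_I]; ring
  rw [this]; module

theorem tcSD.phb (A : Fin 3) : K.tcSD (K.phb A) (fun _ => K.dpb A) := by
  have h7 : K.tcSD (fun x => ((x (7, A) : ℝ) : ℂ)) (fun _ => K.c 7 A) := by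
    refine ⟨tccdco _, fun x => ?_⟩
    simp only [tcdS, tcdir, tcdco, Prod.mk.injEq]
    rw [Finset.sum_eq_zero, Finset.sum_eq_single A]
    · simp
    · intro B _ hB; simp [hB]
    · simp
    · intro i _
      refine Finset.sum_eq_zero fun B _ => ?_
      simp [tce9_ne7 i]
  have hs : (K.sg : ℂ) * (K.sg : ℂ) = 1 := by
    rw [← Complex.ofReal_mul, K.sg_sq, Complex.ofReal_one]
  refine ((h7.cmul 2).sub (tcSD.ph A)).congr (fun x => ?_) (fun x => ?_)
  · simp only [Fk.ph, Fk.phb]; ring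
  · simp only [dpb]; module


theorem tcfd_mul {P Q : X3 → F →L[ℂ] F} {x : X3} (hP : DifferentiableAt ℝ P x)
    (hQ : DifferentiableAt ℝ Q x) (v : X3) :
    fderiv ℝ (fun y => P y * Q y) x v = fderiv ℝ P x v * Q x + P x * fderiv ℝ Q x v := by
  rw [fderiv_fun_mul' hP hQ]
  exact add_comm _ _

theorem tcfd_smul {f : X3 → ℂ} {Q : X3 → F →L[ℂ] F} {x : X3} (hf : DifferentiableAt ℝ f x)
    (hQ : DifferentiableAt ℝ Q x) (v : X3) :
    fderiv ℝ (fun y => f y • Q y) x v = fderiv ℝ f x v • Q x + f x • fderiv ℝ Q x v := by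
  rw [fderiv_fun_smul hf hQ]
  exact add_comm _ _

theorem tcGD.mul {ε δ : ℂ} {P Q P' Q' : X3 → F →L[ℂ] F} (hP : K.tcGD ε P P') (hQ : K.tcGD δ Q Q') :
    K.tcGD (ε * δ) (fun x => P x * Q x) (fun x => P' x * Q x + ε • (P x * Q' x)) := by
  refine ⟨hP.cd.mul hQ.cd, fun x i A => ?_, fun x A hA => ?_, fun x => ?_⟩
  · rw [← mul_assoc, hP.comm, smul_mul_assoc, mul_assoc, hQ.comm, mul_smul_comm, smul_smul, mul_assoc]
  · rw [← mul_assoc, hP.com7 x A hA, smul_mul_assoc, mul_assoc, hQ.com7 x A hA, mul_smul_comm,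
      smul_smul, mul_assoc]
  · rw [← hP.der, ← hQ.der]
    have h1 : K.tcdO (fun x => P x * Q x) x = K.tcdO P x * Q x + ε • (P x * K.tcdO Q x) := by
      simp only [tcdO, tcfd_mul (hP.df x) (hQ.df x), mul_add, add_mul, Finset.sum_mul, Finset.mul_sum,
        smul_add, Finset.smul_sum, Finset.sum_add_distrib, mul_smul_comm, smul_mul_assoc]
      have h2 : ∀ (i : Fin 8) (A : Fin 3) (T : F →L[ℂ] F),
          K.c i A * (P x * T) = ε • (P x * (K.c i A * T)) := by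
        intro i A T
        rw [← mul_assoc, hP.comm, smul_mul_assoc, mul_assoc]
      simp only [h2, mul_assoc, smul_smul, mul_comm]
      abel
    rw [h1]
    simp only [mul_add, mul_sub, add_mul, sub_mul, mul_smul_comm, smul_mul_assoc, mul_assoc,
      smul_sub, smul_add, smul_smul]
    module

theorem tcGD.smul {δ : ℂ} {f : X3 → ℂ} {Q f' Q' : X3 → F →L[ℂ] F} (hf : K.tcSD f f')
    (hQ : K.tcGD δ Q Q') : K.tcGD δ (fun x => f x • Q x) (fun x => f' x * Q x + f x • Q' x) := by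
  refine ⟨hf.cd.smul hQ.cd, fun x i A => ?_, fun x A hA => ?_, fun x => ?_⟩
  · rw [mul_smul_comm, hQ.comm, smul_mul_assoc, smul_comm]
  · rw [mul_smul_comm, hQ.com7 x A hA, smul_mul_assoc, smul_comm]
  · rw [← hf.eq, ← hQ.der]
    have h1 : K.tcdO (fun x => f x • Q x) x = K.tcdS f x * Q x + f x • K.tcdO Q x := by
      simp only [tcdO, tcdS, tcfd_smul (hf.df x) (hQ.df x), mul_add, add_mul, Finset.sum_mul,
        smul_add, Finset.smul_sum, Finset.sum_add_distrib, mul_smul_comm, smul_mul_assoc, add_smul,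
        smul_smul]
      simp only [mul_comm, mul_left_comm]
      abel
    rw [h1]
    simp only [mul_smul_comm, smul_mul_assoc, smul_sub, smul_add, smul_smul]
    module

theorem tcGD.add {ε : ℂ} {P Q P' Q' : X3 → F →L[ℂ] F} (hP : K.tcGD ε P P') (hQ : K.tcGD ε Q Q') :
    K.tcGD ε (fun x => P x + Q x) (fun x => P' x + Q' x) := by
  refine ⟨hP.cd.add hQ.cd, fun x i A => ?_, fun x A hA => ?_, fun x => ?_⟩
  · rw [mul_add, hP.comm, hQ.comm, add_mul, smul_add]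
  · rw [mul_add, hP.com7 x A hA, hQ.com7 x A hA, add_mul, smul_add]
  · rw [← hP.der, ← hQ.der]
    simp only [tcdO, fderiv_fun_add (hP.df x) (hQ.df x), add_apply, mul_add, add_mul,
      Finset.sum_add_distrib, smul_add, smul_sub]
    abel

theorem tcGD.zero (ε : ℂ) : K.tcGD ε (fun _ => 0) (fun _ => 0) := by
  refine ⟨contDiff_const, fun x i A => ?_, fun x A hA => ?_, fun x => ?_⟩ <;> simp [tcdO]

theorem tcGD.one : K.tcGD 1 (fun _ => 1) (fun _ => 0) := by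
  refine ⟨contDiff_const, fun x i A => ?_, fun x A hA => ?_, fun x => ?_⟩ <;> simp [tcdO]

theorem tcGD.sum {ι : Type*} (s : Finset ι) {ε : ℂ} {f f' : ι → X3 → F →L[ℂ] F}
    (h : ∀ i, K.tcGD ε (f i) (f' i)) :
    K.tcGD ε (fun x => ∑ i ∈ s, f i x) (fun x => ∑ i ∈ s, f' i x) := by
  classical
  induction s using Finset.induction_on with
  | empty => simpa using tcGD.zero (K := K) ε
  | insert a s ha ih =>
    simp only [Finset.sum_insert ha]
    exact (h a).add ih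

theorem tcGD.cmul (c : ℂ) {ε : ℂ} {P P' : X3 → F →L[ℂ] F} (h : K.tcGD ε P P') :
    K.tcGD ε (fun x => c • P x) (fun x => c • P' x) :=
  (tcGD.smul (tcSD.const c) h).congr (fun _ => rfl) (fun x => by simp)

theorem tcGD.sub {ε : ℂ} {P Q P' Q' : X3 → F →L[ℂ] F} (hP : K.tcGD ε P P') (hQ : K.tcGD ε Q Q') :
    K.tcGD ε (fun x => P x - Q x) (fun x => P' x - Q' x) :=
  (hP.add (hQ.cmul (-1))).congr (fun x => by module) (fun x => by module)

theorem tcGD.scal {f : X3 → ℂ} {f' : X3 → F →L[ℂ] F} (hf : K.tcSD f f') :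
    K.tcGD 1 (fun x => f x • (1 : F →L[ℂ] F)) f' :=
  (tcGD.smul hf tcGD.one).congr (fun _ => rfl) (fun x => by simp)

/-- contraction of `ι_2` with the one-form `c_k^B`, `k < 7` -/
theorem tcio_c (k : Fin 7) (B : Fin 3) (x : X3) :
    K.io 2 x * K.c (e8 k) B + K.c (e8 k) B * K.io 2 x =
      (∑ C, (eps B 2 C : ℂ) * (x (e9 k, C) : ℂ)) • (1 : F →L[ℂ] F) := by
  have h1 : ∀ (j : Fin 8) (A : Fin 3), K.a j A * K.c (e8 k) B =
      (if j = e8 k ∧ A = B then 1 else 0) - K.c (e8 k) B * K.a j A := by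
    intro j A
    rw [← K.ac j A (e8 k) B]; abel
  have h7 : (7 : Fin 8) ≠ e8 k := by
    intro h
    have := congrArg Fin.val h
    simp at this
    omega
  simp only [io, add_mul, mul_add, Finset.sum_mul, Finset.mul_sum, smul_mul_assoc, mul_smul_comm, h1,
    smul_sub, Finset.sum_sub_distrib, h7, false_and, if_false]
  rw [Finset.sum_smul]
  have h2 : (∑ i : Fin 7, ∑ A : Fin 3, ∑ C : Fin 3, ((eps A 2 C : ℂ) * (x (e9 i, C) : ℂ)) •
      (if e8 i = e8 k ∧ A = B then (1 : F →L[ℂ] F) else 0)) =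
      ∑ C, ((eps B 2 C : ℂ) * (x (e9 k, C) : ℂ)) • (1 : F →L[ℂ] F) := by
    rw [Finset.sum_eq_single k, Finset.sum_eq_single B]
    · simp
    · intro A _ hA; simp [hA]
    · simp
    · intro i _ hi
      have : e8 i ≠ e8 k := fun h => hi (Fin.castSucc_injective _ h)
      simp [this]
    · simp
  rw [h2]
  simp only [smul_zero, Finset.sum_const_zero]
  abel

theorem tcio_c7 (x : X3) :
    K.io 2 x * K.c 7 2 + K.c 7 2 * K.io 2 x = 0 := by
  have h1 : ∀ (j : Fin 8) (A : Fin 3), K.a j A * K.c 7 2 =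
      (if j = 7 ∧ A = 2 then 1 else 0) - K.c 7 2 * K.a j A := by
    intro j A
    rw [← K.ac j A 7 2]; abel
  have h7 : ∀ k : Fin 7, e8 k ≠ 7 := by
    intro k h
    have := congrArg Fin.val h
    simp at this
    omega
  have he : ∀ C, eps 2 2 C = 0 := by decide
  simp only [io, add_mul, mul_add, Finset.sum_mul, Finset.mul_sum, smul_mul_assoc, mul_smul_comm, h1,
    smul_sub, Finset.sum_sub_distrib, h7, false_and, if_false, true_and]
  have h2 : (∑ A : Fin 3, ∑ C : Fin 3, ((eps A 2 C : ℂ) * K.phb C x) •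
      (if A = 2 then (1 : F →L[ℂ] F) else 0)) = 0 := by
    refine Finset.sum_eq_zero fun A _ => Finset.sum_eq_zero fun C _ => ?_
    by_cases hA : A = 2
    · subst hA; simp [he]
    · simp [hA]
  rw [h2]
  simp only [smul_zero, Finset.sum_const_zero]
  abel

theorem tcGD.c (k : Fin 7) (B : Fin 3) : K.tcGD (-1) (fun _ => K.c (e8 k) B)
    (fun x => (K.nu * K.ph 2 x * (∑ C, (eps B 2 C : ℂ) * (x (e9 k, C) : ℂ))) • 1) := by
  refine ⟨contDiff_const, fun x i A => ?_, fun x A hA => ?_, fun x => ?_⟩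
  · rw [neg_one_smul, eq_neg_iff_add_eq_zero]; exact K.cc _ _ _ _
  · rw [neg_one_smul, eq_neg_iff_add_eq_zero, K.ac, if_neg]
    rintro ⟨h, -⟩
    have := congrArg Fin.val h
    simp at this
    omega
  · have h : K.tcdO (fun _ => K.c (e8 k) B) x = 0 := by simp [tcdO]
    rw [h, zero_add, neg_one_smul, sub_neg_eq_add, tcio_c, smul_smul]

theorem tcGD.dz : K.tcGD (-1) (fun _ => K.dpb 2) (fun _ => 0) := by
  have h7 : K.tcGD (-1) (fun _ => K.c 7 2) (fun _ => 0) := by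
    refine ⟨contDiff_const, fun x i A => ?_, fun x A hA => ?_, fun x => ?_⟩
    · rw [neg_one_smul, eq_neg_iff_add_eq_zero]; exact K.cc _ _ _ _
    · rw [neg_one_smul, eq_neg_iff_add_eq_zero, K.ac, if_neg]
      rintro ⟨-, h⟩
      exact hA h
    · have h : K.tcdO (fun _ => K.c 7 2) x = 0 := by simp [tcdO]
      rw [h, zero_add, neg_one_smul, sub_neg_eq_add, tcio_c7, smul_zero]
  exact (h7.cmul 2).congr (fun _ => rfl) (fun _ => by simp)


variable (K) in
/-- operators of one-forms -/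
def tcL1 : Submodule ℂ (F →L[ℂ] F) := Submodule.span ℂ (Set.range fun p : Fin 8 × Fin 3 => K.c p.1 p.2)

theorem tcc_mem (i : Fin 8) (A : Fin 3) : K.c i A ∈ K.tcL1 :=
  Submodule.subset_span ⟨(i, A), rfl⟩

theorem tcL1_comm {ε : ℂ} {P : F →L[ℂ] F} (h : ∀ i A, K.c i A * P = ε • (P * K.c i A))
    {v : F →L[ℂ] F} (hv : v ∈ K.tcL1) : v * P = ε • (P * v) := by
  induction hv using Submodule.span_induction with
  | mem x hx => obtain ⟨p, rfl⟩ := hx; exact h _ _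
  | zero => simp
  | add x y _ _ hx hy => rw [add_mul, hx, hy, mul_add, smul_add]
  | smul a x _ hx => rw [smul_mul_assoc, hx, mul_smul_comm, smul_comm]

theorem tcL1_anti {v w : F →L[ℂ] F} (hv : v ∈ K.tcL1) (hw : w ∈ K.tcL1) : v * w = -(w * v) := by
  have h : v * w = (-1 : ℂ) • (w * v) := by
    refine tcL1_comm (fun i A => ?_) hv
    have h2 : w * K.c i A = (-1 : ℂ) • (K.c i A * w) := by
      refine tcL1_comm (fun j B => ?_) hw
      rw [neg_one_smul, eq_neg_iff_add_eq_zero]; exact K.cc _ _ _ _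
    rw [h2, smul_smul]; simp
  rw [h, neg_one_smul]

theorem tcL1_sq {v : F →L[ℂ] F} (hv : v ∈ K.tcL1) : v * v = 0 := by
  have h := tcL1_anti hv hv
  have h2 : (2 : ℂ) • (v * v) = 0 := by
    rw [two_smul]
    nth_rewrite 1 [h]
    exact neg_add_cancel _
  exact (smul_eq_zero.mp h2).resolve_left two_ne_zero

theorem tcm_ne : (K.f0 : ℂ) ≠ 0 := by
  intro h
  have h1 : K.f0 = 0 := by exact_mod_cast h
  have := K.f0_sq
  rw [h1] at this
  norm_num at this

/-! ### the factor `τ` -/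

variable (K) in
/-- `w_k` -/
noncomputable def tcwk (k : Fin 7) (x : X3) : ℂ :=
  (x (e9 k, 0) : ℂ) + Complex.I * (x (e9 k, 1) : ℂ)

variable (K) in
/-- `dw_k` -/
noncomputable def tcdwk (k : Fin 7) : F →L[ℂ] F := K.c (e8 k) 0 + Complex.I • K.c (e8 k) 1

/-- complex conjugate of `w_k` -/
noncomputable def tcwb (k : Fin 7) (x : X3) : ℂ :=
  (x (e9 k, 0) : ℂ) - Complex.I * (x (e9 k, 1) : ℂ)

variable (K) in
/-- its differential -/
noncomputable def tcdwb (k : Fin 7) : F →L[ℂ] F := K.c (e8 k) 0 - Complex.I • K.c (e8 k) 1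

/-- complex conjugate of `s` -/
noncomputable def tcsb (x : X3) : ℂ := ∑ i : Fin 7, tcwb i x ^ 2

theorem tcdwk_mem (k : Fin 7) : K.tcdwk k ∈ K.tcL1 :=
  K.tcL1.add_mem (tcc_mem _ _) (K.tcL1.smul_mem _ (tcc_mem _ _))

theorem tcdwb_mem (k : Fin 7) : K.tcdwb k ∈ K.tcL1 :=
  K.tcL1.sub_mem (tcc_mem _ _) (K.tcL1.smul_mem _ (tcc_mem _ _))

theorem tcds_mem (x : X3) : K.ds x ∈ K.tcL1 :=
  K.tcL1.sum_mem fun k _ => K.tcL1.smul_mem _ (tcdwk_mem k)

theorem tcdsb_mem (x : X3) : K.dsb x ∈ K.tcL1 :=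
  K.tcL1.sum_mem fun k _ => K.tcL1.smul_mem _ (tcdwb_mem k)

theorem tcSD.tcwk (k : Fin 7) : K.tcSD (tcwk k) (fun _ => K.tcdwk k) :=
  (tcSD.co k 0).add ((tcSD.co k 1).cmul Complex.I)

theorem tcSD.tcwb (k : Fin 7) : K.tcSD (tcwb k) (fun _ => K.tcdwb k) :=
  (tcSD.co k 0).sub ((tcSD.co k 1).cmul Complex.I)

theorem tceps_c0 (k : Fin 7) (x : X3) :
    (∑ C, (eps 0 2 C : ℂ) * (x (e9 k, C) : ℂ)) = -(x (e9 k, 1) : ℂ) := by
  have h0 : eps 0 2 0 = 0 := by decide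
  have h1 : eps 0 2 1 = -1 := by decide
  have h2 : eps 0 2 2 = 0 := by decide
  simp [Fin.sum_univ_three, h0, h1, h2]

theorem tceps_c1 (k : Fin 7) (x : X3) :
    (∑ C, (eps 1 2 C : ℂ) * (x (e9 k, C) : ℂ)) = (x (e9 k, 0) : ℂ) := by
  have h0 : eps 1 2 0 = 1 := by decide
  have h1 : eps 1 2 1 = 0 := by decide
  have h2 : eps 1 2 2 = 0 := by decide
  simp [Fin.sum_univ_three, h0, h1, h2]

theorem tceps_c2 (k : Fin 7) (x : X3) :
    (∑ C, (eps 2 2 C : ℂ) * (x (e9 k, C) : ℂ)) = 0 := by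
  have h0 : ∀ C, eps 2 2 C = 0 := by decide
  simp [h0]

theorem tcGD.c0 (k : Fin 7) : K.tcGD (-1) (fun _ => K.c (e8 k) 0)
    (fun x => (-(K.nu * K.ph 2 x) * (x (e9 k, 1) : ℂ)) • 1) :=
  (tcGD.c k 0).congr (fun _ => rfl) (fun x => by rw [tceps_c0]; congr 1; ring)

theorem tcGD.c1 (k : Fin 7) : K.tcGD (-1) (fun _ => K.c (e8 k) 1)
    (fun x => (K.nu * K.ph 2 x * (x (e9 k, 0) : ℂ)) • 1) :=
  (tcGD.c k 1).congr (fun _ => rfl) (fun x => by rw [tceps_c1])

theorem tcGD.c2 (k : Fin 7) : K.tcGD (-1) (fun _ => K.c (e8 k) 2) (fun _ => 0) :=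
  (tcGD.c k 2).congr (fun _ => rfl) (fun x => by rw [tceps_c2]; simp)

theorem tcGD.tcdwk (k : Fin 7) : K.tcGD (-1) (fun _ => K.tcdwk k)
    (fun x => (-(K.f0 * K.ph 2 x) * tcwk k x) • 1) :=
  ((tcGD.c0 k).add ((tcGD.c1 k).cmul Complex.I)).congr (fun _ => rfl) (fun x => by
    rw [smul_smul, ← add_smul]; congr 1
    simp only [Fk.tcwk, nu]
    linear_combination (-(K.f0 : ℂ) * K.ph 2 x * (x (e9 k, 0) : ℂ)) * Complex.I_sq)

theorem tcGD.tcdwb (k : Fin 7) : K.tcGD (-1) (fun _ => K.tcdwb k)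
    (fun x => ((K.f0 * K.ph 2 x) * Fk.tcwb k x) • 1) :=
  ((tcGD.c0 k).sub ((tcGD.c1 k).cmul Complex.I)).congr (fun _ => rfl) (fun x => by
    rw [smul_smul, ← sub_smul]; congr 1
    simp only [Fk.tcwb, nu]
    linear_combination ((K.f0 : ℂ) * K.ph 2 x * (x (e9 k, 0) : ℂ)) * Complex.I_sq)

theorem tcGD.ds : K.tcGD (-1) K.ds (fun x => (-(2 * K.f0 * K.ph 2 x) * ss x) • 1) := by
  have h : ∀ k : Fin 7, K.tcGD (-1) (fun x => (2 * Fk.tcwk k x) • K.tcdwk k)
      (fun x => (-(2 * K.f0 * K.ph 2 x) * Fk.tcwk k x ^ 2) • 1) := by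
    intro k
    refine (tcGD.smul ((tcSD.tcwk k).cmul 2) (tcGD.tcdwk k)).congr (fun _ => rfl) (fun x => ?_)
    rw [smul_mul_assoc, tcL1_sq (tcdwk_mem k), smul_zero, zero_add, smul_smul]
    congr 1; ring
  refine (tcGD.sum Finset.univ h).congr (fun _ => rfl) (fun x => ?_)
  rw [← Finset.sum_smul, ← Finset.mul_sum]; rfl

theorem tcGD.dsb : K.tcGD (-1) K.dsb (fun x => ((2 * K.f0 * K.ph 2 x) * tcsb x) • 1) := by
  have h : ∀ k : Fin 7, K.tcGD (-1) (fun x => (2 * Fk.tcwb k x) • K.tcdwb k)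
      (fun x => ((2 * K.f0 * K.ph 2 x) * Fk.tcwb k x ^ 2) • 1) := by
    intro k
    refine (tcGD.smul ((tcSD.tcwb k).cmul 2) (tcGD.tcdwb k)).congr (fun _ => rfl) (fun x => ?_)
    rw [smul_mul_assoc, tcL1_sq (tcdwb_mem k), smul_zero, zero_add, smul_smul]
    congr 1; ring
  refine (tcGD.sum Finset.univ h).congr (fun _ => rfl) (fun x => ?_)
  rw [← Finset.sum_smul, ← Finset.mul_sum]; rfl

theorem tcSD.ss : K.tcSD ss K.ds :=
  (tcSD.sum Finset.univ fun k => (tcSD.tcwk (K := K) k).sq).congr (fun _ => rfl) (fun _ => rfl)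

theorem tcSD.tcsb : K.tcSD tcsb K.dsb :=
  (tcSD.sum Finset.univ fun k => (tcSD.tcwb (K := K) k).sq).congr (fun _ => rfl) (fun _ => rfl)

theorem tcGD.mul_oo {P Q P' Q' : X3 → F →L[ℂ] F} (hP : K.tcGD (-1) P P') (hQ : K.tcGD (-1) Q Q') :
    K.tcGD 1 (fun x => P x * Q x) (fun x => P' x * Q x - P x * Q' x) := by
  have h := hP.mul hQ
  rw [neg_mul_neg, one_mul] at h
  exact h.congr (fun _ => rfl) (fun x => by rw [neg_one_smul, sub_eq_add_neg])

theorem tcGD.mul_ee {P Q P' Q' : X3 → F →L[ℂ] F} (hP : K.tcGD 1 P P') (hQ : K.tcGD 1 Q Q') :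
    K.tcGD 1 (fun x => P x * Q x) (fun x => P' x * Q x + P x * Q' x) := by
  have h := hP.mul hQ
  rw [one_mul] at h
  exact h.congr (fun _ => rfl) (fun x => by rw [one_smul])

theorem tcGD.P1 : K.tcGD 1 (fun x => Complex.exp (-(Vale.Agent.P353.Ex.Fk.ss x * Fk.tcsb x)) • K.tau0 x)
    (fun _ => 0) := by
  have h1 := (tcGD.scal ((tcSD.ph (K := K) 2).cmul 2)).sub ((tcGD.ds.mul_oo tcGD.dsb).cmul (1 / (K.f0 : ℂ)))
  have h2 := tcGD.smul ((tcSD.ss (K := K)).mul tcSD.tcsb).neg.exp h1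
  refine h2.congr (fun _ => rfl) (fun x => ?_)
  have hm := tcm_ne (K := K)
  have e1 := tcL1_sq (K := K) (tcds_mem x)
  have e2 := tcL1_sq (K := K) (tcdsb_mem x)
  have e3 := tcL1_anti (K := K) (tcdsb_mem x) (tcds_mem x)
  generalize K.ds x = A at e1 e3 ⊢
  generalize K.dsb x = B at e2 e3 ⊢
  generalize Complex.exp _ = E
  generalize K.ph 2 x = z
  generalize Fk.ss x = s
  generalize Fk.tcsb x = t
  generalize (K.f0 : ℂ) = m at hm ⊢
  have e4 : B * (A * B) = 0 := by rw [← mul_assoc, e3, neg_mul, mul_assoc, e2, mul_zero, neg_zero]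
  have e5 : A * (A * B) = 0 := by rw [← mul_assoc, e1, zero_mul]
  simp only [smul_mul_assoc, mul_smul_comm, mul_sub, neg_mul, add_mul, mul_one, one_mul, e4, e5,
    smul_zero, sub_zero, zero_sub, add_zero, neg_zero]
  match_scalars
  · field_simp; ring
  · field_simp; ring


/-! ### the factor `β` -/

theorem tcdkap_mem (k : Fin 7) (x : X3) : K.dkap k x ∈ K.tcL1 :=
  K.tcL1.sum_mem fun _ _ => K.tcL1.sum_mem fun _ _ => K.tcL1.smul_mem _
    (K.tcL1.add_mem (K.tcL1.smul_mem _ (tcc_mem _ _)) (K.tcL1.smul_mem _ (tcc_mem _ _)))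

theorem tcdb_mem (k : Fin 7) (x : X3) : K.db k x ∈ K.tcL1 :=
  K.tcL1.sub_mem (tcc_mem _ _) (K.tcL1.smul_mem _ (tcdkap_mem k x))

theorem tcSD.kap (k : Fin 7) : K.tcSD (fun x => (K.kap k x : ℂ)) (K.dkap k) := by
  have h := tcSD.sum (K := K) Finset.univ fun i : Fin 7 => tcSD.sum (K := K) Finset.univ fun j : Fin 7 =>
    ((tcSD.co i 0).mul (tcSD.co j 1)).cmul (K.t k i j : ℂ)
  refine h.congr (fun x => ?_) (fun x => ?_)
  · simp only [Fk.kap, Complex.ofReal_sum, Complex.ofReal_mul, mul_assoc]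
  · simp only [Fk.dkap]
    refine Finset.sum_congr rfl fun i _ => Finset.sum_congr rfl fun j _ => ?_
    rw [add_comm]

theorem tcSD.bb (k : Fin 7) : K.tcSD (fun x => (K.bb k x : ℂ)) (K.db k) :=
  ((tcSD.co k 2).sub ((tcSD.kap k).cmul (K.f0 : ℂ))).congr
    (fun x => by simp only [Fk.bb, Complex.ofReal_sub, Complex.ofReal_mul]) (fun _ => rfl)

theorem tcGD.dkap (k : Fin 7) : K.tcGD (-1) (K.dkap k) (fun _ => 0) := by
  have h := tcGD.sum (K := K) Finset.univ fun i : Fin 7 => tcGD.sum (K := K) Finset.univ fun j : Fin 7 =>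
    ((tcGD.smul (tcSD.co j 1) (tcGD.c0 i)).add (tcGD.smul (tcSD.co i 0) (tcGD.c1 j))).cmul (K.t k i j : ℂ)
  refine h.congr (fun _ => rfl) (fun x => ?_)
  have h1 : ∀ i j : Fin 7, (K.t k i j : ℂ) • (K.c (e8 j) 1 * K.c (e8 i) 0 +
      (x (e9 j, 1) : ℂ) • (-(K.nu * K.ph 2 x) * (x (e9 i, 1) : ℂ)) • (1 : F →L[ℂ] F) +
      (K.c (e8 i) 0 * K.c (e8 j) 1 +
        (x (e9 i, 0) : ℂ) • (K.nu * K.ph 2 x * (x (e9 j, 0) : ℂ)) • (1 : F →L[ℂ] F))) =
      (K.nu * K.ph 2 x * ((K.t k i j : ℂ) * ((x (e9 i, 0) : ℂ) * (x (e9 j, 0) : ℂ) -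
        (x (e9 i, 1) : ℂ) * (x (e9 j, 1) : ℂ)))) • (1 : F →L[ℂ] F) := by
    intro i j
    have e := K.cc (e8 i) 0 (e8 j) 1
    rw [eq_neg_of_add_eq_zero_right e]
    module
  rw [Finset.sum_congr rfl fun i _ => Finset.sum_congr rfl fun j _ => h1 i j]
  have h2 : (∑ i : Fin 7, ∑ j : Fin 7, (K.nu * K.ph 2 x * ((K.t k i j : ℂ) *
      ((x (e9 i, 0) : ℂ) * (x (e9 j, 0) : ℂ) - (x (e9 i, 1) : ℂ) * (x (e9 j, 1) : ℂ))))) = 0 := by
    set S := ∑ i : Fin 7, ∑ j : Fin 7, (K.nu * K.ph 2 x * ((K.t k i j : ℂ) *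
      ((x (e9 i, 0) : ℂ) * (x (e9 j, 0) : ℂ) - (x (e9 i, 1) : ℂ) * (x (e9 j, 1) : ℂ)))) with hS
    have h3 : S = -S := by
      conv_lhs => rw [hS, Finset.sum_comm]
      rw [hS, ← Finset.sum_neg_distrib]
      refine Finset.sum_congr rfl fun i _ => ?_
      rw [← Finset.sum_neg_distrib]
      refine Finset.sum_congr rfl fun j _ => ?_
      rw [K.t_swap k j i]
      push_cast
      ring
    exact self_eq_neg.mp h3
  simp only [← Finset.sum_smul]
  rw [h2, zero_smul]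

theorem tcGD.db (k : Fin 7) : K.tcGD (-1) (K.db k) (fun _ => 0) :=
  ((tcGD.c2 k).sub ((tcGD.dkap k).cmul (K.f0 : ℂ))).congr (fun _ => rfl) (fun x => by simp)

theorem tcGD.prod_odd {ι : Type*} (l : List ι) {P : ι → X3 → F →L[ℂ] F}
    (h : ∀ i, K.tcGD (-1) (P i) (fun _ => 0)) :
    K.tcGD ((-1) ^ l.length) (fun x => (l.map fun i => P i x).prod) (fun _ => 0) := by
  induction l with
  | nil => simpa using tcGD.one (K := K)
  | cons a l ih =>
    simp only [List.map_cons, List.prod_cons, List.length_cons, pow_succ']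
    exact ((h a).mul ih).congr (fun _ => rfl) (fun x => by simp)

theorem tcL1_prod {ι : Type*} (l : List ι) {v : ι → F →L[ℂ] F} (h : ∀ i, v i ∈ K.tcL1) {j : ι}
    (hj : j ∈ l) : v j * (l.map v).prod = 0 := by
  induction l with
  | nil => simp at hj
  | cons a l ih =>
    rw [List.map_cons, List.prod_cons]
    rcases List.mem_cons.mp hj with rfl | h1
    · rw [← mul_assoc, tcL1_sq (h _), zero_mul]
    · rw [← mul_assoc, tcL1_anti (h _) (h _), neg_mul, mul_assoc, ih h1, mul_zero, neg_zero]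

theorem tcGD.bet : K.tcGD (-1) K.bet (fun _ => 0) := by
  have h := tcGD.prod_odd (K := K) (List.finRange 7) (P := K.db) tcGD.db
  rw [List.length_finRange] at h
  have e : ((-1 : ℂ)) ^ 7 = -1 := by norm_num
  rw [e] at h
  exact h.congr (fun x => by rw [Fk.bet, List.ofFn_eq_map]) (fun _ => rfl)

theorem tcGD.P2 : K.tcGD (-1) (fun x => Complex.exp (-(∑ k, (K.bb k x : ℂ) ^ 2)) • K.bet x)
    (fun _ => 0) := by
  have h1 := (tcSD.sum (K := K) Finset.univ fun k : Fin 7 => (tcSD.bb k).sq).neg.exp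
  refine (tcGD.smul h1 tcGD.bet).congr (fun _ => rfl) (fun x => ?_)
  have e : (∑ k, (2 * (K.bb k x : ℂ)) • K.db k x) * K.bet x = 0 := by
    rw [Finset.sum_mul]
    refine Finset.sum_eq_zero fun k _ => ?_
    rw [smul_mul_assoc, Fk.bet, List.ofFn_eq_map,
      tcL1_prod (List.finRange 7) (fun i => tcdb_mem i x) (List.mem_finRange k), smul_zero]
  rw [smul_zero, add_zero, smul_mul_assoc, neg_mul, e, neg_zero, smul_zero]

/-! ### the factor `E_T` -/

variable (K) in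
/-- `θ_k = x_k^0 c_k^0 + x_k^1 c_k^1` -/
noncomputable def tcthk (k : Fin 7) (x : X3) : F →L[ℂ] F :=
  (x (e9 k, 0) : ℂ) • K.c (e8 k) 0 + (x (e9 k, 1) : ℂ) • K.c (e8 k) 1

variable (K) in
/-- `c_k^0 c_k^1` -/
noncomputable def tccck (k : Fin 7) : F →L[ℂ] F := K.c (e8 k) 0 * K.c (e8 k) 1

theorem tcthk_mem (k : Fin 7) (x : X3) : K.tcthk k x ∈ K.tcL1 :=
  K.tcL1.add_mem (K.tcL1.smul_mem _ (tcc_mem _ _)) (K.tcL1.smul_mem _ (tcc_mem _ _))

theorem tcmu_mem (x : X3) : K.mu x ∈ K.tcL1 :=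
  K.tcL1.sum_mem fun _ _ =>
    (K.tcL1.sub_mem (K.tcL1.smul_mem _ (tcc_mem _ _)) (K.tcL1.smul_mem _ (tcc_mem _ _)))

theorem tcdz_mem : K.dpb 2 ∈ K.tcL1 := K.tcL1.smul_mem _ (tcc_mem _ _)

theorem tcr3_eq (x : X3) : ((r3 x : ℝ) : ℂ) = K.ph 2 x * K.phb 2 x := by
  have hs : (K.sg : ℂ) * (K.sg : ℂ) = 1 := by
    rw [← Complex.ofReal_mul, K.sg_sq, Complex.ofReal_one]
  simp only [r3, ph, phb]
  push_cast
  linear_combination (-(x (8, 2) : ℂ) ^ 2) * hs + ((x (8, 2) : ℂ) ^ 2 * (K.sg : ℂ) ^ 2) * Complex.I_sq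

theorem tcr3_nonneg (x : X3) : 0 ≤ r3 x := by unfold r3; positivity

theorem tccontDiff_gg : ContDiff ℝ ∞ gg := by
  have hr : ContDiff ℝ ∞ (fun x : X3 => 1 + r3 x) := by
    unfold r3
    have h7 : ContDiff ℝ ∞ (fun x : X3 => x (7, 2)) := (EuclideanSpace.proj (7, 2) : X3 →L[ℝ] ℝ).contDiff
    have h8 : ContDiff ℝ ∞ (fun x : X3 => x (8, 2)) := (EuclideanSpace.proj (8, 2) : X3 →L[ℝ] ℝ).contDiff
    exact contDiff_const.add ((h7.pow 2).add (h8.pow 2))
  have hp : ∀ x : X3, 0 < 1 + r3 x := fun x => by have := tcr3_nonneg x; linarith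
  exact (hr.sqrt fun x => (hp x).ne').inv fun x => (Real.sqrt_pos.mpr (hp x)).ne'

theorem tcgg_sq (x : X3) : gg x * gg x * (1 + r3 x) = 1 := by
  have hp : 0 < 1 + r3 x := by have := tcr3_nonneg x; linarith
  have h := Real.mul_self_sqrt hp.le
  have hne : Real.sqrt (1 + r3 x) ≠ 0 := (Real.sqrt_pos.mpr hp).ne'
  unfold gg
  field_simp
  nlinarith only [h]

theorem tcSD.gg : K.tcSD (fun x => (gg x : ℂ)) (fun x => (-(1 / 2) * (gg x : ℂ) ^ 3 * K.ph 2 x) • K.dpb 2) := by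
  have h0 : K.tcSD (fun x => (Fk.gg x : ℂ)) (K.tcdS fun x => (Fk.gg x : ℂ)) :=
    ⟨Complex.ofRealCLM.contDiff.comp tccontDiff_gg, fun _ => rfl⟩
  have h1 := (h0.mul h0).mul ((tcSD.const 1).add ((tcSD.ph 2).mul (tcSD.phb 2)))
  have h2 : (fun x => (Fk.gg x : ℂ) * (Fk.gg x : ℂ) * (1 + K.ph 2 x * K.phb 2 x)) = fun _ => 1 := by
    funext x
    rw [← tcr3_eq]
    exact_mod_cast tcgg_sq x
  rw [h2] at h1
  refine h0.congr (fun _ => rfl) (fun x => ?_)
  have h3 := (h1.eq x).symm.trans ((tcSD.const (K := K) 1).eq x)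
  have h4 := congrFun h2 x
  generalize K.tcdS (fun x => (Fk.gg x : ℂ)) x = G at h3 ⊢
  generalize (Fk.gg x : ℂ) = g at h3 h4 ⊢
  generalize K.ph 2 x = z at h3 h4 ⊢
  generalize K.phb 2 x = y at h3 h4 ⊢
  have h5 : G = (g * g * (1 + z * y)) • G := by rw [h4, one_smul]
  have h6 : (g / 2) • ((g * g) • ((0 : F →L[ℂ] F) + (z • K.dpb 2 + y • 0)) +
    (1 + z * y) • (g • G + g • G)) = 0 := by rw [h3, smul_zero]
  rw [h5, eq_comm, ← sub_eq_zero, ← h6]
  module


theorem tcSD.qq : K.tcSD K.qq (fun x => (qp x : ℂ) • K.dpb 2) := by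
  refine (tcSD.gg.mul (tcSD.phb 2)).congr (fun _ => rfl) (fun x => ?_)
  have h : (Fk.gg x : ℂ) * (Fk.gg x : ℂ) * (1 + K.ph 2 x * K.phb 2 x) = 1 := by
    rw [← tcr3_eq]
    exact_mod_cast tcgg_sq x
  rw [smul_smul, ← add_smul]
  congr 1
  simp only [qp]
  push_cast
  rw [tcr3_eq (K := K)]
  linear_combination (Fk.gg x : ℂ) * h

theorem tcSD.qp : ∃ f : X3 → ℂ, K.tcSD (fun x => (qp x : ℂ)) (fun x => f x • K.dpb 2) := by
  refine ⟨fun x => (1 + 1 / 2 * (K.ph 2 x * K.phb 2 x)) * (-(3 / 2) * (Fk.gg x : ℂ) ^ 5 * K.ph 2 x) +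
    (Fk.gg x : ℂ) ^ 3 * (1 / 2 * K.ph 2 x), ?_⟩
  refine (((tcSD.const 1).add (((tcSD.ph 2).mul (tcSD.phb 2)).cmul (1 / 2))).mul
    ((tcSD.gg.mul tcSD.gg).mul tcSD.gg)).congr (fun x => ?_) (fun x => ?_)
  · simp only [Fk.qp]
    push_cast
    rw [tcr3_eq (K := K)]
    ring
  · match_scalars
    ring

theorem tcSD.wsq : K.tcSD (fun x => (wsq x : ℂ)) (fun x => (2 : ℂ) • ∑ k, K.tcthk k x) := by
  refine (tcSD.sum Finset.univ fun k => ((tcSD.co (K := K) k 0).sq.add (tcSD.co k 1).sq)).congr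
    (fun x => ?_) (fun x => ?_)
  · simp only [Fk.wsq]
    push_cast
    rfl
  · rw [Finset.smul_sum]
    refine Finset.sum_congr rfl fun k _ => ?_
    simp only [tcthk]
    module

theorem tcGD.mu : K.tcGD (-1) K.mu
    (fun x => (2 : ℂ) • (∑ k, K.tccck k) + (K.nu * K.ph 2 x * (wsq x : ℂ)) • 1) := by
  have h := tcGD.sum (K := K) Finset.univ fun k : Fin 7 =>
    (tcGD.smul (tcSD.co k 0) (tcGD.c1 k)).sub (tcGD.smul (tcSD.co k 1) (tcGD.c0 k))
  refine h.congr (fun _ => rfl) (fun x => ?_)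
  have e : (wsq x : ℂ) = ∑ k : Fin 7, ((x (e9 k, 0) : ℂ) ^ 2 + (x (e9 k, 1) : ℂ) ^ 2) := by
    simp only [wsq]
    push_cast
    rfl
  rw [e, Finset.mul_sum, Finset.sum_smul, Finset.smul_sum, ← Finset.sum_add_distrib]
  refine Finset.sum_congr rfl fun k _ => ?_
  have e := K.cc (e8 k) 0 (e8 k) 1
  rw [eq_neg_of_add_eq_zero_right e, tccck]
  module

theorem tcGD.dzmu : K.tcGD 1 (fun x => K.dpb 2 * K.mu x)
    (fun x => -(K.dpb 2 * ((2 : ℂ) • (∑ k, K.tccck k) + (K.nu * K.ph 2 x * (wsq x : ℂ)) • 1))) :=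
  (tcGD.dz.mul_oo tcGD.mu).congr (fun _ => rfl) (fun x => by rw [zero_mul, zero_sub])

theorem tcGD.rho : K.tcGD 1 K.rho (fun x => -((Complex.I / (K.f0 : ℂ) * (qp x : ℂ)) •
    (K.dpb 2 * ((2 : ℂ) • (∑ k, K.tccck k) + (K.nu * K.ph 2 x * (wsq x : ℂ)) • 1)))) := by
  obtain ⟨f, hf⟩ := tcSD.qp (K := K)
  refine (tcGD.one.add (tcGD.smul (hf.cmul (Complex.I / (K.f0 : ℂ))) tcGD.dzmu)).congr
    (fun _ => rfl) (fun x => ?_)
  have e : ((Complex.I / (K.f0 : ℂ)) • f x • K.dpb 2) * (K.dpb 2 * K.mu x) = 0 := by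
    rw [smul_mul_assoc, smul_mul_assoc, ← mul_assoc, tcL1_sq tcdz_mem, zero_mul, smul_zero, smul_zero]
  rw [e, zero_add, zero_add, smul_neg]

theorem tcGD.tccck (k : Fin 7) : K.tcGD 1 (fun _ => K.tccck k) (fun x => (-(K.nu * K.ph 2 x)) • K.tcthk k x) := by
  refine ((tcGD.c0 k).mul_oo (tcGD.c1 k)).congr (fun _ => rfl) (fun x => ?_)
  simp only [tcthk, smul_mul_assoc, mul_smul_comm, one_mul, mul_one]
  module

variable (K) in
/-- the logarithmic derivative of the factors of `E_T` -/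
noncomputable def tceta (k : Fin 7) (x : X3) : F →L[ℂ] F :=
  (2 * Complex.I / (K.f0 : ℂ) * (qp x : ℂ)) • (K.dpb 2 * K.tccck k) -
    (2 * Complex.I / (K.f0 : ℂ) * (K.qq x * (K.nu * K.ph 2 x))) • K.tcthk k x

variable (K) in
/-- the factors of `E_T` -/
noncomputable def tcfac (k : Fin 7) (x : X3) : F →L[ℂ] F :=
  1 + (2 * Complex.I / (K.f0 : ℂ) * K.qq x) • K.tccck k

theorem tcGD.tcfac (k : Fin 7) : K.tcGD 1 (K.tcfac k) (K.tceta k) := by
  refine (tcGD.one.add (tcGD.smul (tcSD.qq.cmul (2 * Complex.I / (K.f0 : ℂ))) (tcGD.tccck k))).congr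
    (fun _ => rfl) (fun x => ?_)
  rw [tceta, smul_mul_assoc, smul_mul_assoc]
  module

theorem tcc_cck (k : Fin 7) : K.c (e8 k) 0 * K.tccck k = 0 ∧ K.c (e8 k) 1 * K.tccck k = 0 := by
  constructor
  · rw [tccck, ← mul_assoc, tcL1_sq (tcc_mem _ _), zero_mul]
  · rw [tccck, ← mul_assoc, tcL1_anti (tcc_mem _ _) (tcc_mem _ _), neg_mul, mul_assoc, tcL1_sq (tcc_mem _ _),
      mul_zero, neg_zero]

theorem tceta_fac (k : Fin 7) (x : X3) : K.tceta k x * K.tcfac k x = K.tceta k x := by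
  have e1 : K.tcthk k x * K.tccck k = 0 := by
    rw [tcthk, add_mul, smul_mul_assoc, smul_mul_assoc, (tcc_cck k).1, (tcc_cck k).2, smul_zero, smul_zero,
      add_zero]
  have e2 : K.tccck k * K.tccck k = 0 := by
    nth_rewrite 1 [tccck]
    rw [mul_assoc, (tcc_cck k).2, mul_zero]
  rw [tcfac, mul_add, mul_one, mul_smul_comm]
  have e3 : K.tceta k x * K.tccck k = 0 := by
    rw [tceta, sub_mul, smul_mul_assoc, smul_mul_assoc, mul_assoc, e2, e1, mul_zero, smul_zero, smul_zero,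
      sub_zero]
  rw [e3, smul_zero, add_zero]

theorem tcfac_comm (j k : Fin 7) (x : X3) : K.tcfac j x * K.tceta k x = K.tceta k x * K.tcfac j x := by
  have h : ∀ i A, Commute (K.tcfac j x) (K.c i A) := fun i A => by
    have := (tcGD.tcfac (K := K) j).comm x i A
    rw [one_smul] at this
    exact this.symm
  have h1 : Commute (K.tcfac j x) (K.dpb 2) := (h 7 2).smul_right _
  have h2 : Commute (K.tcfac j x) (K.tccck k) := (h _ _).mul_right (h _ _)
  have h3 : Commute (K.tcfac j x) (K.tcthk k x) := ((h _ _).smul_right _).add_right ((h _ _).smul_right _)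
  exact (((h1.mul_right h2).smul_right _).sub_right (h3.smul_right _))

theorem tcGD.prod_fac (l : List (Fin 7)) :
    K.tcGD 1 (fun x => (l.map fun i => K.tcfac i x).prod)
      (fun x => (l.map fun i => K.tceta i x).sum * (l.map fun i => K.tcfac i x).prod) := by
  induction l with
  | nil => exact (tcGD.one (K := K)).congr (fun _ => by simp) (fun _ => by simp)
  | cons a l ih =>
    refine ((tcGD.tcfac a).mul_ee ih).congr (fun x => by simp) (fun x => ?_)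
    simp only [List.map_cons, List.prod_cons, List.sum_cons]
    have e : K.tcfac a x * (l.map fun i => K.tceta i x).sum = (l.map fun i => K.tceta i x).sum * K.tcfac a x := by
      clear ih
      induction l with
      | nil => simp
      | cons b l ih =>
        simp only [List.map_cons, List.sum_cons]
        rw [mul_add, add_mul, ih, tcfac_comm]
    rw [add_mul, ← mul_assoc, ← mul_assoc, ← mul_assoc, e, tceta_fac]

theorem tcGD.eeT : K.tcGD 1 K.eeT (fun x => (∑ k, K.tceta k x) * K.eeT x) := by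
  refine (tcGD.prod_fac (K := K) (List.finRange 7)).congr (fun x => ?_) (fun x => ?_)
  · rw [Fk.eeT, List.ofFn_eq_map]; rfl
  · rw [Fk.eeT, List.ofFn_eq_map]
    congr 1

theorem tcGD.P3 : K.tcGD 1 (fun x => Complex.exp (-(K.qq x * K.ph 2 x * (wsq x : ℂ))) • (K.rho x * K.eeT x))
    (fun _ => 0) := by
  have h1 := ((tcSD.qq (K := K)).mul (tcSD.ph 2)).mul tcSD.wsq
  have h2 := tcGD.smul h1.neg.exp (tcGD.rho.mul_ee tcGD.eeT)
  refine h2.congr (fun _ => rfl) (fun x => ?_)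
  have e : (∑ k, K.tceta k x) = (2 * Complex.I / (K.f0 : ℂ) * (qp x : ℂ)) • (K.dpb 2 * ∑ k, K.tccck k) -
      (2 * Complex.I / (K.f0 : ℂ) * (K.qq x * (K.nu * K.ph 2 x))) • ∑ k, K.tcthk k x := by
    simp only [tceta, Finset.sum_sub_distrib, Finset.smul_sum, Finset.mul_sum]
  have hth : (∑ k, K.tcthk k x) ∈ K.tcL1 := K.tcL1.sum_mem fun k _ => tcthk_mem k x
  have e1 := tcL1_sq (tcdz_mem (K := K))
  have e2 : (∑ k, K.tcthk k x) * (K.dpb 2 * K.mu x) = K.dpb 2 * K.mu x * ∑ k, K.tcthk k x := by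
    rw [← mul_assoc, tcL1_anti hth tcdz_mem, neg_mul, mul_assoc, tcL1_anti hth (tcmu_mem x), mul_neg, neg_neg,
      mul_assoc]
  have e3 : K.dpb 2 * K.mu x * (K.dpb 2 * ∑ k, K.tccck k) = 0 := by
    rw [mul_assoc, ← mul_assoc (K.mu x), tcL1_anti (tcmu_mem x) tcdz_mem, neg_mul, mul_neg, ← mul_assoc,
      ← mul_assoc, e1, zero_mul, zero_mul, neg_zero]
  have e4 : K.dpb 2 * (K.dpb 2 * K.mu x) = 0 := by rw [← mul_assoc, e1, zero_mul]
  rw [e]
  simp only [Fk.rho, nu]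
  generalize (∑ k, K.tcthk k x) = th at e2 ⊢
  generalize (∑ k, K.tccck k) = C at e3 ⊢
  generalize K.mu x = μ at e2 e3 e4 ⊢
  generalize K.dpb 2 = d at e1 e2 e3 e4 ⊢
  generalize K.eeT x = T
  generalize Complex.exp _ = E
  have hm := tcm_ne (K := K)
  generalize (K.f0 : ℂ) = m at hm ⊢
  generalize (qp x : ℂ) = q'
  generalize (wsq x : ℂ) = N
  generalize K.qq x = q
  generalize K.ph 2 x = z
  have e5 : ∀ X : F →L[ℂ] F, th * (d * (μ * X)) = d * (μ * (th * X)) := by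
    intro X
    have := congrArg (· * X) e2
    simpa only [mul_assoc] using this
  have e6 : ∀ X : F →L[ℂ] F, d * (μ * (d * (C * X))) = 0 := by
    intro X
    have := congrArg (· * X) e3
    simpa only [mul_assoc, zero_mul] using this
  have e7 : ∀ X : F →L[ℂ] F, d * (d * X) = 0 := by
    intro X
    rw [← mul_assoc, e1, zero_mul]
  simp only [smul_mul_assoc, mul_smul_comm, mul_add, add_mul, sub_mul, mul_sub, neg_mul,
    mul_one, one_mul, mul_assoc, e5, e6, e7, smul_zero, add_zero, zero_add, smul_add,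
    smul_neg, smul_sub, smul_smul]
  clear e2 e3 e4 e5 e6 e7 h1 h2 e hth e1
  have hI := Complex.I_sq
  match_scalars
  · field_simp
    linear_combination (2 * E * q * z) * hI
  · field_simp
    linear_combination (E * N * z * q') * hI
  · field_simp
    linear_combination (2 * Complex.I * q' * E * q * z) * hI
  · field_simp
    ring

/-! ### the theorems -/

variable (K) in
/-- the operator form of `aT` -/
noncomputable def tcPT (x : X3) : F →L[ℂ] F :=
  K.ph 2 x • ((Complex.exp (-(ss x * tcsb x)) • K.tau0 x) *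
    (Complex.exp (-(∑ k, (K.bb k x : ℂ) ^ 2)) • K.bet x) *
    (Complex.exp (-(K.qq x * K.ph 2 x * (wsq x : ℂ))) • (K.rho x * K.eeT x)))

theorem tcGD.tcPT : K.tcGD (-1) K.tcPT (fun _ => 0) := by
  have h := tcGD.smul (tcSD.ph (K := K) 2) ((tcGD.P1.mul tcGD.P2).mul tcGD.P3)
  rw [one_mul, mul_one] at h
  exact h.congr (fun x => by rw [Fk.tcPT]) (fun x => by simp)

theorem tcss_sb (x : X3) : ss x * tcsb x = ((‖ss x‖ ^ 2 : ℝ) : ℂ) := by
  have h : tcsb x = (starRingEnd ℂ) (ss x) := by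
    simp only [tcsb, ss, tcwb, map_sum, map_pow, map_add, map_mul, Complex.conj_ofReal, Complex.conj_I]
    refine Finset.sum_congr rfl fun k _ => ?_
    ring
  rw [h, Complex.mul_conj, Complex.normSq_eq_norm_sq]

theorem tcaT_eq (x : X3) : K.aT x = K.tcPT x K.vac := by
  have h1 : ((Real.exp (-K.expo x) : ℝ) : ℂ) = Complex.exp (-(ss x * tcsb x)) *
      Complex.exp (-(∑ k, (K.bb k x : ℂ) ^ 2)) * Complex.exp (-(K.qq x * K.ph 2 x * (wsq x : ℂ))) := by
    rw [← Complex.exp_add, ← Complex.exp_add, Complex.ofReal_exp, tcss_sb]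
    congr 1
    simp only [expo, qq]
    push_cast
    rw [tcr3_eq (K := K)]
    ring
  rw [aT, tcPT, h1]
  simp only [smul_mul_assoc, mul_smul_comm, smul_smul, mul_assoc, smul_apply]
  congr 1
  ring

theorem tcmulA (S T : F →L[ℂ] F) (v : F) : (S * T) v = S (T v) := rfl

theorem tcclm_eval {P : X3 → F →L[ℂ] F} {x : X3} (hP : DifferentiableAt ℝ P x) (v : F) (i : Fin 9)
    (A : Fin 3) : pd i A (fun y => P y v) x = fderiv ℝ P x (tcdir i A) v := by
  rw [pd_clm_apply (u := fun _ => v) hP (differentiableAt_const v)]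
  simp [pd]


variable (K)

theorem contDiff_aT : ContDiff ℝ ∞ K.aT := by
  have h : K.aT = fun x => K.tcPT x K.vac := funext tcaT_eq
  rw [h]
  exact Setup.contDiff_clm_apply' (tcGD.tcPT).cd contDiff_const

theorem tccontDiff_phb (A : Fin 3) : ContDiff ℝ ∞ (K.phb A) := (tcSD.phb A).cd

theorem tccontDiff_perp2 : ContDiff ℝ ∞ perp2 := by
  unfold perp2
  exact (((Setup.contDiff_coord _).pow 2).add ((Setup.contDiff_coord _).pow 2)).add
    ((Setup.contDiff_coord _).pow 2) |>.add ((Setup.contDiff_coord _).pow 2)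

theorem tccontDiff_dph (A : Fin 3) {u : X3 → F} (hu : ContDiff ℝ ∞ u) :
    ContDiff ℝ ∞ (K.dph A u) := by
  unfold dph
  exact ((contDiff_pd hu).sub ((contDiff_pd hu).const_smul _)).const_smul _

theorem tccontDiff_clm (T : F →L[ℂ] F) {u : X3 → F} (hu : ContDiff ℝ ∞ u) :
    ContDiff ℝ ∞ (fun x => T (u x)) := Setup.contDiff_clm_apply' contDiff_const hu

theorem tccontDiff_KK0 (t : ℝ) : ContDiff ℝ ∞ (K.KK0 t) := by
  have h := K.contDiff_aT
  have hi : ∀ A, ContDiff ℝ ∞ fun x => K.io A x (K.aT x) := fun A =>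
    Setup.contDiff_clm_apply' (K.contDiff_io A) h
  unfold KK0
  refine ((((ContDiff.neg ((K.tccontDiff_dph 2 h).const_smul _)).add ?_).sub ?_).sub ?_).add ?_
  · exact Setup.contDiff_clm_apply' (K.contDiff_io 1) (hi 0)
  · exact (contDiff_const.mul (K.tccontDiff_phb 2)).smul h
  · exact (tccontDiff_clm _ (tccontDiff_clm _ h)).const_smul _
  · exact ((tccontDiff_clm _ (hi 1)).sub (tccontDiff_clm _ (hi 0))).const_smul _

theorem contDiff_KK (t : ℝ) : ContDiff ℝ ∞ (K.KK t) := by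
  unfold KK
  exact (Setup.contDiff_ofReal (contDiff_const.mul tccontDiff_perp2).exp).smul (K.tccontDiff_KK0 t)

theorem contDiff_Ps (t : ℝ) : ContDiff ℝ ∞ (K.Ps t) := by
  unfold Ps
  exact (Setup.contDiff_ofReal K.contDiff_hh.neg.exp).smul (K.contDiff_KK t)

theorem contDiff_uu (t : ℝ) (A : Fin 3) : ContDiff ℝ ∞ (K.uu t A) := by
  unfold uu
  exact (Setup.contDiff_ofReal (contDiff_const.mul tccontDiff_perp2).exp).smul
    ((Setup.contDiff_clm_apply' (K.contDiff_io A) K.contDiff_aT).sub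
      ((tccontDiff_clm _ K.contDiff_aT).const_smul _))

theorem tcio_vac (A : Fin 3) (x : X3) : K.io A x K.vac = 0 := by
  simp [io, K.a_vac]

theorem D0_aT (x : X3) : K.D0 K.aT x =
    K.nu • (K.ph 0 x • K.io 0 x (K.aT x) + K.ph 1 x • K.io 1 x (K.aT x)) := by
  have hP := tcGD.tcPT (K := K)
  have h : K.aT = fun x => K.tcPT x K.vac := funext tcaT_eq
  have h1 : K.dd K.aT x = K.tcdO K.tcPT x K.vac := by
    simp only [h, dd, tcdO, tcclm_eval (hP.df x), add_apply, sum_apply, smul_apply,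
      tcmulA, tcdir]
  have h2 := congrArg (fun T : F →L[ℂ] F => T K.vac) (hP.der x)
  simp only [neg_one_smul, sub_neg_eq_add, add_apply, smul_apply, tcmulA,
    K.tcio_vac, map_zero, add_zero, zero_apply] at h2
  rw [← h1, ← tcaT_eq] at h2
  rw [D0, Fin.sum_univ_three, eq_neg_of_add_eq_zero_left h2]
  module

theorem tcaT_congr {x y : X3} (h : ∀ k A, x (e9 k, A) = y (e9 k, A)) (h7 : x (7, 2) = y (7, 2))
    (h8 : x (8, 2) = y (8, 2)) : K.aT x = K.aT y := by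
  simp only [aT, expo, ss, bb, kap, gg, r3, wsq, ph, tau0, ds, dsb, bet, db, dkap, rho, qp, mu, eeT,
    qq, phb, h, h7, h8]

theorem tcpd_aT (i : Fin 9) (hi : i = 7 ∨ i = 8) (A : Fin 3) (hA : A ≠ 2) (x : X3) :
    pd i A K.aT x = 0 := by
  have hd : DifferentiableAt ℝ K.aT x := (K.contDiff_aT.differentiable (by simp)) x
  rw [pd, ← hd.lineDeriv_eq_fderiv, lineDeriv]
  have h : (fun t : ℝ => K.aT (x + t • (EuclideanSpace.single (i, A) (1 : ℝ) : X3))) =
      fun _ => K.aT x := by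
    funext t
    refine K.tcaT_congr (fun k B => ?_) ?_ ?_
    · have : (e9 k, B) ≠ (i, A) := by
        rintro ⟨⟩
        rcases hi with h | h
        · exact tce9_ne7 k h
        · exact tce9_ne8 k h
      simp [this]
    · have : ((7 : Fin 9), (2 : Fin 3)) ≠ (i, A) := by
        rintro ⟨⟩
        exact hA rfl
      simp [this]
    · have : ((8 : Fin 9), (2 : Fin 3)) ≠ (i, A) := by
        rintro ⟨⟩
        exact hA rfl
      simp [this]
  rw [h, deriv_const]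

theorem dph_aT_0 (x : X3) : K.dph 0 K.aT x = 0 := by
  rw [dph, K.tcpd_aT 7 (Or.inl rfl) 0 (by decide), K.tcpd_aT 8 (Or.inr rfl) 0 (by decide)]
  simp

theorem dph_aT_1 (x : X3) : K.dph 1 K.aT x = 0 := by
  rw [dph, K.tcpd_aT 7 (Or.inl rfl) 1 (by decide), K.tcpd_aT 8 (Or.inr rfl) 1 (by decide)]
  simp

theorem tca7_aT (A : Fin 3) (hA : A ≠ 2) (x : X3) : K.a 7 A (K.aT x) = 0 := by
  have h := congrArg (fun T : F →L[ℂ] F => T K.vac) ((tcGD.tcPT (K := K)).com7 x A hA)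
  simp only [smul_apply, tcmulA, K.a_vac, map_zero, smul_zero] at h
  rw [tcaT_eq]
  exact h

end Fk

end Vale.Agent.P353.Ex
end

section

/-! Task EX-12: pointwise bounds for the `T`-level form.

`expo + hh ≥ |κ|² + |b|²/2 + |s|² + g|z|²|w|²` because `hh = f0 κ·b + 2|κ|²` and
`2|κ|² + f0 κ·b + |b|² - |κ|² - |b|²/2 = |κ + f0 b/2|²` (`f0² = 2`).  `4|κ|² + |s|² = |w|⁴`
(`t_norm`), and `|x³|² ≤ (|b| + √2|κ|)² ≤ 4(|κ|² + |b|²/2)`.  Hence
`e^{-hh - expo} ≤ e^{-|x³|²/8 - |w|⁴/8 - g|z|²|w|²}`; polynomials in `x_i` (`i<7`) are absorbed by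
passing to `1/16`.  Operator norms: `‖c‖, ‖a‖ ≤ 1` (from `ac`, `adj`), `|q| ≤ 1`, `0 ≤ q' ≤ 1`.
`∂_{φ_2}`: product rule; `∂_z (g|z|²) = z̄ q'`, all `z`-derivatives of `g, q'` are bounded.
`ι_A aT`: the operators `a 7 0`, `a 7 1` anticommute through to the vacuum and give `0`, so in
`io 0 aT`, `io 1 aT`, `io 1 (io 0 aT)` only the terms with `a 7 2` and coefficient `φ̄_0` or `φ̄_1`
survive in the `φ̄` part. -/

open MeasureTheory Filter Topology
open scoped ContDiff ComplexConjugate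

namespace Vale.Agent.P353.Ex

variable {F : Type*} [NormedAddCommGroup F] [InnerProductSpace ℂ F]

open Fk

namespace Fk

variable (K : Fk F)

private theorem bd_ca (i : Fin 8) (A : Fin 3) (v : F) :
    ‖K.c i A v‖ ^ 2 + ‖K.a i A v‖ ^ 2 = ‖v‖ ^ 2 := by
  have h1 : K.a i A (K.c i A v) + K.c i A (K.a i A v) = v := by
    have h := K.ac i A i A
    rw [if_pos ⟨rfl, rfl⟩] at h
    exact DFunLike.congr_fun h v
  have h2 : inner ℂ (K.c i A v) (K.c i A v) + inner ℂ (K.a i A v) (K.a i A v) = inner ℂ v v := by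
    rw [K.adj i A v (K.c i A v)]
    have h3 : inner ℂ (K.a i A v) (K.a i A v) = inner ℂ v (K.c i A (K.a i A v)) := by
      have h4 := K.adj i A (K.a i A v) v
      rw [← inner_conj_symm v (K.c i A (K.a i A v)), h4, inner_conj_symm]
    rw [h3, ← inner_add_right, h1]
  rw [inner_self_eq_norm_sq_to_K, inner_self_eq_norm_sq_to_K, inner_self_eq_norm_sq_to_K] at h2
  exact_mod_cast h2

theorem norm_c_le (i : Fin 8) (A : Fin 3) (v : F) : ‖K.c i A v‖ ≤ ‖v‖ := by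
  have h := bd_ca K i A v
  refine le_of_sq_le_sq ?_ (norm_nonneg _)
  nlinarith only [h, sq_nonneg ‖K.a i A v‖]

private theorem bd_a_le (i : Fin 8) (A : Fin 3) (v : F) : ‖K.a i A v‖ ≤ ‖v‖ := by
  have h := bd_ca K i A v
  refine le_of_sq_le_sq ?_ (norm_nonneg _)
  nlinarith only [h, sq_nonneg ‖K.c i A v‖]

private theorem bd_c1 (i : Fin 8) (A : Fin 3) : ‖K.c i A‖ ≤ 1 :=
  ContinuousLinearMap.opNorm_le_bound _ zero_le_one fun v => by
    rw [one_mul]; exact norm_c_le K i A v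

private theorem bd_a1 (i : Fin 8) (A : Fin 3) : ‖K.a i A‖ ≤ 1 :=
  ContinuousLinearMap.opNorm_le_bound _ zero_le_one fun v => by
    rw [one_mul]; exact bd_a_le K i A v

private theorem bd_one : ‖(1 : F →L[ℂ] F)‖ ≤ 1 :=
  ContinuousLinearMap.opNorm_le_bound _ zero_le_one fun v => by simp

/-- polynomial weight -/
private noncomputable def bN (x : X3) : ℝ := 1 + x3sq x + wsq x

private theorem bd_x3 (x : X3) : 0 ≤ x3sq x := Finset.sum_nonneg fun _ _ => sq_nonneg _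

private theorem bd_w (x : X3) : 0 ≤ wsq x :=
  Finset.sum_nonneg fun _ _ => add_nonneg (sq_nonneg _) (sq_nonneg _)

private theorem bN_one (x : X3) : 1 ≤ bN x := by
  unfold bN; linarith only [bd_x3 x, bd_w x]

private theorem bN_coord (x : X3) (i : Fin 7) (A : Fin 3) : |x (e9 i, A)| ≤ bN x := by
  have h0 : x (e9 i, A) ^ 2 ≤ x3sq x + wsq x := by
    have h1 : x (e9 i, 2) ^ 2 ≤ x3sq x :=
      Finset.single_le_sum (f := fun i : Fin 7 => x (e9 i, 2) ^ 2) (fun _ _ => sq_nonneg _)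
        (Finset.mem_univ i)
    have h2 : x (e9 i, 0) ^ 2 + x (e9 i, 1) ^ 2 ≤ wsq x :=
      Finset.single_le_sum (f := fun i : Fin 7 => x (e9 i, 0) ^ 2 + x (e9 i, 1) ^ 2)
        (fun _ _ => add_nonneg (sq_nonneg _) (sq_nonneg _)) (Finset.mem_univ i)
    have h3 := bd_x3 x
    have h4 := bd_w x
    fin_cases A
    · change x (e9 i, 0) ^ 2 ≤ _
      linarith only [h2, h3, sq_nonneg (x (e9 i, 1))]
    · change x (e9 i, 1) ^ 2 ≤ _
      linarith only [h2, h3, sq_nonneg (x (e9 i, 0))]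
    · change x (e9 i, 2) ^ 2 ≤ _
      linarith only [h1, h4]
  unfold bN
  rw [abs_le]
  constructor <;> nlinarith only [h0, sq_nonneg (x (e9 i, A) - 1), sq_nonneg (x (e9 i, A) + 1)]

/-! ### scalars -/

private theorem bd_r3 (x : X3) : 0 ≤ r3 x := add_nonneg (sq_nonneg _) (sq_nonneg _)

private theorem bd_ze (x : X3) : 0 ≤ ze x := Real.sqrt_nonneg _

private theorem bd_ze_sq (x : X3) : ze x ^ 2 = r3 x := Real.sq_sqrt (bd_r3 x)

private theorem bd_gg_pos (x : X3) : 0 < gg x :=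
  inv_pos.2 (Real.sqrt_pos.2 (by linarith only [bd_r3 x]))

private theorem bd_gg_sq (x : X3) : gg x ^ 2 * (1 + r3 x) = 1 := by
  have h := bd_r3 x
  unfold gg
  rw [inv_pow, Real.sq_sqrt (by linarith only [h])]
  exact inv_mul_cancel₀ (by linarith only [h])

private theorem bd_gg_le (x : X3) : gg x ≤ 1 := by
  have h1 := bd_gg_sq x
  have h2 := bd_gg_pos x
  have h3 := bd_r3 x
  nlinarith only [h1, h2, h3, mul_nonneg (sq_nonneg (gg x)) h3]

private theorem bd_zg (x : X3) : ze x * gg x ≤ 1 := by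
  have h1 := bd_gg_sq x
  have h2 := bd_ze_sq x
  refine le_of_sq_le_sq ?_ zero_le_one
  rw [mul_pow, h2]
  nlinarith only [h1, sq_nonneg (gg x)]

private theorem bd_sg_norm : ‖(K.sg : ℂ)‖ = 1 := by
  rw [Complex.norm_real, Real.norm_eq_abs]
  have h := K.sg_sq
  rw [← abs_mul_abs_self] at h
  nlinarith only [h, abs_nonneg K.sg]

private theorem bd_f0_sq : ‖(K.f0 : ℂ)‖ ^ 2 = 2 := by
  rw [Complex.norm_real, Real.norm_eq_abs, sq_abs, sq]
  exact K.f0_sq

private theorem bd_f0_le : ‖(K.f0 : ℂ)‖ ≤ 2 := by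
  nlinarith only [bd_f0_sq K, norm_nonneg (K.f0 : ℂ)]

private theorem bd_f0_inv : ‖1 / (K.f0 : ℂ)‖ ≤ 1 := by
  have h := bd_f0_sq K
  have h0 := norm_nonneg (K.f0 : ℂ)
  have h1 : 1 ≤ ‖(K.f0 : ℂ)‖ := by nlinarith only [h, h0]
  rw [norm_div, norm_one, div_le_one (by linarith only [h1])]
  exact h1

private theorem bd_uv (u v : ℝ) (s : ℝ) (hs : s * s = 1) :
    ‖(u : ℂ) + Complex.I * (s : ℂ) * (v : ℂ)‖ = Real.sqrt (u ^ 2 + v ^ 2) := by
  have h : (u : ℂ) + Complex.I * (s : ℂ) * (v : ℂ) = ((u : ℝ) : ℂ) + ((s * v : ℝ) : ℂ) * Complex.I := by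
    push_cast; ring
  rw [h, Complex.norm_add_mul_I]
  congr 1
  linear_combination (v ^ 2) * hs

private theorem bd_uv' (u v : ℝ) (s : ℝ) (hs : s * s = 1) :
    ‖(u : ℂ) - Complex.I * (s : ℂ) * (v : ℂ)‖ = Real.sqrt (u ^ 2 + v ^ 2) := by
  have h := bd_uv u v (-s) (by linear_combination hs)
  rw [← h]
  congr 1
  push_cast; ring

private theorem bd_ph2 (x : X3) : ‖K.ph 2 x‖ = ze x := bd_uv _ _ _ K.sg_sq

private theorem bd_phb2 (x : X3) : ‖K.phb 2 x‖ = ze x := bd_uv' _ _ _ K.sg_sq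

private theorem bd_phb0 (x : X3) : ‖K.phb 0 x‖ ≤ Real.sqrt (perp2 x) := by
  have h : ‖K.phb 0 x‖ = Real.sqrt (x (7, 0) ^ 2 + x (8, 0) ^ 2) := bd_uv' _ _ _ K.sg_sq
  rw [h]
  refine Real.sqrt_le_sqrt ?_
  unfold perp2
  linarith only [sq_nonneg (x (7, 1)), sq_nonneg (x (8, 1))]

private theorem bd_phb1 (x : X3) : ‖K.phb 1 x‖ ≤ Real.sqrt (perp2 x) := by
  have h : ‖K.phb 1 x‖ = Real.sqrt (x (7, 1) ^ 2 + x (8, 1) ^ 2) := bd_uv' _ _ _ K.sg_sq
  rw [h]
  refine Real.sqrt_le_sqrt ?_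
  unfold perp2
  linarith only [sq_nonneg (x (7, 0)), sq_nonneg (x (8, 0))]

private theorem bd_qq (x : X3) : ‖K.qq x‖ ≤ 1 := by
  unfold qq
  rw [norm_mul, bd_phb2, Complex.norm_real, Real.norm_of_nonneg (bd_gg_pos x).le, mul_comm]
  exact bd_zg x

private theorem bd_qp_nonneg (x : X3) : 0 ≤ qp x := by
  have := bd_r3 x
  have := bd_gg_pos x
  unfold qp
  positivity

private theorem bd_qp (x : X3) : qp x ≤ 1 := by
  have h1 := bd_gg_sq x
  have h2 := bd_gg_pos x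
  have h3 := bd_r3 x
  have h4 := bd_gg_le x
  have h5 : (1 + r3 x / 2) * gg x ^ 2 ≤ 1 := by nlinarith only [h1, mul_nonneg (sq_nonneg (gg x)) h3]
  have h6 : 0 ≤ (1 + r3 x / 2) * gg x ^ 2 := by positivity
  unfold qp
  calc (1 + r3 x / 2) * gg x ^ 3 = ((1 + r3 x / 2) * gg x ^ 2) * gg x := by ring
    _ ≤ 1 * 1 := mul_le_mul h5 h4 h2.le zero_le_one
    _ = 1 := one_mul 1

/-! ### the exponent -/

private theorem bd_kap_sq (x : X3) : 4 * (∑ k, K.kap k x ^ 2) + ‖ss x‖ ^ 2 = wsq x ^ 2 := by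
  have h1 : ∑ k, K.kap k x ^ 2 = (∑ i : Fin 7, x (e9 i, 0) ^ 2) * (∑ i : Fin 7, x (e9 i, 1) ^ 2)
      - (∑ i : Fin 7, x (e9 i, 0) * x (e9 i, 1)) ^ 2 :=
    K.t_norm (fun i => x (e9 i, 0)) (fun i => x (e9 i, 1))
  have h2 : ss x = (((∑ i : Fin 7, x (e9 i, 0) ^ 2) - (∑ i : Fin 7, x (e9 i, 1) ^ 2) : ℝ) : ℂ) +
      ((2 * ∑ i : Fin 7, x (e9 i, 0) * x (e9 i, 1) : ℝ) : ℂ) * Complex.I := by
    unfold ss
    push_cast
    rw [← Finset.sum_sub_distrib, Finset.mul_sum, Finset.sum_mul, ← Finset.sum_add_distrib]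
    refine Finset.sum_congr rfl fun i _ => ?_
    linear_combination ((x (e9 i, 1) : ℂ) ^ 2) * Complex.I_sq
  have h3 : wsq x = (∑ i : Fin 7, x (e9 i, 0) ^ 2) + (∑ i : Fin 7, x (e9 i, 1) ^ 2) :=
    Finset.sum_add_distrib
  rw [h2, Complex.norm_add_mul_I, Real.sq_sqrt (by positivity), h1, h3]
  ring

private theorem bd_expo (x : X3) :
    x3sq x / 8 + wsq x ^ 2 / 8 + gg x * r3 x * wsq x ≤ K.hh x + K.expo x := by
  have h1 := bd_kap_sq K x
  have hf := K.f0_sq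
  have h2 : K.hh x = K.f0 * (∑ k, K.kap k x * K.bb k x) + 2 * ∑ k, K.kap k x ^ 2 := by
    unfold hh
    rw [Finset.mul_sum, Finset.mul_sum, Finset.mul_sum, ← Finset.sum_add_distrib]
    refine Finset.sum_congr rfl fun k _ => ?_
    have h3 : ∑ i, ∑ j, K.t k i j * x (e9 i, 0) * x (e9 j, 1) * x (e9 k, 2) =
        K.kap k x * x (e9 k, 2) := by
      unfold kap
      rw [Finset.sum_mul]
      exact Finset.sum_congr rfl fun i _ => (Finset.sum_mul _ _ _).symm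
    rw [h3]
    unfold bb
    linear_combination (K.kap k x ^ 2) * hf
  have h4 : x3sq x = (∑ k, K.bb k x ^ 2) + 2 * K.f0 * (∑ k, K.kap k x * K.bb k x) +
      2 * ∑ k, K.kap k x ^ 2 := by
    unfold x3sq
    rw [Finset.mul_sum, Finset.mul_sum, ← Finset.sum_add_distrib, ← Finset.sum_add_distrib]
    refine Finset.sum_congr rfl fun k _ => ?_
    unfold bb
    linear_combination (K.kap k x ^ 2) * hf
  have h5 : 0 ≤ (∑ k, K.kap k x ^ 2) + K.f0 * (∑ k, K.kap k x * K.bb k x) +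
      (∑ k, K.bb k x ^ 2) / 2 := by
    have h6 : (∑ k, K.kap k x ^ 2) + K.f0 * (∑ k, K.kap k x * K.bb k x) +
        (∑ k, K.bb k x ^ 2) / 2 = ∑ k, (K.kap k x + K.f0 / 2 * K.bb k x) ^ 2 := by
      rw [Finset.mul_sum, Finset.sum_div, ← Finset.sum_add_distrib, ← Finset.sum_add_distrib]
      refine Finset.sum_congr rfl fun k _ => ?_
      linear_combination (- K.bb k x ^ 2 / 4) * hf
    rw [h6]
    exact Finset.sum_nonneg fun _ _ => sq_nonneg _
  have h7 : 0 ≤ (∑ k, K.kap k x ^ 2) - K.f0 * (∑ k, K.kap k x * K.bb k x) +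
      (∑ k, K.bb k x ^ 2) / 2 := by
    have h6 : (∑ k, K.kap k x ^ 2) - K.f0 * (∑ k, K.kap k x * K.bb k x) +
        (∑ k, K.bb k x ^ 2) / 2 = ∑ k, (K.kap k x - K.f0 / 2 * K.bb k x) ^ 2 := by
      rw [Finset.mul_sum, Finset.sum_div, ← Finset.sum_sub_distrib, ← Finset.sum_add_distrib]
      refine Finset.sum_congr rfl fun k _ => ?_
      linear_combination (- K.bb k x ^ 2 / 4) * hf
    rw [h6]
    exact Finset.sum_nonneg fun _ _ => sq_nonneg _
  have h8 : 0 ≤ ∑ k, K.bb k x ^ 2 := Finset.sum_nonneg fun _ _ => sq_nonneg _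
  have h9 : 0 ≤ ∑ k, K.kap k x ^ 2 := Finset.sum_nonneg fun _ _ => sq_nonneg _
  have h10 := sq_nonneg ‖ss x‖
  unfold expo
  linarith only [h1, h2, h4, h5, h7, h8, h9, h10]

private theorem bd_absorb (n : ℕ) : ∃ C : ℝ, 0 ≤ C ∧ ∀ x : X3,
    Real.exp (-K.hh x) * Real.exp (-K.expo x) * bN x ^ n ≤ C * B0 x := by
  refine ⟨(n.factorial : ℝ) * 16 ^ n * Real.exp (1 / 8), by positivity, fun x => ?_⟩
  have h1 := bd_expo K x
  have hN := bN_one x
  have h2 : (bN x / 16) ^ n / (n.factorial : ℝ) ≤ Real.exp (bN x / 16) :=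
    Real.pow_div_factorial_le_exp _ (by positivity) n
  have h3 : bN x ^ n ≤ (n.factorial : ℝ) * 16 ^ n * Real.exp (bN x / 16) := by
    rw [div_pow, div_div, div_le_iff₀ (by positivity)] at h2
    linarith only [h2]
  have h4 : Real.exp (-K.hh x) * Real.exp (-K.expo x) ≤
      Real.exp (-(x3sq x / 8 + wsq x ^ 2 / 8 + gg x * r3 x * wsq x)) := by
    rw [← Real.exp_add]
    refine Real.exp_le_exp.2 ?_
    linarith only [h1]
  have hw := bd_w x
  have hN0 : 0 ≤ bN x := zero_le_one.trans hN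
  calc Real.exp (-K.hh x) * Real.exp (-K.expo x) * bN x ^ n
      ≤ Real.exp (-(x3sq x / 8 + wsq x ^ 2 / 8 + gg x * r3 x * wsq x)) *
        ((n.factorial : ℝ) * 16 ^ n * Real.exp (bN x / 16)) :=
        mul_le_mul h4 h3 (pow_nonneg hN0 n) (Real.exp_pos _).le
    _ = ((n.factorial : ℝ) * 16 ^ n) *
        Real.exp (-(x3sq x / 8 + wsq x ^ 2 / 8 + gg x * r3 x * wsq x) + bN x / 16) := by
        rw [Real.exp_add]; ring
    _ ≤ ((n.factorial : ℝ) * 16 ^ n) * (Real.exp (1 / 8) *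
        Real.exp (-(x3sq x / 16) - (wsq x ^ 2 / 16) - gg x * r3 x * wsq x)) := by
        refine mul_le_mul_of_nonneg_left ?_ (by positivity)
        rw [← Real.exp_add]
        refine Real.exp_le_exp.2 ?_
        unfold bN
        nlinarith only [sq_nonneg (wsq x - 1), hw]
    _ = (n.factorial : ℝ) * 16 ^ n * Real.exp (1 / 8) * B0 x := by
        unfold B0; ring

/-! ### operator norms -/

private theorem bd_prod (l : List (F →L[ℂ] F)) (M : ℝ) (hM : 0 ≤ M) (h : ∀ T ∈ l, ‖T‖ ≤ M) :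
    ‖l.prod‖ ≤ M ^ l.length := by
  induction l with
  | nil => simpa using bd_one (F := F)
  | cons T l ih =>
    rw [List.prod_cons, List.length_cons, pow_succ']
    exact (norm_mul_le _ _).trans (mul_le_mul (h T (by simp))
      (ih fun S hS => h S (by simp [hS])) (norm_nonneg _) hM)

private theorem bd_wc (x : X3) (i : Fin 7) :
    ‖(x (e9 i, 0) : ℂ) + Complex.I * (x (e9 i, 1) : ℂ)‖ ≤ 2 * bN x := by
  refine (norm_add_le _ _).trans ?_
  rw [norm_mul, Complex.norm_I, one_mul, Complex.norm_real, Complex.norm_real, Real.norm_eq_abs,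
    Real.norm_eq_abs]
  linarith only [bN_coord x i 0, bN_coord x i 1]

private theorem bd_wc' (x : X3) (i : Fin 7) :
    ‖(x (e9 i, 0) : ℂ) - Complex.I * (x (e9 i, 1) : ℂ)‖ ≤ 2 * bN x := by
  refine (norm_sub_le _ _).trans ?_
  rw [norm_mul, Complex.norm_I, one_mul, Complex.norm_real, Complex.norm_real, Real.norm_eq_abs,
    Real.norm_eq_abs]
  linarith only [bN_coord x i 0, bN_coord x i 1]

private theorem bd_sum7 {E : Type*} [SeminormedAddCommGroup E] (f : Fin 7 → E) (M : ℝ)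
    (h : ∀ i, ‖f i‖ ≤ M) : ‖∑ i, f i‖ ≤ 7 * M := by
  refine (norm_sum_le_of_le _ fun i _ => h i).trans ?_
  simp

private theorem bd_ds (x : X3) : ‖K.ds x‖ ≤ 56 * bN x := by
  unfold ds
  refine (bd_sum7 _ (8 * bN x) fun i => ?_).trans (by linarith only [bN_one x])
  rw [norm_smul]
  have h1 : ‖2 * ((x (e9 i, 0) : ℂ) + Complex.I * (x (e9 i, 1) : ℂ))‖ ≤ 4 * bN x := by
    rw [norm_mul]
    have := bd_wc x i
    rw [Complex.norm_ofNat]
    linarith only [this]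
  have h2 : ‖K.c (e8 i) 0 + Complex.I • K.c (e8 i) 1‖ ≤ 2 := by
    refine (norm_add_le _ _).trans ?_
    rw [norm_smul, Complex.norm_I, one_mul]
    linarith only [bd_c1 K (e8 i) 0, bd_c1 K (e8 i) 1]
  calc _ ≤ (4 * bN x) * 2 := mul_le_mul h1 h2 (norm_nonneg _) (by linarith only [bN_one x])
    _ = 8 * bN x := by ring

private theorem bd_dsb (x : X3) : ‖K.dsb x‖ ≤ 56 * bN x := by
  unfold dsb
  refine (bd_sum7 _ (8 * bN x) fun i => ?_).trans (by linarith only [bN_one x])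
  rw [norm_smul]
  have h1 : ‖2 * ((x (e9 i, 0) : ℂ) - Complex.I * (x (e9 i, 1) : ℂ))‖ ≤ 4 * bN x := by
    rw [norm_mul]
    have := bd_wc' x i
    rw [Complex.norm_ofNat]
    linarith only [this]
  have h2 : ‖K.c (e8 i) 0 - Complex.I • K.c (e8 i) 1‖ ≤ 2 := by
    refine (norm_sub_le _ _).trans ?_
    rw [norm_smul, Complex.norm_I, one_mul]
    linarith only [bd_c1 K (e8 i) 0, bd_c1 K (e8 i) 1]
  calc _ ≤ (4 * bN x) * 2 := mul_le_mul h1 h2 (norm_nonneg _) (by linarith only [bN_one x])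
    _ = 8 * bN x := by ring

private theorem bd_mu (x : X3) : ‖K.mu x‖ ≤ 14 * bN x := by
  unfold mu
  refine (bd_sum7 _ (2 * bN x) fun i => ?_).trans (by linarith only [bN_one x])
  refine (norm_sub_le _ _).trans ?_
  rw [norm_smul, norm_smul, Complex.norm_real, Complex.norm_real, Real.norm_eq_abs,
    Real.norm_eq_abs]
  have h1 := mul_le_mul (bN_coord x i 0) (bd_c1 K (e8 i) 1) (norm_nonneg _)
    (by linarith only [bN_one x])
  have h2 := mul_le_mul (bN_coord x i 1) (bd_c1 K (e8 i) 0) (norm_nonneg _)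
    (by linarith only [bN_one x])
  linarith only [h1, h2]

/-- sum of the structure constants -/
private noncomputable def bT : ℝ := ∑ k, ∑ i, ∑ j, |K.t k i j|

private theorem bT_nonneg : 0 ≤ bT K :=
  Finset.sum_nonneg fun _ _ => Finset.sum_nonneg fun _ _ => Finset.sum_nonneg fun _ _ =>
    abs_nonneg _

private theorem bd_dkap (k : Fin 7) (x : X3) : ‖K.dkap k x‖ ≤ bT K * (2 * bN x) := by
  have h0 : ∑ i, ∑ j, |K.t k i j| ≤ bT K :=
    Finset.single_le_sum (f := fun k => ∑ i, ∑ j, |K.t k i j|)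
      (fun _ _ => Finset.sum_nonneg fun _ _ => Finset.sum_nonneg fun _ _ => abs_nonneg _)
      (Finset.mem_univ k)
  have hN := bN_one x
  refine le_trans ?_ (mul_le_mul_of_nonneg_right h0 (by linarith only [hN]))
  unfold dkap
  rw [Finset.sum_mul]
  refine norm_sum_le_of_le _ fun i _ => ?_
  rw [Finset.sum_mul]
  refine norm_sum_le_of_le _ fun j _ => ?_
  rw [norm_smul, Complex.norm_real, Real.norm_eq_abs]
  refine mul_le_mul_of_nonneg_left ?_ (abs_nonneg _)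
  refine (norm_add_le _ _).trans ?_
  rw [norm_smul, norm_smul, Complex.norm_real, Complex.norm_real, Real.norm_eq_abs,
    Real.norm_eq_abs]
  have h1 := mul_le_mul (bN_coord x j 1) (bd_c1 K (e8 i) 0) (norm_nonneg _)
    (by linarith only [hN])
  have h2 := mul_le_mul (bN_coord x i 0) (bd_c1 K (e8 j) 1) (norm_nonneg _)
    (by linarith only [hN])
  linarith only [h1, h2]

private theorem bd_db (k : Fin 7) (x : X3) : ‖K.db k x‖ ≤ (1 + 4 * bT K) * bN x := by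
  unfold db
  refine (norm_sub_le _ _).trans ?_
  rw [norm_smul]
  have h1 := bd_c1 K (e8 k) 2
  have h2 := mul_le_mul (bd_f0_le K) (bd_dkap K k x) (norm_nonneg _) zero_le_two
  have hN := bN_one x
  linarith only [h1, h2, hN]

private theorem bd_bet (x : X3) : ‖K.bet x‖ ≤ (1 + 4 * bT K) ^ 7 * bN x ^ 7 := by
  unfold bet
  have hN := bN_one x
  have hT := bT_nonneg K
  refine (bd_prod _ ((1 + 4 * bT K) * bN x) (by positivity) ?_).trans ?_
  · intro T hT
    rw [List.mem_ofFn] at hT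
    obtain ⟨k, rfl⟩ := hT
    exact bd_db K k x
  · rw [List.length_ofFn, mul_pow]

private theorem bd_tau0 (x : X3) : ‖K.tau0 x‖ ≤ 3200 * (1 + ze x) * bN x ^ 2 := by
  unfold tau0
  have hN := bN_one x
  have hz := bd_ze x
  have hN2 : 1 ≤ bN x ^ 2 := one_le_pow₀ hN
  have h1 : ‖(2 * K.ph 2 x) • (1 : F →L[ℂ] F)‖ ≤ 2 * ze x := by
    rw [norm_smul, norm_mul, Complex.norm_ofNat, bd_ph2]
    have := mul_le_mul_of_nonneg_left (bd_one (F := F)) (by positivity : 0 ≤ 2 * ze x)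
    linarith only [this]
  have h2 : ‖(1 / (K.f0 : ℂ)) • (K.ds x * K.dsb x)‖ ≤ 3136 * bN x ^ 2 := by
    rw [norm_smul]
    have h3 : ‖K.ds x * K.dsb x‖ ≤ (56 * bN x) * (56 * bN x) :=
      (norm_mul_le _ _).trans (mul_le_mul (bd_ds K x) (bd_dsb K x) (norm_nonneg _)
        (by linarith only [hN]))
    have h4 := mul_le_mul (bd_f0_inv K) h3 (norm_nonneg _) zero_le_one
    linarith only [h4]
  refine (norm_sub_le _ _).trans ?_
  nlinarith only [h1, h2, hN2, hz, mul_nonneg hz (sub_nonneg.2 hN2)]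

private theorem bd_dpb (A : Fin 3) : ‖K.dpb A‖ ≤ 2 := by
  unfold dpb
  rw [norm_smul, Complex.norm_ofNat]
  linarith only [bd_c1 K 7 A]

private theorem bd_dmu (x : X3) : ‖K.dpb 2 * K.mu x‖ ≤ 28 * bN x := by
  have h := (norm_mul_le (K.dpb 2) (K.mu x)).trans (mul_le_mul (bd_dpb K 2) (bd_mu K x)
    (norm_nonneg _) zero_le_two)
  linarith only [h]

private theorem bd_If (c : ℝ) (hc : |c| ≤ 4) : ‖Complex.I / (K.f0 : ℂ) * (c : ℂ)‖ ≤ 4 := by
  have h : Complex.I / (K.f0 : ℂ) * (c : ℂ) = (1 / (K.f0 : ℂ)) * (Complex.I * (c : ℂ)) := by ring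
  rw [h, norm_mul, norm_mul, Complex.norm_I, one_mul, Complex.norm_real, Real.norm_eq_abs]
  have := mul_le_mul (bd_f0_inv K) hc (abs_nonneg _) zero_le_one
  linarith only [this]

private theorem bd_rho (x : X3) : ‖K.rho x‖ ≤ 113 * bN x := by
  unfold rho
  have hN := bN_one x
  refine (norm_add_le _ _).trans ?_
  rw [norm_smul]
  have h0 : |qp x| ≤ 4 := by
    rw [abs_of_nonneg (bd_qp_nonneg x)]
    linarith only [bd_qp x]
  have h1 := mul_le_mul (bd_If K (qp x) h0) (bd_dmu K x) (norm_nonneg _) (by norm_num)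
  have h2 := bd_one (F := F)
  linarith only [h1, h2, hN]

private theorem bd_cc (k : Fin 7) : ‖K.c (e8 k) 0 * K.c (e8 k) 1‖ ≤ 1 := by
  have h := (norm_mul_le (K.c (e8 k) 0) (K.c (e8 k) 1)).trans
    (mul_le_mul (bd_c1 K (e8 k) 0) (bd_c1 K (e8 k) 1) (norm_nonneg _) zero_le_one)
  linarith only [h]

private theorem bd_2If (c : ℂ) : ‖2 * Complex.I / (K.f0 : ℂ) * c‖ ≤ 2 * ‖c‖ := by
  have h : 2 * Complex.I / (K.f0 : ℂ) * c = (1 / (K.f0 : ℂ)) * (2 * Complex.I * c) := by ring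
  rw [h, norm_mul, norm_mul, norm_mul, Complex.norm_I, Complex.norm_ofNat]
  have := mul_le_mul_of_nonneg_right (bd_f0_inv K) (by positivity : 0 ≤ 2 * 1 * ‖c‖)
  linarith only [this]

private theorem bd_eef (c : ℂ) (hc : ‖c‖ ≤ 1) (k : Fin 7) :
    ‖(1 + (2 * Complex.I / (K.f0 : ℂ) * c) • (K.c (e8 k) 0 * K.c (e8 k) 1) : F →L[ℂ] F)‖ ≤ 4 := by
  refine (norm_add_le _ _).trans ?_
  rw [norm_smul]
  have h1 := bd_2If K c
  have h2 := mul_le_mul (h1.trans (by linarith only [hc] : 2 * ‖c‖ ≤ 2)) (bd_cc K k)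
    (norm_nonneg _) zero_le_two
  have h3 := bd_one (F := F)
  linarith only [h2, h3]

private theorem bd_eeT (x : X3) : ‖K.eeT x‖ ≤ 4 ^ 7 := by
  unfold eeT
  refine (bd_prod _ 4 (by norm_num) ?_).trans ?_
  · intro T hT
    rw [List.mem_ofFn] at hT
    obtain ⟨k, rfl⟩ := hT
    exact bd_eef K _ (bd_qq K x) k
  · rw [List.length_ofFn]

private theorem bd_aT : ∃ C : ℝ, 0 ≤ C ∧ ∀ x : X3,
    ‖K.aT x‖ ≤ C * (Real.exp (-K.expo x) * (ze x * (1 + ze x)) * bN x ^ 10) := by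
  have hT := bT_nonneg K
  refine ⟨3200 * (1 + 4 * bT K) ^ 7 * 113 * 4 ^ 7, by positivity, fun x => ?_⟩
  have hN := bN_one x
  have hN0 : 0 ≤ bN x := zero_le_one.trans hN
  have hz := bd_ze x
  have h1 : ‖K.tau0 x * K.bet x * K.rho x * K.eeT x‖ ≤
      (3200 * (1 + ze x) * bN x ^ 2) * ((1 + 4 * bT K) ^ 7 * bN x ^ 7) * (113 * bN x) * 4 ^ 7 := by
    refine (norm_mul_le _ _).trans (mul_le_mul ?_ (bd_eeT K x) (norm_nonneg _) (by positivity))
    refine (norm_mul_le _ _).trans (mul_le_mul ?_ (bd_rho K x) (norm_nonneg _) (by positivity))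
    exact (norm_mul_le _ _).trans (mul_le_mul (bd_tau0 K x) (bd_bet K x) (norm_nonneg _)
      (by positivity))
  have h2 : ‖(K.tau0 x * K.bet x * K.rho x * K.eeT x) K.vac‖ ≤
      (3200 * (1 + ze x) * bN x ^ 2) * ((1 + 4 * bT K) ^ 7 * bN x ^ 7) * (113 * bN x) * 4 ^ 7 := by
    have h3 := (K.tau0 x * K.bet x * K.rho x * K.eeT x).le_opNorm K.vac
    rw [K.vac_norm, mul_one] at h3
    exact h3.trans h1
  unfold aT
  rw [norm_smul, norm_mul, bd_ph2, Complex.norm_real, Real.norm_of_nonneg (Real.exp_pos _).le]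
  calc Real.exp (-K.expo x) * ze x * ‖(K.tau0 x * K.bet x * K.rho x * K.eeT x) K.vac‖
      ≤ Real.exp (-K.expo x) * ze x * ((3200 * (1 + ze x) * bN x ^ 2) *
        ((1 + 4 * bT K) ^ 7 * bN x ^ 7) * (113 * bN x) * 4 ^ 7) :=
        mul_le_mul_of_nonneg_left h2 (by positivity)
    _ = _ := by ring

/-! ### contractions -/

/-- operators that preserve the kernel of `a 7 B` -/
private def bPr (B : Fin 3) : Subalgebra ℂ (F →L[ℂ] F) where
  carrier := {T | ∀ v, K.a 7 B v = 0 → K.a 7 B (T v) = 0}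
  mul_mem' := fun {S T} hS hT v hv => hS (T v) (hT v hv)
  add_mem' := fun {S T} hS hT v hv => by
    change K.a 7 B (S v + T v) = 0
    rw [map_add, hS v hv, hT v hv, add_zero]
  algebraMap_mem' := fun r v hv => by
    rw [Algebra.algebraMap_eq_smul_one]
    change K.a 7 B (r • v) = 0
    rw [map_smul, hv, smul_zero]

private theorem bPr_c (B : Fin 3) (i : Fin 7) (A : Fin 3) : K.c (e8 i) A ∈ bPr K B := by
  intro v hv
  have h := K.ac 7 B (e8 i) A
  have h7 : ¬ ((7 : Fin 8) = e8 i ∧ B = A) := by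
    rintro ⟨h1, _⟩
    have h2 := congrArg Fin.val h1
    have h3 := i.2
    simp only [e8, Fin.val_castSucc] at h2
    change 7 = (i : ℕ) at h2
    omega
  rw [if_neg h7] at h
  have h1 : K.a 7 B (K.c (e8 i) A v) + K.c (e8 i) A (K.a 7 B v) = 0 := DFunLike.congr_fun h v
  rw [hv, map_zero, add_zero] at h1
  exact h1

private theorem bPr_c7 (B : Fin 3) (hB : B ≠ 2) : K.c 7 2 ∈ bPr K B := by
  intro v hv
  have h := K.ac 7 B 7 2
  rw [if_neg (fun h => hB h.2)] at h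
  have h1 : K.a 7 B (K.c 7 2 v) + K.c 7 2 (K.a 7 B v) = 0 := DFunLike.congr_fun h v
  rw [hv, map_zero, add_zero] at h1
  exact h1

private theorem bPr_a (B : Fin 3) (i : Fin 8) (A : Fin 3) : K.a i A ∈ bPr K B := by
  intro v hv
  have h1 : K.a 7 B (K.a i A v) + K.a i A (K.a 7 B v) = 0 := DFunLike.congr_fun (K.aa 7 B i A) v
  rw [hv, map_zero, add_zero] at h1
  exact h1

private theorem bPr_sum {ι : Type} (s : Finset ι) (B : Fin 3) (f : ι → F →L[ℂ] F)
    (h : ∀ i ∈ s, f i ∈ bPr K B) : ∑ i ∈ s, f i ∈ bPr K B := Subalgebra.sum_mem _ h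

private theorem bPr_smul (B : Fin 3) (c : ℂ) {f : F →L[ℂ] F} (h : f ∈ bPr K B) :
    c • f ∈ bPr K B := Subalgebra.smul_mem _ h c

private theorem bPr_list (B : Fin 3) (f : Fin 7 → F →L[ℂ] F) (h : ∀ i, f i ∈ bPr K B) :
    (List.ofFn f).prod ∈ bPr K B := by
  refine Subalgebra.list_prod_mem _ fun T hT => ?_
  rw [List.mem_ofFn] at hT
  obtain ⟨k, rfl⟩ := hT
  exact h k

private theorem bPr_tau0 (B : Fin 3) (x : X3) : K.tau0 x ∈ bPr K B := by
  unfold tau0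
  refine Subalgebra.sub_mem _ (bPr_smul K B _ (Subalgebra.one_mem _)) (bPr_smul K B _
    (Subalgebra.mul_mem _ ?_ ?_))
  · exact bPr_sum K _ B _ fun i _ => bPr_smul K B _ (Subalgebra.add_mem _ (bPr_c K B i 0)
      (bPr_smul K B _ (bPr_c K B i 1)))
  · exact bPr_sum K _ B _ fun i _ => bPr_smul K B _ (Subalgebra.sub_mem _ (bPr_c K B i 0)
      (bPr_smul K B _ (bPr_c K B i 1)))

private theorem bPr_bet (B : Fin 3) (x : X3) : K.bet x ∈ bPr K B := by
  unfold bet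
  refine bPr_list K B _ fun k => ?_
  unfold db dkap
  refine Subalgebra.sub_mem _ (bPr_c K B k 2) (bPr_smul K B _ ?_)
  exact bPr_sum K _ B _ fun i _ => bPr_sum K _ B _ fun j _ => bPr_smul K B _
    (Subalgebra.add_mem _ (bPr_smul K B _ (bPr_c K B i 0)) (bPr_smul K B _ (bPr_c K B j 1)))

private theorem bPr_rho (B : Fin 3) (hB : B ≠ 2) (x : X3) : K.rho x ∈ bPr K B := by
  unfold rho dpb mu
  refine Subalgebra.add_mem _ (Subalgebra.one_mem _) (bPr_smul K B _ (Subalgebra.mul_mem _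
    (bPr_smul K B _ (bPr_c7 K B hB)) ?_))
  exact bPr_sum K _ B _ fun i _ => Subalgebra.sub_mem _ (bPr_smul K B _ (bPr_c K B i 1))
    (bPr_smul K B _ (bPr_c K B i 0))

private theorem bPr_eeT (B : Fin 3) (x : X3) : K.eeT x ∈ bPr K B := by
  unfold eeT
  exact bPr_list K B _ fun k => Subalgebra.add_mem _ (Subalgebra.one_mem _)
    (bPr_smul K B _ (Subalgebra.mul_mem _ (bPr_c K B k 0) (bPr_c K B k 1)))

private theorem bd_kill (B : Fin 3) (hB : B ≠ 2) (x : X3) : K.a 7 B (K.aT x) = 0 := by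
  unfold aT
  rw [map_smul]
  have h : K.tau0 x * K.bet x * K.rho x * K.eeT x ∈ bPr K B :=
    Subalgebra.mul_mem _ (Subalgebra.mul_mem _ (Subalgebra.mul_mem _ (bPr_tau0 K B x)
      (bPr_bet K B x)) (bPr_rho K B hB x)) (bPr_eeT K B x)
  rw [h K.vac (K.a_vac 7 B), smul_zero]

/-- the part of `io` with the `x_i`, `i < 7` -/
private noncomputable def bX (A : Fin 3) (x : X3) : F →L[ℂ] F :=
  ∑ i : Fin 7, ∑ B, ∑ C, ((eps B A C : ℂ) * (x (e9 i, C) : ℂ)) • K.a (e8 i) B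

private theorem bd_eps (A B C : Fin 3) : ‖(eps A B C : ℂ)‖ ≤ 1 := by
  fin_cases A <;> fin_cases B <;> fin_cases C <;> simp [eps]

private theorem bd_bX (A : Fin 3) (x : X3) : ‖bX K A x‖ ≤ 63 * bN x := by
  unfold bX
  refine (bd_sum7 _ (9 * bN x) fun i => ?_).trans (by linarith only [bN_one x])
  have h1 : ∀ B C : Fin 3, ‖((eps B A C : ℂ) * (x (e9 i, C) : ℂ)) • K.a (e8 i) B‖ ≤ bN x := by
    intro B C
    rw [norm_smul, norm_mul, Complex.norm_real, Real.norm_eq_abs]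
    have h2 := mul_le_mul (bd_eps B A C) (bN_coord x i C) (abs_nonneg _) zero_le_one
    have h3 := mul_le_mul h2 (bd_a1 K (e8 i) B) (norm_nonneg _) (by linarith only [bN_one x])
    linarith only [h3]
  have h2 : ∀ B : Fin 3, ‖∑ C, ((eps B A C : ℂ) * (x (e9 i, C) : ℂ)) • K.a (e8 i) B‖ ≤
      3 * bN x := by
    intro B
    refine (norm_sum_le_of_le _ fun C _ => h1 B C).trans ?_
    simp
  refine (norm_sum_le_of_le _ fun B _ => h2 B).trans ?_
  simp only [Finset.sum_const, Finset.card_univ, Fintype.card_fin, nsmul_eq_mul]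
  push_cast
  linarith only [bN_one x]

private theorem bd_io_kill (A B : Fin 3) (x : X3) (v : F) (hv : K.a 7 B v = 0) :
    K.a 7 B (K.io A x v) = 0 := by
  have h : K.io A x ∈ bPr K B := by
    unfold io
    refine Subalgebra.add_mem _ ?_ (bPr_smul K B _ ?_)
    · exact bPr_sum K _ B _ fun i _ => bPr_sum K _ B _ fun j _ => bPr_sum K _ B _ fun C _ =>
        bPr_smul K B _ (bPr_a K B _ _)
    · exact bPr_sum K _ B _ fun j _ => bPr_sum K _ B _ fun C _ => bPr_smul K B _ (bPr_a K B _ _)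
  exact h v hv

private theorem bd_io0_eq (x : X3) (v : F) (h1 : K.a 7 1 v = 0) :
    K.io 0 x v = bX K 0 x v + ((1 / 2 : ℂ) * K.phb 1 x) • K.a 7 2 v := by
  have e1 : K.io 0 x v = bX K 0 x v + (1 / 2 : ℂ) • (∑ B, ∑ C, ((eps B 0 C : ℂ) * K.phb C x) •
      K.a 7 B v) := by
    unfold io bX
    simp only [add_apply, smul_apply, sum_apply]
  rw [e1]
  congr 1
  rw [Fin.sum_univ_three]
  simp only [Fin.sum_univ_three, h1, smul_zero, add_zero]
  simp [eps, smul_smul]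

private theorem bd_io1_eq (x : X3) (v : F) (h0 : K.a 7 0 v = 0) :
    K.io 1 x v = bX K 1 x v - ((1 / 2 : ℂ) * K.phb 0 x) • K.a 7 2 v := by
  have e1 : K.io 1 x v = bX K 1 x v + (1 / 2 : ℂ) • (∑ B, ∑ C, ((eps B 1 C : ℂ) * K.phb C x) •
      K.a 7 B v) := by
    unfold io bX
    simp only [add_apply, smul_apply, sum_apply]
  rw [e1, sub_eq_add_neg]
  congr 1
  rw [Fin.sum_univ_three]
  simp only [Fin.sum_univ_three, h0, smul_zero, add_zero]
  simp [eps, smul_smul]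

private theorem bd_io_aux (A : Fin 3) (x : X3) (v : F) (c : ℂ) (hc : ‖c‖ ≤ Real.sqrt (perp2 x)) :
    ‖bX K A x v‖ + ‖((1 / 2 : ℂ) * c) • K.a 7 2 v‖ ≤
      64 * (bN x * (1 + Real.sqrt (perp2 x))) * ‖v‖ := by
  have hN := bN_one x
  have hp := Real.sqrt_nonneg (perp2 x)
  have h1 : ‖bX K A x v‖ ≤ (63 * bN x) * ‖v‖ :=
    ((bX K A x).le_opNorm v).trans (mul_le_mul_of_nonneg_right (bd_bX K A x) (norm_nonneg v))
  have h2 : ‖((1 / 2 : ℂ) * c) • K.a 7 2 v‖ ≤ Real.sqrt (perp2 x) * ‖v‖ := by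
    rw [norm_smul, norm_mul]
    have e : ‖(1 / 2 : ℂ)‖ = 1 / 2 := by norm_num
    rw [e]
    have h3 := mul_le_mul hc (bd_a_le K 7 2 v) (norm_nonneg _) hp
    nlinarith only [h3, mul_nonneg hp (norm_nonneg v), mul_nonneg (norm_nonneg c) (norm_nonneg (K.a 7 2 v))]
  have h4 : 0 ≤ bN x * Real.sqrt (perp2 x) - Real.sqrt (perp2 x) := by nlinarith only [hN, hp]
  have h5 : 0 ≤ (bN x + 63 * (bN x * Real.sqrt (perp2 x)) +
      (bN x * Real.sqrt (perp2 x) - Real.sqrt (perp2 x))) * ‖v‖ :=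
    mul_nonneg (add_nonneg (by positivity) h4) (norm_nonneg v)
  nlinarith only [h1, h2, h5]

private theorem bd_io0 (x : X3) (v : F) (h1 : K.a 7 1 v = 0) :
    ‖K.io 0 x v‖ ≤ 64 * (bN x * (1 + Real.sqrt (perp2 x))) * ‖v‖ := by
  rw [bd_io0_eq K x v h1]
  exact (norm_add_le _ _).trans (bd_io_aux K 0 x v _ (bd_phb1 K x))

private theorem bd_io1 (x : X3) (v : F) (h0 : K.a 7 0 v = 0) :
    ‖K.io 1 x v‖ ≤ 64 * (bN x * (1 + Real.sqrt (perp2 x))) * ‖v‖ := by
  rw [bd_io1_eq K x v h0]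
  exact (norm_sub_le _ _).trans (bd_io_aux K 1 x v _ (bd_phb0 K x))

private theorem bd_io_io (x : X3) : ‖K.io 1 x (K.io 0 x (K.aT x))‖ ≤
    4096 * (bN x ^ 2 * (1 + Real.sqrt (perp2 x)) ^ 2) * ‖K.aT x‖ := by
  have hN := bN_one x
  have hp := Real.sqrt_nonneg (perp2 x)
  have k0 := bd_kill K 0 (by decide) x
  have k1 := bd_kill K 1 (by decide) x
  have h1 := bd_io0 K x (K.aT x) k1
  have h2 := bd_io1 K x (K.io 0 x (K.aT x)) (bd_io_kill K 0 0 x _ k0)
  calc _ ≤ 64 * (bN x * (1 + Real.sqrt (perp2 x))) * ‖K.io 0 x (K.aT x)‖ := h2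
    _ ≤ 64 * (bN x * (1 + Real.sqrt (perp2 x))) *
        (64 * (bN x * (1 + Real.sqrt (perp2 x))) * ‖K.aT x‖) :=
        mul_le_mul_of_nonneg_left h1 (by positivity)
    _ = _ := by ring

private theorem bd_dio (x : X3) :
    ‖K.dpb 0 (K.io 1 x (K.aT x)) - K.dpb 1 (K.io 0 x (K.aT x))‖ ≤
      256 * (bN x * (1 + Real.sqrt (perp2 x))) * ‖K.aT x‖ := by
  have k0 := bd_kill K 0 (by decide) x
  have k1 := bd_kill K 1 (by decide) x
  have h1 := bd_io0 K x (K.aT x) k1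
  have h2 := bd_io1 K x (K.aT x) k0
  have h3 : ‖K.dpb 0 (K.io 1 x (K.aT x))‖ ≤ 2 * ‖K.io 1 x (K.aT x)‖ :=
    ((K.dpb 0).le_opNorm _).trans (mul_le_mul_of_nonneg_right (bd_dpb K 0) (norm_nonneg _))
  have h4 : ‖K.dpb 1 (K.io 0 x (K.aT x))‖ ≤ 2 * ‖K.io 0 x (K.aT x)‖ :=
    ((K.dpb 1).le_opNorm _).trans (mul_le_mul_of_nonneg_right (bd_dpb K 1) (norm_nonneg _))
  refine (norm_sub_le _ _).trans ?_
  linarith only [h1, h2, h3, h4]

/-! ### the derivative -/

/-- value and derivative at `0` are bounded by `m` -/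
private def B1 {E : Type*} [NormedAddCommGroup E] [NormedSpace ℝ E] (f : ℝ → E) (m : ℝ) : Prop :=
  ‖f 0‖ ≤ m ∧ ∃ D, HasDerivAt f D 0 ∧ ‖D‖ ≤ m

private theorem B1.nonneg {E : Type*} [NormedAddCommGroup E] [NormedSpace ℝ E] {f : ℝ → E} {m : ℝ}
    (h : B1 f m) : 0 ≤ m := (norm_nonneg _).trans h.1

private theorem B1_const {E : Type*} [NormedAddCommGroup E] [NormedSpace ℝ E] {c : E} {m : ℝ}
    (h : ‖c‖ ≤ m) : B1 (fun _ => c) m :=
  ⟨h, 0, hasDerivAt_const _ _, by rw [norm_zero]; exact (norm_nonneg _).trans h⟩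

private theorem B1.mul {f g : ℝ → F →L[ℂ] F} {m m' : ℝ} (hf : B1 f m) (hg : B1 g m') :
    B1 (fun s => f s * g s) (2 * m * m') := by
  obtain ⟨f0, D, hD, hDm⟩ := hf
  obtain ⟨g0, D', hD', hDm'⟩ := hg
  have hm := (norm_nonneg _).trans f0
  have hm' := (norm_nonneg _).trans g0
  refine ⟨?_, _, hD.mul hD', ?_⟩
  · have h1 := (norm_mul_le (f 0) (g 0)).trans (mul_le_mul f0 g0 (norm_nonneg _) hm)
    nlinarith only [h1, mul_nonneg hm hm']
  · refine (norm_add_le _ _).trans ?_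
    have h1 := (norm_mul_le D (g 0)).trans (mul_le_mul hDm g0 (norm_nonneg _) hm)
    have h2 := (norm_mul_le (f 0) D').trans (mul_le_mul f0 hDm' (norm_nonneg _) hm)
    linarith only [h1, h2]

private theorem B1.smul {E : Type*} [NormedAddCommGroup E] [NormedSpace ℂ E] {c : ℝ → ℂ}
    {f : ℝ → E} {m m' : ℝ} (hc : B1 c m) (hf : B1 f m') :
    B1 (fun s => c s • f s) (2 * m * m') := by
  obtain ⟨c0, D, hD, hDm⟩ := hc
  obtain ⟨f0, D', hD', hDm'⟩ := hf
  have hm := (norm_nonneg _).trans c0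
  have hm' := (norm_nonneg _).trans f0
  refine ⟨?_, _, hD.smul hD', ?_⟩
  · have h1 := mul_le_mul c0 f0 (norm_nonneg _) hm
    rw [norm_smul]
    nlinarith only [h1, mul_nonneg hm hm']
  · refine (norm_add_le _ _).trans ?_
    rw [norm_smul, norm_smul]
    have h1 := mul_le_mul hDm f0 (norm_nonneg _) hm
    have h2 := mul_le_mul c0 hDm' (norm_nonneg _) hm
    linarith only [h1, h2]

private theorem B1.apply {f : ℝ → F →L[ℂ] F} {m : ℝ} (hf : B1 f m) {v : F} (hv : ‖v‖ = 1) :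
    B1 (fun s => f s v) m := by
  obtain ⟨f0, D, hD, hDm⟩ := hf
  refine ⟨?_, D v, ?_, ?_⟩
  · have := (f 0).le_opNorm v
    rw [hv, mul_one] at this
    exact this.trans f0
  · have h := ((ContinuousLinearMap.apply ℂ F v).restrictScalars ℝ).hasFDerivAt.comp_hasDerivAt
      (0 : ℝ) hD
    exact h
  · have := D.le_opNorm v
    rw [hv, mul_one] at this
    exact this.trans hDm

private theorem B1_list {M : ℝ} (hM : 0 ≤ M) : ∀ (n : ℕ) (f : Fin n → ℝ → F →L[ℂ] F),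
    (∀ k, B1 (f k) M) → B1 (fun s => (List.ofFn fun k => f k s).prod) ((2 * M) ^ n)
  | 0, f, _ => by
    simp only [List.ofFn_zero, List.prod_nil, pow_zero]
    exact B1_const bd_one
  | n + 1, f, h => by
    simp only [List.ofFn_succ, List.prod_cons]
    have h1 := (h 0).mul (B1_list hM n (fun k => f k.succ) fun k => h k.succ)
    have e : (2 * M) ^ (n + 1) = 2 * M * (2 * M) ^ n := pow_succ' _ _
    rw [e]
    exact h1

/-- a curve in the direction of `φ_2` -/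
private structure Crv (x : X3) (u v : ℝ) (y : ℝ → X3) : Prop where
  h0 : y 0 = x
  he : ∀ s (i : Fin 7) (A : Fin 3), y s (e9 i, A) = x (e9 i, A)
  h7 : ∀ s, y s (7, 2) = x (7, 2) + s * u
  h8 : ∀ s, y s (8, 2) = x (8, 2) + s * v
  huv : u ^ 2 + v ^ 2 = 1

section crv

variable {x : X3} {u v : ℝ} {y : ℝ → X3} (hy : Crv x u v y)

include hy

private theorem Crv.r3 : ∃ r' : ℝ, HasDerivAt (fun s => r3 (y s)) r' 0 ∧ |r'| ≤ 2 * ze x := by
  refine ⟨2 * (x (7, 2) * u + x (8, 2) * v), ?_, ?_⟩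
  · have e : (fun s => Fk.r3 (y s)) = fun s => (x (7, 2) + s * u) ^ 2 + (x (8, 2) + s * v) ^ 2 := by
      funext s
      unfold Fk.r3
      rw [hy.h7, hy.h8]
    rw [e]
    have h1 := ((((hasDerivAt_id (0 : ℝ)).mul_const u).const_add (x (7, 2))).pow 2).add
      ((((hasDerivAt_id (0 : ℝ)).mul_const v).const_add (x (8, 2))).pow 2)
    have h2 : HasDerivAt (fun s : ℝ => (x (7, 2) + s * u) ^ 2 + (x (8, 2) + s * v) ^ 2) _ 0 := h1
    refine h2.congr_deriv ?_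
    simp only [id, zero_mul, add_zero, one_mul]
    push_cast
    ring
  · have h1 : (x (7, 2) * u + x (8, 2) * v) ^ 2 ≤ ze x ^ 2 := by
      rw [bd_ze_sq]
      have h2 := hy.huv
      unfold Fk.r3
      nlinarith only [sq_nonneg (x (7, 2) * v - x (8, 2) * u), h2]
    have h2 := abs_le_of_sq_le_sq' h1 (bd_ze x)
    rw [abs_le]
    constructor <;> linarith only [h2.1, h2.2]

private theorem Crv.gg : ∃ g' : ℝ, HasDerivAt (fun s => gg (y s)) g' 0 ∧
    |g'| ≤ ze x * Fk.gg x ^ 3 := by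
  obtain ⟨r', h1, h2⟩ := hy.r3
  have hr := bd_r3 x
  have hpos : 0 < 1 + Fk.r3 (y 0) := by rw [hy.h0]; linarith only [hr]
  have h3 := ((h1.const_add 1).sqrt hpos.ne').inv (Real.sqrt_pos.2 hpos).ne'
  refine ⟨_, h3, ?_⟩
  rw [hy.h0] at hpos ⊢
  have e : -(r' / (2 * Real.sqrt (1 + Fk.r3 x))) / Real.sqrt (1 + Fk.r3 x) ^ 2 =
      -(r' / 2) * Fk.gg x ^ 3 := by
    have : Real.sqrt (1 + Fk.r3 x) ≠ 0 := (Real.sqrt_pos.2 hpos).ne'
    unfold Fk.gg
    field_simp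
  rw [e, abs_mul, abs_neg, abs_div, abs_of_pos (pow_pos (bd_gg_pos x) 3), abs_two]
  have h4 := pow_pos (bd_gg_pos x) 3
  exact mul_le_mul_of_nonneg_right (by linarith only [h2]) h4.le

private theorem Crv.ph : B1 (fun s => K.ph 2 (y s)) (1 + ze x) := by
  refine ⟨?_, (u : ℂ) + Complex.I * (K.sg : ℂ) * (v : ℂ), ?_, ?_⟩
  · change ‖K.ph 2 (y 0)‖ ≤ _
    rw [hy.h0, bd_ph2]; linarith only []
  · have e : (fun s => K.ph 2 (y s)) = fun s : ℝ => K.ph 2 x +
        (s : ℂ) * ((u : ℂ) + Complex.I * (K.sg : ℂ) * (v : ℂ)) := by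
      funext s
      unfold Fk.ph
      rw [hy.h7, hy.h8]
      push_cast
      ring
    rw [e]
    have h1 := ((hasDerivAt_id (0 : ℝ)).ofReal_comp.mul_const
      ((u : ℂ) + Complex.I * (K.sg : ℂ) * (v : ℂ))).const_add (K.ph 2 x)
    have h2 : HasDerivAt (fun s : ℝ => K.ph 2 x +
        (s : ℂ) * ((u : ℂ) + Complex.I * (K.sg : ℂ) * (v : ℂ))) _ 0 := h1
    refine h2.congr_deriv ?_
    simp
  · rw [bd_uv _ _ _ K.sg_sq, hy.huv, Real.sqrt_one]
    linarith only [bd_ze x]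

private theorem Crv.qq : ∃ D : ℂ, HasDerivAt (fun s => K.qq (y s)) D 0 ∧ ‖D‖ ≤ 2 := by
  obtain ⟨g', h1, h2⟩ := hy.gg
  have e : (fun s => K.phb 2 (y s)) = fun s : ℝ => K.phb 2 x +
      (s : ℂ) * ((u : ℂ) - Complex.I * (K.sg : ℂ) * (v : ℂ)) := by
    funext s
    unfold Fk.phb
    rw [hy.h7, hy.h8]
    push_cast
    ring
  have h3 : HasDerivAt (fun s => K.phb 2 (y s)) ((u : ℂ) - Complex.I * (K.sg : ℂ) * (v : ℂ)) 0 := by
    rw [e]
    have h1 := ((hasDerivAt_id (0 : ℝ)).ofReal_comp.mul_const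
      ((u : ℂ) - Complex.I * (K.sg : ℂ) * (v : ℂ))).const_add (K.phb 2 x)
    have h2 : HasDerivAt (fun s : ℝ => K.phb 2 x +
        (s : ℂ) * ((u : ℂ) - Complex.I * (K.sg : ℂ) * (v : ℂ))) _ 0 := h1
    refine h2.congr_deriv ?_
    simp
  have h4 : HasDerivAt (fun s => K.qq (y s)) _ 0 := h1.ofReal_comp.mul h3
  refine ⟨_, h4, ?_⟩
  rw [hy.h0]
  refine (norm_add_le _ _).trans ?_
  rw [norm_mul, norm_mul, bd_phb2, bd_uv' _ _ _ K.sg_sq, hy.huv, Real.sqrt_one, Complex.norm_real,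
    Complex.norm_real, Real.norm_eq_abs, Real.norm_of_nonneg (bd_gg_pos x).le]
  have hz := bd_ze x
  have hg := bd_gg_pos x
  have hg1 := bd_gg_le x
  have hzg := bd_zg x
  have h5 : |g'| * ze x ≤ 1 := by
    calc |g'| * ze x ≤ (ze x * Fk.gg x ^ 3) * ze x := mul_le_mul_of_nonneg_right h2 hz
      _ = (ze x * Fk.gg x) * (ze x * Fk.gg x) * Fk.gg x := by ring
      _ ≤ 1 * 1 * 1 := by gcongr
      _ = 1 := by norm_num
  linarith only [h5, hg1]

private theorem Crv.qp : ∃ D : ℝ, HasDerivAt (fun s => qp (y s)) D 0 ∧ |D| ≤ 4 := by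
  obtain ⟨g', h1, h2⟩ := hy.gg
  obtain ⟨r', h3, h4⟩ := hy.r3
  have h5 : HasDerivAt (fun s => Fk.qp (y s)) _ 0 :=
    ((h3.div_const 2).const_add 1).mul (h1.pow 3)
  refine ⟨_, h5, ?_⟩
  rw [hy.h0]
  have hz := bd_ze x
  have hg := bd_gg_pos x
  have hg1 := bd_gg_le x
  have hzg := bd_zg x
  have hgs := bd_gg_sq x
  have hr := bd_r3 x
  have h6 : |r' / 2 * Fk.gg x ^ 3| ≤ 1 := by
    rw [abs_mul, abs_div, abs_two, abs_of_pos (pow_pos hg 3)]
    calc |r'| / 2 * Fk.gg x ^ 3 ≤ ze x * Fk.gg x ^ 3 := by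
          refine mul_le_mul_of_nonneg_right (by linarith only [h4]) (pow_pos hg 3).le
      _ = (ze x * Fk.gg x) * (Fk.gg x * Fk.gg x) := by ring
      _ ≤ 1 * (1 * 1) := by gcongr
      _ = 1 := by norm_num
  have h7 : |(1 + Fk.r3 x / 2) * (3 * Fk.gg x ^ 2 * g')| ≤ 3 := by
    rw [abs_mul, abs_mul, abs_mul, abs_of_pos (pow_pos hg 2), abs_of_nonneg
      (by linarith only [hr] : 0 ≤ 1 + Fk.r3 x / 2), abs_of_pos (by norm_num : (0 : ℝ) < 3)]
    have h8 : (1 + Fk.r3 x / 2) * Fk.gg x ^ 2 ≤ 1 := by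
      nlinarith only [hgs, mul_nonneg (sq_nonneg (Fk.gg x)) hr]
    calc (1 + Fk.r3 x / 2) * (3 * Fk.gg x ^ 2 * |g'|)
        = 3 * (((1 + Fk.r3 x / 2) * Fk.gg x ^ 2) * |g'|) := by ring
      _ ≤ 3 * (1 * (ze x * Fk.gg x ^ 3)) := by gcongr
      _ = 3 * ((ze x * Fk.gg x) * (Fk.gg x * Fk.gg x)) := by ring
      _ ≤ 3 * (1 * (1 * 1)) := by gcongr
      _ = 3 := by norm_num
  refine (abs_add_le _ _).trans ?_
  have h9 : ((3 : ℕ) : ℝ) * Fk.gg x ^ (3 - 1) * g' = 3 * Fk.gg x ^ 2 * g' := by norm_num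
  rw [h9]
  linarith only [h6, h7]

private theorem Crv.wsq (s : ℝ) : Fk.wsq (y s) = Fk.wsq x := by
  unfold Fk.wsq; simp only [hy.he]

private theorem Crv.expo : ∃ D : ℝ, HasDerivAt (fun s => K.expo (y s)) D 0 ∧ |D| ≤ 3 * bN x := by
  obtain ⟨g', h1, h2⟩ := hy.gg
  obtain ⟨r', h3, h4⟩ := hy.r3
  have e : (fun s => K.expo (y s)) = fun s => (‖ss x‖ ^ 2 + ∑ k, K.bb k x ^ 2) +
      (Fk.gg (y s) * Fk.r3 (y s)) * Fk.wsq x := by
    funext s
    have e1 : ss (y s) = ss x := by unfold ss; simp only [hy.he]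
    have e2 : ∀ k, K.bb k (y s) = K.bb k x := fun k => by
      unfold Fk.bb Fk.kap; simp only [hy.he]
    unfold Fk.expo
    rw [e1, hy.wsq]
    simp only [e2]
  rw [e]
  refine ⟨_, ((h1.mul h3).mul_const (Fk.wsq x)).const_add _, ?_⟩
  rw [hy.h0]
  have hz := bd_ze x
  have hg := bd_gg_pos x
  have hg1 := bd_gg_le x
  have hzg := bd_zg x
  have hgs := bd_gg_sq x
  have hr := bd_r3 x
  have hw := bd_w x
  have h5 : |g' * Fk.r3 x| ≤ 1 := by
    rw [abs_mul, abs_of_nonneg hr]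
    calc |g'| * Fk.r3 x ≤ (ze x * Fk.gg x ^ 3) * Fk.r3 x := mul_le_mul_of_nonneg_right h2 hr
      _ = (ze x * Fk.gg x) * (Fk.gg x ^ 2 * Fk.r3 x) := by ring
      _ ≤ 1 * 1 := by
        refine mul_le_mul hzg ?_ (by positivity) zero_le_one
        nlinarith only [hgs, sq_nonneg (Fk.gg x)]
      _ = 1 := by norm_num
  have h6 : |Fk.gg x * r'| ≤ 2 := by
    rw [abs_mul, abs_of_pos hg]
    calc Fk.gg x * |r'| ≤ Fk.gg x * (2 * ze x) := mul_le_mul_of_nonneg_left h4 hg.le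
      _ = 2 * (ze x * Fk.gg x) := by ring
      _ ≤ 2 := by linarith only [hzg]
  rw [abs_mul, abs_of_nonneg hw]
  have h7 : |g' * Fk.r3 x + Fk.gg x * r'| ≤ 3 :=
    (abs_add_le _ _).trans (by linarith only [h5, h6])
  have h8 := mul_le_mul_of_nonneg_right h7 hw
  have h9 : Fk.wsq x ≤ bN x := by
    unfold bN; linarith only [bd_x3 x]
  linarith only [h8, h9]

private theorem Crv.exp : B1 (fun s => ((Real.exp (-K.expo (y s)) : ℝ) : ℂ))
    (3 * (Real.exp (-K.expo x) * bN x)) := by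
  obtain ⟨D, h1, h2⟩ := hy.expo K
  have hN := bN_one x
  have he := Real.exp_pos (-K.expo x)
  refine ⟨?_, _, (h1.neg.exp).ofReal_comp, ?_⟩
  · change ‖((Real.exp (-K.expo (y 0)) : ℝ) : ℂ)‖ ≤ _
    rw [hy.h0, Complex.norm_real, Real.norm_of_nonneg he.le]
    nlinarith only [he, hN]
  · rw [Complex.norm_real, Real.norm_eq_abs, abs_mul]
    have h3 : (-fun s => K.expo (y s)) 0 = -K.expo x := by
      change -K.expo (y 0) = _
      rw [hy.h0]
    rw [h3]
    rw [abs_of_pos he, abs_neg]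
    have := mul_le_mul_of_nonneg_left h2 he.le
    linarith only [this]

private theorem Crv.tau0 : B1 (fun s => K.tau0 (y s)) (3200 * (1 + ze x) * bN x ^ 2) := by
  have hN := bN_one x
  have hN2 : 1 ≤ bN x ^ 2 := one_le_pow₀ hN
  have hz := bd_ze x
  have e1 : ∀ s, K.ds (y s) = K.ds x := fun s => by unfold Fk.ds; simp only [hy.he]
  have e2 : ∀ s, K.dsb (y s) = K.dsb x := fun s => by unfold Fk.dsb; simp only [hy.he]
  have e : (fun s => K.tau0 (y s)) = fun s : ℝ => K.tau0 x +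
      (s : ℂ) • ((2 * ((u : ℂ) + Complex.I * (K.sg : ℂ) * (v : ℂ))) • (1 : F →L[ℂ] F)) := by
    funext s
    unfold Fk.tau0
    rw [e1, e2]
    have h1 : K.ph 2 (y s) = K.ph 2 x + (s : ℂ) * ((u : ℂ) + Complex.I * (K.sg : ℂ) * (v : ℂ)) := by
      unfold Fk.ph
      rw [hy.h7, hy.h8]
      push_cast
      ring
    rw [h1]
    module
  refine ⟨?_, (2 * ((u : ℂ) + Complex.I * (K.sg : ℂ) * (v : ℂ))) • (1 : F →L[ℂ] F), ?_, ?_⟩
  · change ‖K.tau0 (y 0)‖ ≤ _
    rw [hy.h0]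
    exact bd_tau0 K x
  · rw [e]
    have h1 := ((hasDerivAt_id (0 : ℝ)).ofReal_comp.smul_const
      ((2 * ((u : ℂ) + Complex.I * (K.sg : ℂ) * (v : ℂ))) • (1 : F →L[ℂ] F))).const_add (K.tau0 x)
    have h2 : HasDerivAt (fun s : ℝ => K.tau0 x +
      (s : ℂ) • ((2 * ((u : ℂ) + Complex.I * (K.sg : ℂ) * (v : ℂ))) • (1 : F →L[ℂ] F))) _ 0 := h1
    refine h2.congr_deriv ?_
    simp
  · rw [norm_smul, norm_mul, Complex.norm_ofNat, bd_uv _ _ _ K.sg_sq, hy.huv, Real.sqrt_one]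
    have := bd_one (F := F)
    nlinarith only [this, hz, hN2, mul_nonneg hz (sub_nonneg.2 hN2)]

private theorem Crv.bet : B1 (fun s => K.bet (y s)) ((1 + 4 * bT K) ^ 7 * bN x ^ 7) := by
  have e : (fun s => K.bet (y s)) = fun _ => K.bet x := by
    funext s
    unfold Fk.bet Fk.db Fk.dkap
    simp only [hy.he]
  rw [e]
  exact B1_const (bd_bet K x)

private theorem Crv.rho : B1 (fun s => K.rho (y s)) (113 * bN x) := by
  obtain ⟨D, h1, h2⟩ := hy.qp
  have hN := bN_one x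
  have e1 : ∀ s, K.mu (y s) = K.mu x := fun s => by unfold Fk.mu; simp only [hy.he]
  have e : (fun s => K.rho (y s)) = fun s : ℝ => (1 : F →L[ℂ] F) +
      (Complex.I / (K.f0 : ℂ) * (Fk.qp (y s) : ℂ)) • (K.dpb 2 * K.mu x) := by
    funext s
    unfold Fk.rho
    rw [e1]
  refine ⟨?_, (Complex.I / (K.f0 : ℂ) * (D : ℂ)) • (K.dpb 2 * K.mu x), ?_, ?_⟩
  · change ‖K.rho (y 0)‖ ≤ _
    rw [hy.h0]
    exact bd_rho K x
  · rw [e]
    exact ((h1.ofReal_comp.const_mul (Complex.I / (K.f0 : ℂ))).smul_const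
      (K.dpb 2 * K.mu x)).const_add (1 : F →L[ℂ] F)
  · rw [norm_smul]
    have h3 := mul_le_mul (bd_If K D h2) (bd_dmu K x) (norm_nonneg _) (by norm_num)
    linarith only [h3, hN]

private theorem Crv.eeT : B1 (fun s => K.eeT (y s)) ((2 * 4) ^ 7) := by
  obtain ⟨D, h1, h2⟩ := hy.qq K
  unfold Fk.eeT
  refine B1_list (M := 4) (by norm_num) 7 _ fun k => ⟨?_, (2 * Complex.I / (K.f0 : ℂ) * D) •
    (K.c (e8 k) 0 * K.c (e8 k) 1), ?_, ?_⟩
  · exact bd_eef K _ (bd_qq K (y 0)) k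
  · exact ((h1.const_mul (2 * Complex.I / (K.f0 : ℂ))).smul_const
      (K.c (e8 k) 0 * K.c (e8 k) 1)).const_add (1 : F →L[ℂ] F)
  · rw [norm_smul]
    have h3 := mul_le_mul ((bd_2If K D).trans (by linarith only [h2] : 2 * ‖D‖ ≤ 4)) (bd_cc K k)
      (norm_nonneg _) (by norm_num)
    linarith only [h3]

end crv

private theorem bd_crv : ∃ C : ℝ, 0 ≤ C ∧ ∀ (x : X3) (u v : ℝ) (y : ℝ → X3), Crv x u v y →
    B1 (fun s => K.aT (y s)) (C * (Real.exp (-K.expo x) * (1 + ze x) ^ 2 * bN x ^ 11)) := by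
  have hT := bT_nonneg K
  refine ⟨2 * (2 * 3) * (2 * (2 * (2 * 3200 * (1 + 4 * bT K) ^ 7) * 113) * (2 * 4) ^ 7),
    by positivity, fun x u v y hy => ?_⟩
  have h1 := ((((hy.tau0 K).mul (hy.bet K)).mul (hy.rho K)).mul (hy.eeT K)).apply K.vac_norm
  have h2 := ((hy.exp K).smul (hy.ph K)).smul h1
  have e : (fun s => K.aT (y s)) = fun s => ((((Real.exp (-K.expo (y s)) : ℝ) : ℂ)) •
      K.ph 2 (y s)) • ((K.tau0 (y s) * K.bet (y s) * K.rho (y s) * K.eeT (y s)) K.vac) := rfl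
  rw [e]
  have e2 : 2 * (2 * 3) * (2 * (2 * (2 * 3200 * (1 + 4 * bT K) ^ 7) * 113) * (2 * 4) ^ 7) *
      (Real.exp (-K.expo x) * (1 + ze x) ^ 2 * bN x ^ 11) =
      2 * (2 * (3 * (Real.exp (-K.expo x) * bN x)) * (1 + ze x)) *
      (2 * (2 * (2 * (3200 * (1 + ze x) * bN x ^ 2) * ((1 + 4 * bT K) ^ 7 * bN x ^ 7)) *
        (113 * bN x)) * (2 * 4) ^ 7) := by ring
  rw [e2]
  exact h2

private theorem bd_line (x : X3) (i : Fin 9) (u v : ℝ) (h7 : EuclideanSpace.single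
    (i, (2 : Fin 3)) (1 : ℝ) (7, 2) = u) (h8 : EuclideanSpace.single (i, (2 : Fin 3)) (1 : ℝ) (8, 2) = v)
    (he : ∀ (j : Fin 7) (A : Fin 3), EuclideanSpace.single (i, (2 : Fin 3)) (1 : ℝ) (e9 j, A) = 0)
    (huv : u ^ 2 + v ^ 2 = 1) :
    Crv x u v (fun s => x + s • EuclideanSpace.single (i, (2 : Fin 3)) (1 : ℝ)) where
  h0 := by simp
  he s j A := by
    have h := he j A
    simp only [PiLp.add_apply, PiLp.smul_apply, h, smul_zero, add_zero]
  h7 s := by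
    simp only [PiLp.add_apply, PiLp.smul_apply, h7, smul_eq_mul]
  h8 s := by
    simp only [PiLp.add_apply, PiLp.smul_apply, h8, smul_eq_mul]
  huv := huv

private theorem bd_pd (x : X3) (i : Fin 9) (m : ℝ)
    (h : B1 (fun s : ℝ => K.aT (x + s • EuclideanSpace.single (i, (2 : Fin 3)) (1 : ℝ))) m) :
    ‖pd i 2 K.aT x‖ ≤ m := by
  by_cases hd : DifferentiableAt ℝ K.aT x
  · obtain ⟨_, D, hD, hDm⟩ := h
    have h3 : HasLineDerivAt ℝ K.aT D x (EuclideanSpace.single (i, (2 : Fin 3)) (1 : ℝ)) := hD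
    have h4 : fderiv ℝ K.aT x (EuclideanSpace.single (i, (2 : Fin 3)) (1 : ℝ)) = D := by
      rw [← hd.lineDeriv_eq_fderiv, h3.lineDeriv]
    unfold pd
    rw [h4]
    exact hDm
  · unfold pd
    rw [fderiv_zero_of_not_differentiableAt hd]
    simpa using h.nonneg

private theorem bd_dph : ∃ C : ℝ, 0 ≤ C ∧ ∀ x : X3,
    ‖K.dph 2 K.aT x‖ ≤ C * (Real.exp (-K.expo x) * (1 + ze x) ^ 2 * bN x ^ 11) := by
  obtain ⟨C, hC, h⟩ := bd_crv K
  refine ⟨C, hC, fun x => ?_⟩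
  have h1 := bd_pd K x 7 _ (h x 1 0 _ (bd_line x 7 1 0 (by simp) (by simp)
    (fun j A => ?_) (by norm_num)))
  have h2 := bd_pd K x 8 _ (h x 0 1 _ (bd_line x 8 0 1 (by simp) (by simp)
    (fun j A => ?_) (by norm_num)))
  · unfold dph
    rw [norm_smul]
    have e : ‖(1 / 2 : ℂ)‖ = 1 / 2 := by norm_num
    rw [e]
    have h3 : ‖(Complex.I * (K.sg : ℂ)) • pd 8 2 K.aT x‖ = ‖pd 8 2 K.aT x‖ := by
      rw [norm_smul, norm_mul, Complex.norm_I, bd_sg_norm, one_mul, one_mul]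
    have h4 := norm_sub_le (pd 7 2 K.aT x) ((Complex.I * (K.sg : ℂ)) • pd 8 2 K.aT x)
    rw [h3] at h4
    linarith only [h1, h2, h4]
  · have hne : e9 j ≠ (8 : Fin 9) := by
      intro h
      have h2 := congrArg (fun p : Fin 9 => (p : ℕ)) h
      have h3 := j.2
      change (j : ℕ) = 8 at h2
      omega
    simp [hne]
  · have hne : e9 j ≠ (7 : Fin 9) := by
      intro h
      have h2 := congrArg (fun p : Fin 9 => (p : ℕ)) h
      have h3 := j.2
      change (j : ℕ) = 7 at h2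
      omega
    simp [hne]

private theorem bd_fin {a E N B A b c q C : ℝ} (k : ℕ) (hk : k ≤ 12) (ha : 0 ≤ a) (hE : 0 ≤ E)
    (hN : 1 ≤ N) (hc : 0 ≤ c) (hq : 0 ≤ q) (hB : 0 ≤ B) (hA0 : 0 ≤ A) (hA : a * E * N ^ 12 ≤ A * B)
    (hC : c ≤ C) (hb : b ≤ c * (E * q * N ^ k)) : a * b ≤ C * A * q * B := by
  have h1 : N ^ k ≤ N ^ 12 := pow_le_pow_right₀ hN hk
  calc a * b ≤ a * (c * (E * q * N ^ k)) := mul_le_mul_of_nonneg_left hb ha
    _ = (c * q * (a * E)) * N ^ k := by ring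
    _ ≤ (c * q * (a * E)) * N ^ 12 := mul_le_mul_of_nonneg_left h1 (by positivity)
    _ = c * q * (a * E * N ^ 12) := by ring
    _ ≤ c * q * (A * B) := mul_le_mul_of_nonneg_left hA (by positivity)
    _ = (A * q * B) * c := by ring
    _ ≤ (A * q * B) * C := mul_le_mul_of_nonneg_left hC (by positivity)
    _ = C * A * q * B := by ring

theorem exists_bounds : ∃ C : ℝ, 0 ≤ C ∧ ∀ x : X3,
    Real.exp (-K.hh x) * ‖K.aT x‖ ≤ C * ze x * (1 + ze x) * B0 x ∧
    Real.exp (-K.hh x) * ‖K.dph 2 K.aT x‖ ≤ C * (1 + ze x) ^ 2 * B0 x ∧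
    Real.exp (-K.hh x) * ‖K.io 1 x (K.io 0 x (K.aT x))‖ ≤
      C * ze x * (1 + ze x) * (1 + Real.sqrt (perp2 x)) ^ 2 * B0 x ∧
    Real.exp (-K.hh x) * ‖K.dpb 0 (K.io 1 x (K.aT x)) - K.dpb 1 (K.io 0 x (K.aT x))‖ ≤
      C * ze x * (1 + ze x) * (1 + Real.sqrt (perp2 x)) * B0 x := by
  obtain ⟨C1, hC1, h1⟩ := bd_aT K
  obtain ⟨C2, hC2, h2⟩ := bd_dph K
  obtain ⟨A, hA, h3⟩ := bd_absorb K 12
  refine ⟨(4096 * C1 + C2) * A, by positivity, fun x => ?_⟩
  have hz := bd_ze x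
  have hN := bN_one x
  have hN0 : 0 ≤ bN x := zero_le_one.trans hN
  have hE := (Real.exp_pos (-K.expo x)).le
  have hh := (Real.exp_pos (-K.hh x)).le
  have hB : 0 ≤ B0 x := (Real.exp_pos _).le
  have hp := Real.sqrt_nonneg (perp2 x)
  refine ⟨?_, ?_, ?_, ?_⟩
  · have h := bd_fin (C := 4096 * C1 + C2) 10 (by norm_num) hh hE hN hC1
      (by positivity : 0 ≤ ze x * (1 + ze x)) hB hA (h3 x) (by linarith only [hC1, hC2]) (h1 x)
    linarith only [h]
  · have h := bd_fin (C := 4096 * C1 + C2) 11 (by norm_num) hh hE hN hC2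
      (by positivity : 0 ≤ (1 + ze x) ^ 2) hB hA (h3 x) (by linarith only [hC1, hC2]) (h2 x)
    linarith only [h]
  · have hb : ‖K.io 1 x (K.io 0 x (K.aT x))‖ ≤ (4096 * C1) * (Real.exp (-K.expo x) *
        (ze x * (1 + ze x) * (1 + Real.sqrt (perp2 x)) ^ 2) * bN x ^ 12) := by
      refine (bd_io_io K x).trans ?_
      refine (mul_le_mul_of_nonneg_left (h1 x) (by positivity)).trans (le_of_eq ?_)
      ring
    have h := bd_fin (C := 4096 * C1 + C2) 12 (by norm_num) hh hE hN (by positivity)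
      (by positivity : 0 ≤ ze x * (1 + ze x) * (1 + Real.sqrt (perp2 x)) ^ 2) hB hA (h3 x)
      (by linarith only [hC1, hC2]) hb
    linarith only [h]
  · have hb : ‖K.dpb 0 (K.io 1 x (K.aT x)) - K.dpb 1 (K.io 0 x (K.aT x))‖ ≤
        (256 * C1) * (Real.exp (-K.expo x) *
        (ze x * (1 + ze x) * (1 + Real.sqrt (perp2 x))) * bN x ^ 11) := by
      refine (bd_dio K x).trans ?_
      refine (mul_le_mul_of_nonneg_left (h1 x) (by positivity)).trans (le_of_eq ?_)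
      ring
    have h := bd_fin (C := 4096 * C1 + C2) 11 (by norm_num) hh hE hN (by positivity)
      (by positivity : 0 ≤ ze x * (1 + ze x) * (1 + Real.sqrt (perp2 x))) hB hA (h3 x)
      (by linarith only [hC1, hC2]) hb
    linarith only [h]

end Fk

end Vale.Agent.P353.Ex
end
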