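import Mathlib
import Vale.Agent.P353.BdU.B8
import Vale.Agent.P353.BdU.B2
import Vale.Agent.P353.BdU.B1

set_option linter.all false

section

/-! # P353, uniqueness, B4: the resolvent preserves weak invariance -/

open MeasureTheory Filter Topology
open scoped ContDiff

namespace Vale.Agent.P353.U

open Setup

variable {F : Type*} [NormedAddCommGroup F] [InnerProductSpace ℂ F] (S : Setup F)

section abs

variable (m : ℝ)

lemma rinv_LQ_add {u v : X3 → F} (hu : Tst u) (hv : Tst v) (x : X3) :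
    LQ S m (fun y => u y + v y) x = LQ S m u x + LQ S m v x := by
  have h : ∀ β, S.Qm m β (fun y => u y + v y) = fun y => S.Qm m β u y + S.Qm m β v y :=
    fun β => funext fun y => rinv_Qm_add S m β (hu.diff y) (hv.diff y)
  simp only [LQ, h]
  rw [← sub_eq_zero]
  have h2 : ∀ β, S.Qm m β (fun y => S.Qm m β u y + S.Qm m β v y) x =
      S.Qm m β (S.Qm m β u) x + S.Qm m β (S.Qm m β v) x := fun β =>
    rinv_Qm_add S m β ((rinv_Tst_Qm S m β hu).diff x) ((rinv_Tst_Qm S m β hv).diff x)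
  simp only [h2, Finset.sum_add_distrib]
  abel

lemma rinv_LQ_smul (c : ℂ) {u : X3 → F} (hu : Tst u) (x : X3) :
    LQ S m (fun y => c • u y) x = c • LQ S m u x := by
  have h : ∀ β, S.Qm m β (fun y => c • u y) = fun y => c • S.Qm m β u y :=
    fun β => funext fun y => rinv_Qm_smul S m β c (hu.diff y)
  have h2 : ∀ β, S.Qm m β (fun y => c • S.Qm m β u y) x = c • S.Qm m β (S.Qm m β u) x :=
    fun β => rinv_Qm_smul S m β c ((rinv_Tst_Qm S m β hu).diff x)
  simp only [LQ, h, h2, smul_add, Finset.smul_sum]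

lemma rinv_LQ_sub {u v : X3 → F} (hu : Tst u) (hv : Tst v) (x : X3) :
    LQ S m (fun y => u y - v y) x = LQ S m u x - LQ S m v x := by
  have h1 : (fun y => u y - v y) = fun y => u y + (-1 : ℂ) • v y := by
    funext y; rw [neg_smul, one_smul, sub_eq_add_neg]
  rw [h1, rinv_LQ_add S m hu (rinv_Tst_csmul _ hv), rinv_LQ_smul S m _ hv, neg_smul, one_smul,
    sub_eq_add_neg]

lemma rinv_LQ_symm {u v : X3 → F} (hu : Tst u) (hv : Tst v) :
    ∫ x, inner ℂ (LQ S m u x) (v x) = ∫ x, inner ℂ (u x) (LQ S m v x) := by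
  have h1 : ∀ {a b : X3 → F}, Tst a → Tst b →
      ∫ x, inner ℂ (a x) (LQ S m b x) = (∫ x, inner ℂ (a x) (b x)) +
        ∑ β, ∫ x, inner ℂ (S.Qm m β a x) (S.Qm m β b x) := by
    intro a b ha hb
    rw [← rinv_TT_inner S m hb ha, ← integral_add (ha.inner_int hb.1.continuous)
      (ha.inner_int (rinv_Tst_TT S m hb).1.continuous)]
    simp only [LQ, TT, inner_add_right]
  have h2 : ∀ {a b : X3 → F}, ∫ x, inner ℂ (a x) (b x) =
      (starRingEnd ℂ) (∫ x, inner ℂ (b x) (a x)) := by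
    intro a b
    rw [← integral_conj]
    simp only [inner_conj_symm]
  rw [h2, h1 hv hu, h1 hu hv, map_add, map_sum, ← h2]
  simp only [← h2]

end abs

section lim

variable [CompleteSpace F]

omit [CompleteSpace F] in
lemma rinv_nsq_sub_eq {f g : X3 → F} (hf : MemLp f 2 (volume : Measure X3))
    (hg : MemLp g 2 (volume : Measure X3)) :
    ‖hf.toLp f - hg.toLp g‖ = Real.sqrt (nsq (fun x => f x - g x)) := by
  rw [← MemLp.toLp_sub, norm_toLp]
  rfl

lemma rinv_lim {h : ℕ → X3 → F} {g : X3 → F} (hg : L2t h g) {f : ℕ → X3 → F}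
    (hf : ∀ n, MemLp (f n) 2 (volume : Measure X3)) {K : ℝ} (hK0 : 0 ≤ K)
    (hK : ∀ n k, nsq (fun x => f n x - f k x) ≤ K * nsq (fun x => h n x - h k x)) :
    ∃ z : X3 → F, L2t f z := by
  have h1 : CauchySeq (fun n => (hf n).toLp (f n)) := by
    have h2 := hg.lim_toLp.cauchySeq
    rw [Metric.cauchySeq_iff] at h2 ⊢
    intro ε hε
    obtain ⟨N, hN⟩ := h2 (ε / (Real.sqrt K + 1)) (by positivity)
    refine ⟨N, fun n hn k hk => ?_⟩
    have h3 := hN n hn k hk
    rw [dist_eq_norm, rinv_nsq_sub_eq] at h3 ⊢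
    have h4 : Real.sqrt (nsq (fun x => f n x - f k x)) ≤
        Real.sqrt K * Real.sqrt (nsq (fun x => h n x - h k x)) := by
      rw [← Real.sqrt_mul hK0]
      exact Real.sqrt_le_sqrt (hK n k)
    have h5 : Real.sqrt K * Real.sqrt (nsq (fun x => h n x - h k x)) ≤
        Real.sqrt K * (ε / (Real.sqrt K + 1)) :=
      mul_le_mul_of_nonneg_left h3.le (Real.sqrt_nonneg _)
    have h6 : Real.sqrt K * (ε / (Real.sqrt K + 1)) < ε := by
      have := Real.sqrt_nonneg K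
      rw [← mul_div_assoc, div_lt_iff₀ (by positivity)]
      nlinarith
    linarith
  obtain ⟨Z, hZ⟩ := cauchySeq_tendsto_of_complete h1
  refine ⟨Z, ⟨hf, Lp.memLp Z, ?_⟩⟩
  have h7 : ∀ n, nsq (fun x => f n x - Z x) = ‖(hf n).toLp (f n) - Z‖ ^ 2 := by
    intro n
    have h8 := rinv_nsq_sub_eq (hf n) (Lp.memLp Z)
    rw [Lp.toLp_coeFn] at h8
    rw [h8, Real.sq_sqrt (nsq_nonneg _)]
  simp only [h7]
  have h9 := (tendsto_iff_norm_sub_tendsto_zero.1 hZ).pow 2
  simpa using h9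

variable {S} {m : ℝ}

lemma rinv_dense (h2 : ESAStmt S) (hm : 0 < m) (f : Lp F 2 (volume : Measure X3)) :
    ∃ η : ℕ → X3 → F, (∀ n, Tst (η n)) ∧ L2t (fun n => LQ S m (η n)) f := by
  let M : Submodule ℂ (Lp F 2 (volume : Measure X3)) :=
    { carrier := {v | ∃ (η : X3 → F) (h : Tst η), v = (rinv_Tst_LQ S m h).memLp.toLp (LQ S m η)}
      zero_mem' := by
        have h0 : Tst (fun _ : X3 => (0 : F)) :=
          ⟨contDiff_const, (HasCompactSupport.zero : HasCompactSupport (0 : X3 → F))⟩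
        refine ⟨_, h0, ?_⟩
        have h1 : LQ S m (fun _ : X3 => (0 : F)) = 0 := by
          funext x
          have := rinv_LQ_smul S m 0 h0 x
          simpa using this
        rw [eq_comm, ← MemLp.toLp_zero (MemLp.zero' (p := 2) (μ := (volume : Measure X3)))]
        congr 1
      add_mem' := by
        rintro a b ⟨η, h, rfl⟩ ⟨η', h', rfl⟩
        refine ⟨_, h.add h', ?_⟩
        rw [← MemLp.toLp_add]
        congr 1
        funext x
        exact (rinv_LQ_add S m h h' x).symm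
      smul_mem' := by
        rintro c a ⟨η, h, rfl⟩
        refine ⟨_, rinv_Tst_csmul c h, ?_⟩
        rw [← MemLp.toLp_const_smul]
        congr 1
        funext x
        exact (rinv_LQ_smul S m c h x).symm }
  have hM : M.topologicalClosure = ⊤ := by
    rw [Submodule.topologicalClosure_eq_top_iff, Submodule.eq_bot_iff]
    intro v hv
    have h3 : nsq v = 0 := by
      refine h2 m hm v (Lp.memLp v) fun ζ hζ => ?_
      have h4 := (Submodule.mem_orthogonal M v).1 hv _ ⟨ζ, hζ, rfl⟩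
      rw [MeasureTheory.L2.inner_def] at h4
      rw [← h4]
      refine integral_congr_ae ?_
      filter_upwards [(rinv_Tst_LQ S m hζ).memLp.coeFn_toLp] with x hx
      rw [hx]
      rfl
    have h5 := norm_toLp (Lp.memLp v)
    rw [Lp.toLp_coeFn, h3, Real.sqrt_zero] at h5
    exact norm_eq_zero.1 h5
  have hf : f ∈ (M.topologicalClosure : Set (Lp F 2 (volume : Measure X3))) := by
    rw [hM]; trivial
  rw [Submodule.topologicalClosure_coe, mem_closure_iff_seq_limit] at hf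
  obtain ⟨g, hg, hlim⟩ := hf
  choose η hη hgη using hg
  refine ⟨η, hη, ⟨fun n => (rinv_Tst_LQ S m (hη n)).memLp, Lp.memLp f, ?_⟩⟩
  have h7 : ∀ n, nsq (fun x => LQ S m (η n) x - f x) = ‖g n - f‖ ^ 2 := by
    intro n
    have h8 := rinv_nsq_sub_eq (rinv_Tst_LQ S m (hη n)).memLp (Lp.memLp f)
    rw [Lp.toLp_coeFn, ← hgη n] at h8
    rw [h8, Real.sq_sqrt (nsq_nonneg _)]
  simp only [h7]
  have h9 := (tendsto_iff_norm_sub_tendsto_zero.1 hlim).pow 2
  simpa using h9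

/-- what is used of the generators -/
structure XData (S : Setup F) (m : ℝ) (X : (X3 → F) → X3 → F) : Prop where
  tst : ∀ {u}, Tst u → Tst (X u)
  symm : ∀ {u v}, Tst u → Tst v → ∫ x, inner ℂ (X u x) (v x) = ∫ x, inner ℂ (u x) (X v x)
  sub : ∀ {u v}, Tst u → Tst v → ∀ x, X (fun y => u y - v y) x = X u x - X v x
  comm : ∀ {u}, Tst u → X (LQ S m u) = LQ S m (X u)
  bd : ∃ K : ℝ, 0 ≤ K ∧ ∀ u, Tst u → nsq (X u) ≤ K * nsq (LQ S m u)

omit [CompleteSpace F] in
lemma rinv_nsq_LQ_sub {u v : X3 → F} (hu : Tst u) (hv : Tst v) :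
    nsq (LQ S m (fun y => u y - v y)) = nsq (fun x => LQ S m u x - LQ S m v x) := by
  congr 1
  funext x
  exact rinv_LQ_sub S m hu hv x

theorem rinv_main (h2 : ESAStmt S) (hm : 0 < m) {X : (X3 → F) → X3 → F} (hX : XData S m X)
    {f w : Lp F 2 (volume : Measure X3)}
    (hw : ∀ ζ, Tst ζ → ∫ x, inner ℂ (LQ S m ζ x) (w x) = ∫ x, inner ℂ (ζ x) (f x))
    (hf : ∀ ζ, Tst ζ → ∫ x, inner ℂ (X ζ x) (f x) = 0) :
    ∀ ζ, Tst ζ → ∫ x, inner ℂ (X ζ x) (w x) = 0 := by
  obtain ⟨η, hη, hηf⟩ := rinv_dense h2 hm f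
  -- `η n → w'`
  obtain ⟨w', hw'⟩ := rinv_lim hηf (f := η) (fun n => (hη n).memLp) zero_le_one (fun n k => by
    have h3 := rinv_LQ_ge S m ((hη n).sub (hη k))
    rw [rinv_nsq_LQ_sub (hη n) (hη k)] at h3
    have h4 := nsq_nonneg (TT S m (fun x => η n x - η k x))
    linarith)
  have hw'1 : ∀ ζ, Tst ζ → ∫ x, inner ℂ (LQ S m ζ x) (w' x) = ∫ x, inner ℂ (ζ x) (f x) := by
    intro ζ hζ
    have h3 := (rinv_Tst_LQ S m hζ).L2t_const.lim_inner hw'
    have h4 := hζ.L2t_const.lim_inner hηf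
    refine tendsto_nhds_unique h3 (h4.congr fun n => ?_)
    exact (rinv_LQ_symm S m hζ (hη n)).symm
  have hww : nsq (fun x => w' x - w x) = 0 := by
    refine h2 m hm _ (hw'.mem'.sub (Lp.memLp w)) fun ζ hζ => ?_
    have hL := rinv_Tst_LQ S m hζ
    have h3 : ∫ x, inner ℂ (LQ S m ζ x) (w' x - w x) =
        (∫ x, inner ℂ (LQ S m ζ x) (w' x)) - ∫ x, inner ℂ (LQ S m ζ x) (w x) := by
      rw [← integral_sub (integrable_inner_memLp hL.memLp hw'.mem')
        (integrable_inner_memLp hL.memLp (Lp.memLp w))]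
      simp only [inner_sub_right]
    change ∫ x, inner ℂ (LQ S m ζ x) (w' x - w x) = 0
    rw [h3, hw'1 ζ hζ, hw ζ hζ, sub_self]
  have hηw : L2t η w := by
    refine ⟨fun n => (hη n).memLp, Lp.memLp w, ?_⟩
    have h3 : ∀ n, nsq (fun x => η n x - w x) ≤ 2 * nsq (fun x => η n x - w' x) := by
      intro n
      have h4 := nsq_add_le ((hη n).memLp.sub hw'.mem') (hw'.mem'.sub (Lp.memLp w))
      have h5 : (fun x => η n x - w x) = fun x => (η n - w') x + (w' - ⇑w) x := by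
        funext x
        simp only [Pi.sub_apply]
        abel
      rw [h5]
      refine h4.trans ?_
      have h6 : nsq (w' - ⇑w) = 0 := hww
      rw [h6, mul_zero, add_zero]
      exact le_rfl
    refine squeeze_zero (fun n => nsq_nonneg _) h3 ?_
    simpa using hw'.lim.const_mul 2
  -- `X η n → z`
  obtain ⟨K, hK0, hK⟩ := hX.bd
  obtain ⟨z, hz⟩ := rinv_lim hηf (f := fun n => X (η n)) (fun n => (hX.tst (hη n)).memLp) hK0
    (fun n k => by
      have h3 := hK _ ((hη n).sub (hη k))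
      rw [rinv_nsq_LQ_sub (hη n) (hη k)] at h3
      refine le_trans (le_of_eq ?_) h3
      congr 1
      funext x
      exact (hX.sub (hη n) (hη k) x).symm)
  have hz0 : nsq z = 0 := by
    refine h2 m hm _ hz.mem' fun ζ hζ => ?_
    have hL := rinv_Tst_LQ S m hζ
    change ∫ x, inner ℂ (LQ S m ζ x) (z x) = 0
    have h3 := hL.L2t_const.lim_inner hz
    have h4 := (hX.tst hL).L2t_const.lim_inner hηw
    have h5 : ∫ x, inner ℂ (LQ S m ζ x) (z x) = ∫ x, inner ℂ (X (LQ S m ζ) x) (w x) :=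
      tendsto_nhds_unique h3 (h4.congr fun n => hX.symm hL (hη n))
    rw [h5, hX.comm hζ, hw _ (hX.tst hζ), hf ζ hζ]
  intro ζ hζ
  have h3 := hζ.L2t_const.lim_inner hz
  have h4 := (hX.tst hζ).L2t_const.lim_inner hηw
  have h5 : ∫ x, inner ℂ (ζ x) (z x) = ∫ x, inner ℂ (X ζ x) (w x) :=
    tendsto_nhds_unique h3 (h4.congr fun n => hX.symm hζ (hη n))
  rw [← h5]
  have h6 := cs_inner hζ.memLp hz.mem'
  have h7 : ∫ x, ‖z x‖ ^ 2 = 0 := hz0
  rw [h7, Real.sqrt_zero, mul_zero] at h6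
  exact norm_le_zero_iff.1 h6

end lim

end Vale.Agent.P353.U
end

section

/-! # P353, uniqueness, B4: the resolvent preserves weak invariance (final statement) -/

open MeasureTheory Filter Topology
open scoped ContDiff

namespace Vale.Agent.P353.U

open Setup

variable {F : Type*} [NormedAddCommGroup F] [InnerProductSpace ℂ F] (S : Setup F)

/-- index of the terms `x_p ∂_q` -/
abbrev KK : Type := (Fin 9 × Fin 3) × (Fin 9 × Fin 3)

/-- first order operators `∑ a_{pq} x_p ∂_q + s`, formally self-adjoint -/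
structure XF (X : (X3 → F) → X3 → F) (a : KK → ℂ) (s : F →L[ℂ] F) : Prop where
  form : ∀ u x, X u x = (∑ k : KK, a k • cm k.1 (pd k.2.1 k.2.2 u) x) + s (u x)
  im : ∀ k, (starRingEnd ℂ) (a k) = -a k
  diag : ∀ p, a (p, p) = 0
  sa : ∀ v w, inner ℂ (s v) w = inner ℂ v (s w)

namespace XF

variable {S} {X : (X3 → F) → X3 → F} {a : KK → ℂ} {s : F →L[ℂ] F}

lemma tst (h : XF X a s) {u : X3 → F} (hu : Tst u) : Tst (X u) := by
  have h1 : Tst (fun x => (∑ k : KK, a k • cm k.1 (pd k.2.1 k.2.2 u) x) + s (u x)) :=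
    (rinv_Tst_sum _ fun k _ => rinv_Tst_csmul _ (rinv_Tst_cm _ (hu.pd _ _))).add
      (Tst.clm (T := fun _ : X3 => s) contDiff_const hu)
  have h2 : X u = _ := funext fun x => h.form u x
  rw [h2]
  exact h1

lemma add (h : XF X a s) {u v : X3 → F} (hu : Tst u) (hv : Tst v) (x : X3) :
    X (fun y => u y + v y) x = X u x + X v x := by
  rw [h.form, h.form, h.form, map_add]
  have h1 : ∀ k : KK, cm k.1 (pd k.2.1 k.2.2 (fun y => u y + v y)) x =
      cm k.1 (pd k.2.1 k.2.2 u) x + cm k.1 (pd k.2.1 k.2.2 v) x := by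
    intro k
    simp only [cm]
    rw [pd_add (hu.diff x) (hv.diff x), smul_add]
  simp only [h1, smul_add, Finset.sum_add_distrib]
  abel

lemma smul (h : XF X a s) (c : ℂ) {u : X3 → F} (hu : Tst u) (x : X3) :
    X (fun y => c • u y) x = c • X u x := by
  rw [h.form, h.form, map_smul, smul_add, Finset.smul_sum]
  congr 1
  refine Finset.sum_congr rfl fun k _ => ?_
  have h1 : pd k.2.1 k.2.2 (fun y => c • u y) x = c • pd k.2.1 k.2.2 u x := by
    have := pd_clm (i := k.2.1) (A := k.2.2) (x := x) (c • (1 : F →L[ℂ] F)) (hu.diff x)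
    simpa using this
  simp only [cm, h1]
  rw [smul_comm c, smul_comm c]

lemma sub (h : XF X a s) {u v : X3 → F} (hu : Tst u) (hv : Tst v) (x : X3) :
    X (fun y => u y - v y) x = X u x - X v x := by
  have h1 : (fun y => u y - v y) = fun y => u y + (-1 : ℂ) • v y := by
    funext y; rw [neg_smul, one_smul, sub_eq_add_neg]
  rw [h1, h.add hu (rinv_Tst_csmul _ hv), h.smul _ hv, neg_smul, one_smul, sub_eq_add_neg]

lemma sum (h : XF X a s) {ι : Type*} (t : Finset ι) {f : ι → X3 → F} (hf : ∀ i ∈ t, Tst (f i))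
    (x : X3) : X (fun y => ∑ i ∈ t, f i y) x = ∑ i ∈ t, X (f i) x := by
  classical
  induction t using Finset.induction_on with
  | empty =>
    simp only [Finset.sum_empty]
    have h0 : Tst (fun _ : X3 => (0 : F)) :=
      ⟨contDiff_const, (HasCompactSupport.zero : HasCompactSupport (0 : X3 → F))⟩
    have := h.smul 0 h0 x
    simpa using this
  | insert b t hb ih =>
    simp only [Finset.sum_insert hb]
    rw [h.add (hf b (Finset.mem_insert_self b t))
      (rinv_Tst_sum t fun i hi => hf i (Finset.mem_insert_of_mem hi)),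
      ih fun i hi => hf i (Finset.mem_insert_of_mem hi)]

lemma term (k : KK) (hk : k.1 ≠ k.2) {u v : X3 → F} (hu : Tst u) (hv : Tst v) :
    ∫ x, inner ℂ (cm k.1 (pd k.2.1 k.2.2 u) x) (v x) =
      -∫ x, inner ℂ (u x) (cm k.1 (pd k.2.1 k.2.2 v) x) := by
  have h1 : ∀ x, inner ℂ (cm k.1 (pd k.2.1 k.2.2 u) x) (v x) =
      inner ℂ (pd k.2.1 k.2.2 u x) (cm k.1 v x) := by
    intro x
    simp only [cm, inner_smul_left, inner_smul_right, Complex.conj_ofReal]
  have hcv := rinv_Tst_cm k.1 hv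
  simp only [h1]
  rw [integral_inner_pd u (cm k.1 v) (hu.1.of_le (by simp)) (hcv.1.of_le (by simp)) hu.2]
  congr 1
  refine integral_congr_ae (Filter.Eventually.of_forall fun x => ?_)
  simp only
  rw [rinv_pd_cm k.1 k.2.1 k.2.2 hv x, if_neg hk]
  simp

lemma symm (h : XF X a s) {u v : X3 → F} (hu : Tst u) (hv : Tst v) :
    ∫ x, inner ℂ (X u x) (v x) = ∫ x, inner ℂ (u x) (X v x) := by
  have hterm : ∀ {w : X3 → F} (k : KK), Tst w → Tst (cm k.1 (pd k.2.1 k.2.2 w)) :=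
    fun k hw => rinv_Tst_cm _ (hw.pd _ _)
  have hsT : ∀ {w : X3 → F}, Tst w → Tst (fun x => s (w x)) :=
    fun hw => Tst.clm (T := fun _ : X3 => s) contDiff_const hw
  simp only [h.form, inner_add_left, inner_add_right, sum_inner, inner_sum, inner_smul_left,
    inner_smul_right]
  rw [integral_add (integrable_finsetSum _ fun k _ =>
      ((hterm k hu).inner_int hv.1.continuous).const_mul _) ((hsT hu).inner_int hv.1.continuous),
    integral_add (integrable_finsetSum _ fun k _ =>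
      (hu.inner_int (hterm k hv).1.continuous).const_mul _) (hu.inner_int (hsT hv).1.continuous),
    integral_finsetSum _ fun k _ => ((hterm k hu).inner_int hv.1.continuous).const_mul _,
    integral_finsetSum _ fun k _ => (hu.inner_int (hterm k hv).1.continuous).const_mul _]
  congr 1
  · refine Finset.sum_congr rfl fun k _ => ?_
    rw [integral_const_mul, integral_const_mul, h.im]
    by_cases hk : k.1 = k.2
    · have : k = (k.1, k.1) := Prod.ext rfl hk.symm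
      rw [this, h.diag]
      simp
    · rw [term k hk hu hv]
      ring
  · simp only [h.sa]

lemma bd {S : Setup F} {m : ℝ} (h : XF X a s) (h0 : CoerStmt S) (hm : 0 < m) :
    ∃ K : ℝ, 0 ≤ K ∧ ∀ u, Tst u → nsq (X u) ≤ K * nsq (LQ S m u) := by
  obtain ⟨K, hK0, hK⟩ := rinv_weighted S m h0 hm
  refine ⟨2 * (((Finset.univ : Finset KK).card : ℝ) * ∑ k : KK, ‖a k‖ ^ 2 * K) +
    2 * ‖s‖ ^ 2, by positivity, ?_⟩
  intro u hu
  have hterm : ∀ k : KK, Tst (fun x => a k • cm k.1 (pd k.2.1 k.2.2 u) x) :=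
    fun k => rinv_Tst_csmul _ (rinv_Tst_cm _ (hu.pd _ _))
  have hsum : Tst (fun x => ∑ k : KK, a k • cm k.1 (pd k.2.1 k.2.2 u) x) :=
    rinv_Tst_sum _ fun k _ => hterm k
  have hs : Tst (fun x => s (u x)) := Tst.clm (T := fun _ : X3 => s) contDiff_const hu
  have h1 : X u = fun x => (∑ k : KK, a k • cm k.1 (pd k.2.1 k.2.2 u) x) + s (u x) :=
    funext fun x => h.form u x
  have hL := rinv_LQ_ge S m hu
  have hT0 := nsq_nonneg (TT S m u)
  rw [h1]
  refine (nsq_add_le hsum.memLp hs.memLp).trans ?_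
  have h2 := nsq_sum_le (Finset.univ : Finset KK)
    (fun k x => a k • cm k.1 (pd k.2.1 k.2.2 u) x) (fun k _ => (hterm k).memLp)
  have h3 : ∀ k : KK, nsq (fun x => a k • cm k.1 (pd k.2.1 k.2.2 u) x) ≤
      ‖a k‖ ^ 2 * K * nsq (LQ S m u) := by
    intro k
    have h4 : nsq (fun x => a k • cm k.1 (pd k.2.1 k.2.2 u) x) ≤
        ‖a k‖ ^ 2 * nsq (cm k.1 (pd k.2.1 k.2.2 u)) :=
      nsq_le_of (rinv_Tst_cm _ (hu.pd _ _)).memLp fun x => (norm_smul _ _).le
    refine h4.trans ?_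
    rw [mul_assoc]
    exact mul_le_mul_of_nonneg_left (hK u hu _ _ _) (by positivity)
  have h5 : ∑ k : KK, nsq (fun x => a k • cm k.1 (pd k.2.1 k.2.2 u) x) ≤
      (∑ k : KK, ‖a k‖ ^ 2 * K) * nsq (LQ S m u) := by
    rw [Finset.sum_mul]
    exact Finset.sum_le_sum fun k _ => h3 k
  have h6 : nsq (fun x => s (u x)) ≤ ‖s‖ ^ 2 * nsq (LQ S m u) := by
    have h7 : nsq (fun x => s (u x)) ≤ ‖s‖ ^ 2 * nsq u :=
      nsq_le_of hu.memLp fun x => s.le_opNorm _
    refine h7.trans (mul_le_mul_of_nonneg_left ?_ (by positivity))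
    linarith
  have h8 : ((Finset.univ : Finset KK).card : ℝ) *
      ∑ k : KK, nsq (fun x => a k • cm k.1 (pd k.2.1 k.2.2 u) x) ≤
      ((Finset.univ : Finset KK).card : ℝ) * ((∑ k : KK, ‖a k‖ ^ 2 * K) * nsq (LQ S m u)) :=
    mul_le_mul_of_nonneg_left h5 (by positivity)
  calc _ ≤ 2 * (((Finset.univ : Finset KK).card : ℝ) *
          ((∑ k : KK, ‖a k‖ ^ 2 * K) * nsq (LQ S m u))) + 2 * (‖s‖ ^ 2 * nsq (LQ S m u)) := by
        linarith
    _ = _ := by ring

end XF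

/-! ### the two generators -/

lemma rinv_sumKK {M : Type*} [AddCommMonoid M] (f : KK → M) :
    ∑ k, f k = ∑ i, ∑ A, ∑ j, ∑ B, f ((i, A), (j, B)) := by
  rw [Fintype.sum_prod_type, Fintype.sum_prod_type]
  refine Finset.sum_congr rfl fun i _ => Finset.sum_congr rfl fun A _ => ?_
  rw [Fintype.sum_prod_type]

/-- coefficients of `G_C` -/
noncomputable def aG (C : Fin 3) (k : KK) : ℂ :=
  -Complex.I * (if k.1.1 = k.2.1 then (eps C k.1.2 k.2.2 : ℂ) else 0)

lemma rinv_XF_G (C : Fin 3) : XF (S.G C) (aG C) (S.cS C) where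
  form := by
    intro u x
    rw [Setup.G]
    congr 1
    rw [rinv_sumKK]
    simp only [Finset.smul_sum]
    refine Finset.sum_congr rfl fun i _ => Finset.sum_congr rfl fun A _ => ?_
    rw [Finset.sum_eq_single i]
    · refine Finset.sum_congr rfl fun B _ => ?_
      simp only [aG, if_true, cm, smul_smul]
      congr 1
      ring
    · intro j _ hj
      refine Finset.sum_eq_zero fun B _ => ?_
      simp [aG, Ne.symm hj]
    · intro h; exact absurd (Finset.mem_univ _) h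
  im := by
    intro k
    simp only [aG]
    split_ifs <;> simp
  diag := by
    intro p
    have h : ∀ A : Fin 3, eps C A A = 0 := by revert C; decide
    simp [aG, h]
  sa := S.cS_symm C

/-- coefficients of `J_kl` -/
noncomputable def aJ (k l : Fin 9) (κ : KK) : ℂ :=
  -Complex.I * ((if κ.1.1 = k ∧ κ.2.1 = l ∧ κ.1.2 = κ.2.2 then 1 else 0) -
    (if κ.1.1 = l ∧ κ.2.1 = k ∧ κ.1.2 = κ.2.2 then 1 else 0))

lemma rinv_sum_ind {M : Type*} [AddCommGroup M] [Module ℂ M] (k l : Fin 9) (f : KK → M) :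
    ∑ κ : KK, (if κ.1.1 = k ∧ κ.2.1 = l ∧ κ.1.2 = κ.2.2 then (1 : ℂ) else 0) • f κ =
      ∑ A, f ((k, A), (l, A)) := by
  rw [rinv_sumKK, Finset.sum_eq_single k]
  · refine Finset.sum_congr rfl fun A _ => ?_
    rw [Finset.sum_eq_single l, Finset.sum_eq_single A]
    · simp
    · intro B _ hB
      simp [Ne.symm hB]
    · intro h; exact absurd (Finset.mem_univ _) h
    · intro j _ hj
      refine Finset.sum_eq_zero fun B _ => ?_
      simp [hj]
    · intro h; exact absurd (Finset.mem_univ _) h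
  · intro i _ hi
    refine Finset.sum_eq_zero fun A _ => Finset.sum_eq_zero fun j _ =>
      Finset.sum_eq_zero fun B _ => ?_
    simp [hi]
  · intro h; exact absurd (Finset.mem_univ _) h

lemma rinv_XF_J {k l : Fin 9} (hkl : k ≠ l) : XF (S.J k l) (aJ k l) (S.Skl k l) where
  form := by
    intro u x
    rw [Setup.J]
    congr 1
    have h1 : ∑ κ : KK, aJ k l κ • cm κ.1 (pd κ.2.1 κ.2.2 u) x = (-Complex.I) •
        ((∑ κ : KK, (if κ.1.1 = k ∧ κ.2.1 = l ∧ κ.1.2 = κ.2.2 then (1 : ℂ) else 0) •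
            cm κ.1 (pd κ.2.1 κ.2.2 u) x) -
          ∑ κ : KK, (if κ.1.1 = l ∧ κ.2.1 = k ∧ κ.1.2 = κ.2.2 then (1 : ℂ) else 0) •
            cm κ.1 (pd κ.2.1 κ.2.2 u) x) := by
      rw [← Finset.sum_sub_distrib, Finset.smul_sum]
      refine Finset.sum_congr rfl fun κ _ => ?_
      rw [aJ, ← sub_smul, smul_smul]
    rw [h1, rinv_sum_ind k l (fun κ : KK => cm κ.1 (pd κ.2.1 κ.2.2 u) x),
      rinv_sum_ind l k (fun κ : KK => cm κ.1 (pd κ.2.1 κ.2.2 u) x), ← Finset.sum_sub_distrib]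
    rfl
  im := by
    intro κ
    simp only [aJ]
    split_ifs <;> simp
  diag := by
    intro p
    have h1 : ¬ (p.1 = k ∧ p.1 = l ∧ p.2 = p.2) := fun h => hkl (h.1.symm.trans h.2.1)
    have h2 : ¬ (p.1 = l ∧ p.1 = k ∧ p.2 = p.2) := fun h => hkl (h.2.1.symm.trans h.1)
    have h3 : aJ k l (p, p) = -Complex.I * ((if p.1 = k ∧ p.1 = l ∧ p.2 = p.2 then 1 else 0) -
        (if p.1 = l ∧ p.1 = k ∧ p.2 = p.2 then 1 else 0)) := rfl
    rw [h3, if_neg h1, if_neg h2, sub_zero, mul_zero]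
  sa := S.Skl_symm k l

section comm

variable (m : ℝ)

lemma rinv_Qm_sum (β : Fin 16) {ι : Type*} (t : Finset ι) {f : ι → X3 → F}
    (hf : ∀ i ∈ t, Tst (f i)) (x : X3) :
    S.Qm m β (fun y => ∑ i ∈ t, f i y) x = ∑ i ∈ t, S.Qm m β (f i) x := by
  classical
  induction t using Finset.induction_on with
  | empty =>
    simp only [Finset.sum_empty]
    have h0 : Tst (fun _ : X3 => (0 : F)) :=
      ⟨contDiff_const, (HasCompactSupport.zero : HasCompactSupport (0 : X3 → F))⟩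
    have := rinv_Qm_smul S m β 0 (h0.diff x)
    simpa using this
  | insert b t hb ih =>
    simp only [Finset.sum_insert hb]
    rw [rinv_Qm_add S m β ((hf b (Finset.mem_insert_self b t)).diff x)
      ((rinv_Tst_sum t fun i hi => hf i (Finset.mem_insert_of_mem hi)).diff x),
      ih fun i hi => hf i (Finset.mem_insert_of_mem hi)]

lemma rinv_comm_G (h3 : A3Stmt S) (C : Fin 3) {u : X3 → F} (hu : Tst u) :
    S.G C (LQ S m u) = LQ S m (S.G C u) := by
  have hX := rinv_XF_G S C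
  funext x
  have hQ := fun β => rinv_Tst_Qm S m β hu
  have hQQ := fun β => rinv_Tst_Qm S m β (hQ β)
  have h1 : S.G C (LQ S m u) x = S.G C u x + ∑ β, S.G C (S.Qm m β (S.Qm m β u)) x := by
    rw [← hX.sum Finset.univ (fun β _ => hQQ β) x,
      ← hX.add hu (rinv_Tst_sum Finset.univ fun β _ => hQQ β)]
    rfl
  rw [h1]
  simp only [LQ]
  congr 1
  refine Finset.sum_congr rfl fun β _ => ?_
  rw [h3 m C β _ (hQ β).1 x]
  congr 1
  funext y
  exact h3 m C β u hu.1 y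

lemma rinv_comm_J (h2 : A2Stmt S) {k l : Fin 9} (hkl : Same k l) {u : X3 → F} (hu : Tst u) :
    S.J k l (LQ S m u) = LQ S m (S.J k l u) := by
  have hX := rinv_XF_J S hkl.1
  funext x
  have hQ := fun β => rinv_Tst_Qm S m β hu
  have hQQ := fun α β => rinv_Tst_Qm S m α (hQ β)
  have hJu := hX.tst hu
  have h1 : S.J k l (LQ S m u) x = S.J k l u x +
      ∑ β, S.J k l (S.Qm m β (S.Qm m β u)) x := by
    rw [← hX.sum Finset.univ (fun β _ => hQQ β β) x,
      ← hX.add hu (rinv_Tst_sum Finset.univ fun β _ => hQQ β β)]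
    rfl
  have h3 : ∀ β, S.J k l (S.Qm m β u) = fun y => S.Qm m β (S.J k l u) y +
      (Complex.I / 2) • ∑ γ, S.g2 k l β γ • S.Qm m γ u y := by
    intro β
    funext y
    rw [← h2 m k l hkl β u hu.1 y]
    abel
  have h4 : ∀ β, S.J k l (S.Qm m β (S.Qm m β u)) x = S.Qm m β (S.Qm m β (S.J k l u)) x +
      (Complex.I / 2) • (∑ γ, S.g2 k l β γ • S.Qm m β (S.Qm m γ u) x +
        ∑ γ, S.g2 k l β γ • S.Qm m γ (S.Qm m β u) x) := by
    intro β
    have h5 := h2 m k l hkl β _ (hQ β).1 x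
    rw [sub_eq_iff_eq_add] at h5
    have hs : ∀ γ ∈ (Finset.univ : Finset (Fin 16)), Tst (fun y => S.g2 k l β γ • S.Qm m γ u y) :=
      fun γ _ => rinv_Tst_csmul _ (hQ γ)
    rw [h5, h3 β, rinv_Qm_add S m β ((rinv_Tst_Qm S m β hJu).diff x)
      ((rinv_Tst_csmul _ (rinv_Tst_sum _ hs)).diff x),
      rinv_Qm_smul S m β _ ((rinv_Tst_sum _ hs).diff x), rinv_Qm_sum S m β _ hs, smul_add]
    have h6 : ∀ γ, S.Qm m β (fun y => S.g2 k l β γ • S.Qm m γ u y) x =
        S.g2 k l β γ • S.Qm m β (S.Qm m γ u) x := fun γ =>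
      rinv_Qm_smul S m β _ ((hQ γ).diff x)
    simp only [h6]
    abel
  have h7 : ∑ β, ((Complex.I / 2) • (∑ γ, S.g2 k l β γ • S.Qm m β (S.Qm m γ u) x +
        ∑ γ, S.g2 k l β γ • S.Qm m γ (S.Qm m β u) x)) = 0 := by
    rw [← Finset.smul_sum, Finset.sum_add_distrib]
    have h8 : ∑ β, ∑ γ, S.g2 k l β γ • S.Qm m γ (S.Qm m β u) x =
        -∑ β, ∑ γ, S.g2 k l β γ • S.Qm m β (S.Qm m γ u) x := by
      rw [Finset.sum_comm, ← Finset.sum_neg_distrib]
      refine Finset.sum_congr rfl fun β _ => ?_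
      rw [← Finset.sum_neg_distrib]
      refine Finset.sum_congr rfl fun γ _ => ?_
      have h9 : S.g2 k l γ β = -S.g2 k l β γ := by
        have := congrFun (congrFun (S.g2_transpose k l) β) γ
        simpa [Matrix.transpose_apply] using this
      rw [h9, neg_smul]
    rw [h8, add_neg_cancel, smul_zero]
  rw [h1]
  simp only [h4, Finset.sum_add_distrib, h7, add_zero, LQ]

end comm

variable {S}

/-- the weak equation satisfied by the resolvent -/
lemma rinv_weak {m : ℝ} {R : Lp F 2 (volume : Measure X3) →L[ℂ] Lp F 2 (volume : Measure X3)}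
    (hR : S.IsRes m R) (f : Lp F 2 (volume : Measure X3)) (ζ : X3 → F) (hζ : Tst ζ) :
    ∫ x, inner ℂ (LQ S m ζ x) ((R f) x) = ∫ x, inner ℂ (ζ x) (f x) := by
  obtain ⟨Φ, ⟨u, hu, hL, hΦ⟩, h1, -⟩ := hR.2 f
  have hQ := fun β => rinv_Tst_Qm S m β hζ
  have hQQ := fun β => rinv_Tst_Qm S m β (hQ β)
  have h2 : ∀ β, ∫ x, inner ℂ (S.Qm m β ζ x) (Φ β x) =
      ∫ x, inner ℂ (S.Qm m β (S.Qm m β ζ) x) ((R f) x) := by
    intro β
    have a1 := (hQ β).L2t_const.lim_inner (hΦ β)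
    have a2 := (hQQ β).L2t_const.lim_inner hL
    exact tendsto_nhds_unique a1 (a2.congr fun n => rinv_Qm_symm S m β (hQ β) (hu n).1)
  rw [← h1 ζ hζ]
  simp only [h2, LQ, inner_add_left, sum_inner]
  have hi : ∀ {v : X3 → F}, Tst v → Integrable (fun x => inner ℂ (v x) ((R f) x)) :=
    fun hv => integrable_inner_memLp hv.memLp (Lp.memLp (R f))
  rw [integral_add (hi hζ) (integrable_finsetSum _ fun β _ => hi (hQQ β)),
    integral_finsetSum _ fun β _ => hi (hQQ β)]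

/-- **B4** the resolvent preserves weak invariance -/
theorem rInv [CompleteSpace F] (h0 : CoerStmt S) (h2 : ESAStmt S) (hA2 : A2Stmt S)
    (hA3 : A3Stmt S) : RInvStmt S := by
  intro m hm R hR f hG hJ
  refine ⟨fun C => ?_, fun k l hkl => ?_⟩
  · have hX := rinv_XF_G S C
    refine rinv_main h2 hm (X := S.G C) ⟨hX.tst, hX.symm, hX.sub, rinv_comm_G S m hA3 C,
      hX.bd h0 hm⟩ (rinv_weak hR f) (hG C)
  · have hX := rinv_XF_J S hkl.1
    refine rinv_main h2 hm (X := S.J k l) ⟨hX.tst, hX.symm, hX.sub, rinv_comm_J S m hA2 hkl,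
      hX.bd h0 hm⟩ (rinv_weak hR f) (hJ k l hkl)

end Vale.Agent.P353.U
end

section

set_option linter.all false

/-! # P353, D-2: derivatives of the outer vacuum along the cone -/

open MeasureTheory Filter Topology
open scoped ContDiff Matrix

namespace Vale.Agent.P353.OmTwo

variable {F : Type*} [NormedAddCommGroup F] [InnerProductSpace ℂ F]

variable (S : Setup F)

/-- Feynman slash -/
noncomputable def sl (y : Fin 9 → ℝ) : Matrix (Fin 16) (Fin 16) ℂ := ∑ i, ((y i : ℝ) : ℂ) • S.g i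

lemma sl_tr (y : Fin 9 → ℝ) : (sl S y)ᵀ = sl S y := by
  unfold sl
  rw [Matrix.transpose_sum]
  refine Finset.sum_congr rfl fun i _ => ?_
  rw [Matrix.transpose_smul, S.g_symm]

lemma sl_add (y w : Fin 9 → ℝ) : sl S (y + w) = sl S y + sl S w := by
  unfold sl
  rw [← Finset.sum_add_distrib]
  refine Finset.sum_congr rfl fun i _ => ?_
  rw [← add_smul]; push_cast [Pi.add_apply]; rfl

lemma sl_anti (y w : Fin 9 → ℝ) :
    sl S y * sl S w + sl S w * sl S y = ((2 * ∑ i, y i * w i : ℝ) : ℂ) • 1 := by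
  have h1 : sl S y * sl S w = ∑ i, ∑ j, ((y i * w j : ℝ) : ℂ) • (S.g i * S.g j) := by
    unfold sl
    rw [Finset.sum_mul_sum]
    refine Finset.sum_congr rfl fun i _ => Finset.sum_congr rfl fun j _ => ?_
    rw [smul_mul_smul_comm]; push_cast; rfl
  have h2 : sl S w * sl S y = ∑ i, ∑ j, ((y i * w j : ℝ) : ℂ) • (S.g j * S.g i) := by
    unfold sl
    rw [Finset.sum_mul_sum, Finset.sum_comm]
    refine Finset.sum_congr rfl fun i _ => Finset.sum_congr rfl fun j _ => ?_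
    rw [smul_mul_smul_comm, mul_comm ((w j : ℝ) : ℂ)]; push_cast; rfl
  rw [h1, h2, ← Finset.sum_add_distrib]
  simp only [← Finset.sum_add_distrib, ← smul_add, S.g_anti, smul_ite, smul_zero,
    Finset.sum_ite_eq, Finset.mem_univ, if_true]
  rw [← Finset.sum_smul]
  have h3 : (2 : Matrix (Fin 16) (Fin 16) ℂ) = (2 : ℂ) • 1 := by
    rw [← Nat.cast_ofNat (R := Matrix (Fin 16) (Fin 16) ℂ), ← Nat.cast_ofNat (R := ℂ),
      Nat.cast_smul_eq_nsmul]
    simp
  rw [h3, smul_smul]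
  congr 1
  push_cast
  ring

lemma sl_sq (y : Fin 9 → ℝ) : sl S y * sl S y = ((∑ i, y i ^ 2 : ℝ) : ℂ) • 1 := by
  have h := sl_anti S y y
  have h2 : (2 : ℂ) • (sl S y * sl S y) = (2 : ℂ) • (((∑ i, y i ^ 2 : ℝ) : ℂ) • 1) := by
    rw [two_smul, h, smul_smul]
    congr 1
    push_cast
    simp only [sq]
  have h3 := congrArg (fun M => (2 : ℂ)⁻¹ • M) h2
  simpa [smul_smul] using h3

lemma sl_swap {y w : Fin 9 → ℝ} (h : ∑ i, w i * y i = 0) : sl S y * sl S w = -(sl S w * sl S y) := by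
  have h1 := sl_anti S w y
  rw [h] at h1
  simp only [mul_zero, Complex.ofReal_zero, zero_smul] at h1
  rw [add_comm] at h1
  exact eq_neg_of_add_eq_zero_left h1

/-- part in `I3` -/
def y3 (y : Fin 9 → ℝ) (i : Fin 9) : ℝ := if i.val < 3 then y i else 0

/-- part in `I6` -/
def y6 (y : Fin 9 → ℝ) (i : Fin 9) : ℝ := if 3 ≤ i.val then y i else 0

lemma y36 (y : Fin 9 → ℝ) : y3 y + y6 y = y := by
  funext i
  simp only [Pi.add_apply, y3, y6]
  by_cases h : i.val < 3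
  · rw [if_pos h, if_neg (by omega), add_zero]
  · rw [if_neg h, if_pos (by omega), zero_add]

lemma sl36 (y : Fin 9 → ℝ) : sl S y = sl S (y3 y) + sl S (y6 y) := by
  rw [← sl_add, y36]

lemma sl3_comm (y : Fin 9 → ℝ) : sl S (y3 y) * S.Gam = S.Gam * sl S (y3 y) := by
  unfold sl
  rw [Finset.sum_mul, Finset.mul_sum]
  refine Finset.sum_congr rfl fun i _ => ?_
  rw [Matrix.smul_mul, Matrix.mul_smul]
  unfold y3
  by_cases h : i.val < 3
  · rw [if_pos h, S.g_Gam_comm h]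
  · rw [if_neg h]; simp

lemma sl6_anti (y : Fin 9 → ℝ) : sl S (y6 y) * S.Gam = -(S.Gam * sl S (y6 y)) := by
  unfold sl
  rw [Finset.sum_mul, Finset.mul_sum, ← Finset.sum_neg_distrib]
  refine Finset.sum_congr rfl fun i _ => ?_
  rw [Matrix.smul_mul, Matrix.mul_smul]
  unfold y6
  by_cases h : 3 ≤ i.val
  · rw [if_pos h, S.g_Gam_anti h, smul_neg]
  · rw [if_neg h]; simp

/-- contraction of the colour indices of a bilinear -/
noncomputable def BB (K : Matrix (Fin 3) (Fin 3) ℂ) (N : Matrix (Fin 16) (Fin 16) ℂ) : F →L[ℂ] F :=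
  ∑ A, ∑ B, K A B • S.bil N A B

lemma BB_add (K) (N M : Matrix (Fin 16) (Fin 16) ℂ) : BB S K (N + M) = BB S K N + BB S K M := by
  unfold BB
  simp only [S.bil_add, smul_add, Finset.sum_add_distrib]

lemma BB_smul (K) (c : ℂ) (N : Matrix (Fin 16) (Fin 16) ℂ) : BB S K (c • N) = c • BB S K N := by
  unfold BB
  simp only [S.bil_smul, Finset.smul_sum, smul_comm c]

lemma BB_neg (K) (N : Matrix (Fin 16) (Fin 16) ℂ) : BB S K (-N) = -BB S K N := by
  have h := BB_smul S K (-1) N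
  simpa using h

lemma BB_swap (K : Matrix (Fin 3) (Fin 3) ℂ) (N : Matrix (Fin 16) (Fin 16) ℂ) :
    BB S K N = (K.trace * N.trace) • (1 : F →L[ℂ] F) - BB S Kᵀ Nᵀ := by
  unfold BB
  have h1 : ∀ A B, K A B • S.bil N A B =
      (if A = B then (K A B * N.trace) • (1 : F →L[ℂ] F) else 0) - K A B • S.bil Nᵀ B A := by
    intro A B
    rw [S.bil_swap N A B, smul_sub]
    by_cases h : A = B
    · rw [if_pos h, if_pos h, smul_smul]
    · rw [if_neg h, if_neg h, smul_zero]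
  simp only [h1, Finset.sum_sub_distrib, Finset.sum_ite_eq, Finset.mem_univ, if_true]
  congr 1
  · rw [← Finset.sum_smul, ← Finset.sum_mul]; rfl
  · rw [Finset.sum_comm]; rfl

/-- commutator of a fermion with a contracted bilinear -/
lemma vec_comm_BB (N M : Matrix (Fin 16) (Fin 16) ℂ) (hM : Mᵀ = -M)
    (K : Matrix (Fin 3) (Fin 3) ℂ) (hK : Kᵀ = K) (C : Fin 3) (α : Fin 16) :
    S.vec N C α * BB S K M - BB S K M * S.vec N C α =
      (2 : ℂ) • ∑ B, K C B • S.vec (N * M) B α := by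
  have key : ∀ A B, S.vec N C α * S.bil M A B - S.bil M A B * S.vec N C α =
      (if C = A then S.vec (N * M) B α else 0) + (if C = B then S.vec (N * M) A α else 0) := by
    intro A B
    have hb : S.bil M A B = ∑ δ, S.vec 1 A δ * S.vec M B δ := by
      rw [S.sum_vec_mul_vec]; simp
    rw [hb, Finset.mul_sum, Finset.sum_mul, ← Finset.sum_sub_distrib]
    have h1 : ∀ δ, S.vec N C α * (S.vec 1 A δ * S.vec M B δ) -
        S.vec 1 A δ * S.vec M B δ * S.vec N C α =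
        (if C = A then (N α δ) • S.vec M B δ else 0) -
          (if C = B then ((N * Mᵀ) α δ) • S.vec 1 A δ else 0) := by
      intro δ
      have e1 := S.vec_anti N 1 C A α δ
      have e2 := S.vec_anti N M C B α δ
      have : S.vec N C α * (S.vec 1 A δ * S.vec M B δ) -
        S.vec 1 A δ * S.vec M B δ * S.vec N C α =
        (S.vec N C α * S.vec 1 A δ + S.vec 1 A δ * S.vec N C α) * S.vec M B δ -
        S.vec 1 A δ * (S.vec N C α * S.vec M B δ + S.vec M B δ * S.vec N C α) := by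
        noncomm_ring
      rw [this, e1, e2]
      congr 1
      · split_ifs
        · simp
        · simp
      · split_ifs
        · simp
        · simp
    rw [Finset.sum_congr rfl fun δ _ => h1 δ, Finset.sum_sub_distrib]
    have h2 : ∑ δ, (if C = A then (N α δ) • S.vec M B δ else 0) =
        if C = A then S.vec (N * M) B α else 0 := by
      split_ifs
      · rw [S.vec_mul]
      · simp
    have h3 : ∑ δ, (if C = B then ((N * Mᵀ) α δ) • S.vec 1 A δ else 0) =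
        if C = B then -S.vec (N * M) A α else 0 := by
      split_ifs
      · rw [← S.vec_mul, Matrix.mul_one, hM, mul_neg, S.vec_neg]
      · simp
    rw [h2, h3]
    split_ifs <;> simp
  unfold BB
  simp only [Finset.mul_sum, Finset.sum_mul, mul_smul_comm, smul_mul_assoc,
    ← Finset.sum_sub_distrib, ← smul_sub, key, smul_add, Finset.sum_add_distrib, smul_ite, smul_zero]
  rw [two_smul]
  congr 1
  · rw [Finset.sum_comm]
    simp only [Finset.sum_ite_eq, Finset.mem_univ, if_true]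
  · simp only [Finset.sum_ite_eq, Finset.mem_univ, if_true]
    refine Finset.sum_congr rfl fun A _ => ?_
    have : K A C = K C A := by
      conv_lhs => rw [← hK]
      rfl
    rw [this]

/-- projection on the complement of `n` -/
noncomputable def Pn (n : Fin 3 → ℝ) : Matrix (Fin 3) (Fin 3) ℂ :=
  Matrix.of fun A B => (((if A = B then 1 else 0) - n A * n B : ℝ) : ℂ)

/-- the matrix of `n ×` -/
noncomputable def Jn (n : Fin 3 → ℝ) : Matrix (Fin 3) (Fin 3) ℂ :=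
  Matrix.of fun A C => ∑ B, (eps A B C : ℂ) * ((n B : ℝ) : ℂ)

lemma Pn_tr (n : Fin 3 → ℝ) : (Pn n)ᵀ = Pn n := by
  ext A B
  simp only [Matrix.transpose_apply, Pn, Matrix.of_apply]
  congr 1
  rw [mul_comm (n B)]
  congr 1
  by_cases h : A = B
  · rw [if_pos h, if_pos h.symm]
  · rw [if_neg h, if_neg (fun h' => h h'.symm)]

lemma Jn_tr (n : Fin 3 → ℝ) : (Jn n)ᵀ = -Jn n := by
  ext A B
  simp only [Matrix.transpose_apply, Jn, Matrix.of_apply, Matrix.neg_apply]
  fin_cases A <;> fin_cases B <;> simp [Fin.sum_univ_three, eps] <;> norm_num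

lemma Pn_trace (n : Fin 3 → ℝ) (hn : ∑ A, n A ^ 2 = 1) : (Pn n).trace = 2 := by
  have h : ((∑ A, n A ^ 2 : ℝ) : ℂ) = 1 := by rw [hn]; norm_num
  simp only [Fin.sum_univ_three] at h
  simp only [Matrix.trace, Matrix.diag_apply, Pn, Matrix.of_apply, Fin.sum_univ_three]
  push_cast at h ⊢
  linear_combination -h

lemma Jn_trace (n : Fin 3 → ℝ) : (Jn n).trace = 0 := by
  simp [Matrix.trace, Jn, Fin.sum_univ_three, eps]

lemma Pn_sq (n : Fin 3 → ℝ) (hn : ∑ A, n A ^ 2 = 1) : Pn n * Pn n = Pn n := by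
  have h : ((∑ A, n A ^ 2 : ℝ) : ℂ) = 1 := by rw [hn]; norm_num
  simp only [Fin.sum_univ_three] at h
  push_cast at h
  have key : ∀ A B : Fin 3, (Pn n * Pn n) A B - Pn n A B =
      (n A : ℂ) * (n B : ℂ) * ((n 0 : ℂ) ^ 2 + (n 1 : ℂ) ^ 2 + (n 2 : ℂ) ^ 2 - 1) := by
    intro A B
    simp only [Matrix.mul_apply, Pn, Matrix.of_apply, Fin.sum_univ_three]
    push_cast
    fin_cases A <;> fin_cases B <;> simp <;> ring
  ext A B
  have := key A B
  rw [h, sub_self, mul_zero] at this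
  exact sub_eq_zero.1 this

lemma Jn_mul_Pn (n : Fin 3 → ℝ) : Jn n * Pn n = Jn n := by
  have key : ∀ A B : Fin 3, (Jn n * Pn n) A B = Jn n A B := by
    intro A B
    simp only [Matrix.mul_apply, Pn, Jn, Matrix.of_apply, Fin.sum_univ_three]
    push_cast
    fin_cases A <;> fin_cases B <;> simp [eps] <;> ring
  ext A B
  exact key A B

lemma n_Pn (n : Fin 3 → ℝ) (hn : ∑ A, n A ^ 2 = 1) (C : Fin 3) :
    ∑ B, ((n B : ℝ) : ℂ) * Pn n B C = 0 := by
  have h : ((∑ A, n A ^ 2 : ℝ) : ℂ) = 1 := by rw [hn]; norm_num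
  simp only [Fin.sum_univ_three] at h
  push_cast at h
  have key : ∀ C : Fin 3, ∑ B, ((n B : ℝ) : ℂ) * Pn n B C =
      (n C : ℂ) * (1 - ((n 0 : ℂ) ^ 2 + (n 1 : ℂ) ^ 2 + (n 2 : ℂ) ^ 2)) := by
    intro C
    simp only [Pn, Matrix.of_apply, Fin.sum_univ_three]
    push_cast
    fin_cases C <;> simp <;> ring
  rw [key, h, sub_self, mul_zero]

/-- `VT` in matrix form -/
lemma VT_iff (n : Fin 3 → ℝ) (y : Fin 9 → ℝ) (v : F) : S.VT n y v ↔ ∀ A α,
    ((ry y : ℝ) : ℂ) • (∑ C, Pn n A C • S.vec 1 C α v) =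
      Complex.I • ∑ C, Jn n A C • S.vec (sl S y) C α v := by
  have h1 : ∀ A α, S.th α A v - ((n A : ℝ) : ℂ) • S.thn n α v = ∑ C, Pn n A C • S.vec 1 C α v := by
    intro A α
    simp only [Pn, Matrix.of_apply, S.vec_one, Setup.thn, ContinuousLinearMap.sum_apply,
      ContinuousLinearMap.smul_apply, Finset.smul_sum, smul_smul]
    push_cast
    simp only [sub_smul, Finset.sum_sub_distrib]
    congr 1
    simp
  have h2 : ∀ A α, (∑ B, ∑ C, ∑ i, ((eps A B C : ℂ) * (n B : ℂ) * (y i : ℂ)) •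
      S.vec (S.g i) C α v) = ∑ C, Jn n A C • S.vec (sl S y) C α v := by
    intro A α
    rw [Finset.sum_comm]
    refine Finset.sum_congr rfl fun C _ => ?_
    unfold sl
    rw [S.vec_sum, ContinuousLinearMap.sum_apply]
    simp only [Jn, Matrix.of_apply, S.vec_smul, ContinuousLinearMap.smul_apply, Finset.smul_sum,
      smul_smul, Finset.sum_mul, Finset.sum_smul]
    rw [Finset.sum_comm]
  unfold Setup.VT
  simp only [h1, h2]

lemma BB_apply (K : Matrix (Fin 3) (Fin 3) ℂ) (N : Matrix (Fin 16) (Fin 16) ℂ) (v : F) :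
    BB S K N v = ∑ A, ∑ α, S.th α A (∑ B, K A B • S.vec N B α v) := by
  unfold BB CS.bil
  simp only [ContinuousLinearMap.sum_apply, ContinuousLinearMap.smul_apply,
    ContinuousLinearMap.mul_apply', map_sum, map_smul, Finset.smul_sum]
  refine Finset.sum_congr rfl fun A _ => ?_
  rw [Finset.sum_comm]
  rfl

lemma W_mul (K : Matrix (Fin 3) (Fin 3) ℂ) (N M : Matrix (Fin 16) (Fin 16) ℂ) (A : Fin 3)
    (α : Fin 16) (v : F) : ∑ B, K A B • S.vec (N * M) B α v =
      ∑ γ, N α γ • ∑ B, K A B • S.vec M B γ v := by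
  simp only [S.vec_mul, ContinuousLinearMap.sum_apply, ContinuousLinearMap.smul_apply,
    Finset.smul_sum]
  rw [Finset.sum_comm]
  refine Finset.sum_congr rfl fun γ _ => Finset.sum_congr rfl fun B _ => ?_
  rw [smul_comm]

lemma VT_BB {n : Fin 3 → ℝ} {y : Fin 9 → ℝ} {v : F} (h : S.VT n y v)
    (N : Matrix (Fin 16) (Fin 16) ℂ) :
    ((ry y : ℝ) : ℂ) • BB S (Pn n) N v = Complex.I • BB S (Jn n) (N * sl S y) v := by
  have h' := (VT_iff S n y v).1 h
  rw [BB_apply, BB_apply, Finset.smul_sum, Finset.smul_sum]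
  refine Finset.sum_congr rfl fun A _ => ?_
  rw [Finset.smul_sum, Finset.smul_sum]
  refine Finset.sum_congr rfl fun α _ => ?_
  rw [← map_smul, ← map_smul]
  congr 1
  rw [W_mul]
  have e : ∑ B, Pn n A B • S.vec N B α v = ∑ γ, N α γ • ∑ B, Pn n A B • S.vec 1 B γ v := by
    rw [← W_mul, Matrix.mul_one]
  rw [e, Finset.smul_sum, Finset.smul_sum]
  refine Finset.sum_congr rfl fun γ _ => ?_
  rw [smul_comm, h', smul_comm]

/-- a state annihilated by all `a` -/
lemma am_th {Ω : F} (hΩ : ∀ A α, S.am A α Ω = 0) (A : Fin 3) (α : Fin 16) :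
    S.th α A Ω = Complex.I • ∑ γ, S.Gam α γ • S.th γ A Ω := by
  have h := hΩ A α
  unfold Setup.am CS.vec at h
  rw [ContinuousLinearMap.smul_apply, smul_eq_zero] at h
  rcases h with h | h
  · norm_num at h
  · rw [ContinuousLinearMap.sub_apply, ContinuousLinearMap.smul_apply,
      ContinuousLinearMap.sum_apply] at h
    simpa [ContinuousLinearMap.smul_apply] using sub_eq_zero.1 h

lemma inner_BB {Ω : F} (hΩ : ∀ A α, S.am A α Ω = 0) (K : Matrix (Fin 3) (Fin 3) ℂ)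
    (N : Matrix (Fin 16) (Fin 16) ℂ) (v : F) :
    inner ℂ Ω (BB S K N v) = Complex.I * inner ℂ Ω (BB S K (S.Gam * N) v) := by
  have hre : ∀ α γ, (starRingEnd ℂ) (S.Gam α γ) = S.Gam α γ := fun α γ =>
    Complex.conj_eq_iff_im.2 (S.Gam_real α γ)
  have hl : ∀ A α (w : F), inner ℂ Ω (S.th α A w) =
      -Complex.I * ∑ γ, S.Gam α γ * inner ℂ Ω (S.th γ A w) := by
    intro A α w
    rw [← S.th_sa, am_th S hΩ A α, inner_smul_left, sum_inner, Complex.conj_I]
    congr 1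
    refine Finset.sum_congr rfl fun γ _ => ?_
    rw [inner_smul_left, hre, S.th_sa]
  rw [BB_apply, BB_apply, inner_sum, inner_sum, Finset.mul_sum]
  refine Finset.sum_congr rfl fun A _ => ?_
  rw [inner_sum, inner_sum]
  have h1 : ∀ γ, (∑ B, K A B • S.vec (S.Gam * N) B γ v) =
      ∑ α, S.Gam γ α • ∑ B, K A B • S.vec N B α v := fun γ => W_mul S K S.Gam N A γ v
  simp only [h1]
  have gen : ∀ W : Fin 16 → F, ∑ α, inner ℂ Ω (S.th α A (W α)) =
      Complex.I * ∑ γ, inner ℂ Ω (S.th γ A (∑ α, S.Gam γ α • W α)) := by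
    intro W
    have h2 : ∀ γ, inner ℂ Ω (S.th γ A (∑ α, S.Gam γ α • W α)) =
        ∑ α, S.Gam γ α * inner ℂ Ω (S.th γ A (W α)) := by
      intro γ
      rw [map_sum, inner_sum]
      refine Finset.sum_congr rfl fun α _ => ?_
      rw [map_smul, inner_smul_right]
    simp only [h2]
    rw [Finset.sum_comm, Finset.mul_sum]
    refine Finset.sum_congr rfl fun α _ => ?_
    rw [hl A α (W α), Finset.mul_sum, Finset.mul_sum]
    refine Finset.sum_congr rfl fun γ _ => ?_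
    have ht : S.Gam γ α = - S.Gam α γ := by
      have := congrFun (congrFun S.Gam_transpose α) γ
      simpa using this
    rw [ht]
    ring
  exact gen _

/-! the functional `p` -/

lemma q_comm {Ω : F} (hΩ : ∀ A α, S.am A α Ω = 0) {n : Fin 3 → ℝ} (v : F)
    {N : Matrix (Fin 16) (Fin 16) ℂ} (hN : N * S.Gam = S.Gam * N) :
    inner ℂ Ω (BB S (Jn n) N v) = 0 := by
  have hsw : ∀ M : Matrix (Fin 16) (Fin 16) ℂ, BB S (Jn n) M = BB S (Jn n) Mᵀ := by
    intro M
    rw [BB_swap, Jn_trace, zero_mul, zero_smul, zero_sub, Jn_tr]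
    unfold BB
    simp only [Matrix.neg_apply, neg_smul, Finset.sum_neg_distrib, neg_neg]
  have h1 := inner_BB S hΩ (Jn n) N v
  have h2 : inner ℂ Ω (BB S (Jn n) (S.Gam * N) v) = - inner ℂ Ω (BB S (Jn n) (S.Gam * Nᵀ) v) := by
    rw [← hN, hsw (N * S.Gam), Matrix.transpose_mul, S.Gam_transpose, neg_mul, BB_neg,
      ContinuousLinearMap.neg_apply, inner_neg_right]
  have h3 := inner_BB S hΩ (Jn n) Nᵀ v
  rw [← hsw] at h3
  rw [h2] at h1
  have : (2 : ℂ) * inner ℂ Ω (BB S (Jn n) N v) = 0 := by linear_combination h1 + h3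
  simpa using this

lemma p_comm {Ω : F} (hΩ : ∀ A α, S.am A α Ω = 0) {n : Fin 3 → ℝ} (hn : ∑ A, n A ^ 2 = 1) (v : F)
    {N : Matrix (Fin 16) (Fin 16) ℂ} (hN : N * S.Gam = S.Gam * N) :
    inner ℂ Ω (BB S (Pn n) N v) = (N.trace + Complex.I * (N * S.Gam).trace) * inner ℂ Ω v := by
  have hsw : ∀ M : Matrix (Fin 16) (Fin 16) ℂ, inner ℂ Ω (BB S (Pn n) M v) =
      2 * M.trace * inner ℂ Ω v - inner ℂ Ω (BB S (Pn n) Mᵀ v) := by
    intro M
    conv_lhs => rw [BB_swap, Pn_trace n hn, Pn_tr]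
    rw [ContinuousLinearMap.sub_apply, inner_sub_right, ContinuousLinearMap.smul_apply,
      inner_smul_right]
    simp
  have h1 := inner_BB S hΩ (Pn n) N v
  have h3 := inner_BB S hΩ (Pn n) Nᵀ v
  have h4 := hsw N
  have h5 : inner ℂ Ω (BB S (Pn n) (N * S.Gam) v) = 2 * (N * S.Gam).trace * inner ℂ Ω v +
      inner ℂ Ω (BB S (Pn n) (S.Gam * Nᵀ) v) := by
    have h6 : BB S (Pn n) (N * S.Gam)ᵀ v = -(BB S (Pn n) (S.Gam * Nᵀ) v) := by
      rw [Matrix.transpose_mul, S.Gam_transpose, neg_mul, BB_neg, ContinuousLinearMap.neg_apply]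
    rw [hsw (N * S.Gam), h6, inner_neg_right Ω (BB S (Pn n) (S.Gam * Nᵀ) v), sub_neg_eq_add]
  rw [← hN] at h1
  have : (2 : ℂ) * inner ℂ Ω (BB S (Pn n) N v) =
      2 * ((N.trace + Complex.I * (N * S.Gam).trace) * inner ℂ Ω v) := by
    linear_combination h1 - h3 + h4 + Complex.I * h5
  exact mul_left_cancel₀ (two_ne_zero' ℂ) this

lemma sl_trace (y w : Fin 9 → ℝ) : (sl S y * sl S w).trace = 16 * ((∑ i, y i * w i : ℝ) : ℂ) := by
  have h := congrArg Matrix.trace (sl_anti S y w)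
  rw [Matrix.trace_add, Matrix.trace_mul_comm (sl S w), Matrix.trace_smul, Matrix.trace_one] at h
  have : (2 : ℂ) * (sl S y * sl S w).trace = 2 * (16 * ((∑ i, y i * w i : ℝ) : ℂ)) := by
    rw [two_mul, h]
    simp only [Fintype.card_fin]
    push_cast
    rw [smul_eq_mul]
    ring
  exact mul_left_cancel₀ two_ne_zero this

lemma sl_trace_Gam (y w : Fin 9 → ℝ) : (sl S y * sl S w * S.Gam).trace = 0 := by
  have h1 : sl S y * sl S w * S.Gam = ∑ i, ∑ j, (((y i : ℝ) : ℂ) * ((w j : ℝ) : ℂ)) •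
      (S.g i * S.g j * S.g 0 * S.g 1 * S.g 2) := by
    unfold sl
    rw [Finset.sum_mul_sum, Finset.sum_mul]
    refine Finset.sum_congr rfl fun i _ => ?_
    rw [Finset.sum_mul]
    refine Finset.sum_congr rfl fun j _ => ?_
    rw [smul_mul_smul_comm, Matrix.smul_mul]
    congr 1
    unfold Setup.Gam
    simp only [mul_assoc]
  rw [h1, Matrix.trace_sum]
  refine Finset.sum_eq_zero fun i _ => ?_
  rw [Matrix.trace_sum]
  refine Finset.sum_eq_zero fun j _ => ?_
  rw [Matrix.trace_smul, S.toCS.trace_ggggg, smul_zero]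

lemma sq36 (y : Fin 9 → ℝ) : ∑ i, y i ^ 2 = ∑ i, y3 y i ^ 2 + ∑ i, y6 y i ^ 2 := by
  rw [← Finset.sum_add_distrib]
  refine Finset.sum_congr rfl fun i _ => ?_
  unfold y3 y6
  by_cases h : i.val < 3
  · rw [if_pos h, if_neg (by omega : ¬ 3 ≤ i.val)]; ring
  · rw [if_neg h, if_pos (by omega : 3 ≤ i.val)]; ring

lemma ry_sq (y : Fin 9 → ℝ) : ry y ^ 2 = ∑ i, y i ^ 2 :=
  Real.sq_sqrt (Finset.sum_nonneg fun i _ => sq_nonneg _)

/-- the pairing of `Ω` with the rotation term -/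
lemma pair {Ω : F} (hΩ : ∀ A α, S.am A α Ω = 0) {n : Fin 3 → ℝ} (hn : ∑ A, n A ^ 2 = 1)
    {y : Fin 9 → ℝ} {v : F} (hv : S.VT n y v) (hy : 0 < ry y) (w : Fin 9 → ℝ) :
    ((∑ i, y6 y i ^ 2 : ℝ) : ℂ) * inner ℂ Ω (BB S (Pn n) (sl S w * sl S y) v) =
      16 * ((ry y ^ 2 : ℝ) : ℂ) * ((∑ i, y6 w i * y6 y i : ℝ) : ℂ) * inner ℂ Ω v := by
  have hr0 : ((ry y : ℝ) : ℂ) ≠ 0 := by
    rw [Ne, Complex.ofReal_eq_zero]; exact hy.ne'
  have hr2 : ((∑ i, y i ^ 2 : ℝ) : ℂ) = ((ry y : ℝ) : ℂ) ^ 2 := by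
    rw [← ry_sq]; push_cast; ring
  have hC : ∀ N : Matrix (Fin 16) (Fin 16) ℂ, ((ry y : ℝ) : ℂ) * inner ℂ Ω (BB S (Pn n) N v) =
      Complex.I * inner ℂ Ω (BB S (Jn n) (N * sl S y) v) := by
    intro N
    rw [← inner_smul_right, VT_BB S hv, inner_smul_right]
  have hadd : ∀ (K : Matrix (Fin 3) (Fin 3) ℂ) (N M : Matrix (Fin 16) (Fin 16) ℂ),
      inner ℂ Ω (BB S K (N + M) v) = inner ℂ Ω (BB S K N v) + inner ℂ Ω (BB S K M v) := by
    intro K N M
    rw [BB_add, ContinuousLinearMap.add_apply, inner_add_right]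
  have hsm : ∀ (K : Matrix (Fin 3) (Fin 3) ℂ) (c : ℂ) (N : Matrix (Fin 16) (Fin 16) ℂ),
      inner ℂ Ω (BB S K (c • N) v) = c * inner ℂ Ω (BB S K N v) := by
    intro K c N
    rw [BB_smul, ContinuousLinearMap.smul_apply, inner_smul_right]
  -- (0) the total
  have m0 : ∀ w : Fin 9 → ℝ, sl S w * sl S y * sl S y = (((ry y : ℝ) : ℂ) ^ 2) • sl S w := by
    intro w
    rw [mul_assoc (sl S w), sl_sq, Matrix.mul_smul, Matrix.mul_one, hr2]
  have e0 : ((ry y : ℝ) : ℂ) * inner ℂ Ω (BB S (Pn n) (sl S w * sl S y) v) =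
      Complex.I * (((ry y : ℝ) : ℂ) ^ 2 * inner ℂ Ω (BB S (Jn n) (sl S (y6 w)) v)) := by
    rw [hC, m0, hsm]
    congr 2
    conv_lhs => rw [sl36 S w]
    rw [hadd, q_comm S hΩ v (sl3_comm S w), zero_add]
  -- (1)
  have e1 : ((ry y : ℝ) : ℂ) * inner ℂ Ω (BB S (Pn n) (sl S (y6 w) * sl S y) v) =
      Complex.I * (((ry y : ℝ) : ℂ) ^ 2 * inner ℂ Ω (BB S (Jn n) (sl S (y6 w)) v)) := by
    rw [hC, m0, hsm]
  -- (2)
  have e2 : inner ℂ Ω (BB S (Pn n) (sl S (y6 w) * sl S y) v) =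
      inner ℂ Ω (BB S (Pn n) (sl S (y6 w) * sl S (y3 y)) v) +
        16 * ((∑ i, y6 w i * y6 y i : ℝ) : ℂ) * inner ℂ Ω v := by
    have m1 : sl S (y6 w) * sl S y = sl S (y6 w) * sl S (y3 y) + sl S (y6 w) * sl S (y6 y) := by
      conv_lhs => rw [sl36 S y]
      rw [Matrix.mul_add]
    rw [m1, hadd]
    congr 1
    rw [p_comm S hΩ hn, sl_trace, sl_trace_Gam]
    · ring
    · rw [mul_assoc, sl6_anti, mul_neg, ← mul_assoc, sl6_anti, neg_mul, neg_neg, mul_assoc]
  -- (3)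
  have e4 : sl S (y6 w) * sl S (y3 y) * sl S y =
      ((∑ i, y3 y i ^ 2 : ℝ) : ℂ) • sl S (y6 w) + sl S (y6 w) * sl S (y3 y) * sl S (y6 y) := by
    conv_lhs => rw [sl36 S y]
    rw [mul_add, mul_assoc (sl S (y6 w)) (sl S (y3 y)) (sl S (y3 y)), sl_sq, Matrix.mul_smul,
      Matrix.mul_one]
  have e5 : inner ℂ Ω (BB S (Jn n) (sl S (y6 w) * sl S (y3 y) * sl S (y6 y)) v) = 0 := by
    refine q_comm S hΩ v ?_
    rw [mul_assoc, sl6_anti, mul_neg, ← mul_assoc, mul_assoc (sl S (y6 w)), sl3_comm, ← mul_assoc,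
      sl6_anti, neg_mul, neg_mul, neg_neg]
    simp only [mul_assoc]
  have e3 : ((ry y : ℝ) : ℂ) * inner ℂ Ω (BB S (Pn n) (sl S (y6 w) * sl S (y3 y)) v) =
      Complex.I * (((∑ i, y3 y i ^ 2 : ℝ) : ℂ) * inner ℂ Ω (BB S (Jn n) (sl S (y6 w)) v)) := by
    rw [hC, e4, hadd, hsm, e5, add_zero]
  have hs : ((ry y : ℝ) : ℂ) ^ 2 = ((∑ i, y3 y i ^ 2 : ℝ) : ℂ) + ((∑ i, y6 y i ^ 2 : ℝ) : ℂ) := by
    rw [← hr2, sq36]; push_cast; ring
  generalize inner ℂ Ω (BB S (Jn n) (sl S (y6 w)) v) = q at *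
  generalize inner ℂ Ω (BB S (Pn n) (sl S w * sl S y) v) = p at *
  generalize inner ℂ Ω (BB S (Pn n) (sl S (y6 w) * sl S (y3 y)) v) = p2 at *
  generalize ((∑ i, y3 y i ^ 2 : ℝ) : ℂ) = s3 at *
  generalize ((∑ i, y6 y i ^ 2 : ℝ) : ℂ) = s6 at *
  generalize ((∑ i, y6 w i * y6 y i : ℝ) : ℂ) = t at *
  rw [e2] at e1
  have hcast : ((ry y ^ 2 : ℝ) : ℂ) = ((ry y : ℝ) : ℂ) ^ 2 := by push_cast; ring
  rw [hcast]
  generalize ((ry y : ℝ) : ℂ) = r at *
  refine mul_left_cancel₀ hr0 ?_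
  linear_combination s6 * e0 - r ^ 2 * e1 + r ^ 2 * e3 - Complex.I * r ^ 2 * q * hs

/-! analysis along the line `y + t w` -/

lemma cone_line (n : Fin 3 → ℝ) (y w : Fin 9 → ℝ) (t : ℝ) :
    cone n (y + t • w) = cone n y + t • cone n w := by
  ext p
  simp [cone]
  ring

lemma rho6sq_cont : Continuous (rho6sq) := by
  unfold rho6sq
  refine continuous_finset_sum _ fun i _ => continuous_finset_sum _ fun A _ => ?_
  split_ifs
  · fun_prop
  · fun_prop

lemma rho6sq_cone {n : Fin 3 → ℝ} (hn : ∑ A, n A ^ 2 = 1) (y : Fin 9 → ℝ) :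
    rho6sq (cone n y) = ∑ i, y6 y i ^ 2 := by
  unfold rho6sq
  refine Finset.sum_congr rfl fun i _ => ?_
  have : ∀ A, (cone n y) (i, A) = y i * n A := fun A => rfl
  simp only [this]
  unfold y6
  by_cases h : 3 ≤ i.val
  · simp only [if_pos h, mul_pow]
    rw [← Finset.mul_sum, hn, mul_one]
  · simp only [if_neg h]; simp

lemma ry_pos {n : Fin 3 → ℝ} (hn : ∑ A, n A ^ 2 = 1) {y : Fin 9 → ℝ} (h : 0 < rho6sq (cone n y)) :
    0 < ry y := by
  unfold ry
  rw [Real.sqrt_pos, sq36]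
  rw [rho6sq_cone hn] at h
  have : 0 ≤ ∑ i, y3 y i ^ 2 := Finset.sum_nonneg fun i _ => sq_nonneg _
  linarith

lemma om_diff {Ω : F} (hs : U.SmStmt S) (hΩ : ∀ A α, S.am A α Ω = 0) {x : X3}
    (hx : 0 < rho6sq x) : DifferentiableAt ℝ (S.om Ω) x := by
  have h1 := (hs Ω hΩ).1
  have ho : IsOpen {x : X3 | 0 < rho6sq x} := isOpen_lt continuous_const rho6sq_cont
  exact ((h1.contDiffAt (ho.mem_nhds hx)).differentiableAt (by simp))

lemma om_line {Ω : F} (hs : U.SmStmt S) (hΩ : ∀ A α, S.am A α Ω = 0) {n : Fin 3 → ℝ}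
    {y : Fin 9 → ℝ} (hx : 0 < rho6sq (cone n y)) (w : Fin 9 → ℝ) :
    HasDerivAt (fun t : ℝ => S.om Ω (cone n (y + t • w)))
      (fderiv ℝ (S.om Ω) (cone n y) (cone n w)) 0 := by
  have h1 : HasDerivAt (fun t : ℝ => cone n y + t • cone n w) (cone n w) 0 := by
    simpa using ((hasDerivAt_id (0 : ℝ)).smul_const (cone n w)).const_add (cone n y)
  have h2 := (om_diff S hs hΩ hx).hasFDerivAt
  have h3 : HasFDerivAt (S.om Ω) (fderiv ℝ (S.om Ω) (cone n y))
      ((fun t : ℝ => cone n y + t • cone n w) 0) := by simpa using h2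
  have h4 := h3.comp_hasDerivAt (0 : ℝ) h1
  refine h4.congr_of_eventuallyEq (Filter.Eventually.of_forall fun t => ?_)
  simp only [Function.comp, cone_line]

lemma ev_pos {n : Fin 3 → ℝ} {y : Fin 9 → ℝ} (hx : 0 < rho6sq (cone n y)) (w : Fin 9 → ℝ) :
    ∀ᶠ t : ℝ in 𝓝 0, 0 < rho6sq (cone n (y + t • w)) := by
  have hc : Continuous fun t : ℝ => rho6sq (cone n (y + t • w)) := by
    simp only [cone_line]
    exact rho6sq_cont.comp (by fun_prop)
  have h0 : 0 < rho6sq (cone n (y + (0 : ℝ) • w)) := by simpa using hx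
  exact hc.continuousAt.eventually (isOpen_Ioi.mem_nhds h0)

/-- an identically vanishing curve has derivative `0` -/
lemma deriv_zero {E : Type*} [NormedAddCommGroup E] [NormedSpace ℝ E] {f : ℝ → E} {f' : E}
    (h : HasDerivAt f f' 0) (h0 : ∀ᶠ t in 𝓝 (0 : ℝ), f t = 0) : f' = 0 := by
  have h1 : HasDerivAt f 0 0 := (hasDerivAt_const (0 : ℝ) (0 : E)).congr_of_eventuallyEq h0
  exact h.unique h1

lemma clm_deriv (T : F →L[ℂ] F) {f : ℝ → F} {f' : F} {t : ℝ} (h : HasDerivAt f f' t) :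
    HasDerivAt (fun s => T (f s)) (T f') t :=
  (T.restrictScalars ℝ).hasFDerivAt.comp_hasDerivAt t h

/-! the operators of `VT` and `VN` -/

/-- `∑_B K_{AB} (N θ^B)_α` -/
noncomputable def KV (K : Matrix (Fin 3) (Fin 3) ℂ) (N : Matrix (Fin 16) (Fin 16) ℂ) (A : Fin 3)
    (α : Fin 16) : F →L[ℂ] F := ∑ B, K A B • S.vec N B α

lemma KV_apply (K : Matrix (Fin 3) (Fin 3) ℂ) (N : Matrix (Fin 16) (Fin 16) ℂ) (A : Fin 3)
    (α : Fin 16) (v : F) : KV S K N A α v = ∑ B, K A B • S.vec N B α v := by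
  simp [KV]

lemma KV_smul (K : Matrix (Fin 3) (Fin 3) ℂ) (c : ℂ) (N : Matrix (Fin 16) (Fin 16) ℂ) (A : Fin 3)
    (α : Fin 16) : KV S K (c • N) A α = c • KV S K N A α := by
  simp only [KV, S.vec_smul, Finset.smul_sum, smul_comm c]

lemma KV_neg (K : Matrix (Fin 3) (Fin 3) ℂ) (N : Matrix (Fin 16) (Fin 16) ℂ) (A : Fin 3)
    (α : Fin 16) : KV S K (-N) A α = -KV S K N A α := by
  have h := KV_smul S K (-1) N A α
  simpa using h

lemma KV_add (K : Matrix (Fin 3) (Fin 3) ℂ) (N M : Matrix (Fin 16) (Fin 16) ℂ) (A : Fin 3)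
    (α : Fin 16) : KV S K (N + M) A α = KV S K N A α + KV S K M A α := by
  simp only [KV, S.vec_add, smul_add, Finset.sum_add_distrib]

lemma KV_mul (K : Matrix (Fin 3) (Fin 3) ℂ) (N M : Matrix (Fin 16) (Fin 16) ℂ) (A : Fin 3)
    (α : Fin 16) (v : F) : KV S K (N * M) A α v = ∑ γ, N α γ • KV S K M A γ v := by
  rw [KV_apply, W_mul]
  simp only [KV_apply]

lemma KV_comm (L : Matrix (Fin 3) (Fin 3) ℂ) (N M : Matrix (Fin 16) (Fin 16) ℂ) (hM : Mᵀ = -M)
    (K : Matrix (Fin 3) (Fin 3) ℂ) (hK : Kᵀ = K) (A : Fin 3) (α : Fin 16) (v : F) :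
    KV S L N A α (BB S K M v) =
      BB S K M (KV S L N A α v) + (2 : ℂ) • KV S (L * K) (N * M) A α v := by
  have h : KV S L N A α * BB S K M - BB S K M * KV S L N A α =
      (2 : ℂ) • KV S (L * K) (N * M) A α := by
    unfold KV
    rw [Finset.sum_mul, Finset.mul_sum, ← Finset.sum_sub_distrib]
    have h1 : ∀ B, L A B • S.vec N B α * BB S K M - BB S K M * L A B • S.vec N B α =
        L A B • ((2 : ℂ) • ∑ C, K B C • S.vec (N * M) C α) := by
      intro B
      rw [smul_mul_assoc, mul_smul_comm, ← smul_sub, vec_comm_BB S N M hM K hK]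
    simp only [h1]
    simp only [Finset.smul_sum, Matrix.mul_apply, Finset.sum_smul, smul_smul]
    rw [Finset.sum_comm]
    refine Finset.sum_congr rfl fun C _ => Finset.sum_congr rfl fun B _ => ?_
    congr 1
    ring
  have h3 : ∀ T U W : F →L[ℂ] F, T * U - U * T = W → T (U v) = U (T v) + W v := by
    intro T U W h
    rw [← h]
    have : (T * U - U * T) v = T (U v) - U (T v) := rfl
    rw [this, add_sub_cancel]
  exact h3 _ _ _ h

lemma VT_iff' (n : Fin 3 → ℝ) (y : Fin 9 → ℝ) (v : F) : S.VT n y v ↔ ∀ A α,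
    ((ry y : ℝ) : ℂ) • KV S (Pn n) 1 A α v = Complex.I • KV S (Jn n) (sl S y) A α v := by
  rw [VT_iff]
  simp only [KV_apply]

/-- row matrix with all rows equal to `n` -/
noncomputable def Rn (n : Fin 3 → ℝ) : Matrix (Fin 3) (Fin 3) ℂ :=
  Matrix.of fun _ B => ((n B : ℝ) : ℂ)

lemma Rn_mul_Pn (n : Fin 3 → ℝ) (hn : ∑ A, n A ^ 2 = 1) : Rn n * Pn n = 0 := by
  ext A C
  rw [Matrix.mul_apply]
  simp only [Rn, Matrix.of_apply, Matrix.zero_apply]
  exact n_Pn n hn C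

lemma VN_iff' (n : Fin 3 → ℝ) (v : F) : S.VN n v ↔ ∀ α,
    KV S (Rn n) 1 0 α v = Complex.I • KV S (Rn n) S.Gam 0 α v := by
  unfold Setup.VN Setup.thn
  simp only [KV_apply, Rn, Matrix.of_apply, S.vec_one, ContinuousLinearMap.sum_apply,
    ContinuousLinearMap.smul_apply]

lemma sl_line (y w : Fin 9 → ℝ) (t : ℝ) : sl S (y + t • w) = sl S y + (t : ℂ) • sl S w := by
  rw [sl_add]
  congr 1
  unfold sl
  rw [Finset.smul_sum]
  refine Finset.sum_congr rfl fun i _ => ?_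
  rw [smul_smul]
  push_cast [Pi.smul_apply, smul_eq_mul]
  rfl

lemma ry_deriv {y w : Fin 9 → ℝ} (hy : 0 < ry y) (hw : ∑ i, w i * y i = 0) :
    HasDerivAt (fun t : ℝ => ry (y + t • w)) 0 0 := by
  have h1 : HasDerivAt (fun t : ℝ => ∑ i, (y + t • w) i ^ 2) 0 0 := by
    have h2 : HasDerivAt (fun t : ℝ => ∑ i, (y + t • w) i ^ 2)
        (∑ i, 2 * (w i * y i)) 0 := by
      refine HasDerivAt.fun_sum fun i _ => ?_
      have h3 : HasDerivAt (fun t : ℝ => y i + t * w i) (w i) 0 := by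
        simpa using ((hasDerivAt_id (0 : ℝ)).mul_const (w i)).const_add (y i)
      have h4 := h3.pow 2
      simp only [Pi.add_apply, Pi.smul_apply, smul_eq_mul]
      refine h4.congr_deriv ?_
      simp
      ring
    rw [← Finset.mul_sum, hw, mul_zero] at h2
    exact h2
  have h5 : (∑ i, (y + (0 : ℝ) • w) i ^ 2) ≠ 0 := by
    have : 0 < ∑ i, y i ^ 2 := by rw [← ry_sq]; positivity
    simpa using this.ne'
  have h6 := h1.sqrt h5
  simpa [ry] using h6

/-- differentiated `VT` -/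
lemma dVT {Ω : F} (hs : U.SmStmt S) (h1 : U.Om1Stmt S) (hΩ : ∀ A α, S.am A α Ω = 0)
    {n : Fin 3 → ℝ} (hn : ∑ A, n A ^ 2 = 1) {y : Fin 9 → ℝ} (hx : 0 < rho6sq (cone n y))
    {w : Fin 9 → ℝ} (hw : ∑ i, w i * y i = 0) (A : Fin 3) (α : Fin 16) :
    ((ry y : ℝ) : ℂ) • KV S (Pn n) 1 A α (fderiv ℝ (S.om Ω) (cone n y) (cone n w)) =
      Complex.I • (KV S (Jn n) (sl S y) A α (fderiv ℝ (S.om Ω) (cone n y) (cone n w)) +
        KV S (Jn n) (sl S w) A α (S.om Ω (cone n y))) := by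
  set v' := fderiv ℝ (S.om Ω) (cone n y) (cone n w) with hv'
  set f : ℝ → F := fun t => S.om Ω (cone n (y + t • w)) with hf
  have hd : HasDerivAt f v' 0 := om_line S hs hΩ hx w
  have hf0 : f 0 = S.om Ω (cone n y) := by simp [hf]
  have hr : HasDerivAt (fun t : ℝ => ry (y + t • w)) 0 0 := ry_deriv (ry_pos hn hx) hw
  have e1 : HasDerivAt (fun t : ℝ => ry (y + t • w) • KV S (Pn n) 1 A α (f t))
      (ry (y + (0 : ℝ) • w) • KV S (Pn n) 1 A α v' + (0 : ℝ) • KV S (Pn n) 1 A α (f 0)) 0 :=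
    hr.smul (clm_deriv (KV S (Pn n) 1 A α) hd)
  have e2 : HasDerivAt (fun t : ℝ => t • KV S (Jn n) (sl S w) A α (f t))
      ((0 : ℝ) • KV S (Jn n) (sl S w) A α v' + (1 : ℝ) • KV S (Jn n) (sl S w) A α (f 0)) 0 :=
    (hasDerivAt_id (0 : ℝ)).smul (clm_deriv (KV S (Jn n) (sl S w) A α) hd)
  have e3 := clm_deriv (KV S (Jn n) (sl S y) A α) hd
  have e4 := clm_deriv (Complex.I • (1 : F →L[ℂ] F)) (e3.add e2)
  have e5 := e1.sub e4
  have ev : ∀ᶠ t in 𝓝 (0 : ℝ), (ry (y + t • w) • KV S (Pn n) 1 A α (f t) -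
      (Complex.I • (1 : F →L[ℂ] F)) (KV S (Jn n) (sl S y) A α (f t) +
        t • KV S (Jn n) (sl S w) A α (f t))) = 0 := by
    filter_upwards [ev_pos hx w] with t ht
    have h2 := ((VT_iff' S n (y + t • w) (f t)).1 (h1 Ω hΩ n (y + t • w) hn ht).1) A α
    rw [sl_line, KV_add, KV_smul] at h2
    rw [sub_eq_zero]
    simpa using h2
  have e6 := deriv_zero e5 ev
  rw [sub_eq_zero] at e6
  rw [hf0] at e6
  simpa using e6

/-- differentiated `VN` -/
lemma dVN {Ω : F} (hs : U.SmStmt S) (h1 : U.Om1Stmt S) (hΩ : ∀ A α, S.am A α Ω = 0)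
    {n : Fin 3 → ℝ} (hn : ∑ A, n A ^ 2 = 1) {y : Fin 9 → ℝ} (hx : 0 < rho6sq (cone n y))
    (w : Fin 9 → ℝ) : S.VN n (fderiv ℝ (S.om Ω) (cone n y) (cone n w)) := by
  rw [VN_iff']
  intro α
  set v' := fderiv ℝ (S.om Ω) (cone n y) (cone n w) with hv'
  set f : ℝ → F := fun t => S.om Ω (cone n (y + t • w)) with hf
  have hd : HasDerivAt f v' 0 := om_line S hs hΩ hx w
  have e1 := clm_deriv (KV S (Rn n) 1 0 α) hd
  have e2 := clm_deriv (Complex.I • KV S (Rn n) S.Gam 0 α) hd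
  have e5 := e1.sub e2
  have ev : ∀ᶠ t in 𝓝 (0 : ℝ), (KV S (Rn n) 1 0 α (f t) -
      (Complex.I • KV S (Rn n) S.Gam 0 α) (f t)) = 0 := by
    filter_upwards [ev_pos hx w] with t ht
    have h2 := (VN_iff' S n (f t)).1 (h1 Ω hΩ n (y + t • w) hn ht).2.1 α
    rw [sub_eq_zero, h2]
    rfl
  have e6 := deriv_zero e5 ev
  rw [sub_eq_zero] at e6
  exact e6

/-- the pairing of `Ω` with the derivative -/
lemma dpair {Ω : F} (hs : U.SmStmt S) (h1 : U.Om1Stmt S) (hΩ : ∀ A α, S.am A α Ω = 0)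
    {n : Fin 3 → ℝ} (hn : ∑ A, n A ^ 2 = 1) {y : Fin 9 → ℝ} (hx : 0 < rho6sq (cone n y))
    {w : Fin 9 → ℝ} (hw : ∑ i, w i * y i = 0) :
    inner ℂ Ω (fderiv ℝ (S.om Ω) (cone n y) (cone n w)) =
      (((∑ i, y6 y i ^ 2) * (∑ i, y6 w i * y6 y i) / (4 * ry y ^ 4) : ℝ) : ℂ) *
        ((‖Ω‖ ^ 2 : ℝ) : ℂ) := by
  set v' := fderiv ℝ (S.om Ω) (cone n y) (cone n w) with hv'
  set f : ℝ → F := fun t => S.om Ω (cone n (y + t • w)) with hf
  have hd : HasDerivAt f v' 0 := om_line S hs hΩ hx w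
  have hy := ry_pos hn hx
  have hr : HasDerivAt (fun t : ℝ => ry (y + t • w)) 0 0 := ry_deriv hy hw
  have e1 : HasDerivAt (fun t : ℝ => inner ℂ Ω (f t)) (inner ℂ Ω v') 0 :=
    ((innerSL ℂ Ω).restrictScalars ℝ).hasFDerivAt.comp_hasDerivAt 0 hd
  -- the scalar function
  have e2 : HasDerivAt (fun t : ℝ => ∑ i, y6 (y + t • w) i ^ 2)
      (2 * ∑ i, y6 w i * y6 y i) 0 := by
    have h2 : HasDerivAt (fun t : ℝ => ∑ i, y6 (y + t • w) i ^ 2)
        (∑ i, 2 * (y6 w i * y6 y i)) 0 := by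
      refine HasDerivAt.fun_sum fun i _ => ?_
      have h3 : HasDerivAt (fun t : ℝ => y6 y i + t * y6 w i) (y6 w i) 0 := by
        simpa using ((hasDerivAt_id (0 : ℝ)).mul_const (y6 w i)).const_add (y6 y i)
      have h4 := h3.pow 2
      have h5 : (fun t : ℝ => y6 (y + t • w) i ^ 2) = fun t : ℝ => (y6 y i + t * y6 w i) ^ 2 := by
        funext t
        unfold y6
        by_cases h : 3 ≤ i.val
        · simp [if_pos h]
        · simp [if_neg h]
      rw [h5]
      refine h4.congr_deriv ?_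
      simp
      ring
    rw [← Finset.mul_sum] at h2
    exact h2
  have e3 : HasDerivAt (fun t : ℝ => (((∑ i, y6 (y + t • w) i ^ 2) / ry (y + t • w) ^ 2) ^ 2 / 16) *
      ‖Ω‖ ^ 2) ((∑ i, y6 y i ^ 2) * (∑ i, y6 w i * y6 y i) / (4 * ry y ^ 4) * ‖Ω‖ ^ 2) 0 := by
    have hr2 := hr.pow 2
    have hne : (fun t : ℝ => ry (y + t • w)) 0 ^ 2 ≠ 0 := by
      have : (fun t : ℝ => ry (y + t • w)) 0 = ry y := by simp
      rw [this]; positivity
    have h6 := (((e2.div hr2 hne).pow 2).div_const 16).mul_const (‖Ω‖ ^ 2)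
    refine h6.congr_deriv ?_
    simp
    left
    field_simp
    ring
  have ev : (fun t : ℝ => inner ℂ Ω (f t)) =ᶠ[𝓝 0] fun t : ℝ =>
      (((((∑ i, y6 (y + t • w) i ^ 2) / ry (y + t • w) ^ 2) ^ 2 / 16) * ‖Ω‖ ^ 2 : ℝ) : ℂ) := by
    filter_upwards [ev_pos hx w] with t ht
    have h2 := (h1 Ω hΩ n (y + t • w) hn ht).2.2
    rw [rho6sq_cone hn] at h2
    rw [h2]
    push_cast
    rfl
  have e4 := (e3.ofReal_comp).congr_of_eventuallyEq ev
  have e5 := e1.unique e4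
  rw [e5]
  push_cast
  rfl

/-- expansion of the rotation term -/
lemma BB_expand (n : Fin 3 → ℝ) (y w : Fin 9 → ℝ) (v : F) :
    BB S (Pn n) (sl S w * sl S y) v = ∑ A, ∑ B, ∑ i, ∑ j,
      ((((if A = B then 1 else 0) - n A * n B) * w i * y j : ℝ) : ℂ) •
        S.bil (S.g i * S.g j) A B v := by
  unfold BB
  simp only [ContinuousLinearMap.sum_apply, ContinuousLinearMap.smul_apply]
  refine Finset.sum_congr rfl fun A _ => Finset.sum_congr rfl fun B _ => ?_
  have h1 : sl S w * sl S y = ∑ i, ∑ j, ((w i * y j : ℝ) : ℂ) • (S.g i * S.g j) := by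
    unfold sl
    rw [Finset.sum_mul_sum]
    refine Finset.sum_congr rfl fun i _ => Finset.sum_congr rfl fun j _ => ?_
    rw [smul_mul_smul_comm]; push_cast; rfl
  rw [h1, S.bil_sum]
  simp only [S.bil_sum, S.bil_smul, ContinuousLinearMap.sum_apply, ContinuousLinearMap.smul_apply,
    Finset.smul_sum, smul_smul]
  refine Finset.sum_congr rfl fun i _ => Finset.sum_congr rfl fun j _ => ?_
  congr 1
  unfold Pn
  rw [Matrix.of_apply, ← Complex.ofReal_mul, mul_assoc]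

theorem first {Ω : F} (hΩ0 : Ω ≠ 0) (hs : U.SmStmt S) (h1 : U.Om1Stmt S) (hu : U.VUniqStmt S)
    (hΩ : ∀ A α, S.am A α Ω = 0)
    {n : Fin 3 → ℝ} (hn : ∑ A, n A ^ 2 = 1) {y : Fin 9 → ℝ} (hx : 0 < rho6sq (cone n y))
    {w : Fin 9 → ℝ} (hw : ∑ i, w i * y i = 0) :
    fderiv ℝ (S.om Ω) (cone n y) (cone n w) =
      ((1 / (4 * ry y ^ 2) : ℝ) : ℂ) • BB S (Pn n) (sl S w * sl S y) (S.om Ω (cone n y)) := by
  have hy := ry_pos hn hx
  have hd := dVT S hs h1 hΩ hn hx hw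
  have hN := dVN S hs h1 hΩ hn hx w
  have hp := dpair S hs h1 hΩ hn hx hw
  obtain ⟨hvT, hvN, hv0⟩ := h1 Ω hΩ n y hn hx
  have hq := pair S hΩ hn hvT hy w
  generalize fderiv ℝ (S.om Ω) (cone n y) (cone n w) = v' at *
  have hu' := hu Ω hΩ0 hΩ n y hn hx
  generalize S.om Ω (cone n y) = v at *
  have hM : (sl S w * sl S y)ᵀ = -(sl S w * sl S y) := by
    rw [Matrix.transpose_mul, sl_tr, sl_tr, sl_swap S hw]
  have hr0 : ((ry y : ℝ) : ℂ) ≠ 0 := by
    rw [Ne, Complex.ofReal_eq_zero]; exact hy.ne'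
  have hr2 : ((∑ i, y i ^ 2 : ℝ) : ℂ) = ((ry y : ℝ) : ℂ) ^ 2 := by
    rw [← ry_sq]; push_cast; ring
  have m1 : sl S w * sl S y * sl S y = (((ry y : ℝ) : ℂ) ^ 2) • sl S w := by
    rw [mul_assoc (sl S w), sl_sq, Matrix.mul_smul, Matrix.mul_one, hr2]
  have m2 : sl S y * (sl S w * sl S y) = -((((ry y : ℝ) : ℂ) ^ 2) • sl S w) := by
    rw [← mul_assoc, sl_swap S hw, neg_mul, m1]
  have hc : ((1 / (4 * ry y ^ 2) : ℝ) : ℂ) = 1 / (4 * ((ry y : ℝ) : ℂ) ^ 2) := by
    push_cast; ring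
  rw [← sub_eq_zero]
  set u := v' - ((1 / (4 * ry y ^ 2) : ℝ) : ℂ) • BB S (Pn n) (sl S w * sl S y) v with hudef
  have hT : S.VT n y u := by
    rw [VT_iff']
    intro A α
    have g1 := (VT_iff' S n y v).1 hvT A α
    have g2 := hd A α
    have g3 := KV_comm S (Pn n) 1 _ hM (Pn n) (Pn_tr n) A α v
    have g4 := KV_comm S (Jn n) (sl S y) _ hM (Pn n) (Pn_tr n) A α v
    rw [Pn_sq n hn, Matrix.one_mul] at g3
    rw [Jn_mul_Pn, m2, KV_neg, KV_smul] at g4
    have g5 : ((ry y : ℝ) : ℂ) • KV S (Pn n) (sl S w * sl S y) A α v =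
        Complex.I • (((ry y : ℝ) : ℂ) ^ 2 • KV S (Jn n) (sl S w) A α v) := by
      have e : KV S (Pn n) (sl S w * sl S y) A α v =
          ∑ γ, (sl S w * sl S y) α γ • KV S (Pn n) 1 A γ v := by
        rw [← KV_mul, Matrix.mul_one]
      have e2 : (((ry y : ℝ) : ℂ) ^ 2) • KV S (Jn n) (sl S w) A α v =
          KV S (Jn n) (sl S w * sl S y * sl S y) A α v := by
        rw [m1, KV_smul]; rfl
      rw [e, e2, KV_mul, Finset.smul_sum, Finset.smul_sum]
      refine Finset.sum_congr rfl fun γ _ => ?_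
      rw [smul_comm, (VT_iff' S n y v).1 hvT A γ, smul_comm]
    have g6 := congrArg (fun z => BB S (Pn n) (sl S w * sl S y) z) g1
    simp only [map_smul] at g6
    rw [hudef, map_sub, map_sub, map_smul, map_smul, g3, g4]
    have g7 : (-((((ry y : ℝ) : ℂ) ^ 2) • KV S (Jn n) (sl S w) A α)) v =
        -((((ry y : ℝ) : ℂ) ^ 2) • KV S (Jn n) (sl S w) A α v) := rfl
    rw [g7, hc]
    generalize BB S (Pn n) (sl S w * sl S y) (KV S (Pn n) 1 A α v) = Z1 at *
    generalize BB S (Pn n) (sl S w * sl S y) (KV S (Jn n) (sl S y) A α v) = Z2 at *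
    generalize KV S (Jn n) (sl S w) A α v = W at *
    generalize KV S (Pn n) (sl S w * sl S y) A α v = X at *
    generalize KV S (Pn n) 1 A α v' = a1 at *
    generalize KV S (Jn n) (sl S y) A α v' = b1 at *
    have hc4 : (4 : ℂ) * (1 / (4 * ((ry y : ℝ) : ℂ) ^ 2)) * ((ry y : ℝ) : ℂ) ^ 2 = 1 := by
      field_simp
    generalize (1 / (4 * ((ry y : ℝ) : ℂ) ^ 2)) = c at *
    generalize ((ry y : ℝ) : ℂ) = r at *
    have e1 : r • (a1 - c • (Z1 + (2 : ℂ) • X)) = r • a1 - c • (r • Z1) - (2 * c) • (r • X) := by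
      module
    rw [e1, g2, g6, g5]
    have e2 : Complex.I • (b1 + W) - c • Complex.I • Z2 - (2 * c) • Complex.I • r ^ 2 • W =
        Complex.I • (b1 - c • (Z2 + (2 : ℂ) • -(r ^ 2 • W))) +
          (1 - 4 * c * r ^ 2) • (Complex.I • W) := by
      module
    rw [e2, hc4, sub_self, zero_smul, add_zero]
  have hN' : S.VN n u := by
    rw [VN_iff']
    intro α
    have g1 := (VN_iff' S n v).1 hvN α
    have g2 := (VN_iff' S n v').1 hN α
    have g3 := KV_comm S (Rn n) 1 _ hM (Pn n) (Pn_tr n) 0 α v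
    have g4 := KV_comm S (Rn n) S.Gam _ hM (Pn n) (Pn_tr n) 0 α v
    have hz : ∀ N, KV S 0 N 0 α v = 0 := by
      intro N; rw [KV_apply]; simp
    rw [Rn_mul_Pn n hn, hz, smul_zero, add_zero] at g3 g4
    rw [hudef, map_sub, map_sub, map_smul, map_smul, g3, g4, g1, g2, map_smul, smul_sub]
    rw [smul_comm Complex.I]
  obtain ⟨l, hl⟩ := hu' u hT hN'
  have hs6 : 0 < ∑ i, y6 y i ^ 2 := by rw [← rho6sq_cone hn]; exact hx
  have hs6' : ((∑ i, y6 y i ^ 2 : ℝ) : ℂ) ≠ 0 := by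
    rw [Ne, Complex.ofReal_eq_zero]; exact hs6.ne'
  have hΩ2 : ((‖Ω‖ ^ 2 : ℝ) : ℂ) ≠ 0 := by
    rw [Ne, Complex.ofReal_eq_zero]
    have := norm_pos_iff.2 hΩ0
    positivity
  rw [rho6sq_cone hn] at hv0
  have hin : inner ℂ Ω u = 0 := by
    have e1 : inner ℂ Ω u = inner ℂ Ω v' - ((1 / (4 * ry y ^ 2) : ℝ) : ℂ) *
        inner ℂ Ω (BB S (Pn n) (sl S w * sl S y) v) := by
      rw [hudef, inner_sub_right, inner_smul_right]
    rw [e1, hp]
    rw [hv0] at hq
    generalize inner ℂ Ω (BB S (Pn n) (sl S w * sl S y) v) = p at *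
    have hq' : p = ((16 * ry y ^ 2 * (∑ i, y6 w i * y6 y i) *
        ((∑ i, y6 y i ^ 2) / ry y ^ 2) ^ 2 / 16 / (∑ i, y6 y i ^ 2) : ℝ) : ℂ) *
          ((‖Ω‖ ^ 2 : ℝ) : ℂ) := by
      refine mul_left_cancel₀ hs6' ?_
      rw [hq]
      push_cast
      push_cast at hs6'
      field_simp
    rw [hq', ← mul_assoc, ← sub_mul, ← Complex.ofReal_mul, ← Complex.ofReal_sub]
    have : (∑ i, y6 y i ^ 2) * (∑ i, y6 w i * y6 y i) / (4 * ry y ^ 4) -
        1 / (4 * ry y ^ 2) * (16 * ry y ^ 2 * (∑ i, y6 w i * y6 y i) *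
        ((∑ i, y6 y i ^ 2) / ry y ^ 2) ^ 2 / 16 / (∑ i, y6 y i ^ 2)) = 0 := by
      field_simp
      ring
    rw [this]; simp
  rw [hl, inner_smul_right, hv0] at hin
  have hne : ((((∑ i, y6 y i ^ 2) / ry y ^ 2) ^ 2 / 16 : ℝ) : ℂ) * ((‖Ω‖ ^ 2 : ℝ) : ℂ) ≠ 0 := by
    refine mul_ne_zero ?_ hΩ2
    rw [Ne, Complex.ofReal_eq_zero]
    have : 0 < ((∑ i, y6 y i ^ 2) / ry y ^ 2) ^ 2 / 16 := by positivity
    exact this.ne'
  rcases mul_eq_zero.1 hin with h | h
  · rw [hl, h, zero_smul]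
  · exact absurd h hne

lemma fderiv_sum_pd (u : X3 → F) (x z : X3) :
    fderiv ℝ u x z = ∑ i, ∑ A, z (i, A) • pd i A u x := by
  have hz : z = ∑ i, ∑ A, z (i, A) • (EuclideanSpace.single (i, A) (1 : ℝ) : X3) := by
    ext p
    obtain ⟨i, A⟩ := p
    simp only [WithLp.ofLp_sum, Finset.sum_apply, WithLp.ofLp_smul, Pi.smul_apply]
    rw [Finset.sum_eq_single i]
    · rw [Finset.sum_eq_single A]
      · simp
      · intro B _ hB; simp [Ne.symm hB]
      · simp
    · intro j _ hj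
      refine Finset.sum_eq_zero fun B _ => ?_
      simp [Ne.symm hj]
    · simp
  conv_lhs => rw [hz]
  simp only [map_sum, map_smul, pd]

lemma eps_eps (D E D' E' : Fin 3) : ∑ C, eps C D E * eps C D' E' =
    (if D = D' ∧ E = E' then 1 else 0) - (if D = E' ∧ E = D' then 1 else 0) := by
  revert D E D' E'
  decide

lemma eps_eps' (D E D' E' : Fin 3) : ∑ C, (eps C D E : ℝ) * (eps C D' E' : ℝ) =
    (if D = D' ∧ E = E' then 1 else 0) - (if D = E' ∧ E = D' then 1 else 0) := by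
  have h := congrArg (fun z : ℤ => (z : ℝ)) (eps_eps D E D' E')
  push_cast at h
  exact h

/-- cross product -/
lemma cross_id2 (n e : Fin 3 → ℝ) (D' E' : Fin 3) :
    ∑ C, (∑ D, ∑ E, (eps C D E : ℝ) * n D * e E) * (eps C D' E' : ℝ) =
      n D' * e E' - n E' * e D' := by
  have h : ∑ C, (∑ D, ∑ E, (eps C D E : ℝ) * n D * e E) * (eps C D' E' : ℝ) =
      ∑ D, ∑ E, n D * e E * ∑ C, (eps C D E : ℝ) * (eps C D' E' : ℝ) := by
    simp only [Finset.sum_mul, Finset.mul_sum]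
    rw [Finset.sum_comm]
    refine Finset.sum_congr rfl fun D _ => ?_
    rw [Finset.sum_comm]
    refine Finset.sum_congr rfl fun E _ => Finset.sum_congr rfl fun C _ => ?_
    ring
  rw [h]
  simp only [eps_eps', mul_sub, Finset.sum_sub_distrib]
  congr 1
  · rw [Finset.sum_eq_single D']
    · rw [Finset.sum_eq_single E']
      · simp
      · intro E _ hE; simp [hE]
      · simp
    · intro D _ hD
      refine Finset.sum_eq_zero fun E _ => ?_
      simp [hD]
    · simp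
  · rw [Finset.sum_eq_single E']
    · rw [Finset.sum_eq_single D']
      · simp
      · intro E _ hE; simp [hE]
      · simp
    · intro D _ hD
      refine Finset.sum_eq_zero fun E _ => ?_
      simp [hD]
    · simp

lemma cross_id {n e : Fin 3 → ℝ} (hn : ∑ A, n A ^ 2 = 1) (he : ∑ A, e A * n A = 0) (B : Fin 3) :
    ∑ C, ∑ A, (∑ D, ∑ E, (eps C D E : ℝ) * n D * e E) * ((eps C A B : ℝ) * n A) = e B := by
  have h : ∑ C, ∑ A, (∑ D, ∑ E, (eps C D E : ℝ) * n D * e E) * ((eps C A B : ℝ) * n A) =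
      ∑ A, (∑ C, (∑ D, ∑ E, (eps C D E : ℝ) * n D * e E) * (eps C A B : ℝ)) * n A := by
    rw [Finset.sum_comm]
    refine Finset.sum_congr rfl fun A _ => ?_
    rw [Finset.sum_mul]
    refine Finset.sum_congr rfl fun C _ => ?_
    ring
  rw [h]
  simp only [cross_id2]
  have h2 : ∑ A, (n A * e B - n B * e A) * n A = e B * (∑ A, n A ^ 2) - n B * (∑ A, e A * n A) := by
    rw [Finset.mul_sum, Finset.mul_sum, ← Finset.sum_sub_distrib]
    refine Finset.sum_congr rfl fun A _ => ?_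
    ring
  rw [h2, hn, he]; ring

theorem second {Ω : F} (hs : U.SmStmt S) (hΩ : ∀ A α, S.am A α Ω = 0)
    {n : Fin 3 → ℝ} (hn : ∑ A, n A ^ 2 = 1) {y : Fin 9 → ℝ} (hx : 0 < rho6sq (cone n y))
    {e : Fin 3 → ℝ} (he : ∑ A, e A * n A = 0) :
    fderiv ℝ (S.om Ω) (cone n y) (cone e y) =
      ∑ A, ∑ B, ((e A * n B : ℝ) : ℂ) • S.bil 1 A B (S.om Ω (cone n y)) := by
  have hG : ∀ C, S.G C (S.om Ω) (cone n y) = 0 := fun C =>
    (((hs Ω hΩ).2.2.2.2.2 (cone n y) hx).1 C).1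
  set c : Fin 3 → ℝ := fun C => ∑ D, ∑ E, (eps C D E : ℝ) * n D * e E with hc
  have h1 : ∑ C, ((c C : ℝ) : ℂ) • S.G C (S.om Ω) (cone n y) = 0 := by
    simp only [hG, smul_zero, Finset.sum_const_zero]
  have hd : fderiv ℝ (S.om Ω) (cone n y) (cone e y) = ∑ C, ((c C : ℝ) : ℂ) •
      ∑ i, ∑ A, ∑ B, ((eps C A B : ℂ) * ((cone n y) (i, A) : ℂ)) • pd i B (S.om Ω) (cone n y) := by
    rw [fderiv_sum_pd]
    have hx' : ∀ (m : Fin 3 → ℝ) i A, (cone m y) (i, A) = y i * m A := fun m i A => rfl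
    simp only [hx', Finset.smul_sum, smul_smul]
    conv_rhs => rw [Finset.sum_comm]
    refine Finset.sum_congr rfl fun i _ => ?_
    have h3 : ∀ B, (y i * e B) • pd i B (S.om Ω) (cone n y) =
        ∑ C, ∑ A, (((c C : ℝ) : ℂ) * ((eps C A B : ℂ) * ((y i * n A : ℝ) : ℂ))) •
          pd i B (S.om Ω) (cone n y) := by
      intro B
      rw [← cross_id hn he B]
      simp only [← Finset.sum_smul]
      rw [← Complex.coe_smul]
      congr 1
      push_cast
      rw [Finset.mul_sum]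
      refine Finset.sum_congr rfl fun C _ => ?_
      rw [Finset.mul_sum]
      refine Finset.sum_congr rfl fun A _ => ?_
      simp only [hc]
      push_cast
      ring
    rw [Finset.sum_congr rfl fun B _ => h3 B, Finset.sum_comm]
    refine Finset.sum_congr rfl fun C _ => ?_
    rw [Finset.sum_comm]
  have h2 : ∑ C, ((c C : ℝ) : ℂ) • S.G C (S.om Ω) (cone n y) =
      (-Complex.I) • fderiv ℝ (S.om Ω) (cone n y) (cone e y) +
        ∑ C, ((c C : ℝ) : ℂ) • S.cS C (S.om Ω (cone n y)) := by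
    rw [hd, Finset.smul_sum, ← Finset.sum_add_distrib]
    refine Finset.sum_congr rfl fun C _ => ?_
    unfold Setup.G
    rw [smul_add, smul_comm (-Complex.I)]
  rw [h1] at h2
  generalize fderiv ℝ (S.om Ω) (cone n y) (cone e y) = D at *
  generalize S.om Ω (cone n y) = v at *
  set K : Matrix (Fin 3) (Fin 3) ℂ := Matrix.of fun A B => ((e A * n B : ℝ) : ℂ) with hK
  have hKt : K.trace = 0 := by
    have : K.trace = ((∑ A, e A * n A : ℝ) : ℂ) := by
      simp [Matrix.trace, hK]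
    rw [this, he]; simp
  have h4 : ∑ C, ((c C : ℝ) : ℂ) • S.cS C v =
      (-Complex.I / 2) • (BB S Kᵀ 1 v - BB S K 1 v) := by
    unfold Setup.cS BB
    simp only [ContinuousLinearMap.smul_apply, ContinuousLinearMap.sum_apply, Finset.smul_sum,
      smul_smul, ← Finset.sum_sub_distrib, ← sub_smul]
    rw [Finset.sum_comm]
    refine Finset.sum_congr rfl fun A _ => ?_
    rw [Finset.sum_comm]
    refine Finset.sum_congr rfl fun B _ => ?_
    rw [← Finset.sum_smul]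
    congr 1
    have h5 := congrArg (fun z : ℝ => (z : ℂ)) (cross_id2 n e A B)
    have h6 : ∑ C, ((c C : ℝ) : ℂ) * (-Complex.I / 2 * (eps C A B : ℂ)) =
        (-Complex.I / 2) * ((∑ C, (∑ D, ∑ E, (eps C D E : ℝ) * n D * e E) * (eps C A B : ℝ) : ℝ) : ℂ) := by
      push_cast
      rw [Finset.mul_sum]
      refine Finset.sum_congr rfl fun C _ => ?_
      simp only [hc]
      push_cast
      ring
    rw [h6, h5]
    simp only [hK, Matrix.transpose_apply, Matrix.of_apply]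
    push_cast
    ring
  have h7 : BB S Kᵀ 1 v = -(BB S K 1 v) := by
    have h8 := BB_swap S K 1
    rw [hKt, zero_mul, zero_smul, zero_sub, Matrix.transpose_one] at h8
    rw [h8]
    simp
  rw [h4, h7] at h2
  have h9 : D = BB S K 1 v := by
    have h10 : D = Complex.I • ((-Complex.I) • D + (-Complex.I / 2) • (-(BB S K 1 v) - BB S K 1 v)) +
        BB S K 1 v := by
      have hI : Complex.I * Complex.I = -1 := Complex.I_mul_I
      have e1 : Complex.I • ((-Complex.I) • D + (-Complex.I / 2) • (-(BB S K 1 v) - BB S K 1 v)) =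
          (-(Complex.I * Complex.I)) • D + (Complex.I * Complex.I) • BB S K 1 v := by
        module
      rw [e1, hI]
      module
    rw [← h2] at h10
    simpa using h10
  rw [h9]
  unfold BB
  simp only [ContinuousLinearMap.sum_apply, ContinuousLinearMap.smul_apply, hK, Matrix.of_apply]

end Vale.Agent.P353.OmTwo

namespace Vale.Agent.P353.U

open OmTwo

variable {F : Type*} [NormedAddCommGroup F] [InnerProductSpace ℂ F]

/-- **D-2** -/
theorem om2 (S : Setup F) (hs : SmStmt S) (h1 : Om1Stmt S) (hu : VUniqStmt S) : Om2Stmt S := by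
  intro Ω hΩ n y hn hx
  refine ⟨fun w hw => ?_, fun e he => second S hs hΩ hn hx he⟩
  rw [← BB_expand]
  by_cases h0 : Ω = 0
  · subst h0
    have hz : S.om (0 : F) = fun _ => 0 := by
      funext x
      simp [Setup.om]
    rw [hz]
    simp
  · exact first S h0 hs h1 hu hΩ hn hx hw

end Vale.Agent.P353.U
end

section

/-! # P353, D-norm: `‖ω‖` is constant on the cone -/

open MeasureTheory Filter Topology
open scoped ContDiff

namespace Vale.Agent.P353

namespace U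

namespace ON

variable {F : Type*} [NormedAddCommGroup F] [InnerProductSpace ℂ F]

/-! ### real derivative of `‖·‖²` -/

lemma hasFDerivAt_nsq {E : Type*} [NormedAddCommGroup E] [NormedSpace ℝ E] {f : E → F} {x : E}
    (hf : DifferentiableAt ℝ f x) : ∃ L : E →L[ℝ] ℝ, HasFDerivAt (fun y => ‖f y‖ ^ 2) L x ∧
      ∀ v, L v = 2 * (inner ℂ (f x) (fderiv ℝ f x v)).re := by
  have h1 := hf.hasFDerivAt.inner ℂ hf.hasFDerivAt
  have h2 := Complex.reCLM.hasFDerivAt.comp x h1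
  have e : (fun y => ‖f y‖ ^ 2) = Complex.reCLM ∘ fun t => inner ℂ (f t) (f t) := by
    funext y
    simp only [Function.comp, Complex.reCLM_apply, inner_self_eq_norm_sq_to_K]
    norm_cast
  rw [e]
  refine ⟨_, h2, fun v => ?_⟩
  simp only [ContinuousLinearMap.comp_apply, ContinuousLinearMap.prod_apply,
    fderivInnerCLM_apply, Complex.reCLM_apply, Complex.add_re]
  have : (inner ℂ (fderiv ℝ f x v) (f x)).re = (inner ℂ (f x) (fderiv ℝ f x v)).re := by
    rw [← inner_conj_symm, Complex.conj_re]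
  rw [this]; ring

/-! ### the cone -/

/-- `y ↦ cone n y` -/
noncomputable def coneY (n : Fin 3 → ℝ) : (Fin 9 → ℝ) →L[ℝ] X3 :=
  LinearMap.toContinuousLinearMap
    { toFun := fun y => cone n y
      map_add' := fun y z => by
        ext p; simp [cone, add_mul]
      map_smul' := fun c y => by
        ext p; simp [cone, mul_assoc] }

lemma coneY_apply (n : Fin 3 → ℝ) (y : Fin 9 → ℝ) : coneY n y = cone n y := rfl

/-- `n ↦ cone n y` -/
noncomputable def coneN (y : Fin 9 → ℝ) : (Fin 3 → ℝ) →L[ℝ] X3 :=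
  LinearMap.toContinuousLinearMap
    { toFun := fun n => cone n y
      map_add' := fun n m => by
        ext p; simp [cone, mul_add]
      map_smul' := fun c n => by
        ext p; simp [cone]; ring }

lemma coneN_apply (n : Fin 3 → ℝ) (y : Fin 9 → ℝ) : coneN y n = cone n y := rfl

lemma rho6sq_cone (n : Fin 3 → ℝ) (y : Fin 9 → ℝ) :
    rho6sq (cone n y) = (∑ A, n A ^ 2) * ∑ i : Fin 9, if 3 ≤ i.val then y i ^ 2 else 0 := by
  unfold rho6sq
  rw [Finset.mul_sum]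
  refine Finset.sum_congr rfl fun i _ => ?_
  by_cases h : 3 ≤ i.val
  · simp only [h, if_true, Finset.sum_mul, cone]
    refine Finset.sum_congr rfl fun A _ => ?_
    ring
  · simp [h]

lemma sum_y_pos {n : Fin 3 → ℝ} {y : Fin 9 → ℝ} (h : 0 < rho6sq (cone n y)) :
    0 < ∑ i, y i ^ 2 := by
  rw [rho6sq_cone] at h
  have h1 : 0 ≤ ∑ A, n A ^ 2 := Finset.sum_nonneg fun _ _ => sq_nonneg _
  have h2 : 0 < ∑ i : Fin 9, if 3 ≤ i.val then y i ^ 2 else 0 := by
    by_contra hcon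
    push Not at hcon
    exact absurd h (not_lt.2 (mul_nonpos_of_nonneg_of_nonpos h1 hcon))
  refine h2.trans_le (Finset.sum_le_sum fun i _ => ?_)
  split_ifs
  · exact le_rfl
  · exact sq_nonneg _

lemma isOpen_rho : IsOpen {x : X3 | 0 < rho6sq x} := by
  have : Continuous (rho6sq) := by
    unfold rho6sq
    refine continuous_finsetSum _ fun i _ => continuous_finsetSum _ fun A _ => ?_
    split_ifs
    · fun_prop
    · exact continuous_const
  exact isOpen_lt continuous_const this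

variable {S : Setup F}

lemma diff_om (hs : SmStmt S) {Ω : F} (hΩ : ∀ A α, S.am A α Ω = 0) {x : X3} (hx : 0 < rho6sq x) :
    DifferentiableAt ℝ (S.om Ω) x :=
  (((hs Ω hΩ).1.contDiffAt (isOpen_rho.mem_nhds hx)).differentiableAt (by simp))

/-- radial derivative -/
lemma radial (hs : SmStmt S) {Ω : F} (hΩ : ∀ A α, S.am A α Ω = 0) {x : X3} (hx : 0 < rho6sq x) :
    fderiv ℝ (S.om Ω) x x = 0 := by
  have h1 := (diff_om hs hΩ hx).hasFDerivAt
  have h2 : HasDerivAt (fun t : ℝ => t • x) x 1 := by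
    simpa using (hasDerivAt_id (1 : ℝ)).smul_const x
  have h3 : HasDerivAt (fun t : ℝ => S.om Ω (t • x)) (fderiv ℝ (S.om Ω) x x) 1 := by
    have h1' : HasFDerivAt (S.om Ω) (fderiv ℝ (S.om Ω) x) ((1 : ℝ) • x) := by
      rw [one_smul]; exact h1
    exact h1'.comp_hasDerivAt (1 : ℝ) h2
  have h4 : HasDerivAt (fun t : ℝ => S.om Ω (t • x)) 0 1 := by
    refine (hasDerivAt_const (1 : ℝ) (S.om Ω x)).congr_of_eventuallyEq ?_
    filter_upwards [lt_mem_nhds (show (0 : ℝ) < 1 by norm_num)] with t ht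
    exact ((hs Ω hΩ).2.2.2.1 x t ht).1
  exact h3.unique h4

/-! ### antihermitian operators -/

lemma re_zero_of_anti {v : F} {X : F →L[ℂ] F} (h : inner ℂ (X v) v = -inner ℂ v (X v)) :
    (inner ℂ v (X v)).re = 0 := by
  have h1 : (inner ℂ (X v) v).re = (inner ℂ v (X v)).re := by
    rw [← inner_conj_symm, Complex.conj_re]
  rw [h, Complex.neg_re] at h1
  linarith

lemma real_mul {P Q : Matrix (Fin 16) (Fin 16) ℂ} (hP : ∀ a b, (P a b).im = 0)
    (hQ : ∀ a b, (Q a b).im = 0) (a b : Fin 16) : ((P * Q) a b).im = 0 := by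
  rw [Matrix.mul_apply, Complex.im_sum]
  refine Finset.sum_eq_zero fun c _ => ?_
  rw [Complex.mul_im, hP, hQ]
  simp

/-- first kind -/
lemma anti1_key (S : Setup F) (y w : Fin 9 → ℝ) (hw : ∑ i, w i * y i = 0) (s : ℝ)
    (v : F) (A B : Fin 3) :
    (∑ i, ∑ j, ((s * w i * y j : ℝ) : ℂ) * inner ℂ v (S.bil (S.g j * S.g i) A B v)) =
      -∑ i, ∑ j, ((s * w i * y j : ℝ) : ℂ) * inner ℂ v (S.bil (S.g i * S.g j) A B v) := by
  rw [eq_neg_iff_add_eq_zero, ← Finset.sum_add_distrib]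
  have h1 : ∀ i, (∑ j, ((s * w i * y j : ℝ) : ℂ) * inner ℂ v (S.bil (S.g j * S.g i) A B v)) +
      (∑ j, ((s * w i * y j : ℝ) : ℂ) * inner ℂ v (S.bil (S.g i * S.g j) A B v)) =
      ((w i * y i : ℝ) : ℂ) * (2 * (s : ℂ) * inner ℂ v (S.bil 1 A B v)) := by
    intro i
    rw [← Finset.sum_add_distrib]
    have h2 : ∀ j, ((s * w i * y j : ℝ) : ℂ) * inner ℂ v (S.bil (S.g j * S.g i) A B v) +
        ((s * w i * y j : ℝ) : ℂ) * inner ℂ v (S.bil (S.g i * S.g j) A B v) =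
        if i = j then ((w i * y i : ℝ) : ℂ) * (2 * (s : ℂ) * inner ℂ v (S.bil 1 A B v)) else 0 := by
      intro j
      rw [← mul_add, ← inner_add_right, ← _root_.add_apply, ← S.bil_add, add_comm (S.g j * S.g i),
        S.g_anti i j]
      by_cases hij : i = j
      · subst hij
        rw [if_pos rfl, if_pos rfl]
        have : (2 : Matrix (Fin 16) (Fin 16) ℂ) = (2 : ℂ) • 1 := by
          rw [two_smul, one_add_one_eq_two]
        rw [this, S.bil_smul, _root_.smul_apply, inner_smul_right]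
        push_cast
        ring
      · rw [if_neg hij, if_neg hij, S.bil_zero, _root_.zero_apply, inner_zero_right, mul_zero]
    rw [Finset.sum_congr rfl fun j _ => h2 j, Finset.sum_ite_eq, if_pos (Finset.mem_univ _)]
  rw [Finset.sum_congr rfl fun i _ => h1 i, ← Finset.sum_mul, ← Complex.ofReal_sum, hw]
  simp

lemma anti1 (S : Setup F) (n : Fin 3 → ℝ) (y w : Fin 9 → ℝ) (hw : ∑ i, w i * y i = 0) (c : ℝ)
    (v : F) : (inner ℂ v (((c : ℝ) : ℂ) • ∑ A, ∑ B, ∑ i, ∑ j,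
      ((((if A = B then 1 else 0) - n A * n B) * w i * y j : ℝ) : ℂ) •
        S.bil (S.g i * S.g j) A B v)).re = 0 := by
  set X : F →L[ℂ] F := ((c : ℝ) : ℂ) • ∑ A, ∑ B, ∑ i, ∑ j,
      ((((if A = B then 1 else 0) - n A * n B) * w i * y j : ℝ) : ℂ) •
        S.bil (S.g i * S.g j) A B with hX
  have hXv : ((c : ℝ) : ℂ) • ∑ A, ∑ B, ∑ i, ∑ j,
      ((((if A = B then 1 else 0) - n A * n B) * w i * y j : ℝ) : ℂ) •
        S.bil (S.g i * S.g j) A B v = X v := by
    rw [hX]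
    simp only [_root_.smul_apply, _root_.sum_apply]
  rw [hXv]
  apply re_zero_of_anti
  rw [← hXv]
  simp only [inner_smul_left, inner_smul_right, sum_inner, inner_sum, Complex.conj_ofReal]
  rw [← mul_neg]
  congr 1
  have h1 : ∀ i j A B, inner ℂ (S.bil (S.g i * S.g j) A B v) v =
      inner ℂ v (S.bil (S.g j * S.g i) B A v) := by
    intro i j A B
    rw [S.bil_adj _ (real_mul (S.g_real i) (S.g_real j)), Matrix.transpose_mul, S.g_symm,
      S.g_symm]
  simp only [h1]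
  rw [Finset.sum_comm, ← Finset.sum_neg_distrib]
  refine Finset.sum_congr rfl fun B _ => ?_
  rw [← Finset.sum_neg_distrib]
  refine Finset.sum_congr rfl fun A _ => ?_
  have h2 := anti1_key S y w hw ((if B = A then 1 else 0) - n B * n A) v B A
  have h3 : ((if A = B then (1:ℝ) else 0) - n A * n B) = ((if B = A then 1 else 0) - n B * n A) := by
    rw [mul_comm]; simp [eq_comm]
  rw [h3]
  exact h2

/-- second kind -/
lemma anti2 (S : Setup F) (n e : Fin 3 → ℝ) (he : ∑ A, e A * n A = 0)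
    (v : F) : (inner ℂ v (∑ A, ∑ B, ((e A * n B : ℝ) : ℂ) • S.bil 1 A B v)).re = 0 := by
  set X : F →L[ℂ] F := ∑ A, ∑ B, ((e A * n B : ℝ) : ℂ) • S.bil 1 A B with hX
  have hXv : ∑ A, ∑ B, ((e A * n B : ℝ) : ℂ) • S.bil 1 A B v = X v := by
    rw [hX]
    simp only [_root_.smul_apply, _root_.sum_apply]
  rw [hXv]
  apply re_zero_of_anti
  rw [← hXv]
  simp only [inner_smul_left, inner_smul_right, sum_inner, inner_sum, Complex.conj_ofReal]
  have hone : ∀ α β, ((1 : Matrix (Fin 16) (Fin 16) ℂ) α β).im = 0 := by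
    intro α β
    rw [Matrix.one_apply]
    split_ifs <;> simp
  have h1 : ∀ A B, inner ℂ (S.bil 1 A B v) v = inner ℂ v (S.bil 1 B A v) := by
    intro A B
    rw [S.bil_adj _ hone, Matrix.transpose_one]
  simp only [h1]
  rw [eq_neg_iff_add_eq_zero, ← Finset.sum_add_distrib]
  have h2 : ∀ A, (∑ B, ((e A * n B : ℝ) : ℂ) * inner ℂ v (S.bil 1 B A v)) +
      (∑ B, ((e A * n B : ℝ) : ℂ) * inner ℂ v (S.bil 1 A B v)) =
      ((e A * n A : ℝ) : ℂ) * (16 * inner ℂ v v) := by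
    intro A
    rw [← Finset.sum_add_distrib]
    have h3 : ∀ B, ((e A * n B : ℝ) : ℂ) * inner ℂ v (S.bil 1 B A v) +
        ((e A * n B : ℝ) : ℂ) * inner ℂ v (S.bil 1 A B v) =
        if A = B then ((e A * n A : ℝ) : ℂ) * (16 * inner ℂ v v) else 0 := by
      intro B
      have h4 := S.bil_swap 1 A B
      rw [Matrix.transpose_one] at h4
      rw [h4]
      by_cases hAB : A = B
      · subst hAB
        simp only [if_true, _root_.sub_apply, inner_sub_right, _root_.smul_apply,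
          inner_smul_right, Matrix.trace_one, Fintype.card_fin]
        simp
        ring
      · simp [hAB]
    rw [Finset.sum_congr rfl fun B _ => h3 B, Finset.sum_ite_eq, if_pos (Finset.mem_univ _)]
  rw [Finset.sum_congr rfl fun A _ => h2 A, ← Finset.sum_mul, ← Complex.ofReal_sum, he]
  simp

/-! ### the derivative of `‖ω‖²` along the cone vanishes -/

lemma cone_add_smul_left (n : Fin 3 → ℝ) (y w : Fin 9 → ℝ) (t : ℝ) :
    cone n (w + t • y) = cone n w + t • cone n y := by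
  have h := (coneY n).map_add w (t • y)
  rw [(coneY n).map_smul] at h
  exact h

lemma cone_add_smul_right (n e : Fin 3 → ℝ) (y : Fin 9 → ℝ) (t : ℝ) :
    cone (e + t • n) y = cone e y + t • cone n y := by
  have h := (coneN y).map_add e (t • n)
  rw [(coneN y).map_smul] at h
  exact h

lemma dY (hs : SmStmt S) (h2 : Om2Stmt S) {Ω : F} (hΩ : ∀ A α, S.am A α Ω = 0)
    {n : Fin 3 → ℝ} (hn : ∑ A, n A ^ 2 = 1) {y : Fin 9 → ℝ} (hy : 0 < rho6sq (cone n y))
    (w' : Fin 9 → ℝ) :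
    (inner ℂ (S.om Ω (cone n y)) (fderiv ℝ (S.om Ω) (cone n y) (cone n w'))).re = 0 := by
  have hy2 := (sum_y_pos hy).ne'
  obtain ⟨t, ht⟩ : ∃ t, t = (∑ i, w' i * y i) / ∑ i, y i ^ 2 := ⟨_, rfl⟩
  have hw : ∑ i, (w' - t • y) i * y i = 0 := by
    have : ∀ i, (w' - t • y) i * y i = w' i * y i - t * y i ^ 2 := by
      intro i
      simp only [Pi.sub_apply, Pi.smul_apply, smul_eq_mul]
      ring
    rw [Finset.sum_congr rfl fun i _ => this i, Finset.sum_sub_distrib, ← Finset.mul_sum, ht,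
      div_mul_cancel₀ _ hy2, sub_self]
  have e1 : w' = (w' - t • y) + t • y := by abel
  have h3 : fderiv ℝ (S.om Ω) (cone n y) (cone n w') =
      fderiv ℝ (S.om Ω) (cone n y) (cone n (w' - t • y)) := by
    conv_lhs => rw [e1, cone_add_smul_left, map_add, map_smul, radial hs hΩ hy, smul_zero,
      add_zero]
  rw [h3, (h2 Ω hΩ n y hn hy).1 _ hw]
  exact anti1 S n y _ hw _ _

lemma dN1 (hs : SmStmt S) (h2 : Om2Stmt S) {Ω : F} (hΩ : ∀ A α, S.am A α Ω = 0)
    {n : Fin 3 → ℝ} (hn : ∑ A, n A ^ 2 = 1) {y : Fin 9 → ℝ} (hy : 0 < rho6sq (cone n y))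
    (e : Fin 3 → ℝ) :
    (inner ℂ (S.om Ω (cone n y)) (fderiv ℝ (S.om Ω) (cone n y) (cone e y))).re = 0 := by
  obtain ⟨t, ht⟩ : ∃ t, t = ∑ A, e A * n A := ⟨_, rfl⟩
  have he : ∑ A, (e - t • n) A * n A = 0 := by
    have : ∀ A, (e - t • n) A * n A = e A * n A - t * n A ^ 2 := by
      intro A
      simp only [Pi.sub_apply, Pi.smul_apply, smul_eq_mul]
      ring
    rw [Finset.sum_congr rfl fun i _ => this i, Finset.sum_sub_distrib, ← Finset.mul_sum, hn, ht,
      mul_one, sub_self]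
  have e1 : e = (e - t • n) + t • n := by abel
  have h3 : fderiv ℝ (S.om Ω) (cone n y) (cone e y) =
      fderiv ℝ (S.om Ω) (cone n y) (cone (e - t • n) y) := by
    conv_lhs => rw [e1, cone_add_smul_right, map_add, map_smul, radial hs hΩ hy, smul_zero,
      add_zero]
  rw [h3, (h2 Ω hΩ n y hn hy).2 _ he]
  exact anti2 S n _ he _

lemma dN (hs : SmStmt S) (h2 : Om2Stmt S) {Ω : F} (hΩ : ∀ A α, S.am A α Ω = 0)
    {n : Fin 3 → ℝ} {y : Fin 9 → ℝ} (hy : 0 < rho6sq (cone n y))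
    (e : Fin 3 → ℝ) :
    (inner ℂ (S.om Ω (cone n y)) (fderiv ℝ (S.om Ω) (cone n y) (cone e y))).re = 0 := by
  have hn0 : 0 < ∑ A, n A ^ 2 := by
    have h0 : 0 ≤ ∑ A, n A ^ 2 := Finset.sum_nonneg fun _ _ => sq_nonneg _
    refine lt_of_le_of_ne h0 fun h => ?_
    rw [rho6sq_cone, ← h, zero_mul] at hy
    exact lt_irrefl _ hy
  obtain ⟨r, hr⟩ : ∃ r, r = Real.sqrt (∑ A, n A ^ 2) := ⟨_, rfl⟩
  have hr0 : 0 < r := by rw [hr]; exact Real.sqrt_pos.2 hn0
  have hr2 : r ^ 2 = ∑ A, n A ^ 2 := by rw [hr]; exact Real.sq_sqrt hn0.le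
  have e1 : cone n y = cone (r⁻¹ • n) (r • y) := by
    ext p
    simp only [cone, Pi.smul_apply, smul_eq_mul]
    field_simp
  have e2 : cone e y = cone (r⁻¹ • e) (r • y) := by
    ext p
    simp only [cone, Pi.smul_apply, smul_eq_mul]
    field_simp
  rw [e1] at hy ⊢
  rw [e2]
  refine dN1 hs h2 hΩ ?_ hy _
  simp only [Pi.smul_apply, smul_eq_mul, mul_pow, ← Finset.mul_sum, ← hr2]
  field_simp

/-! ### connectedness -/

/-- the subspace `y6 = 0` -/
noncomputable def E6 : Submodule ℝ (Fin 9 → ℝ) :=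
  LinearMap.ker (LinearMap.pi (fun i : {i : Fin 9 // 3 ≤ i.val} =>
    (LinearMap.proj i.1 : (Fin 9 → ℝ) →ₗ[ℝ] ℝ)))

lemma mem_E6 (y : Fin 9 → ℝ) : y ∈ E6 ↔ ∀ i : Fin 9, 3 ≤ i.val → y i = 0 := by
  unfold E6
  rw [LinearMap.mem_ker]
  constructor
  · intro h i hi
    exact congrFun h ⟨i, hi⟩
  · intro h
    funext i
    exact h i.1 i.2

lemma notMem_E6 {y : Fin 9 → ℝ} (hy : y ∉ E6) :
    0 < ∑ i : Fin 9, if 3 ≤ i.val then y i ^ 2 else 0 := by
  rw [mem_E6] at hy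
  push Not at hy
  obtain ⟨i, hi, hyi⟩ := hy
  refine Finset.sum_pos' (fun j _ => ?_) ⟨i, Finset.mem_univ _, ?_⟩
  · split_ifs
    · exact sq_nonneg _
    · exact le_rfl
  · rw [if_pos hi]; positivity

lemma E6_conn : IsConnected ((E6 : Set (Fin 9 → ℝ))ᶜ) := by
  apply isConnected_compl_of_one_lt_codim
  have hsurj : Function.Surjective (LinearMap.pi (fun i : {i : Fin 9 // 3 ≤ i.val} =>
      (LinearMap.proj i.1 : (Fin 9 → ℝ) →ₗ[ℝ] ℝ))) := by
    intro z
    refine ⟨fun i => if h : 3 ≤ i.val then z ⟨i, h⟩ else 0, ?_⟩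
    funext i
    simp [i.2]
  have e := LinearMap.quotKerEquivOfSurjective _ hsurj
  have h1 : Module.rank ℝ ((Fin 9 → ℝ) ⧸ E6) = Module.rank ℝ ({i : Fin 9 // 3 ≤ i.val} → ℝ) :=
    e.rank_eq
  rw [h1, rank_fun']
  have : Fintype.card {i : Fin 9 // 3 ≤ i.val} = 6 := by decide
  rw [this]
  norm_num

lemma const_y (hs : SmStmt S) (h2 : Om2Stmt S) {Ω : F} (hΩ : ∀ A α, S.am A α Ω = 0)
    {n : Fin 3 → ℝ} (hn : ∑ A, n A ^ 2 = 1) {y y' : Fin 9 → ℝ} (hy : y ∉ E6) (hy' : y' ∉ E6) :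
    ‖S.om Ω (cone n y)‖ ^ 2 = ‖S.om Ω (cone n y')‖ ^ 2 := by
  have hpos : ∀ z : Fin 9 → ℝ, z ∉ E6 → 0 < rho6sq (cone n z) := fun z hz => by
    rw [rho6sq_cone, hn, one_mul]; exact notMem_E6 hz
  have hd : ∀ z : Fin 9 → ℝ, z ∉ E6 →
      HasFDerivAt (fun z => ‖S.om Ω (cone n z)‖ ^ 2) (0 : (Fin 9 → ℝ) →L[ℝ] ℝ) z := by
    intro z hz
    obtain ⟨L, hL, hLv⟩ := hasFDerivAt_nsq (diff_om hs hΩ (hpos z hz))
    have h3 : HasFDerivAt (fun z => ‖S.om Ω (cone n z)‖ ^ 2) (L.comp (coneY n)) z :=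
      HasFDerivAt.comp (g := fun x => ‖S.om Ω x‖ ^ 2) z hL (coneY n).hasFDerivAt
    have h4 : L.comp (coneY n) = 0 := by
      ext v
      simp only [ContinuousLinearMap.comp_apply, _root_.zero_apply]
      rw [hLv, coneY_apply, dY hs h2 hΩ hn (hpos z hz), mul_zero]
    rwa [h4] at h3
  have hop : IsOpen ((E6 : Set (Fin 9 → ℝ))ᶜ) :=
    (Submodule.closed_of_finiteDimensional E6).isOpen_compl
  exact hop.is_const_of_fderiv_eq_zero E6_conn.isPreconnected
    (fun z hz => (hd z hz).differentiableAt.differentiableWithinAt)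
    (fun z hz => (hd z hz).fderiv) hy hy'

lemma const_n (hs : SmStmt S) (h2 : Om2Stmt S) {Ω : F} (hΩ : ∀ A α, S.am A α Ω = 0)
    {n n' : Fin 3 → ℝ} (hn : n ≠ 0) (hn' : n' ≠ 0) {y : Fin 9 → ℝ} (hy : y ∉ E6) :
    ‖S.om Ω (cone n y)‖ ^ 2 = ‖S.om Ω (cone n' y)‖ ^ 2 := by
  have hpos : ∀ z : Fin 3 → ℝ, z ≠ 0 → 0 < rho6sq (cone z y) := fun z hz => by
    rw [rho6sq_cone]
    refine mul_pos ?_ (notMem_E6 hy)
    obtain ⟨A, hA⟩ := Function.ne_iff.1 hz
    have hA' : z A ≠ 0 := hA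
    exact Finset.sum_pos' (fun _ _ => sq_nonneg _) ⟨A, Finset.mem_univ _, by positivity⟩
  have hd : ∀ z : Fin 3 → ℝ, z ≠ 0 →
      HasFDerivAt (fun z => ‖S.om Ω (cone z y)‖ ^ 2) (0 : (Fin 3 → ℝ) →L[ℝ] ℝ) z := by
    intro z hz
    obtain ⟨L, hL, hLv⟩ := hasFDerivAt_nsq (diff_om hs hΩ (hpos z hz))
    have h3 : HasFDerivAt (fun z => ‖S.om Ω (cone z y)‖ ^ 2) (L.comp (coneN y)) z :=
      HasFDerivAt.comp (g := fun x => ‖S.om Ω x‖ ^ 2) z hL (coneN y).hasFDerivAt
    have h4 : L.comp (coneN y) = 0 := by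
      ext v
      simp only [ContinuousLinearMap.comp_apply, _root_.zero_apply]
      rw [hLv, coneN_apply, dN hs h2 hΩ (hpos z hz), mul_zero]
    rwa [h4] at h3
  have hconn : IsConnected ({(0 : Fin 3 → ℝ)}ᶜ) :=
    isConnected_compl_singleton_of_one_lt_rank (by rw [rank_fun']; norm_num) 0
  exact isOpen_compl_singleton.is_const_of_fderiv_eq_zero hconn.isPreconnected
    (fun z hz => (hd z hz).differentiableAt.differentiableWithinAt)
    (fun z hz => (hd z hz).fderiv) hn hn'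

end ON

open ON in
/-- **D-norm** -/
theorem omNorm {F : Type*} [NormedAddCommGroup F] [InnerProductSpace ℂ F] {S : Setup F}
    (hs : SmStmt S) (h1 : Om1Stmt S) (h2 : Om2Stmt S) : OmNormStmt S := by
  intro Ω hΩ0 hΩ
  obtain ⟨n0, hn0⟩ : ∃ n0 : Fin 3 → ℝ, n0 = Pi.single 0 1 := ⟨_, rfl⟩
  obtain ⟨y0, hy0⟩ : ∃ y0 : Fin 9 → ℝ, y0 = Pi.single 3 1 := ⟨_, rfl⟩
  have hn01 : ∑ A, n0 A ^ 2 = 1 := by
    rw [hn0]; simp [Fin.sum_univ_three]
  have hy0E : y0 ∉ E6 := by
    rw [mem_E6]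
    push Not
    refine ⟨3, le_rfl, ?_⟩
    rw [hy0]; simp
  have hpos0 : 0 < rho6sq (cone n0 y0) := by
    rw [rho6sq_cone, hn01, one_mul]; exact notMem_E6 hy0E
  have hne : S.om Ω (cone n0 y0) ≠ 0 := by
    intro h0
    have h3 := (h1 Ω hΩ n0 y0 hn01 hpos0).2.2
    rw [h0, inner_zero_right] at h3
    have h4 : 0 < (rho6sq (cone n0 y0) / ry y0 ^ 2) ^ 2 / 16 := by
      have h5 : ry y0 ^ 2 = ∑ i, y0 i ^ 2 :=
        Real.sq_sqrt (Finset.sum_nonneg fun _ _ => sq_nonneg _)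
      have h6 := sum_y_pos hpos0
      rw [h5]
      positivity
    have h7 : 0 < ‖Ω‖ ^ 2 := by positivity
    rw [← Complex.ofReal_mul] at h3
    exact (mul_pos h4 h7).ne' (Complex.ofReal_eq_zero.1 h3.symm)
  refine ⟨‖S.om Ω (cone n0 y0)‖, norm_pos_iff.2 hne, fun n y hn hy => ?_⟩
  have hyE : y ∉ E6 := by
    intro hE
    rw [mem_E6] at hE
    rw [rho6sq_cone, hn, one_mul] at hy
    refine absurd hy (not_lt.2 (le_of_eq (Finset.sum_eq_zero fun i _ => ?_)))
    split_ifs with h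
    · rw [hE i h]; ring
    · rfl
  have hn0' : n0 ≠ 0 := by
    rintro h; rw [h] at hn01; simp at hn01
  have hn' : n ≠ 0 := by
    rintro h; rw [h] at hn; simp at hn
  have h3 := (const_n hs h2 hΩ hn' hn0' hyE).trans (const_y hs h2 hΩ hn01 hyE hy0E)
  exact (sq_eq_sq₀ (norm_nonneg _) (norm_nonneg _)).1 h3

end U
end Vale.Agent.P353
end
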