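import Mathlib
import Vale.Agent.P353.BdU.B2
import Vale.Agent.P353.BdU.B13
import Vale.Agent.P353.BdU.B5

set_option linter.all false

section

open MeasureTheory Filter Topology
open scoped ContDiff

namespace Vale.Agent.P353

variable {F : Type*} [NormedAddCommGroup F] [InnerProductSpace ℂ F]

namespace Setup

variable (S : Setup F) [CompleteSpace F]

lemma norm_Ut (k l : Fin 9) (t : ℝ) (u : X3 → F) (x : X3) :
    ‖S.Ut k l t u x‖ = ‖u (RR k l (-t) x)‖ := by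
  rw [Ut, S.st_norm]

lemma norm_J_Ut {k l : Fin 9} (h : k ≠ l) (t : ℝ) {u : X3 → F} (hu : Differentiable ℝ u) (x : X3) :
    ‖S.J k l (S.Ut k l t u) x‖ = ‖S.J k l u (RR k l (-t) x)‖ := by
  rw [S.J_Ut h t hu, S.st_norm]

/-- radial weights are invariant -/
lemma integral_Ut {k l : Fin 9} (h : k ≠ l) (t : ℝ) (u : X3 → F) (φ : ℝ → ℝ) :
    ∫ x, φ ‖x‖ * ‖S.Ut k l t u x‖ ^ 2 = ∫ x, φ ‖x‖ * ‖u x‖ ^ 2 := by
  rw [← integral_comp_RR h (-t) (fun x => φ ‖x‖ * ‖u x‖ ^ 2)]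
  congr 1
  ext x
  rw [S.norm_Ut, RR_norm h]

lemma integral_Ut' {k l : Fin 9} (h : k ≠ l) (t : ℝ) (u : X3 → F) :
    ∫ x, ‖S.Ut k l t u x‖ ^ 2 = ∫ x, ‖u x‖ ^ 2 := by
  have := S.integral_Ut h t u (fun _ => 1)
  simpa using this

/-- adjoint of the rotation -/
lemma inner_Ut {k l : Fin 9} (h : k ≠ l) (t : ℝ) (u v : X3 → F) :
    ∫ x, inner ℂ (S.Ut k l t u x) (v x) = ∫ x, inner ℂ (u x) (S.Ut k l (-t) v x) := by
  rw [← integral_comp_RR h (-t) (fun x => inner ℂ (u x) (S.Ut k l (-t) v x))]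
  congr 1
  ext x
  rw [Ut, Ut, S.st_adj, neg_neg, RR_cancel_neg h]

lemma hasDerivAt_integral_Ut {k l : Fin 9} (h : k ≠ l) {g : X3 → F}
    (hg : LocallyIntegrable g (volume : Measure X3)) {ζ : X3 → F} (hζ : Tst ζ) (t : ℝ) :
    HasDerivAt (fun t => ∫ x, inner ℂ (g x) (S.Ut k l t ζ x))
      (∫ x, inner ℂ (g x) (Complex.I • S.J k l (S.Ut k l t ζ) x)) t := by
  obtain ⟨C, r, hC, hr, hb, hz⟩ := (hζ.J S k l).exists_bound
  obtain ⟨C', r', hC', hr', hb', hz'⟩ := hζ.exists_bound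
  have hgi : ∀ r : ℝ, Integrable (fun x => (Metric.closedBall (0 : X3) r).indicator
      (fun x => ‖g x‖) x) := by
    intro r
    rw [integrable_indicator_iff Metric.isClosed_closedBall.measurableSet]
    exact (hg.integrableOn_isCompact (isCompact_closedBall _ _)).norm
  have hdiff : Differentiable ℝ ζ := hζ.1.differentiable (by simp)
  refine (hasDerivAt_integral_of_dominated_loc_of_deriv_le (s := Set.univ)
    (bound := fun x => C * (Metric.closedBall (0 : X3) r).indicator (fun x => ‖g x‖) x)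
    (F := fun t x => inner ℂ (g x) (S.Ut k l t ζ x))
    (F' := fun t x => inner ℂ (g x) (Complex.I • S.J k l (S.Ut k l t ζ) x))
    Filter.univ_mem ?_ ?_ ?_ ?_ ?_ ?_).2
  · refine Filter.Eventually.of_forall fun s => ?_
    exact hg.aestronglyMeasurable.inner (S.contDiff_Ut k l s hζ.1).continuous.aestronglyMeasurable
  · refine Integrable.mono' ((hgi r').const_mul C')
      (hg.aestronglyMeasurable.inner (S.contDiff_Ut k l t hζ.1).continuous.aestronglyMeasurable) ?_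
    refine Filter.Eventually.of_forall fun x => ?_
    refine (norm_inner_le_norm _ _).trans ?_
    rw [S.norm_Ut]
    by_cases hx : x ∈ Metric.closedBall (0 : X3) r'
    · rw [Set.indicator_of_mem hx, mul_comm]
      exact mul_le_mul_of_nonneg_right (hb' _) (norm_nonneg _)
    · rw [Set.indicator_of_notMem hx, hz', norm_zero, mul_zero, mul_zero]
      rw [RR_norm h]
      simpa using hx
  · exact hg.aestronglyMeasurable.inner
      ((S.contDiff_J k l (S.contDiff_Ut k l t hζ.1)).const_smul Complex.I).continuous.aestronglyMeasurable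
  · refine Filter.Eventually.of_forall fun x s _ => ?_
    refine (norm_inner_le_norm _ _).trans ?_
    rw [norm_smul, Complex.norm_I, one_mul, S.norm_J_Ut h s hdiff]
    by_cases hx : x ∈ Metric.closedBall (0 : X3) r
    · rw [Set.indicator_of_mem hx, mul_comm]
      exact mul_le_mul_of_nonneg_right (hb _) (norm_nonneg _)
    · rw [Set.indicator_of_notMem hx, hz, norm_zero, mul_zero, mul_zero]
      rw [RR_norm h]
      simpa using hx
  · exact (hgi r).const_mul C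
  · refine Filter.Eventually.of_forall fun x s _ => ?_
    have h1 := (hasDerivAt_const s (g x)).inner ℂ (S.hasDerivAt_Ut h s hdiff x)
    refine h1.congr_deriv ?_
    rw [inner_zero_left, add_zero]

end Setup

/-! ### bounds for linear multipliers -/

section MJ

lemma contDiff_MJ (S : Setup F) (k l : Fin 9) (b : Fin 16) : ContDiff ℝ ∞ (S.MJ k l b) := by
  unfold Setup.MJ
  refine ContDiff.add (ContDiff.const_smul _ (ContDiff.sum fun A _ => ContDiff.sub ?_ ?_))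
    (ContDiff.const_smul _ (ContDiff.sum fun j _ => ContDiff.sum fun A _ => ?_))
  · exact (Setup.contDiff_ofReal (Setup.contDiff_coord _)).smul contDiff_const
  · exact (Setup.contDiff_ofReal (Setup.contDiff_coord _)).smul contDiff_const
  · exact (Setup.contDiff_ofReal (Setup.contDiff_coord _)).smul contDiff_const

lemma coord_le_norm (p : Fin 9 × Fin 3) (x : X3) : ‖((x p : ℝ) : ℂ)‖ ≤ ‖x‖ := by
  rw [Complex.norm_real]
  exact PiLp.norm_apply_le x p

lemma MJ_bound (S : Setup F) (k l : Fin 9) (b : Fin 16) :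
    ∃ C : ℝ, 0 ≤ C ∧ ∀ x, ‖S.MJ k l b x‖ ≤ C * ‖x‖ := by
  refine ⟨9 * ∑ A, (‖S.vec (S.g l) A b‖ + ‖S.vec (S.g k) A b‖) +
    2 * ∑ j, ∑ A, ‖S.vec (S.g2 k l * S.g j) A b‖, by positivity, fun x => ?_⟩
  have hs : ∀ (p : Fin 9 × Fin 3) (T : F →L[ℂ] F), ‖((x p : ℝ) : ℂ) • T‖ ≤ ‖T‖ * ‖x‖ := by
    intro p T
    rw [norm_smul, mul_comm]
    exact mul_le_mul_of_nonneg_left (coord_le_norm p x) (norm_nonneg _)
  unfold Setup.MJ
  refine (norm_add_le _ _).trans ?_
  rw [norm_smul, norm_smul, add_mul]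
  have h9 : ‖(9 : ℂ)‖ = 9 := by norm_num
  have h2 : ‖(2 : ℂ)‖ = 2 := by norm_num
  rw [h9, h2, mul_assoc, mul_assoc]
  refine add_le_add (mul_le_mul_of_nonneg_left ?_ (by norm_num))
    (mul_le_mul_of_nonneg_left ?_ (by norm_num))
  · rw [Finset.sum_mul]
    refine (norm_sum_le _ _).trans (Finset.sum_le_sum fun A _ => ?_)
    rw [add_mul]
    exact (norm_sub_le _ _).trans (add_le_add (hs _ _) (hs _ _))
  · rw [Finset.sum_mul]
    refine (norm_sum_le _ _).trans (Finset.sum_le_sum fun j _ => ?_)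
    rw [Finset.sum_mul]
    exact (norm_sum_le _ _).trans (Finset.sum_le_sum fun A _ => hs _ _)

end MJ

namespace Setup

variable (S : Setup F) [CompleteSpace F]

omit [CompleteSpace F] in
lemma gt_bound (k l : Fin 9) : ∃ C : ℝ, 0 ≤ C ∧ ∀ t b c, ‖S.gt k l t b c‖ ≤ C := by
  refine ⟨1 + ∑ b, ∑ c, ‖S.g2 k l b c‖, by positivity, fun t b c => ?_⟩
  simp only [gt, Matrix.add_apply, Matrix.smul_apply, smul_eq_mul]
  refine (norm_add_le _ _).trans (add_le_add ?_ ?_)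
  · rw [norm_mul, Complex.norm_real, Real.norm_eq_abs]
    have h1 : ‖(1 : Matrix (Fin 16) (Fin 16) ℂ) b c‖ ≤ 1 := by
      rw [Matrix.one_apply]
      split_ifs <;> simp
    exact mul_le_one₀ (Real.abs_cos_le_one _) (norm_nonneg _) h1
  · rw [norm_mul, Complex.norm_real, Real.norm_eq_abs]
    have h1 : ‖S.g2 k l b c‖ ≤ ∑ b, ∑ c, ‖S.g2 k l b c‖ := by
      refine le_trans ?_ (Finset.single_le_sum (f := fun b => ∑ c, ‖S.g2 k l b c‖)
        (fun _ _ => by positivity) (Finset.mem_univ b))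
      exact Finset.single_le_sum (f := fun c => ‖S.g2 k l b c‖)
        (fun _ _ => by positivity) (Finset.mem_univ c)
    calc |Real.sin (t / 2)| * ‖S.g2 k l b c‖ ≤ 1 * ‖S.g2 k l b c‖ := by
          gcongr; exact Real.abs_sin_le_one _
      _ ≤ _ := by rw [one_mul]; exact h1

/-- `Q` of a rotated function is controlled -/
lemma integral_Q_Ut {k l : Fin 9} (h : k ≠ l) : ∃ C : ℝ, 0 ≤ C ∧ ∀ (t : ℝ) (u : X3 → F), Tst u →
    ∀ b, ∫ x, ‖S.Q b (S.Ut k l t u) x‖ ^ 2 ≤ C * ∑ c, ∫ x, ‖S.Q c u x‖ ^ 2 := by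
  obtain ⟨C, hC, hb⟩ := S.gt_bound k l
  refine ⟨16 * C ^ 2, by positivity, fun t u hu b => ?_⟩
  have hdiff : Differentiable ℝ u := hu.1.differentiable (by simp)
  have hpt : ∀ x, ‖S.Q b (S.Ut k l t u) x‖ ^ 2 ≤
      ∑ c, (16 * C ^ 2) * ‖S.Q c u (RR k l (-t) x)‖ ^ 2 := by
    intro x
    rw [S.Q_Ut h t hdiff b x, S.st_norm]
    have h1 : ‖∑ c, S.gt k l t b c • S.Q c u (RR k l (-t) x)‖ ≤
        ∑ c, C * ‖S.Q c u (RR k l (-t) x)‖ := by
      refine (norm_sum_le _ _).trans (Finset.sum_le_sum fun c _ => ?_)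
      rw [norm_smul]
      exact mul_le_mul_of_nonneg_right (hb t b c) (norm_nonneg _)
    calc ‖∑ c, S.gt k l t b c • S.Q c u (RR k l (-t) x)‖ ^ 2 ≤
        (∑ c, C * ‖S.Q c u (RR k l (-t) x)‖) ^ 2 := by gcongr
      _ ≤ (Finset.univ : Finset (Fin 16)).card * ∑ c, (C * ‖S.Q c u (RR k l (-t) x)‖) ^ 2 :=
          sq_sum_le_card_mul_sum_sq
      _ = _ := by
          rw [Finset.card_univ, Fintype.card_fin, Finset.mul_sum]
          refine Finset.sum_congr rfl fun c _ => ?_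
          push_cast
          ring
  have hcomp : ∀ c, Integrable (fun x => ‖S.Q c u (RR k l (-t) x)‖ ^ 2) := by
    intro c
    have h1 := (hu.Q S c).norm_sq_int
    have h2 := (RI h (-t)).measurePreserving.integrable_comp_emb
      (RI h (-t)).toHomeomorph.measurableEmbedding (g := fun x => ‖S.Q c u x‖ ^ 2)
    exact h2.mpr h1
  calc ∫ x, ‖S.Q b (S.Ut k l t u) x‖ ^ 2 ≤ ∫ x, ∑ c, (16 * C ^ 2) * ‖S.Q c u (RR k l (-t) x)‖ ^ 2 :=
        integral_mono ((hu.Ut S h t).Q S b).norm_sq_int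
          (integrable_finsetSum _ fun c _ => (hcomp c).const_mul _) hpt
    _ = ∑ c, (16 * C ^ 2) * ∫ x, ‖S.Q c u x‖ ^ 2 := by
        rw [integral_finsetSum _ fun c _ => (hcomp c).const_mul _]
        refine Finset.sum_congr rfl fun c _ => ?_
        rw [integral_const_mul, integral_comp_RR h (-t) (fun x => ‖S.Q c u x‖ ^ 2)]
    _ = _ := by rw [Finset.mul_sum]

end Setup

end Vale.Agent.P353
end

section

open MeasureTheory Filter Topology
open scoped ContDiff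

namespace Vale.Agent.P353

variable {F : Type*} [NormedAddCommGroup F] [InnerProductSpace ℂ F]

lemma young {δ : ℝ} (hδ : 0 < δ) (a b : ℝ) : 2 * (a * b) ≤ a ^ 2 / δ + δ * b ^ 2 := by
  have h := sq_nonneg (a - δ * b)
  rw [div_add' _ _ _ hδ.ne', le_div_iff₀ hδ]
  nlinarith

/-- the exact identity for `J` -/
def JExact (S : Setup F) (k l : Fin 9) : Prop :=
  ∀ (u : X3 → F) (x : X3), DifferentiableAt ℝ u x →
    (112 : ℂ) • S.J k l u x = ∑ β, S.Q β (fun y => S.MJ k l β y (u y)) x +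
      ∑ β, S.MJ k l β x (S.Q β u x)

lemma jExact (S : Setup F) {k l : Fin 9} (h : k ≠ l) : JExact S k l :=
  fun u x hu => S.J_exact k l h u x hu

/-- indicator of the exterior region as a radial function -/
noncomputable def wR (R s : ℝ) : ℝ := if R ≤ s then 1 else 0

lemma wR_nonneg (R s : ℝ) : 0 ≤ wR R s := by
  unfold wR; split_ifs <;> norm_num

lemma wR_le_one (R s : ℝ) : wR R s ≤ 1 := by
  unfold wR; split_ifs <;> norm_num

omit [InnerProductSpace ℂ F] in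
lemma integrable_wR (R : ℝ) {f : X3 → F} (hf : Integrable (fun x => ‖f x‖ ^ 2)) :
    Integrable (fun x => wR R ‖x‖ * ‖f x‖ ^ 2) := by
  have h1 : (fun x => wR R ‖x‖ * ‖f x‖ ^ 2) = (fun x =>
      Set.indicator {x : X3 | R ≤ ‖x‖} (fun x => ‖f x‖ ^ 2) x) := by
    ext x
    by_cases hx : R ≤ ‖x‖
    · rw [Set.indicator_of_mem (by exact hx), wR, if_pos hx, one_mul]
    · rw [Set.indicator_of_notMem (by exact hx), wR, if_neg hx, zero_mul]
  rw [h1]
  exact hf.indicator (isClosed_le continuous_const continuous_norm).measurableSet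

namespace Setup

variable (S : Setup F)

/-- pointwise bound for `|x| |Q (χ u)|` -/
lemma norm_Q_cut {K R : ℝ} (hR : 0 < R) {χ : X3 → ℝ} (hχ : IsCut K R χ) {u : X3 → F}
    (hu : Tst u) (b : Fin 16) (x : X3) :
    ‖x‖ * ‖S.Q b (fun y => ((χ y : ℝ) : ℂ) • u y) x‖ ≤ 2 * R * ‖S.Q b u x‖ +
      K * (∑ i, ∑ A, ‖S.vec (S.g i) A b‖) * (wR R ‖x‖ * ‖u x‖) := by
  obtain ⟨hsm, hcs, h0, h1, hin, hout, hgrad, hgrad0⟩ := hχ
  rw [Q_smul S b χ u x (hsm.differentiable (by simp) x) (hu.diff x)]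
  have hχx : χ x * ‖x‖ ≤ 2 * R := by
    by_cases hx : 2 * R ≤ ‖x‖
    · rw [hout x hx, zero_mul]; positivity
    · push Not at hx
      calc χ x * ‖x‖ ≤ 1 * ‖x‖ := mul_le_mul_of_nonneg_right (h1 x) (norm_nonneg _)
        _ ≤ 2 * R := by linarith
  have hg : ∀ i A, |pdr i A χ x| * ‖x‖ ≤ K * wR R ‖x‖ := by
    intro i A
    by_cases hx : R ≤ ‖x‖
    · rw [wR, if_pos hx, mul_one]; exact hgrad i A x
    · push Not at hx
      rw [hgrad0 i A x hx, abs_zero, zero_mul, wR, if_neg (not_le.mpr hx), mul_zero]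
  have e1 : ‖((χ x : ℝ) : ℂ) • S.Q b u x‖ = χ x * ‖S.Q b u x‖ := by
    rw [norm_smul, Complex.norm_real, Real.norm_of_nonneg (h0 x)]
  have e2 : ‖Complex.I • ∑ i, ∑ A, ((pdr i A χ x : ℝ) : ℂ) • S.vec (S.g i) A b (u x)‖ ≤
      ∑ i, ∑ A, |pdr i A χ x| * (‖S.vec (S.g i) A b‖ * ‖u x‖) := by
    rw [norm_smul, Complex.norm_I, one_mul]
    refine (norm_sum_le _ _).trans (Finset.sum_le_sum fun i _ => ?_)
    refine (norm_sum_le _ _).trans (Finset.sum_le_sum fun A _ => ?_)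
    rw [norm_smul, Complex.norm_real, Real.norm_eq_abs]
    exact mul_le_mul_of_nonneg_left (ContinuousLinearMap.le_opNorm _ _) (abs_nonneg _)
  calc ‖x‖ * ‖((χ x : ℝ) : ℂ) • S.Q b u x -
        Complex.I • ∑ i, ∑ A, ((pdr i A χ x : ℝ) : ℂ) • S.vec (S.g i) A b (u x)‖
      ≤ ‖x‖ * (χ x * ‖S.Q b u x‖ + ∑ i, ∑ A, |pdr i A χ x| * (‖S.vec (S.g i) A b‖ * ‖u x‖)) := by
        refine mul_le_mul_of_nonneg_left ?_ (norm_nonneg _)
        refine (norm_sub_le _ _).trans ?_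
        rw [e1]
        exact add_le_add le_rfl e2
    _ = (χ x * ‖x‖) * ‖S.Q b u x‖ + ∑ i, ∑ A, (|pdr i A χ x| * ‖x‖) *
          (‖S.vec (S.g i) A b‖ * ‖u x‖) := by
        rw [mul_add, Finset.mul_sum]
        congr 1
        · ring
        · refine Finset.sum_congr rfl fun i _ => ?_
          rw [Finset.mul_sum]
          refine Finset.sum_congr rfl fun A _ => ?_
          ring
    _ ≤ 2 * R * ‖S.Q b u x‖ + ∑ i, ∑ A, (K * wR R ‖x‖) *
          (‖S.vec (S.g i) A b‖ * ‖u x‖) := by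
        refine add_le_add (mul_le_mul_of_nonneg_right hχx (norm_nonneg _))
          (Finset.sum_le_sum fun i _ => Finset.sum_le_sum fun A _ => ?_)
        exact mul_le_mul_of_nonneg_right (hg i A) (by positivity)
    _ = _ := by
        simp only [← Finset.mul_sum, ← Finset.sum_mul]
        ring

variable [CompleteSpace F]

lemma deriv_bound {k l : Fin 9} (h : k ≠ l) (hJ : JExact S k l) {K0 : ℝ} (hK0 : 0 ≤ K0) :
    ∃ K : ℝ, 0 ≤ K ∧ ∀ u : X3 → F, Tst u → ∀ R : ℝ, 0 < R → ∀ δ : ℝ, 0 < δ →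
      ∀ χ : X3 → ℝ, IsCut K0 R χ → ∀ t : ℝ,
      ‖∫ x, inner ℂ (((χ x : ℝ) : ℂ) • u x) (S.J k l (S.Ut k l t u) x)‖ ≤
        K * (R * ((∑ b, ∫ x, ‖S.Q b u x‖ ^ 2) / δ + δ * ∫ x, ‖u x‖ ^ 2) +
          ∫ x, wR R ‖x‖ * ‖u x‖ ^ 2) := by
  choose Cb hCb0 hCb using MJ_bound S k l
  obtain ⟨Cg, hCg, hg⟩ := S.integral_Q_Ut h
  let Gb : Fin 16 → ℝ := fun b => ∑ i, ∑ A, ‖S.vec (S.g i) A b‖
  have hGb : ∀ b, 0 ≤ Gb b := fun b => by positivity
  refine ⟨∑ b, (Cb b * (1 + K0 * Gb b) + Cb b * (1 + Cg)), ?_, ?_⟩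
  · refine Finset.sum_nonneg fun b _ => ?_
    have := hCb0 b
    have := hGb b
    positivity
  intro u hu R hR δ hδ χ hχ t
  set v := S.Ut k l t u with hv
  have hvT : Tst v := hu.Ut S h t
  set q := ∑ b, ∫ x, ‖S.Q b u x‖ ^ 2 with hq
  set a := ∫ x, ‖u x‖ ^ 2 with ha
  set e := ∫ x, wR R ‖x‖ * ‖u x‖ ^ 2 with he
  have hχs : ContDiff ℝ ∞ χ := hχ.1
  have hχ0 := hχ.2.2.1
  have hχ1 := hχ.2.2.2.1
  have hχout := hχ.2.2.2.2.2.1
  have hcu : Tst (fun x => ((χ x : ℝ) : ℂ) • u x) := hu.rsmul hχs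
  have hMv : ∀ b, ContDiff ℝ ∞ (fun y => S.MJ k l b y (v y)) := fun b =>
    contDiff_clm_apply' (contDiff_MJ S k l b) hvT.1
  have hMQ : ∀ b, ContDiff ℝ ∞ (fun y => S.MJ k l b y (S.Q b v y)) := fun b =>
    contDiff_clm_apply' (contDiff_MJ S k l b) (hvT.Q S b).1
  have hq0 : ∀ b, 0 ≤ ∫ x, ‖S.Q b u x‖ ^ 2 := fun b => integral_nonneg fun x => by positivity
  have hqb : ∀ b, ∫ x, ‖S.Q b u x‖ ^ 2 ≤ q := fun b =>
    Finset.single_le_sum (f := fun b => ∫ x, ‖S.Q b u x‖ ^ 2) (fun b _ => hq0 b)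
      (Finset.mem_univ b)
  have hqn : 0 ≤ q := Finset.sum_nonneg fun b _ => hq0 b
  have ha0 : 0 ≤ a := integral_nonneg fun x => by positivity
  have he0 : 0 ≤ e := integral_nonneg fun x => mul_nonneg (wR_nonneg _ _) (by positivity)
  have hva : ∫ x, ‖v x‖ ^ 2 = a := S.integral_Ut' h t u
  have hve : ∫ x, wR R ‖x‖ * ‖v x‖ ^ 2 = e := S.integral_Ut h t u (wR R)
  -- the identity
  have hid : (112 : ℂ) * ∫ x, inner ℂ (((χ x : ℝ) : ℂ) • u x) (S.J k l v x) =
      ∑ b, ((∫ x, inner ℂ (S.Q b (fun y => ((χ y : ℝ) : ℂ) • u y) x) (S.MJ k l b x (v x))) +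
        ∫ x, inner ℂ (((χ x : ℝ) : ℂ) • u x) (S.MJ k l b x (S.Q b v x))) := by
    have h1 : ∀ x, (112 : ℂ) * inner ℂ (((χ x : ℝ) : ℂ) • u x) (S.J k l v x) =
        ∑ b, (inner ℂ (((χ x : ℝ) : ℂ) • u x) (S.Q b (fun y => S.MJ k l b y (v y)) x) +
          inner ℂ (((χ x : ℝ) : ℂ) • u x) (S.MJ k l b x (S.Q b v x))) := by
      intro x
      rw [← inner_smul_right, hJ v x (hvT.diff x), inner_add_right, inner_sum, inner_sum,
        Finset.sum_add_distrib]
    rw [← integral_const_mul]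
    simp only [h1]
    rw [integral_finsetSum]
    · refine Finset.sum_congr rfl fun b _ => ?_
      rw [integral_add]
      · rw [Q_symm S b _ _ hcu (hMv b)]
      · exact hcu.inner_int (S.contDiff_Q b (hMv b)).continuous
      · exact hcu.inner_int (hMQ b).continuous
    · intro b _
      exact (hcu.inner_int (S.contDiff_Q b (hMv b)).continuous).add
        (hcu.inner_int (hMQ b).continuous)
  -- first term
  have ht1 : ∀ b, ‖∫ x, inner ℂ (S.Q b (fun y => ((χ y : ℝ) : ℂ) • u y) x)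
      (S.MJ k l b x (v x))‖ ≤ (Cb b * (1 + K0 * Gb b)) * (R * (q / δ + δ * a) + e) := by
    intro b
    have hpt : ∀ x, ‖inner ℂ (S.Q b (fun y => ((χ y : ℝ) : ℂ) • u y) x) (S.MJ k l b x (v x))‖ ≤
        Cb b * (R * (‖S.Q b u x‖ ^ 2 / δ + δ * ‖v x‖ ^ 2) +
          K0 * Gb b * (1 / 2 * (wR R ‖x‖ * ‖u x‖ ^ 2 + wR R ‖x‖ * ‖v x‖ ^ 2))) := by
      intro x
      refine (norm_inner_le_norm _ _).trans ?_
      have h1 : ‖S.MJ k l b x (v x)‖ ≤ Cb b * ‖x‖ * ‖v x‖ :=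
        (ContinuousLinearMap.le_opNorm _ _).trans
          (mul_le_mul_of_nonneg_right (hCb b x) (norm_nonneg _))
      have h2 := S.norm_Q_cut hR hχ hu b x
      have h3 := young hδ ‖S.Q b u x‖ ‖v x‖
      have h4 : ‖u x‖ * ‖v x‖ ≤ 1 / 2 * (‖u x‖ ^ 2 + ‖v x‖ ^ 2) := by
        nlinarith [sq_nonneg (‖u x‖ - ‖v x‖)]
      calc ‖S.Q b (fun y => ((χ y : ℝ) : ℂ) • u y) x‖ * ‖S.MJ k l b x (v x)‖
          ≤ ‖S.Q b (fun y => ((χ y : ℝ) : ℂ) • u y) x‖ * (Cb b * ‖x‖ * ‖v x‖) :=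
            mul_le_mul_of_nonneg_left h1 (norm_nonneg _)
        _ = Cb b * ((‖x‖ * ‖S.Q b (fun y => ((χ y : ℝ) : ℂ) • u y) x‖) * ‖v x‖) := by ring
        _ ≤ Cb b * ((2 * R * ‖S.Q b u x‖ + K0 * Gb b * (wR R ‖x‖ * ‖u x‖)) * ‖v x‖) :=
            mul_le_mul_of_nonneg_left (mul_le_mul_of_nonneg_right h2 (norm_nonneg _)) (hCb0 b)
        _ = Cb b * (R * (2 * (‖S.Q b u x‖ * ‖v x‖)) +
              K0 * Gb b * (wR R ‖x‖ * (‖u x‖ * ‖v x‖))) := by ring
        _ ≤ Cb b * (R * (‖S.Q b u x‖ ^ 2 / δ + δ * ‖v x‖ ^ 2) +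
              K0 * Gb b * (wR R ‖x‖ * (1 / 2 * (‖u x‖ ^ 2 + ‖v x‖ ^ 2)))) := by
            refine mul_le_mul_of_nonneg_left (add_le_add (mul_le_mul_of_nonneg_left h3 hR.le)
              (mul_le_mul_of_nonneg_left (mul_le_mul_of_nonneg_left h4 (wR_nonneg _ _))
                (mul_nonneg hK0 (hGb b)))) (hCb0 b)
        _ = _ := by ring
    have i1 : Integrable (fun x => ‖S.Q b u x‖ ^ 2 / δ) := (hu.Q S b).norm_sq_int.div_const δ
    have i2 : Integrable (fun x => δ * ‖v x‖ ^ 2) := hvT.norm_sq_int.const_mul δ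
    have i3 : Integrable (fun x => wR R ‖x‖ * ‖u x‖ ^ 2) := integrable_wR R hu.norm_sq_int
    have i4 : Integrable (fun x => wR R ‖x‖ * ‖v x‖ ^ 2) := integrable_wR R hvT.norm_sq_int
    have i5 : Integrable (fun x => ‖S.Q b u x‖ ^ 2 / δ + δ * ‖v x‖ ^ 2) := i1.add i2
    have i6 : Integrable (fun x => wR R ‖x‖ * ‖u x‖ ^ 2 + wR R ‖x‖ * ‖v x‖ ^ 2) := i3.add i4
    have i7 : Integrable (fun x => K0 * Gb b * (1 / 2 * (wR R ‖x‖ * ‖u x‖ ^ 2 +
        wR R ‖x‖ * ‖v x‖ ^ 2))) := (i6.const_mul _).const_mul _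
    have i8 : Integrable (fun x => R * (‖S.Q b u x‖ ^ 2 / δ + δ * ‖v x‖ ^ 2)) := i5.const_mul _
    refine (norm_integral_le_integral_norm _).trans ?_
    calc ∫ x, ‖inner ℂ (S.Q b (fun y => ((χ y : ℝ) : ℂ) • u y) x) (S.MJ k l b x (v x))‖
        ≤ ∫ x, Cb b * (R * (‖S.Q b u x‖ ^ 2 / δ + δ * ‖v x‖ ^ 2) +
          K0 * Gb b * (1 / 2 * (wR R ‖x‖ * ‖u x‖ ^ 2 + wR R ‖x‖ * ‖v x‖ ^ 2))) :=
          integral_mono ((hcu.Q S b).inner_int (hMv b).continuous).norm
            ((i8.add i7).const_mul _) hpt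
      _ = Cb b * (R * ((∫ x, ‖S.Q b u x‖ ^ 2) / δ + δ * a) + K0 * Gb b * e) := by
          rw [integral_const_mul, integral_add i8 i7, integral_const_mul, integral_const_mul,
            integral_const_mul, integral_add i1 i2, integral_add i3 i4, integral_div,
            integral_const_mul, hva, hve]
          ring
      _ ≤ Cb b * (R * (q / δ + δ * a) + K0 * Gb b * e) := by
          have := hqb b
          have := hCb0 b
          gcongr
      _ ≤ _ := by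
          have h1 : 0 ≤ R * (q / δ + δ * a) := by positivity
          have h2 := hCb0 b
          have h3 := mul_nonneg hK0 (hGb b)
          have h4 : 0 ≤ Cb b * (K0 * Gb b * (R * (q / δ + δ * a)) + e) := by positivity
          nlinarith [h4]
  -- second term
  have ht2 : ∀ b, ‖∫ x, inner ℂ (((χ x : ℝ) : ℂ) • u x) (S.MJ k l b x (S.Q b v x))‖ ≤
      (Cb b * (1 + Cg)) * (R * (q / δ + δ * a) + e) := by
    intro b
    have hpt : ∀ x, ‖inner ℂ (((χ x : ℝ) : ℂ) • u x) (S.MJ k l b x (S.Q b v x))‖ ≤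
        Cb b * (R * (‖S.Q b v x‖ ^ 2 / δ + δ * ‖u x‖ ^ 2)) := by
      intro x
      refine (norm_inner_le_norm _ _).trans ?_
      have h1 : ‖S.MJ k l b x (S.Q b v x)‖ ≤ Cb b * ‖x‖ * ‖S.Q b v x‖ :=
        (ContinuousLinearMap.le_opNorm _ _).trans
          (mul_le_mul_of_nonneg_right (hCb b x) (norm_nonneg _))
      have hχx : χ x * ‖x‖ ≤ 2 * R := by
        by_cases hx : 2 * R ≤ ‖x‖
        · rw [hχout x hx, zero_mul]; positivity
        · push Not at hx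
          calc χ x * ‖x‖ ≤ 1 * ‖x‖ := mul_le_mul_of_nonneg_right (hχ1 x) (norm_nonneg _)
            _ ≤ 2 * R := by linarith
      have h3 := young hδ ‖S.Q b v x‖ ‖u x‖
      rw [norm_smul, Complex.norm_real, Real.norm_of_nonneg (hχ0 x)]
      calc χ x * ‖u x‖ * ‖S.MJ k l b x (S.Q b v x)‖
          ≤ χ x * ‖u x‖ * (Cb b * ‖x‖ * ‖S.Q b v x‖) :=
            mul_le_mul_of_nonneg_left h1 (mul_nonneg (hχ0 x) (norm_nonneg _))
        _ = Cb b * ((χ x * ‖x‖) * (‖S.Q b v x‖ * ‖u x‖)) := by ring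
        _ ≤ Cb b * ((2 * R) * (‖S.Q b v x‖ * ‖u x‖)) :=
            mul_le_mul_of_nonneg_left (mul_le_mul_of_nonneg_right hχx (by positivity)) (hCb0 b)
        _ = Cb b * (R * (2 * (‖S.Q b v x‖ * ‖u x‖))) := by ring
        _ ≤ _ := mul_le_mul_of_nonneg_left (mul_le_mul_of_nonneg_left h3 hR.le) (hCb0 b)
    have i1 : Integrable (fun x => ‖S.Q b v x‖ ^ 2 / δ) := (hvT.Q S b).norm_sq_int.div_const δ
    have i2 : Integrable (fun x => δ * ‖u x‖ ^ 2) := hu.norm_sq_int.const_mul δ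
    refine (norm_integral_le_integral_norm _).trans ?_
    calc ∫ x, ‖inner ℂ (((χ x : ℝ) : ℂ) • u x) (S.MJ k l b x (S.Q b v x))‖
        ≤ ∫ x, Cb b * (R * (‖S.Q b v x‖ ^ 2 / δ + δ * ‖u x‖ ^ 2)) :=
          integral_mono (hcu.inner_int (hMQ b).continuous).norm
            (((i1.add i2).const_mul _).const_mul _) hpt
      _ = Cb b * (R * ((∫ x, ‖S.Q b v x‖ ^ 2) / δ + δ * a)) := by
          rw [integral_const_mul, integral_const_mul, integral_add i1 i2, integral_div,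
            integral_const_mul]
      _ ≤ Cb b * (R * (Cg * q / δ + δ * a)) := by
          have h1 := hg t u hu b
          have h2 := hCb0 b
          gcongr
      _ ≤ _ := by
          have h2 := hCb0 b
          have h4 : 0 ≤ Cb b * (R * (q / δ + Cg * (δ * a)) + (1 + Cg) * e) := by positivity
          have h5 : Cg * q / δ = Cg * (q / δ) := by ring
          rw [h5]
          nlinarith [h4]
  -- conclusion
  have hfin : ‖(112 : ℂ) * ∫ x, inner ℂ (((χ x : ℝ) : ℂ) • u x) (S.J k l v x)‖ ≤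
      (∑ b, (Cb b * (1 + K0 * Gb b) + Cb b * (1 + Cg))) * (R * (q / δ + δ * a) + e) := by
    rw [hid, Finset.sum_mul]
    refine (norm_sum_le _ _).trans (Finset.sum_le_sum fun b _ => ?_)
    refine (norm_add_le _ _).trans ?_
    rw [add_mul]
    exact add_le_add (ht1 b) (ht2 b)
  refine le_trans ?_ hfin
  rw [norm_mul]
  have h112 : ‖(112 : ℂ)‖ = 112 := by norm_num
  rw [h112]
  nlinarith [norm_nonneg (∫ x, inner ℂ (((χ x : ℝ) : ℂ) • u x) (S.J k l v x))]

end Setup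

end Vale.Agent.P353
end

section

open MeasureTheory Filter Topology
open scoped ContDiff

namespace Vale.Agent.P353

variable {F : Type*} [NormedAddCommGroup F] [InnerProductSpace ℂ F]

lemma tendsto_of_bounds {D q a p : ℕ → ℝ} {E : ℝ → ℝ} {c A : ℝ} (hc : 0 ≤ c) (hA : 0 ≤ A)
    (hD : ∀ n, 0 ≤ D n) (hq : Tendsto q atTop (𝓝 0)) (hp : Tendsto p atTop (𝓝 0))
    (ha : ∀ n, a n ≤ 2 * p n + A) (hE : Tendsto (fun n : ℕ => E (n + 1)) atTop (𝓝 0))
    (hb : ∀ n, ∀ R > 0, ∀ δ > 0, D n ≤ c * (R * (q n / δ + δ * a n) + (2 * E R + 2 * p n)) +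
      4 * (2 * E R + 2 * p n)) : Tendsto D atTop (𝓝 0) := by
  rw [Metric.tendsto_atTop]
  intro ε hε
  have h1 : Tendsto (fun n : ℕ => (2 * c + 8) * E (n + 1)) atTop (𝓝 0) := by
    simpa using hE.const_mul (2 * c + 8)
  obtain ⟨m, hm⟩ := (h1.eventually_lt_const (show (0 : ℝ) < ε / 3 by positivity)).exists
  set R : ℝ := (m : ℝ) + 1 with hRdef
  have hR : 0 < R := by positivity
  set δ : ℝ := ε / (3 * (c * R * A + 1)) with hδdef
  have hcRA : 0 ≤ c * R * A := by positivity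
  have hδ : 0 < δ := by positivity
  have h2 : c * R * δ * A < ε / 3 := by
    rw [hδdef]
    rw [show c * R * (ε / (3 * (c * R * A + 1))) * A = (ε / 3) * (c * R * A / (c * R * A + 1)) by
      field_simp]
    have : c * R * A / (c * R * A + 1) < 1 := by
      rw [div_lt_one (by positivity)]
      linarith
    nlinarith
  have hlim : Tendsto (fun n => c * (R * (q n / δ + δ * (2 * p n + A)) + (2 * E R + 2 * p n)) +
      4 * (2 * E R + 2 * p n)) atTop
      (𝓝 (c * (R * (0 / δ + δ * (2 * 0 + A)) + (2 * E R + 2 * 0)) + 4 * (2 * E R + 2 * 0))) := by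
    have a1 := hq.div_const δ
    have a2 := ((hp.const_mul 2).add_const A).const_mul δ
    have a3 := (tendsto_const_nhds (x := 2 * E R) (f := (atTop : Filter ℕ))).add (hp.const_mul 2)
    exact ((((a1.add a2).const_mul R).add a3).const_mul c).add (a3.const_mul 4)
  have hlt : c * (R * (0 / δ + δ * (2 * 0 + A)) + (2 * E R + 2 * 0)) + 4 * (2 * E R + 2 * 0) < ε := by
    have e : c * (R * (0 / δ + δ * (2 * 0 + A)) + (2 * E R + 2 * 0)) + 4 * (2 * E R + 2 * 0) =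
        c * R * δ * A + (2 * c + 8) * E R := by
      rw [zero_div]; ring
    rw [e]
    linarith
  obtain ⟨N, hN⟩ := Filter.eventually_atTop.mp (hlim.eventually_lt_const hlt)
  refine ⟨N, fun n hn => ?_⟩
  rw [Real.dist_eq, sub_zero, abs_of_nonneg (hD n)]
  refine lt_of_le_of_lt (hb n R hR δ hδ) (lt_of_le_of_lt ?_ (hN n hn))
  have := ha n
  gcongr

omit [InnerProductSpace ℂ F] in
/-- the tails of an `L²` function tend to zero -/
lemma tendsto_tail (Ψ : X3 → F) (hΨ : Integrable (fun x => ‖Ψ x‖ ^ 2)) :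
    Tendsto (fun n : ℕ => ∫ x, wR ((n : ℝ) + 1) ‖x‖ * ‖Ψ x‖ ^ 2) atTop (𝓝 0) := by
  have h := tendsto_integral_of_dominated_convergence
    (F := fun (n : ℕ) x => wR ((n : ℝ) + 1) ‖x‖ * ‖Ψ x‖ ^ 2) (f := fun _ => (0 : ℝ))
    (μ := (volume : Measure X3)) (fun x => ‖Ψ x‖ ^ 2)
    (fun n => (integrable_wR _ hΨ).aestronglyMeasurable) hΨ
    (fun n => Filter.Eventually.of_forall fun x => ?_)
    (Filter.Eventually.of_forall fun x => ?_)
  · simpa using h
  · rw [norm_mul, Real.norm_of_nonneg (wR_nonneg _ _), Real.norm_of_nonneg (by positivity)]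
    have h1 := wR_le_one ((n : ℝ) + 1) ‖x‖
    nlinarith [sq_nonneg ‖Ψ x‖]
  · obtain ⟨N, hN⟩ := exists_nat_gt ‖x‖
    refine tendsto_const_nhds.congr' ?_
    filter_upwards [Filter.eventually_ge_atTop N] with n hn
    have : ¬ ((n : ℝ) + 1 ≤ ‖x‖) := by
      push Not
      have : (N : ℝ) ≤ n := by exact_mod_cast hn
      linarith
    rw [wR, if_neg this, zero_mul]

omit [InnerProductSpace ℂ F] in
lemma norm_sq_le_two (u v : F) : ‖u‖ ^ 2 ≤ 2 * ‖v‖ ^ 2 + 2 * ‖u - v‖ ^ 2 := by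
  have h1 : ‖u‖ ≤ ‖v‖ + ‖u - v‖ := by
    calc ‖u‖ = ‖v + (u - v)‖ := by congr 1; abel
      _ ≤ _ := norm_add_le _ _
  have h2 : ‖u‖ ^ 2 ≤ (‖v‖ + ‖u - v‖) ^ 2 := by gcongr
  nlinarith [sq_nonneg (‖v‖ - ‖u - v‖)]

namespace Setup

variable (S : Setup F) [CompleteSpace F]

/-- the rotated function is close to the function -/
lemma rot_diff_bound {k l : Fin 9} (h : k ≠ l) {K K0 : ℝ} {u : X3 → F} (hu : Tst u) {R : ℝ}
    {χ : X3 → ℝ} (hχ : IsCut K0 R χ) {X : ℝ} (t : ℝ)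
    (hb : ∀ s : ℝ, ‖∫ x, inner ℂ (((χ x : ℝ) : ℂ) • u x) (S.J k l (S.Ut k l s u) x)‖ ≤ K * X) :
    ∫ x, ‖S.Ut k l t u x - u x‖ ^ 2 ≤ 2 * |t| * (K * X) + 4 * ∫ x, wR R ‖x‖ * ‖u x‖ ^ 2 := by
  set v := S.Ut k l t u with hv
  have hvT : Tst v := hu.Ut S h t
  have hχs : ContDiff ℝ ∞ χ := hχ.1
  have hχ0 := hχ.2.2.1
  have hχ1 := hχ.2.2.2.1
  have hχin := hχ.2.2.2.2.1
  have hcu : Tst (fun x => ((χ x : ℝ) : ℂ) • u x) := hu.rsmul hχs
  -- the mean value estimate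
  have hder : ∀ s, HasDerivAt (fun s => ∫ x, inner ℂ (((χ x : ℝ) : ℂ) • u x) (S.Ut k l s u x))
      (∫ x, inner ℂ (((χ x : ℝ) : ℂ) • u x) (Complex.I • S.J k l (S.Ut k l s u) x)) s := fun s =>
    S.hasDerivAt_integral_Ut h hcu.1.continuous.locallyIntegrable hu s
  have hmv : ‖(∫ x, inner ℂ (((χ x : ℝ) : ℂ) • u x) (v x)) -
      ∫ x, inner ℂ (((χ x : ℝ) : ℂ) • u x) (S.Ut k l 0 u x)‖ ≤ (K * X) * ‖t - 0‖ := by
    refine Convex.norm_image_sub_le_of_norm_hasDerivWithin_le (s := Set.univ)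
      (fun s _ => (hder s).hasDerivWithinAt) (fun s _ => ?_) convex_univ (Set.mem_univ _)
      (Set.mem_univ _)
    simp only [inner_smul_right]
    rw [integral_const_mul, norm_mul, Complex.norm_I, one_mul]
    have := hb s
    simpa only [inner_smul_right] using this
  have hU0 : ∀ x, S.Ut k l 0 u x = u x := by
    intro x
    rw [Ut, neg_zero, RR_zero, S.st_zero]
    rfl
  simp only [hU0, sub_zero, Real.norm_eq_abs] at hmv
  -- pointwise estimate
  have hpt : ∀ x, ‖v x - u x‖ ^ 2 ≤ (‖v x‖ ^ 2 - ‖u x‖ ^ 2) +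
      (2 * (inner ℂ (((χ x : ℝ) : ℂ) • u x) (u x)).re -
        2 * (inner ℂ (((χ x : ℝ) : ℂ) • u x) (v x)).re) +
      (3 * (wR R ‖x‖ * ‖u x‖ ^ 2) + wR R ‖x‖ * ‖v x‖ ^ 2) := by
    intro x
    have e1 : ‖v x - u x‖ ^ 2 = ‖v x‖ ^ 2 + ‖u x‖ ^ 2 - 2 * (inner ℂ (u x) (v x)).re := by
      rw [@norm_sub_sq ℂ]
      have : RCLike.re (inner ℂ (v x) (u x)) = (inner ℂ (u x) (v x)).re := by
        exact inner_re_symm (𝕜 := ℂ) (v x) (u x)
      rw [this]; ring
    have e2 : ∀ w : F, (inner ℂ (((χ x : ℝ) : ℂ) • u x) w).re = χ x * (inner ℂ (u x) w).re := by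
      intro w
      rw [inner_smul_left, Complex.conj_ofReal, Complex.re_ofReal_mul]
    have e3 : (inner ℂ (u x) (u x)).re = ‖u x‖ ^ 2 := by
      rw [inner_self_eq_norm_sq_to_K]; norm_cast
    rw [e1, e2, e2, e3]
    have h4 : |(inner ℂ (u x) (v x)).re| ≤ ‖u x‖ * ‖v x‖ :=
      (Complex.abs_re_le_norm _).trans (norm_inner_le_norm _ _)
    have h5 : ‖u x‖ * ‖v x‖ ≤ 1 / 2 * (‖u x‖ ^ 2 + ‖v x‖ ^ 2) := by
      nlinarith [sq_nonneg (‖u x‖ - ‖v x‖)]
    have h6 : -(inner ℂ (u x) (v x)).re ≤ 1 / 2 * (‖u x‖ ^ 2 + ‖v x‖ ^ 2) :=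
      (neg_le_abs _).trans (h4.trans h5)
    by_cases hx : R ≤ ‖x‖
    · rw [wR, if_pos hx]
      have h7 := hχ0 x
      have h8 := hχ1 x
      nlinarith [sq_nonneg ‖u x‖, sq_nonneg ‖v x‖,
        mul_le_mul_of_nonneg_left h6 (sub_nonneg.mpr h8)]
    · push Not at hx
      rw [wR, if_neg (not_le.mpr hx), hχin x hx.le]
      linarith
  have hva : ∫ x, ‖v x‖ ^ 2 = ∫ x, ‖u x‖ ^ 2 := S.integral_Ut' h t u
  have hve : ∫ x, wR R ‖x‖ * ‖v x‖ ^ 2 = ∫ x, wR R ‖x‖ * ‖u x‖ ^ 2 := S.integral_Ut h t u (wR R)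
  have i1 : Integrable (fun x => ‖v x‖ ^ 2 - ‖u x‖ ^ 2) := hvT.norm_sq_int.sub hu.norm_sq_int
  have c1 : Integrable (fun x => inner ℂ (((χ x : ℝ) : ℂ) • u x) (u x)) :=
    hcu.inner_int hu.1.continuous
  have c2 : Integrable (fun x => inner ℂ (((χ x : ℝ) : ℂ) • u x) (v x)) :=
    hcu.inner_int hvT.1.continuous
  have c1' : Integrable (fun x => 2 * (inner ℂ (((χ x : ℝ) : ℂ) • u x) (u x)).re) :=
    c1.re.const_mul 2
  have c2' : Integrable (fun x => 2 * (inner ℂ (((χ x : ℝ) : ℂ) • u x) (v x)).re) :=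
    c2.re.const_mul 2
  have i2 : Integrable (fun x => 2 * (inner ℂ (((χ x : ℝ) : ℂ) • u x) (u x)).re -
        2 * (inner ℂ (((χ x : ℝ) : ℂ) • u x) (v x)).re) := c1'.sub c2'
  have i3 : Integrable (fun x => wR R ‖x‖ * ‖u x‖ ^ 2) := integrable_wR R hu.norm_sq_int
  have i4 : Integrable (fun x => wR R ‖x‖ * ‖v x‖ ^ 2) := integrable_wR R hvT.norm_sq_int
  have i5 : Integrable (fun x => 3 * (wR R ‖x‖ * ‖u x‖ ^ 2) + wR R ‖x‖ * ‖v x‖ ^ 2) :=
    (i3.const_mul 3).add i4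
  have i12 : Integrable (fun x => (‖v x‖ ^ 2 - ‖u x‖ ^ 2) +
      (2 * (inner ℂ (((χ x : ℝ) : ℂ) • u x) (u x)).re -
        2 * (inner ℂ (((χ x : ℝ) : ℂ) • u x) (v x)).re)) := i1.add i2
  have hre : ∀ f : X3 → ℂ, Integrable f → ∫ x, (f x).re = (∫ x, f x).re := by
    intro f hf
    exact integral_re hf
  calc ∫ x, ‖v x - u x‖ ^ 2 ≤ ∫ x, ((‖v x‖ ^ 2 - ‖u x‖ ^ 2) +
      (2 * (inner ℂ (((χ x : ℝ) : ℂ) • u x) (u x)).re -
        2 * (inner ℂ (((χ x : ℝ) : ℂ) • u x) (v x)).re) +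
      (3 * (wR R ‖x‖ * ‖u x‖ ^ 2) + wR R ‖x‖ * ‖v x‖ ^ 2)) :=
        integral_mono (hvT.sub hu).norm_sq_int (i12.add i5) hpt
    _ = 2 * ((∫ x, inner ℂ (((χ x : ℝ) : ℂ) • u x) (u x)) -
          ∫ x, inner ℂ (((χ x : ℝ) : ℂ) • u x) (v x)).re + 4 * ∫ x, wR R ‖x‖ * ‖u x‖ ^ 2 := by
        rw [integral_add i12 i5, integral_add i1 i2, integral_sub hvT.norm_sq_int hu.norm_sq_int,
          hva, sub_self, integral_sub c1' c2', integral_const_mul, integral_const_mul,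
          hre _ c1, hre _ c2, integral_add (i3.const_mul 3) i4, integral_const_mul, hve,
          Complex.sub_re]
        ring
    _ ≤ 2 * (K * X * |t|) + 4 * ∫ x, wR R ‖x‖ * ‖u x‖ ^ 2 := by
        have h1 : ((∫ x, inner ℂ (((χ x : ℝ) : ℂ) • u x) (u x)) -
          ∫ x, inner ℂ (((χ x : ℝ) : ℂ) • u x) (v x)).re ≤ K * X * |t| := by
          refine (Complex.re_le_norm _).trans ?_
          rw [norm_sub_rev]
          exact hmv
        linarith
    _ = _ := by ring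

/-- the approximating sequence is asymptotically rotation invariant -/
lemma tendsto_Ut_sub {k l : Fin 9} (h : k ≠ l) (hJ : JExact S k l)
    (Ψ : Lp F 2 (volume : Measure X3)) (u : ℕ → X3 → F) (hA : S.Apx Ψ u) (t : ℝ) :
    Tendsto (fun n => ∫ x, ‖S.Ut k l t (u n) x - u n x‖ ^ 2) atTop (𝓝 0) := by
  obtain ⟨K0, hK0, hcut⟩ := exists_cut
  obtain ⟨K, hK, hb⟩ := S.deriv_bound h hJ hK0
  obtain ⟨hT, -, hconv, hQ⟩ := hA
  have hΨ : Integrable (fun x => ‖Ψ x‖ ^ 2) := memLp_norm_sq_int (Lp.memLp Ψ)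
  have hdiffm : ∀ n, MemLp (fun x => u n x - Ψ x) 2 (volume : Measure X3) := fun n =>
    (hT n).memLp.sub (Lp.memLp Ψ)
  have hdi : ∀ n, Integrable (fun x => ‖u n x - Ψ x‖ ^ 2) := fun n => memLp_norm_sq_int (hdiffm n)
  refine tendsto_of_bounds (c := 2 * |t| * K) (A := 2 * ∫ x, ‖Ψ x‖ ^ 2)
    (q := fun n => ∑ b, ∫ x, ‖S.Q b (u n) x‖ ^ 2) (a := fun n => ∫ x, ‖u n x‖ ^ 2)
    (p := fun n => ∫ x, ‖u n x - Ψ x‖ ^ 2) (E := fun R => ∫ x, wR R ‖x‖ * ‖Ψ x‖ ^ 2)
    (by positivity) (mul_nonneg (by norm_num) (integral_nonneg fun x => by positivity))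
    (fun n => integral_nonneg fun x => by positivity) ?_ hconv ?_ (tendsto_tail _ hΨ) ?_
  · have : Tendsto (fun n => ∑ b, ∫ x, ‖S.Q b (u n) x‖ ^ 2) atTop (𝓝 (∑ b : Fin 16, (0 : ℝ))) :=
      tendsto_finsetSum _ fun b _ => hQ b
    simpa using this
  · intro n
    rw [← integral_const_mul, ← integral_const_mul, ← integral_add ((hdi n).const_mul 2)
      (hΨ.const_mul 2)]
    refine integral_mono (hT n).norm_sq_int (((hdi n).const_mul 2).add (hΨ.const_mul 2)) fun x => ?_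
    have := norm_sq_le_two (u n x) (Ψ x)
    simp only
    linarith
  · intro n R hR δ hδ
    obtain ⟨χ, hχ⟩ := hcut R hR
    have h1 := S.rot_diff_bound h (hT n) hχ t (hb (u n) (hT n) R hR δ hδ χ hχ)
    have h2 : ∫ x, wR R ‖x‖ * ‖u n x‖ ^ 2 ≤ 2 * (∫ x, wR R ‖x‖ * ‖Ψ x‖ ^ 2) +
        2 * ∫ x, ‖u n x - Ψ x‖ ^ 2 := by
      rw [← integral_const_mul, ← integral_const_mul,
        ← integral_add ((integrable_wR R hΨ).const_mul 2) ((hdi n).const_mul 2)]
      refine integral_mono (integrable_wR R (hT n).norm_sq_int)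
        (((integrable_wR R hΨ).const_mul 2).add ((hdi n).const_mul 2)) fun x => ?_
      have h3 := norm_sq_le_two (u n x) (Ψ x)
      have h4 := wR_nonneg R ‖x‖
      have h5 := wR_le_one R ‖x‖
      simp only
      nlinarith [sq_nonneg ‖u n x - Ψ x‖, mul_le_mul_of_nonneg_left h3 h4]
    have hK' : 0 ≤ 2 * |t| * K := by positivity
    have h6 := mul_le_mul_of_nonneg_left h2 hK'
    nlinarith [h1, h2, h6]

end Setup

/-- Spin(9) invariance of zero modes, in weak form -/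
theorem weak_J_of [CompleteSpace F] (S : Setup F) (Ψ : Lp F 2 (volume : Measure X3))
    (u : ℕ → X3 → F) (hA : S.Apx Ψ u) (k l : Fin 9) (hkl : k ≠ l) (hJ : JExact S k l)
    (ζ : X3 → F) (hζ : Setup.Tst ζ) :
    ∫ x, inner ℂ (S.J k l ζ x) (Ψ x) = 0 := by
  have hT := hA.1
  have hconv := hA.2.2.1
  have hdiffm : ∀ n, MemLp (fun x => Ψ x - u n x) 2 (volume : Measure X3) := fun n =>
    (Lp.memLp Ψ).sub (hT n).memLp
  -- pairing with test functions passes to the limit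
  have hlim : ∀ w : X3 → F, Setup.Tst w →
      Tendsto (fun n => ∫ x, inner ℂ (u n x) (w x)) atTop (𝓝 (∫ x, inner ℂ (Ψ x) (w x))) := by
    intro w hw
    rw [← tendsto_sub_nhds_zero_iff]
    have hz : Tendsto (fun n => Real.sqrt (∫ x, ‖Ψ x - u n x‖ ^ 2) *
        Real.sqrt (∫ x, ‖w x‖ ^ 2)) atTop (𝓝 0) := by
      have h1 : Tendsto (fun n => ∫ x, ‖Ψ x - u n x‖ ^ 2) atTop (𝓝 0) := by
        simpa only [norm_sub_rev] using hconv
      have h2 := (Real.continuous_sqrt.tendsto 0).comp h1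
      simp only [Real.sqrt_zero] at h2
      simpa using h2.mul_const (Real.sqrt (∫ x, ‖w x‖ ^ 2))
    refine squeeze_zero_norm (fun n => ?_) hz
    have e : (∫ x, inner ℂ (u n x) (w x)) - ∫ x, inner ℂ (Ψ x) (w x) =
        -∫ x, inner ℂ (Ψ x - u n x) (w x) := by
      have i1 : Integrable (fun x => inner ℂ (u n x) (w x)) := (hT n).inner_int hw.1.continuous
      have i2 : Integrable (fun x => inner ℂ (Ψ x) (w x)) :=
        integrable_inner_memLp (Lp.memLp Ψ) hw.memLp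
      simp only [inner_sub_left]
      rw [integral_sub i2 i1]
      ring
    rw [e, norm_neg]
    exact cs_inner (hdiffm n) hw.memLp
  -- invariance under finite rotations
  have hinv : ∀ t : ℝ, ∫ x, inner ℂ (Ψ x) (S.Ut k l t ζ x) = ∫ x, inner ℂ (Ψ x) (ζ x) := by
    intro t
    have h1 := hlim _ (hζ.Ut S hkl t)
    have h2 := hlim _ hζ
    have h3 := S.tendsto_Ut_sub hkl hJ Ψ u hA (-t)
    have h4 : Tendsto (fun n => (∫ x, inner ℂ (u n x) (S.Ut k l t ζ x)) -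
        ∫ x, inner ℂ (u n x) (ζ x)) atTop (𝓝 0) := by
      have hz : Tendsto (fun n => Real.sqrt (∫ x, ‖S.Ut k l (-t) (u n) x - u n x‖ ^ 2) *
          Real.sqrt (∫ x, ‖ζ x‖ ^ 2)) atTop (𝓝 0) := by
        have h5 := (Real.continuous_sqrt.tendsto 0).comp h3
        simp only [Real.sqrt_zero] at h5
        simpa using h5.mul_const (Real.sqrt (∫ x, ‖ζ x‖ ^ 2))
      refine squeeze_zero_norm (fun n => ?_) hz
      have e : (∫ x, inner ℂ (u n x) (S.Ut k l t ζ x)) - ∫ x, inner ℂ (u n x) (ζ x) =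
          ∫ x, inner ℂ (S.Ut k l (-t) (u n) x - u n x) (ζ x) := by
        have hU := S.inner_Ut hkl (-t) (u n) ζ
        rw [neg_neg] at hU
        rw [← hU, ← integral_sub (((hT n).Ut S hkl (-t)).inner_int hζ.1.continuous)
          ((hT n).inner_int hζ.1.continuous)]
        simp only [inner_sub_left]
      rw [e]
      exact cs_inner (((hT n).Ut S hkl (-t)).sub (hT n)).memLp hζ.memLp
    have h5 := tendsto_nhds_unique (h1.sub h2) h4
    exact sub_eq_zero.mp h5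
  -- differentiate
  have hloc : LocallyIntegrable (fun x => Ψ x) (volume : Measure X3) :=
    (Lp.memLp Ψ).locallyIntegrable one_le_two
  have hd := S.hasDerivAt_integral_Ut hkl hloc hζ 0
  have hconst : HasDerivAt (fun t => ∫ x, inner ℂ (Ψ x) (S.Ut k l t ζ x)) (0 : ℂ) 0 := by
    simp only [hinv]
    exact hasDerivAt_const _ _
  have h0 := hd.unique hconst
  have hU0 : S.Ut k l 0 ζ = ζ := by
    ext x
    rw [Setup.Ut, neg_zero, RR_zero, S.st_zero]
    rfl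
  rw [hU0] at h0
  simp only [inner_smul_right] at h0
  rw [integral_const_mul] at h0
  have h1 : ∫ x, inner ℂ (Ψ x) (S.J k l ζ x) = 0 := by
    rcases mul_eq_zero.mp h0 with h | h
    · exact absurd h Complex.I_ne_zero
    · exact h
  have h2 : ∫ x, inner ℂ (S.J k l ζ x) (Ψ x) =
      (starRingEnd ℂ) (∫ x, inner ℂ (Ψ x) (S.J k l ζ x)) := by
    rw [← integral_conj]
    congr 1
    ext x
    rw [inner_conj_symm]
  rw [h2, h1, map_zero]

theorem weak_J [CompleteSpace F] (S : Setup F) (Ψ : Lp F 2 (volume : Measure X3))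
    (u : ℕ → X3 → F) (h : S.Apx Ψ u) (k l : Fin 9) (hkl : k ≠ l)
    (ζ : X3 → F) (hζ : Setup.Tst ζ) :
    ∫ x, inner ℂ (S.J k l ζ x) (Ψ x) = 0 :=
  weak_J_of S Ψ u h k l hkl (jExact S hkl) ζ hζ

end Vale.Agent.P353
end

section

/-! # P353, uniqueness for `N = 2`: `M12Stmt` (first and second order cancellation at a cone point) -/

open MeasureTheory Filter Topology
open scoped ContDiff

namespace Vale.Agent.P353.U

open Setup

variable {F : Type*} [NormedAddCommGroup F] [InnerProductSpace ℂ F]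

/-- `a̸ = ∑ a_i γ^i` -/
noncomputable def sl (S : Setup F) (a : Fin 9 → ℝ) : Matrix (Fin 16) (Fin 16) ℂ :=
  ∑ i, ((a i : ℝ) : ℂ) • S.g i

lemma sl_transpose (S : Setup F) (a : Fin 9 → ℝ) : (sl S a).transpose = sl S a := by
  unfold sl
  rw [Matrix.transpose_sum]
  refine Finset.sum_congr rfl fun i _ => ?_
  rw [Matrix.transpose_smul, S.g_symm]

lemma sl_anti (S : Setup F) (a b : Fin 9 → ℝ) :
    sl S a * sl S b + sl S b * sl S a = ((2 * ∑ i, a i * b i : ℝ) : ℂ) • 1 := by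
  have h1 : sl S a * sl S b = ∑ i, ∑ j, (((a i : ℝ) : ℂ) * ((b j : ℝ) : ℂ)) • (S.g i * S.g j) := by
    unfold sl
    rw [Finset.sum_mul_sum]
    simp only [smul_mul_smul_comm]
  have h2 : sl S b * sl S a = ∑ i, ∑ j, (((a i : ℝ) : ℂ) * ((b j : ℝ) : ℂ)) • (S.g j * S.g i) := by
    unfold sl
    rw [Finset.sum_mul_sum, Finset.sum_comm]
    simp only [smul_mul_smul_comm]
    refine Finset.sum_congr rfl fun i _ => Finset.sum_congr rfl fun j _ => ?_
    rw [mul_comm]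
  rw [h1, h2, ← Finset.sum_add_distrib]
  simp only [← Finset.sum_add_distrib, ← smul_add, S.g_anti]
  have h3 : ∀ i : Fin 9, ∑ j : Fin 9, (((a i : ℝ) : ℂ) * ((b j : ℝ) : ℂ)) •
      (if i = j then (2 : Matrix (Fin 16) (Fin 16) ℂ) else 0) =
      (((2 * (a i * b i) : ℝ)) : ℂ) • (1 : Matrix (Fin 16) (Fin 16) ℂ) := by
    intro i
    rw [Finset.sum_eq_single i]
    · rw [if_pos rfl]
      have : (2 : Matrix (Fin 16) (Fin 16) ℂ) = (2 : ℂ) • 1 := by
        rw [two_smul, one_add_one_eq_two]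
      rw [this, smul_smul]
      congr 1
      push_cast
      ring
    · intro j _ hj
      rw [if_neg (Ne.symm hj), smul_zero]
    · intro h
      exact absurd (Finset.mem_univ _) h
  rw [Finset.sum_congr rfl fun i _ => h3 i, ← Finset.sum_smul]
  congr 1
  rw [Finset.mul_sum]
  push_cast
  rfl

lemma sl_sq (S : Setup F) (a : Fin 9 → ℝ) :
    sl S a * sl S a = ((∑ i, a i ^ 2 : ℝ) : ℂ) • 1 := by
  have h := sl_anti S a a
  have h2 : (2 : ℂ) • (sl S a * sl S a) = (2 : ℂ) • (((∑ i, a i ^ 2 : ℝ) : ℂ) •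
      (1 : Matrix (Fin 16) (Fin 16) ℂ)) := by
    rw [two_smul, h, smul_smul]
    congr 1
    push_cast
    congr 1
    refine Finset.sum_congr rfl fun i _ => ?_
    ring
  exact smul_right_injective _ (two_ne_zero) h2

/-- components of `x` with colour `A` -/
def col (x : X3) (A : Fin 3) : Fin 9 → ℝ := fun i => x (i, A)

lemma B_eq_sl (S : Setup F) (β : Fin 16) (z : X3) : S.B β z = ∑ A, S.vec (sl S (col z A)) A β := by
  unfold Setup.B sl col
  rw [Finset.sum_comm]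
  refine Finset.sum_congr rfl fun A _ => ?_
  rw [S.vec_sum]
  refine Finset.sum_congr rfl fun i _ => ?_
  rw [S.vec_smul]

/-- `∑_{ij} a_i b_j γ^{ij} = ½ (a̸ b̸ - b̸ a̸)` -/
lemma sum_g2 (S : Setup F) (a b : Fin 9 → ℝ) :
    ∑ i, ∑ j, (((a i : ℝ) : ℂ) * ((b j : ℝ) : ℂ)) • S.g2 i j =
      (1 / 2 : ℂ) • (sl S a * sl S b - sl S b * sl S a) := by
  have h1 : sl S a * sl S b = ∑ i, ∑ j, (((a i : ℝ) : ℂ) * ((b j : ℝ) : ℂ)) • (S.g i * S.g j) := by
    unfold sl
    rw [Finset.sum_mul_sum]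
    simp only [smul_mul_smul_comm]
  have h2 : sl S b * sl S a = ∑ i, ∑ j, (((a i : ℝ) : ℂ) * ((b j : ℝ) : ℂ)) • (S.g j * S.g i) := by
    unfold sl
    rw [Finset.sum_mul_sum, Finset.sum_comm]
    simp only [smul_mul_smul_comm]
    refine Finset.sum_congr rfl fun i _ => Finset.sum_congr rfl fun j _ => ?_
    rw [mul_comm]
  rw [h1, h2, ← Finset.sum_sub_distrib, Finset.smul_sum]
  refine Finset.sum_congr rfl fun i _ => ?_
  rw [← Finset.sum_sub_distrib, Finset.smul_sum]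
  refine Finset.sum_congr rfl fun j _ => ?_
  unfold CS.g2
  rw [← smul_sub, smul_comm]

lemma eps_vals : (eps 0 1 2 = 1 ∧ eps 1 2 0 = 1 ∧ eps 2 0 1 = 1 ∧ eps 0 2 1 = -1 ∧ eps 2 1 0 = -1 ∧
    eps 1 0 2 = -1) := by decide

lemma eps_dd (A B : Fin 3) : eps A A B = 0 ∧ eps A B A = 0 ∧ eps A B B = 0 := by
  revert A B; decide

/-- the general form of `W` and `DW` -/
lemma DW_eq_sl (S : Setup F) (ξ z : X3) (β : Fin 16) :
    S.DW ξ β z = (S.κ : ℂ) • ∑ A, S.vec (∑ B, ∑ C, (eps A B C : ℂ) •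
      ((1 / 2 : ℂ) • (sl S (col ξ B) * sl S (col z C) - sl S (col z C) * sl S (col ξ B)))) A β := by
  unfold Setup.DW
  congr 1
  refine Finset.sum_congr rfl fun A _ => ?_
  rw [S.vec_sum]
  refine Finset.sum_congr rfl fun B _ => ?_
  rw [S.vec_sum]
  refine Finset.sum_congr rfl fun C _ => ?_
  rw [← sum_g2, S.vec_smul, S.vec_sum, Finset.smul_sum]
  refine Finset.sum_congr rfl fun i _ => ?_
  rw [S.vec_sum, Finset.smul_sum]
  refine Finset.sum_congr rfl fun j _ => ?_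
  rw [S.vec_smul, smul_smul, ← mul_assoc]
  rfl

lemma W_eq_sl (S : Setup F) (z : X3) (β : Fin 16) :
    S.W β z = ((S.κ : ℂ) / 2) • ∑ A, S.vec (∑ B, ∑ C, (eps A B C : ℂ) •
      (sl S (col z B) * sl S (col z C))) A β := by
  have h : S.W β z = (1 / 2 : ℂ) • S.DW z β z := by
    unfold Setup.W Setup.DW Setup.FF
    rw [Finset.smul_sum, Finset.smul_sum, Finset.smul_sum]
    refine Finset.sum_congr rfl fun A _ => ?_
    congr 1
    have e1 : ∀ i j : Fin 9, (((S.κ * ∑ B, ∑ C, (eps A B C : ℝ) * z (i, B) * z (j, C) : ℝ)) : ℂ) •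
        S.vec (S.g2 i j) A β = ∑ B, ∑ C, ((S.κ : ℂ) * ((eps A B C : ℂ) * (z (i, B) : ℂ) *
          (z (j, C) : ℂ))) • S.vec (S.g2 i j) A β := by
      intro i j
      push_cast
      rw [Finset.mul_sum, Finset.sum_smul]
      refine Finset.sum_congr rfl fun B _ => ?_
      rw [Finset.mul_sum, Finset.sum_smul]
    simp only [e1]
    rw [Finset.smul_sum]
    have e2 : ∀ i : Fin 9, ∑ j : Fin 9, ∑ B, ∑ C, ((S.κ : ℂ) * ((eps A B C : ℂ) * (z (i, B) : ℂ) *
          (z (j, C) : ℂ))) • S.vec (S.g2 i j) A β = ∑ B, ∑ C, ∑ j : Fin 9,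
          ((S.κ : ℂ) * ((eps A B C : ℂ) * (z (i, B) : ℂ) *
          (z (j, C) : ℂ))) • S.vec (S.g2 i j) A β := by
      intro i
      rw [Finset.sum_comm]
      refine Finset.sum_congr rfl fun B _ => ?_
      rw [Finset.sum_comm]
    simp only [e2]
    rw [Finset.sum_comm]
    refine Finset.sum_congr rfl fun B _ => ?_
    rw [Finset.sum_comm, Finset.smul_sum]
    refine Finset.sum_congr rfl fun C _ => ?_
    rw [Finset.smul_sum]
    refine Finset.sum_congr rfl fun i _ => ?_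
    rw [Finset.smul_sum]
    refine Finset.sum_congr rfl fun j _ => ?_
    rw [smul_smul]
  rw [h, DW_eq_sl, smul_smul]
  have e : (1 / 2 : ℂ) * (S.κ : ℂ) = (S.κ : ℂ) / 2 := by ring
  rw [e]
  congr 1
  refine Finset.sum_congr rfl fun A _ => ?_
  congr 1
  obtain ⟨h1, h2, h3, h4, h5, h6⟩ := eps_vals
  have hd := eps_dd
  fin_cases A <;>
  simp only [Fin.sum_univ_three, Fin.zero_eta, Fin.mk_one, Fin.reduceFinMk, h1, h2, h3, h4, h5, h6,
    (hd _ _).1, (hd _ _).2.1, (hd _ _).2.2, Int.cast_zero, Int.cast_one, Int.cast_neg, zero_smul,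
    add_zero, zero_add, one_smul, neg_smul] <;>
  module

section Gen

variable {R : Type*} [Ring R] [Algebra ℂ R]

/-- the commutator of `(Nθ^D)_β` with `F(z)` -/
lemma vec_comm_bil (S : CS R) (N M : Matrix (Fin 16) (Fin 16) ℂ) (D A B : Fin 3) (β : Fin 16) :
    S.vec N D β * S.bil M A B - S.bil M A B * S.vec N D β =
      (if D = A then S.vec (N * M) B β else 0) -
        (if D = B then S.vec (N * M.transpose) A β else 0) := by
  have hb : S.bil M A B = ∑ δ, S.vec 1 A δ * S.vec M B δ := by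
    rw [S.sum_vec_mul_vec]; simp
  rw [hb, Finset.mul_sum, Finset.sum_mul, ← Finset.sum_sub_distrib]
  have h1 : ∀ δ, S.vec N D β * (S.vec 1 A δ * S.vec M B δ) -
      S.vec 1 A δ * S.vec M B δ * S.vec N D β =
      (if D = A then (N β δ) • S.vec M B δ else 0) -
        (if D = B then ((N * M.transpose) β δ) • S.vec 1 A δ else 0) := by
    intro δ
    have e1 := S.vec_anti N 1 D A β δ
    have e2 := S.vec_anti N M D B β δ
    have : S.vec N D β * (S.vec 1 A δ * S.vec M B δ) -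
      S.vec 1 A δ * S.vec M B δ * S.vec N D β =
      (S.vec N D β * S.vec 1 A δ + S.vec 1 A δ * S.vec N D β) * S.vec M B δ -
      S.vec 1 A δ * (S.vec N D β * S.vec M B δ + S.vec M B δ * S.vec N D β) := by
      noncomm_ring
    rw [this, e1, e2]
    by_cases hA : D = A <;> by_cases hB : D = B <;>
      simp [hA, hB, Matrix.transpose_one]
  rw [Finset.sum_congr rfl fun δ _ => h1 δ, Finset.sum_sub_distrib]
  congr 1
  · by_cases hA : D = A
    · simp only [if_pos hA]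
      rw [S.vec_mul]
    · simp only [if_neg hA, Finset.sum_const_zero]
  · by_cases hB : D = B
    · simp only [if_pos hB]
      rw [← S.vec_mul, mul_one]
    · simp only [if_neg hB, Finset.sum_const_zero]

lemma m12_comm_gen (S : CS R) (Z : Fin 3 → Matrix (Fin 16) (Fin 16) ℂ)
    (hZ : ∀ C, (Z C).transpose = Z C) (κ : ℂ) (N : Matrix (Fin 16) (Fin 16) ℂ) (D : Fin 3)
    (β : Fin 16) :
    S.vec N D β * ((Complex.I / 2 * κ) • ∑ A, ∑ B, ∑ C, (eps A B C : ℂ) • S.bil (Z C) A B) -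
      ((Complex.I / 2 * κ) • ∑ A, ∑ B, ∑ C, (eps A B C : ℂ) • S.bil (Z C) A B) * S.vec N D β =
      (Complex.I * κ) • ∑ B, ∑ C, (eps D B C : ℂ) • S.vec (N * Z C) B β := by
  rw [mul_smul_comm, smul_mul_assoc, ← smul_sub]
  have h : S.vec N D β * (∑ A, ∑ B, ∑ C, (eps A B C : ℂ) • S.bil (Z C) A B) -
      (∑ A, ∑ B, ∑ C, (eps A B C : ℂ) • S.bil (Z C) A B) * S.vec N D β =
      ∑ A, ∑ B, ∑ C, (eps A B C : ℂ) • ((if D = A then S.vec (N * Z C) B β else 0) -
        (if D = B then S.vec (N * Z C) A β else 0)) := by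
    rw [Finset.mul_sum, Finset.sum_mul, ← Finset.sum_sub_distrib]
    refine Finset.sum_congr rfl fun A _ => ?_
    rw [Finset.mul_sum, Finset.sum_mul, ← Finset.sum_sub_distrib]
    refine Finset.sum_congr rfl fun B _ => ?_
    rw [Finset.mul_sum, Finset.sum_mul, ← Finset.sum_sub_distrib]
    refine Finset.sum_congr rfl fun C _ => ?_
    rw [mul_smul_comm, smul_mul_assoc, ← smul_sub, vec_comm_bil, hZ]
  rw [h]
  obtain ⟨h1, h2, h3, h4, h5, h6⟩ := eps_vals
  have hd := eps_dd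
  fin_cases D <;>
  simp only [Fin.sum_univ_three, Fin.zero_eta, Fin.mk_one, Fin.reduceFinMk, h1, h2, h3, h4, h5, h6,
    (hd _ _).1, (hd _ _).2.1, (hd _ _).2.2, Int.cast_zero, Int.cast_one, Int.cast_neg, zero_smul,
    add_zero, zero_add, one_smul, neg_smul, if_true, Fin.isValue, Fin.reduceEq, if_false, sub_zero,
    zero_sub, smul_zero] <;>
  module

lemma comm_gen2 (S : CS R) (P Z : Fin 3 → Matrix (Fin 16) (Fin 16) ℂ) (c : ℂ) (X : R) (β : Fin 16)
    (hX : ∀ (N : Matrix (Fin 16) (Fin 16) ℂ) (D : Fin 3), S.vec N D β * X - X * S.vec N D β =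
      c • ∑ B, ∑ C, (eps D B C : ℂ) • S.vec (N * Z C) B β) :
    (c • ∑ A, S.vec (P A) A β) * X - X * (c • ∑ A, S.vec (P A) A β) =
      (c * c) • ∑ B, S.vec (∑ A, ∑ C, (eps A B C : ℂ) • (P A * Z C)) B β := by
  rw [smul_mul_assoc, mul_smul_comm, ← smul_sub, Finset.sum_mul,
    Finset.mul_sum, ← Finset.sum_sub_distrib, mul_smul]
  congr 1
  simp only [hX]
  rw [← Finset.smul_sum]
  congr 1
  rw [Finset.sum_comm]
  refine Finset.sum_congr rfl fun B _ => ?_
  rw [S.vec_sum]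
  refine Finset.sum_congr rfl fun A _ => ?_
  rw [S.vec_sum]
  refine Finset.sum_congr rfl fun C _ => ?_
  rw [S.vec_smul]

lemma comm_gen3 (S : CS R) (κ r ζ : ℂ) (n : Fin 3 → ℂ) (Q : Fin 3 → Matrix (Fin 16) (Fin 16) ℂ)
    (Y : Matrix (Fin 16) (Fin 16) ℂ) (β : Fin 16) :
    (Complex.I * κ * (Complex.I * κ)) • ∑ B, S.vec (-(r • Q B + (Complex.I * ζ * n B) • Y)) B β =
      (κ ^ 2) • (r • ∑ B, S.vec (Q B) B β + (Complex.I * ζ) • ∑ B, n B • S.vec Y B β) := by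
  have hI : Complex.I * κ * (Complex.I * κ) = -κ ^ 2 := by
    have := Complex.I_mul_I
    linear_combination κ ^ 2 * this
  rw [hI]
  simp only [S.vec_neg, S.vec_add, S.vec_smul]
  rw [Finset.sum_neg_distrib, Finset.sum_add_distrib, smul_neg, neg_smul, neg_neg,
    ← Finset.smul_sum]
  congr 2
  rw [Finset.smul_sum]
  refine Finset.sum_congr rfl fun B _ => ?_
  rw [smul_smul]

end Gen

lemma Fx_eq_sl (S : Setup F) (z : X3) :
    S.Fx z = (Complex.I / 2 * (S.κ : ℂ)) • ∑ A, ∑ B, ∑ C, (eps A B C : ℂ) •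
      S.bil (sl S (col z C)) A B := by
  unfold Setup.Fx sl col
  congr 1
  rw [Finset.sum_comm]
  refine Finset.sum_congr rfl fun A _ => ?_
  rw [Finset.sum_comm]
  refine Finset.sum_congr rfl fun B _ => ?_
  rw [Finset.sum_comm]
  refine Finset.sum_congr rfl fun C _ => ?_
  rw [S.bil_sum, Finset.smul_sum]
  refine Finset.sum_congr rfl fun i _ => ?_
  rw [S.bil_smul, smul_smul]

/-- the coefficient matrices of `T1` -/
noncomputable def PP (S : Setup F) (n : Fin 3 → ℝ) (y : Fin 9 → ℝ) (z : X3) (A : Fin 3) :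
    Matrix (Fin 16) (Fin 16) ℂ :=
  ((ry y : ℝ) : ℂ) • sl S (col z A) -
    Complex.I • ∑ D, ∑ B, ((eps D B A : ℂ) * (n B : ℂ)) • (sl S (col z D) * sl S y)

lemma sl_cone (S : Setup F) (n : Fin 3 → ℝ) (y : Fin 9 → ℝ) (A : Fin 3) :
    sl S (col (cone n y) A) = ((n A : ℝ) : ℂ) • sl S y := by
  unfold sl
  rw [Finset.smul_sum]
  refine Finset.sum_congr rfl fun i _ => ?_
  rw [smul_smul]
  congr 1
  show (((y i * n A : ℝ)) : ℂ) = _
  push_cast
  ring

lemma T1_eq (S : Setup F) (n : Fin 3 → ℝ) (y : Fin 9 → ℝ) (z : X3)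
    (hy : ∀ A, ∑ i, y i * z (i, A) = 0) (β : Fin 16) :
    S.T1 n y β z = (Complex.I * (S.κ : ℂ)) • ∑ A, S.vec (PP S n y z A) A β := by
  have hYZ : ∀ C, sl S y * sl S (col z C) = -(sl S (col z C) * sl S y) := by
    intro C
    have h := sl_anti S y (col z C)
    have h0 : ∑ i, y i * col z C i = 0 := hy C
    rw [h0, mul_zero, Complex.ofReal_zero, zero_smul] at h
    exact eq_neg_of_add_eq_zero_left h
  unfold Setup.T1
  rw [B_eq_sl, DW_eq_sl]
  simp only [sl_cone]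
  have h2 : ∀ A : Fin 3, (∑ B, ∑ C, (eps A B C : ℂ) • ((1 / 2 : ℂ) •
      (((n B : ℝ) : ℂ) • sl S y * sl S (col z C) - sl S (col z C) * ((n B : ℝ) : ℂ) • sl S y))) =
      ∑ D, ∑ B, ((eps D B A : ℂ) * (n B : ℂ)) • (sl S (col z D) * sl S y) := by
    intro A
    rw [Finset.sum_comm]
    refine Finset.sum_congr rfl fun C _ => Finset.sum_congr rfl fun B _ => ?_
    have e : (eps A B C : ℂ) = -(eps C B A : ℂ) := by
      have : eps A B C = -eps C B A := by revert A B C; decide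
      rw [this]; push_cast; ring
    rw [smul_mul_assoc, mul_smul_comm, hYZ, e]
    module
  simp only [h2]
  rw [Finset.smul_sum, Finset.smul_sum, Finset.smul_sum, ← Finset.sum_add_distrib]
  refine Finset.sum_congr rfl fun A _ => ?_
  unfold PP
  rw [S.vec_sub, S.vec_smul, S.vec_smul, smul_sub, smul_smul, smul_smul]
  have hI : Complex.I * (S.κ : ℂ) * Complex.I = -(S.κ : ℂ) := by
    have := Complex.I_mul_I
    linear_combination (S.κ : ℂ) * this
  rw [hI, Complex.ofReal_mul, mul_assoc]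
  module

/-- first order cancellation, for an arbitrary coefficient matrix -/
lemma T1_zero (S : Setup F) (n : Fin 3 → ℝ) (y : Fin 9 → ℝ) (v : F) (hv : S.VT n y v) (z : X3)
    (hn : ∀ i, ∑ A, z (i, A) * n A = 0) (hy : ∀ A, ∑ i, y i * z (i, A) = 0) (β : Fin 16) :
    S.T1 n y β z v = 0 := by
  have hvec : ∀ (N : Matrix (Fin 16) (Fin 16) ℂ) (D : Fin 3),
      ((ry y : ℝ) : ℂ) • S.vec N D β v =
        Complex.I • ∑ B, ∑ C, ((eps D B C : ℂ) * (n B : ℂ)) • S.vec (N * sl S y) C β v +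
        (((ry y : ℝ) : ℂ) * (n D : ℂ)) • ∑ E, ((n E : ℝ) : ℂ) • S.vec N E β v := by
    intro N D
    have h := fun α => hv D α
    have h1 : ∑ α, N β α • (((ry y : ℝ) : ℂ) • (S.th α D v - ((n D : ℝ) : ℂ) • S.thn n α v)) =
        ∑ α, N β α • (Complex.I • ∑ B, ∑ C, ∑ i, ((eps D B C : ℂ) * (n B : ℂ) * (y i : ℂ)) •
          S.vec (S.g i) C α v) := Finset.sum_congr rfl fun α _ => by rw [h α]
    have h2 : ∑ α, N β α • (((ry y : ℝ) : ℂ) • (S.th α D v - ((n D : ℝ) : ℂ) • S.thn n α v)) =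
        ((ry y : ℝ) : ℂ) • S.vec N D β v -
          (((ry y : ℝ) : ℂ) * (n D : ℂ)) • ∑ E, ((n E : ℝ) : ℂ) • S.vec N E β v := by
      have e1 : S.vec N D β v = ∑ α, N β α • S.th α D v := by
        simp [CS.vec]
      have e2 : ∑ E, ((n E : ℝ) : ℂ) • S.vec N E β v = ∑ α, N β α • S.thn n α v := by
        unfold Setup.thn
        simp only [CS.vec, sum_apply, smul_apply,
          Finset.smul_sum]
        rw [Finset.sum_comm]
        refine Finset.sum_congr rfl fun α _ => Finset.sum_congr rfl fun E _ => ?_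
        rw [smul_comm]
      rw [e1, e2, Finset.smul_sum, Finset.smul_sum, ← Finset.sum_sub_distrib]
      refine Finset.sum_congr rfl fun α _ => ?_
      module
    have h3 : ∑ α, N β α • (Complex.I • ∑ B, ∑ C, ∑ i, ((eps D B C : ℂ) * (n B : ℂ) * (y i : ℂ)) •
          S.vec (S.g i) C α v) =
        Complex.I • ∑ B, ∑ C, ((eps D B C : ℂ) * (n B : ℂ)) • S.vec (N * sl S y) C β v := by
      have e1 : ∀ C α, S.vec (sl S y) C α v = ∑ i, ((y i : ℝ) : ℂ) • S.vec (S.g i) C α v := by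
        intro C α
        unfold sl
        rw [S.vec_sum, sum_apply]
        refine Finset.sum_congr rfl fun i _ => ?_
        rw [S.vec_smul, smul_apply]
      have e2 : ∀ C, S.vec (N * sl S y) C β v = ∑ α, N β α • S.vec (sl S y) C α v := by
        intro C
        rw [S.vec_mul, sum_apply]
        refine Finset.sum_congr rfl fun α _ => ?_
        rw [smul_apply]
      simp only [e2, e1, Finset.smul_sum, smul_smul]
      rw [Finset.sum_comm]
      refine Finset.sum_congr rfl fun B _ => ?_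
      rw [Finset.sum_comm]
      refine Finset.sum_congr rfl fun C _ => Finset.sum_congr rfl fun α _ =>
        Finset.sum_congr rfl fun i _ => ?_
      congr 1
      ring
    rw [h2, h3] at h1
    rw [← h1]
    module
  have hnZ : ∑ D, ((n D : ℝ) : ℂ) • sl S (col z D) = 0 := by
    unfold sl col
    simp only [Finset.smul_sum, smul_smul]
    rw [Finset.sum_comm]
    refine Finset.sum_eq_zero fun i _ => ?_
    rw [← Finset.sum_smul]
    have : ∑ D, ((n D : ℝ) : ℂ) * ((z (i, D) : ℝ) : ℂ) = 0 := by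
      have := congrArg (fun t : ℝ => (t : ℂ)) (hn i)
      push_cast at this
      rw [← this]
      refine Finset.sum_congr rfl fun D _ => mul_comm _ _
    rw [this, zero_smul]
  rw [T1_eq S n y z hy, smul_apply, sum_apply]
  have h4 : ∑ A, S.vec (PP S n y z A) A β v = 0 := by
    have e1 : ∀ A, S.vec (PP S n y z A) A β v = ((ry y : ℝ) : ℂ) • S.vec (sl S (col z A)) A β v -
        Complex.I • ∑ D, ∑ B, ((eps D B A : ℂ) * (n B : ℂ)) •
          S.vec (sl S (col z D) * sl S y) A β v := by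
      intro A
      unfold PP
      rw [S.vec_sub, S.vec_smul, S.vec_smul, S.vec_sum]
      simp only [S.vec_sum, S.vec_smul, sub_apply,
        smul_apply, sum_apply]
    simp only [e1]
    rw [Finset.sum_sub_distrib]
    simp only [hvec]
    rw [Finset.sum_add_distrib, ← Finset.smul_sum, ← Finset.smul_sum]
    have e2 : ∑ A, ∑ D, ∑ B, ((eps D B A : ℂ) * (n B : ℂ)) • S.vec (sl S (col z D) * sl S y) A β v =
        ∑ D, ∑ B, ∑ A, ((eps D B A : ℂ) * (n B : ℂ)) • S.vec (sl S (col z D) * sl S y) A β v := by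
      rw [Finset.sum_comm]
      refine Finset.sum_congr rfl fun D _ => ?_
      rw [Finset.sum_comm]
    rw [e2]
    have e3 : ∑ D, (((ry y : ℝ) : ℂ) * (n D : ℂ)) • ∑ E, ((n E : ℝ) : ℂ) •
        S.vec (sl S (col z D)) E β v = 0 := by
      have e4 : ∑ D, (((ry y : ℝ) : ℂ) * (n D : ℂ)) • ∑ E, ((n E : ℝ) : ℂ) •
          S.vec (sl S (col z D)) E β v = ((ry y : ℝ) : ℂ) • ∑ E, ((n E : ℝ) : ℂ) •
          S.vec (∑ D, ((n D : ℝ) : ℂ) • sl S (col z D)) E β v := by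
        simp only [S.vec_sum, S.vec_smul, sum_apply,
          smul_apply, Finset.smul_sum, smul_smul]
        rw [Finset.sum_comm]
        refine Finset.sum_congr rfl fun E _ => Finset.sum_congr rfl fun D _ => ?_
        congr 1
        ring
      rw [e4, hnZ]
      simp [S.vec_zero]
    rw [e3]
    simp
  rw [h4, smul_zero]

/-- the abstract identity behind the second order cancellation -/
lemma eps_alg {R : Type*} [Ring R] [Algebra ℂ R] (Z : Fin 3 → R) (Y : R) (n : Fin 3 → ℂ) (r : ℂ)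
    (hn : n 0 • Z 0 + n 1 • Z 1 + n 2 • Z 2 = 0) (hYZ : ∀ C, Z C * Y = -(Y * Z C)) (B : Fin 3) :
    ∑ A, ∑ C, (eps A B C : ℂ) • ((r • Z A - Complex.I • ∑ D, ∑ E, ((eps D E A : ℂ) * n E) •
      (Z D * Y)) * Z C) =
      -(r • ∑ A, ∑ C, (eps B A C : ℂ) • (Z A * Z C) +
        (Complex.I * n B) • (Y * (Z 0 * Z 0 + Z 1 * Z 1 + Z 2 * Z 2))) := by
  obtain ⟨h1, h2, h3, h4, h5, h6⟩ := eps_vals
  have hd := eps_dd
  have e : (Y * Z B) * (n 0 • Z 0 + n 1 • Z 1 + n 2 • Z 2) = 0 := by rw [hn, mul_zero]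
  have key : ∀ X Y' E : R, E = 0 → X = Y' + Complex.I • E → X = Y' := by
    intro X Y' E hE hX
    rw [hX, hE, smul_zero, add_zero]
  have hYZ0 := hYZ 0
  have hYZ1 := hYZ 1
  have hYZ2 := hYZ 2
  clear hYZ hn
  simp only [Fin.sum_univ_three]
  revert e
  fin_cases B <;> intro e <;>
  · simp only [mul_add, mul_smul_comm, Fin.zero_eta, Fin.mk_one, Fin.reduceFinMk] at e
    simp only [Fin.zero_eta, Fin.mk_one, Fin.reduceFinMk, h1, h2, h3, h4, h5,
      h6, (hd _ _).1, (hd _ _).2.1, (hd _ _).2.2, Int.cast_zero, Int.cast_one, Int.cast_neg,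
      zero_smul, add_zero, zero_add, one_smul, neg_smul, zero_mul, one_mul, neg_mul, sub_mul,
      add_mul, smul_mul_assoc, hYZ0, hYZ1, hYZ2, mul_add, Fin.isValue]
    simp only [mul_assoc] at e ⊢
    refine key _ _ _ e ?_
    module

/-- the matrix identity behind the second order cancellation -/
lemma PP_eps (S : Setup F) (n : Fin 3 → ℝ) (y : Fin 9 → ℝ) (z : X3)
    (hn : ∀ i, ∑ A, z (i, A) * n A = 0) (hy : ∀ A, ∑ i, y i * z (i, A) = 0) (B : Fin 3) :
    ∑ A, ∑ C, (eps A B C : ℂ) • (PP S n y z A * sl S (col z C)) =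
      -(((ry y : ℝ) : ℂ) • ∑ A, ∑ C, (eps B A C : ℂ) • (sl S (col z A) * sl S (col z C)) +
        (Complex.I * ((‖z‖ ^ 2 : ℝ) : ℂ) * (n B : ℂ)) • sl S y) := by
  have hnZ : ∑ D, ((n D : ℝ) : ℂ) • sl S (col z D) = 0 := by
    unfold sl col
    simp only [Finset.smul_sum, smul_smul]
    rw [Finset.sum_comm]
    refine Finset.sum_eq_zero fun i _ => ?_
    rw [← Finset.sum_smul]
    have : ∑ D, ((n D : ℝ) : ℂ) * ((z (i, D) : ℝ) : ℂ) = 0 := by
      have := congrArg (fun t : ℝ => (t : ℂ)) (hn i)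
      push_cast at this
      rw [← this]
      refine Finset.sum_congr rfl fun D _ => mul_comm _ _
    rw [this, zero_smul]
  have hYZ : ∀ C, sl S (col z C) * sl S y = -(sl S y * sl S (col z C)) := by
    intro C
    have h := sl_anti S y (col z C)
    have h0 : ∑ i, y i * col z C i = 0 := hy C
    rw [h0, mul_zero, Complex.ofReal_zero, zero_smul] at h
    exact eq_neg_of_add_eq_zero_right h
  have hZZ : ∑ C, sl S (col z C) * sl S (col z C) = ((‖z‖ ^ 2 : ℝ) : ℂ) • 1 := by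
    have hre : ∑ C, ∑ i, col z C i ^ 2 = ‖z‖ ^ 2 := by
      rw [EuclideanSpace.norm_sq_eq, Fintype.sum_prod_type, Finset.sum_comm]
      refine Finset.sum_congr rfl fun i _ => Finset.sum_congr rfl fun C _ => ?_
      rw [Real.norm_eq_abs, sq_abs]
      rfl
    simp only [sl_sq]
    rw [← Finset.sum_smul, ← Complex.ofReal_sum, hre]
  rw [Fin.sum_univ_three] at hnZ hZZ
  have h := eps_alg (fun C => sl S (col z C)) (sl S y) (fun C => ((n C : ℝ) : ℂ))
    ((ry y : ℝ) : ℂ) hnZ hYZ B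
  unfold PP
  refine h.trans ?_
  congr 2
  rw [hZZ, mul_smul_comm, mul_one, smul_smul]
  congr 1
  ring

lemma comm_apply (P Q : F →L[ℂ] F) (v : F) (h : P v = 0) : P (Q v) = (P * Q - Q * P) v := by
  have e : (P * Q - Q * P) v = P (Q v) - Q (P v) := rfl
  rw [e, h, ContinuousLinearMap.map_zero, sub_zero]

lemma m12_comm (S : Setup F) (n : Fin 3 → ℝ) (y : Fin 9 → ℝ) (z : X3)
    (hn : ∀ i, ∑ A, z (i, A) * n A = 0) (hy : ∀ A, ∑ i, y i * z (i, A) = 0) (β : Fin 16) :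
    S.T1 n y β z * S.Fx z - S.Fx z * S.T1 n y β z = ((S.κ : ℂ) ^ 2) • (((ry y : ℝ) : ℂ) •
      ∑ B, S.vec (∑ A, ∑ C, (eps B A C : ℂ) • (sl S (col z A) * sl S (col z C))) B β +
      (Complex.I * ((‖z‖ ^ 2 : ℝ) : ℂ)) • ∑ B, (n B : ℂ) • S.vec (sl S y) B β) := by
  rw [T1_eq S n y z hy, Fx_eq_sl]
  rw [comm_gen2 S.toCS (PP S n y z) (fun C => sl S (col z C)) _ _ β
    (m12_comm_gen S.toCS (fun C => sl S (col z C)) (fun C => sl_transpose S _) (S.κ : ℂ) · · β)]
  simp only [PP_eps S n y z hn hy]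
  exact comm_gen3 S.toCS _ _ _ _ _ _ β

lemma m12_scal (κ r ζ : ℂ) (hκ : κ ≠ 0) (hr : r ≠ 0) (P R : F) :
    (Complex.I * (κ * ζ / (2 * r))) • R + (κ / 2) • P -
      (1 / (2 * κ * r)) • (κ ^ 2 • (r • P + (Complex.I * ζ) • R)) = 0 := by
  have c1 : 1 / (2 * κ * r) * κ ^ 2 * r = κ / 2 := by field_simp
  have c2 : 1 / (2 * κ * r) * κ ^ 2 * (Complex.I * ζ) = Complex.I * (κ * ζ / (2 * r)) := by
    field_simp
  rw [smul_smul, smul_add, smul_smul, smul_smul, c1, c2]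
  abel

/-- **D-M12** -/
theorem m12 (S : Setup F) : M12Stmt S := by
  intro n y _ hry v hv z hn hy β
  have h0 : S.T1 n y β z v = 0 := T1_zero S n y v hv z hn hy β
  refine ⟨h0, ?_⟩
  have hB : S.B β (cone n y) = ∑ B, (n B : ℂ) • S.vec (sl S y) B β := by
    rw [B_eq_sl]
    refine Finset.sum_congr rfl fun A _ => ?_
    rw [sl_cone, S.vec_smul]
  have hκ : (S.κ : ℂ) ≠ 0 := by exact_mod_cast S.κ_pos.ne'
  have hr : ((ry y : ℝ) : ℂ) ≠ 0 := by exact_mod_cast hry.ne'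
  rw [comm_apply _ _ v h0, m12_comm S n y z hn hy β, hB, W_eq_sl]
  have key := m12_scal (S.κ : ℂ) ((ry y : ℝ) : ℂ) ((‖z‖ ^ 2 : ℝ) : ℂ) hκ hr
    ((∑ B, S.vec (∑ A, ∑ C, (eps B A C : ℂ) • (sl S (col z A) * sl S (col z C))) B β) v)
    ((∑ B, (n B : ℂ) • S.vec (sl S y) B β) v)
  rw [← key]
  congr 2
  · congr 2
    push_cast
    ring
  · push_cast
    ring

end Vale.Agent.P353.U
end
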