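import Mathlib
import Vale.Agent.P353.BdU.B4
import Vale.Agent.P353.BdU.B5
import Vale.Agent.P353.BdU.B12
import Vale.Agent.P353.BdU.B13
import Vale.Agent.P353.BdU.B2
import Vale.Agent.P353.BdU.B8

set_option linter.all false

section

/-! Task EX-01: reduction to the Pauli basis.

Proof.  `T_A = ∑_B O_{BA} T'_B` with `T' = pauliT` and `O ∈ O(3)`, `O_{BA} = Re tr(T'_B T_A)`.
Put `θ'^B = ∑_A O_{BA} θ^A`, same `γ`, `S`; `f'` = structure constants of `pauliT`
(`f'_{ABC} = √2 ε_{ABC}`, see `Vale.Agent.P353.eps`).  `x' = O x` is a linear isometry of `X3`;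
`Q_α (u' ∘ O) = (Q'_α u') ∘ O`, `act` corresponds to `act'`, `form`, `IsCore` and
`IsZeroEnergyState` are transported by composition with the isometry (`LinearIsometryEquiv`,
measure preserving). -/

open MeasureTheory Filter Topology
open scoped ContDiff ComplexConjugate

namespace Vale.Agent.P353.Ex

variable {F : Type*} [NormedAddCommGroup F] [InnerProductSpace ℂ F]

lemma pauliEx_s : ((Real.sqrt 2)⁻¹ : ℂ) * ((Real.sqrt 2)⁻¹ : ℂ) = 1 / 2 := by
  rw [← mul_inv, sqrt2_sq]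
  norm_num

lemma pauliEx_herm (A : Fin 3) : (pauliT A).conjTranspose = pauliT A := by
  fin_cases A <;> ext i j <;> fin_cases i <;> fin_cases j <;>
    simp [pauliT_zero, pauliT_one, pauliT_two, Matrix.conjTranspose_apply]

lemma pauliEx_trace (A : Fin 3) : (pauliT A).trace = 0 := by
  fin_cases A <;> simp [pauliT_zero, pauliT_one, pauliT_two, Matrix.trace_fin_two]

lemma pauliEx_orth (A B : Fin 3) : (pauliT A * pauliT B).trace = if A = B then 1 else 0 := by
  have h := pauliEx_s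
  have hI := Complex.I_mul_I
  fin_cases A <;> fin_cases B <;>
    simp [pauliT_zero, pauliT_one, pauliT_two, Matrix.trace_fin_two] <;>
    first
      | linear_combination 2 * h
      | linear_combination 2 * h - 2 * ((Real.sqrt 2)⁻¹ : ℂ) ^ 2 * hI

/-- completeness -/
lemma pauliEx_complete (X : Matrix (Fin 2) (Fin 2) ℂ) (h1 : X.conjTranspose = X)
    (h2 : X.trace = 0) : X = ∑ B, (((pauliT B * X).trace.re : ℝ) : ℂ) • pauliT B := by
  obtain ⟨a, p, q, rfl⟩ : ∃ a p q : ℝ, X = !![(a : ℂ), p + q * Complex.I; p - q * Complex.I, -a] := by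
    refine ⟨(X 0 0).re, (X 0 1).re, (X 0 1).im, ?_⟩
    have e00 := congrFun (congrFun h1 0) 0
    have e10 := congrFun (congrFun h1 1) 0
    rw [Matrix.conjTranspose_apply, RCLike.star_def] at e00 e10
    rw [Matrix.trace_fin_two] at h2
    have e1 : X 0 0 = ((X 0 0).re : ℂ) := by
      have := Complex.conj_eq_iff_re.1 e00
      exact this.symm
    have e2 : X 0 1 = ((X 0 1).re : ℂ) + ((X 0 1).im : ℂ) * Complex.I :=
      (Complex.re_add_im _).symm
    have e3 : X 1 0 = ((X 0 1).re : ℂ) - ((X 0 1).im : ℂ) * Complex.I := by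
      rw [← e10]
      apply Complex.ext <;> simp
    have e4 : X 1 1 = -((X 0 0).re : ℂ) := by
      rw [← e1]
      linear_combination h2
    ext i j
    fin_cases i <;> fin_cases j
    · exact e1
    · exact e2
    · exact e3
    · exact e4
  have h := pauliEx_s
  have hI := Complex.I_mul_I
  have hs : Real.sqrt 2 / 2 = (Real.sqrt 2)⁻¹ := Real.sqrt_div_self
  have t0 : (pauliT 0 * !![(a : ℂ), p + q * Complex.I; p - q * Complex.I, -a]).trace.re =
      (Real.sqrt 2)⁻¹ * (2 * p) := by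
    simp [pauliT_zero, pauliT_one, pauliT_two, Matrix.trace_fin_two]
    linear_combination (2 * p) * hs
  have t1 : (pauliT 1 * !![(a : ℂ), p + q * Complex.I; p - q * Complex.I, -a]).trace.re =
      -((Real.sqrt 2)⁻¹ * (2 * q)) := by
    simp [pauliT_zero, pauliT_one, pauliT_two, Matrix.trace_fin_two]
    linear_combination (-2 * q) * hs
  have t2 : (pauliT 2 * !![(a : ℂ), p + q * Complex.I; p - q * Complex.I, -a]).trace.re =
      (Real.sqrt 2)⁻¹ * (2 * a) := by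
    simp [pauliT_zero, pauliT_one, pauliT_two, Matrix.trace_fin_two]
    linear_combination (2 * a) * hs
  rw [Fin.sum_univ_three, t0, t1, t2]
  ext i j
  fin_cases i <;> fin_cases j <;>
    simp [pauliT_zero, pauliT_one, pauliT_two]
  · linear_combination (-2 * (a : ℂ)) * h
  · linear_combination (-2 * (p + q * Complex.I)) * h
  · linear_combination (-2 * (p - q * Complex.I)) * h
  · linear_combination (-2 * (a : ℂ)) * h


/-! ### the change of basis -/

section Alg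

variable (M : Model 2 3 F)

/-- the orthogonal matrix of the change of basis -/
noncomputable def pauliExR : Matrix (Fin 3) (Fin 3) ℝ :=
  Matrix.of fun B A => (pauliT B * M.T A).trace.re

lemma pauliEx_T (A : Fin 3) : M.T A = ∑ B, ((pauliExR M B A : ℝ) : ℂ) • pauliT B :=
  pauliEx_complete _ (M.T_hermitian A) (M.T_traceless A)

lemma pauliEx_RtR : (pauliExR M).transpose * pauliExR M = 1 := by
  ext A C
  have h1 := M.T_orthonormal A C
  rw [pauliEx_T M A, pauliEx_T M C] at h1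
  simp only [Finset.sum_mul, Finset.mul_sum, Matrix.trace_sum, Matrix.smul_mul, Matrix.mul_smul,
    Matrix.trace_smul, pauliEx_orth, smul_eq_mul, mul_ite, mul_one, mul_zero,
    Finset.sum_ite_eq', Finset.mem_univ, if_true] at h1
  rw [Matrix.mul_apply, Matrix.one_apply]
  have h2 : (((∑ B, (pauliExR M).transpose A B * pauliExR M B C : ℝ)) : ℂ) =
      ((if A = C then (1 : ℝ) else 0 : ℝ) : ℂ) := by
    have h3 : ((if A = C then (1 : ℝ) else 0 : ℝ) : ℂ) = if A = C then (1 : ℂ) else 0 := by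
      split_ifs <;> simp
    rw [h3, ← h1, Complex.ofReal_sum]
    refine Finset.sum_congr rfl fun B _ => ?_
    rw [Complex.ofReal_mul, Matrix.transpose_apply]
    ring
  exact_mod_cast h2

lemma pauliEx_RRt : pauliExR M * (pauliExR M).transpose = 1 :=
  mul_eq_one_comm.1 (pauliEx_RtR M)

lemma pauliEx_col (A C : Fin 3) : ∑ B, pauliExR M B A * pauliExR M B C = if A = C then 1 else 0 := by
  have h := congrFun (congrFun (pauliEx_RtR M) A) C
  rw [Matrix.mul_apply, Matrix.one_apply] at h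
  exact h

lemma pauliEx_row (A C : Fin 3) : ∑ B, pauliExR M A B * pauliExR M C B = if A = C then 1 else 0 := by
  have h := congrFun (congrFun (pauliEx_RRt M) A) C
  rw [Matrix.mul_apply, Matrix.one_apply] at h
  exact h

variable {V : Type*} [AddCommGroup V] [Module ℂ V]

/-- inversion of the change of basis -/
lemma pauliEx_inv {t t' : Fin 3 → V} (h : ∀ B, t' B = ∑ A, ((pauliExR M B A : ℝ) : ℂ) • t A)
    (A : Fin 3) : t A = ∑ B, ((pauliExR M B A : ℝ) : ℂ) • t' B := by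
  simp only [h, Finset.smul_sum, smul_smul]
  rw [Finset.sum_comm]
  have h1 : ∀ C, ∑ B, (((pauliExR M B A : ℝ) : ℂ) * ((pauliExR M B C : ℝ) : ℂ)) • t C =
      if A = C then t C else 0 := by
    intro C
    rw [← Finset.sum_smul]
    have h2 := pauliEx_col M A C
    have h3 : ∑ B, ((pauliExR M B A : ℝ) : ℂ) * ((pauliExR M B C : ℝ) : ℂ) =
        ((∑ B, pauliExR M B A * pauliExR M B C : ℝ) : ℂ) := by push_cast; rfl
    rw [h3, h2]
    split_ifs <;> simp
  simp only [h1, Finset.sum_ite_eq, Finset.mem_univ, if_true]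

/-- and back -/
lemma pauliEx_inv' {t t' : Fin 3 → V} (h : ∀ A, t A = ∑ B, ((pauliExR M B A : ℝ) : ℂ) • t' B)
    (B : Fin 3) : t' B = ∑ A, ((pauliExR M B A : ℝ) : ℂ) • t A := by
  simp only [h, Finset.smul_sum, smul_smul]
  rw [Finset.sum_comm]
  have h1 : ∀ C, ∑ A, (((pauliExR M B A : ℝ) : ℂ) * ((pauliExR M C A : ℝ) : ℂ)) • t' C =
      if B = C then t' C else 0 := by
    intro C
    rw [← Finset.sum_smul]
    have h2 := pauliEx_row M B C
    have h3 : ∑ A, ((pauliExR M B A : ℝ) : ℂ) * ((pauliExR M C A : ℝ) : ℂ) =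
        ((∑ A, pauliExR M B A * pauliExR M C A : ℝ) : ℂ) := by push_cast; rfl
    rw [h3, h2]
    split_ifs <;> simp
  simp only [h1, Finset.sum_ite_eq, Finset.mem_univ, if_true]

lemma pauliEx_T' (B : Fin 3) : pauliT B = ∑ A, ((pauliExR M B A : ℝ) : ℂ) • M.T A :=
  pauliEx_inv' M (pauliEx_T M) B

/-- triple indices -/
abbrev pauliExI : Type := Fin 3 × Fin 3 × Fin 3

/-- coefficients of the change of basis of tensors -/
noncomputable def pauliExR3 (p q : pauliExI) : ℝ :=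
  pauliExR M p.1 q.1 * pauliExR M p.2.1 q.2.1 * pauliExR M p.2.2 q.2.2

/-- transformed structure constants -/
noncomputable def pauliExf (A B C : Fin 3) : ℝ :=
  ∑ q : pauliExI, pauliExR3 M (A, B, C) q * M.f q.1 q.2.1 q.2.2

lemma pauliEx_sum3 {W : Type*} [AddCommMonoid W] (g : Fin 3 → Fin 3 → Fin 3 → W) :
    ∑ A, ∑ B, ∑ C, g A B C = ∑ p : pauliExI, g p.1 p.2.1 p.2.2 := by
  simp only [Fintype.sum_prod_type]

/-- invariance of the contraction with `f` -/
lemma pauliEx_contr {K K' : pauliExI → V}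
    (h : ∀ q, K q = ∑ p, ((pauliExR3 M p q : ℝ) : ℂ) • K' p) :
    ∑ q : pauliExI, ((M.f q.1 q.2.1 q.2.2 : ℝ) : ℂ) • K q =
      ∑ p : pauliExI, ((pauliExf M p.1 p.2.1 p.2.2 : ℝ) : ℂ) • K' p := by
  simp only [h, Finset.smul_sum, smul_smul]
  rw [Finset.sum_comm]
  refine Finset.sum_congr rfl fun p _ => ?_
  rw [pauliExf, ← Finset.sum_smul]
  congr 1
  push_cast
  refine Finset.sum_congr rfl fun q _ => ?_
  ring

lemma pauliEx_comm (A B : Fin 3) : pauliT A * pauliT B - pauliT B * pauliT A =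
    ∑ C, (Complex.I * (pauliExf M A B C : ℂ)) • pauliT C := by
  have h1 : pauliT A * pauliT B - pauliT B * pauliT A = ∑ A', ∑ B', ∑ C',
      (Complex.I * ((pauliExR M A A' * pauliExR M B B' * M.f A' B' C' : ℝ) : ℂ)) • M.T C' := by
    have h2 : pauliT A * pauliT B - pauliT B * pauliT A = ∑ A', ∑ B',
        ((pauliExR M A A' * pauliExR M B B' : ℝ) : ℂ) • (M.T A' * M.T B' - M.T B' * M.T A') := by
      conv_lhs => rw [pauliEx_T' M A, pauliEx_T' M B]
      simp only [Finset.sum_mul, Finset.mul_sum, Matrix.smul_mul, Matrix.mul_smul, smul_sub,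
        Finset.sum_sub_distrib, smul_smul]
      congr 1
      · rw [Finset.sum_comm]
        refine Finset.sum_congr rfl fun A' _ => Finset.sum_congr rfl fun B' _ => ?_
        rw [Complex.ofReal_mul, mul_comm]
      · refine Finset.sum_congr rfl fun A' _ => Finset.sum_congr rfl fun B' _ => ?_
        rw [Complex.ofReal_mul]
    rw [h2]
    refine Finset.sum_congr rfl fun A' _ => Finset.sum_congr rfl fun B' _ => ?_
    rw [M.T_comm, Finset.smul_sum]
    refine Finset.sum_congr rfl fun C' _ => ?_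
    rw [smul_smul]
    congr 1
    push_cast
    ring
  have h3 : ∀ A' B' C', (Complex.I * ((pauliExR M A A' * pauliExR M B B' * M.f A' B' C' : ℝ) : ℂ)) •
      M.T C' = ∑ C, (Complex.I * ((pauliExR3 M (A, B, C) (A', B', C') * M.f A' B' C' : ℝ) : ℂ)) •
        pauliT C := by
    intro A' B' C'
    conv_lhs => rw [pauliEx_T M C']
    rw [Finset.smul_sum]
    refine Finset.sum_congr rfl fun C _ => ?_
    rw [smul_smul, pauliExR3]
    congr 1
    push_cast
    ring
  rw [h1, pauliEx_sum3]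
  simp only [h3]
  rw [Finset.sum_comm]
  refine Finset.sum_congr rfl fun C _ => ?_
  rw [← Finset.sum_smul, pauliExf]
  congr 1
  push_cast
  rw [Finset.mul_sum]

/-- the adjoint action in the new basis -/
lemma pauliEx_ad (U : SU2) (B A : Fin 3) : adCoeff pauliT U B A =
    ∑ B', ∑ A', pauliExR M B B' * pauliExR M A A' * adCoeff M.T U B' A' := by
  rw [adCoeff]
  conv_lhs => rw [pauliEx_T' M A, pauliEx_T' M B]
  simp only [Finset.sum_mul, Finset.mul_sum, Matrix.smul_mul, Matrix.mul_smul, Matrix.trace_sum,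
    Matrix.trace_smul, smul_smul, Complex.re_sum]
  rw [Finset.sum_comm]
  refine Finset.sum_congr rfl fun B' _ => Finset.sum_congr rfl fun A' _ => ?_
  rw [smul_eq_mul, ← Complex.ofReal_mul, Complex.re_ofReal_mul, adCoeff]
  ring

/-- the new Clifford generators -/
noncomputable def pauliExth (α : Fin 16) (B : Fin 3) : F →L[ℂ] F :=
  ∑ A, ((pauliExR M B A : ℝ) : ℂ) • M.θ α A

lemma pauliEx_th (α : Fin 16) (A : Fin 3) :
    M.θ α A = ∑ B, ((pauliExR M B A : ℝ) : ℂ) • pauliExth M α B :=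
  pauliEx_inv M (t := M.θ α) (t' := pauliExth M α) (fun _ => rfl) A

/-- the model in the Pauli basis -/
noncomputable def pauliExM : Model 2 3 F where
  dim_eq := M.dim_eq
  T := pauliT
  T_hermitian := pauliEx_herm
  T_traceless := pauliEx_trace
  T_orthonormal := pauliEx_orth
  f := pauliExf M
  T_comm := pauliEx_comm M
  γ := M.γ
  γ_symm := M.γ_symm
  γ_anticomm := M.γ_anticomm
  θ := pauliExth M
  θ_selfAdjoint α A v w := by
    simp only [pauliExth, _root_.sum_apply, _root_.smul_apply, sum_inner, inner_sum,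
      inner_smul_left, inner_smul_right, Complex.conj_ofReal, M.θ_selfAdjoint]
  θ_anticomm α A β B := by
    have h1 : pauliExth M α A * pauliExth M β B + pauliExth M β B * pauliExth M α A =
        ∑ A', ∑ B', (((pauliExR M A A' : ℝ) : ℂ) * ((pauliExR M B B' : ℝ) : ℂ)) •
          (M.θ α A' * M.θ β B' + M.θ β B' * M.θ α A') := by
      simp only [pauliExth, Finset.sum_mul, Finset.mul_sum, smul_mul_smul_comm, smul_add,
        Finset.sum_add_distrib]
      refine congrArg₂ (· + ·) ?_ ?_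
      · exact Finset.sum_comm
      · refine Finset.sum_congr rfl fun A' _ => Finset.sum_congr rfl fun B' _ => ?_
        rw [mul_comm]
    rw [h1]
    simp only [M.θ_anticomm]
    by_cases hab : α = β
    · simp only [hab, true_and, smul_ite, smul_zero, Finset.sum_ite_eq, Finset.mem_univ, if_true]
      rw [← Finset.sum_smul]
      have h2 := pauliEx_row M A B
      have h3 : ∑ C, ((pauliExR M A C : ℝ) : ℂ) * ((pauliExR M B C : ℝ) : ℂ) =
          ((∑ C, pauliExR M A C * pauliExR M B C : ℝ) : ℂ) := by push_cast; rfl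
      rw [h3, h2]
      split_ifs <;> simp
    · simp [hab]
  θ_irreducible W h := by
    refine M.θ_irreducible W fun α A v hv => ?_
    rw [pauliEx_th M α A]
    simp only [_root_.sum_apply, _root_.smul_apply]
    exact W.sum_mem fun B _ => W.smul_mem _ (h α B v hv)
  nontrivial := M.nontrivial
  S := M.S
  S_isometry := M.S_isometry
  S_continuous := M.S_continuous
  S_rotates U α A := by
    have h1 : ∀ B', M.θ α B' * M.S U = ∑ B, ((pauliExR M B B' : ℝ) : ℂ) •
        (pauliExth M α B * M.S U) := by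
      intro B'
      conv_lhs => rw [pauliEx_th M α B']
      simp only [Finset.sum_mul, smul_mul_assoc]
    have h2 : M.S U * pauliExth M α A = ∑ A', ∑ B', ∑ B,
        ((pauliExR M B B' * pauliExR M A A' * adCoeff M.T U B' A' : ℝ) : ℂ) •
          (pauliExth M α B * M.S U) := by
      conv_lhs => rw [pauliExth]
      simp only [Finset.mul_sum, mul_smul_comm, M.S_rotates, h1, Finset.smul_sum, smul_smul]
      refine Finset.sum_congr rfl fun A' _ => Finset.sum_congr rfl fun B' _ =>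
        Finset.sum_congr rfl fun B _ => ?_
      refine congrArg (· • _) ?_
      push_cast
      ring
    rw [h2]
    simp only [pauliEx_ad M, Complex.ofReal_sum, Finset.sum_smul]
    rw [Finset.sum_comm]
    refine (Finset.sum_congr rfl fun B' _ => Finset.sum_comm).trans ?_
    rw [Finset.sum_comm]

/-! ### the isometry -/

omit [NormedAddCommGroup F] [InnerProductSpace ℂ F] in
/-- action of a matrix on the colour index -/
noncomputable def pauliExL (R : Matrix (Fin 3) (Fin 3) ℝ) : X3 →ₗ[ℝ] X3 where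
  toFun x := WithLp.toLp 2 fun p => ∑ A, R p.2 A * x (p.1, A)
  map_add' x y := by
    ext p
    simp [mul_add, Finset.sum_add_distrib]
  map_smul' c x := by
    ext p
    simp only [PiLp.smul_apply, smul_eq_mul, RingHom.id_apply, Finset.mul_sum]
    refine Finset.sum_congr rfl fun A _ => ?_
    ring

omit [NormedAddCommGroup F] [InnerProductSpace ℂ F] in
lemma pauliExL_apply (R : Matrix (Fin 3) (Fin 3) ℝ) (x : X3) (i : Fin 9) (B : Fin 3) :
    pauliExL R x (i, B) = ∑ A, R B A * x (i, A) := rfl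

lemma pauliExL_comp (R Q : Matrix (Fin 3) (Fin 3) ℝ) (x : X3) :
    pauliExL R (pauliExL Q x) = pauliExL (R * Q) x := by
  ext ⟨i, B⟩
  simp only [pauliExL_apply, Matrix.mul_apply, Finset.mul_sum, Finset.sum_mul]
  rw [Finset.sum_comm]
  refine Finset.sum_congr rfl fun A _ => Finset.sum_congr rfl fun C _ => ?_
  ring

lemma pauliExL_one (x : X3) : pauliExL 1 x = x := by
  ext ⟨i, B⟩
  simp [pauliExL_apply, Matrix.one_apply]

lemma pauliExL_norm (x : X3) : ‖pauliExL (pauliExR M) x‖ = ‖x‖ := by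
  rw [EuclideanSpace.norm_eq, EuclideanSpace.norm_eq]
  refine congrArg Real.sqrt ?_
  rw [Fintype.sum_prod_type, Fintype.sum_prod_type]
  refine Finset.sum_congr rfl fun i _ => ?_
  simp only [Real.norm_eq_abs, sq_abs, pauliExL_apply]
  have h1 : ∀ B, (∑ A, pauliExR M B A * x (i, A)) ^ 2 =
      ∑ A, ∑ C, (pauliExR M B A * pauliExR M B C) * (x (i, A) * x (i, C)) := by
    intro B
    rw [sq, Finset.sum_mul_sum]
    refine Finset.sum_congr rfl fun A _ => Finset.sum_congr rfl fun C _ => ?_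
    ring
  simp only [h1]
  rw [Finset.sum_comm]
  refine Finset.sum_congr rfl fun A _ => ?_
  rw [Finset.sum_comm]
  simp only [← Finset.sum_mul, pauliEx_col, ite_mul, one_mul, zero_mul, Finset.sum_ite_eq,
    Finset.mem_univ, if_true]
  ring

/-- the isometry `x ↦ O x` -/
noncomputable def pauliExρ : X3 ≃ₗᵢ[ℝ] X3 where
  toLinearEquiv :=
    { pauliExL (pauliExR M) with
      invFun := pauliExL (pauliExR M).transpose
      left_inv := fun x => by
        show pauliExL (pauliExR M).transpose (pauliExL (pauliExR M) x) = x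
        rw [pauliExL_comp, pauliEx_RtR, pauliExL_one]
      right_inv := fun x => by
        show pauliExL (pauliExR M) (pauliExL (pauliExR M).transpose x) = x
        rw [pauliExL_comp, pauliEx_RRt, pauliExL_one] }
  norm_map' := fun x => pauliExL_norm M x

lemma pauliExρ_apply (x : X3) : pauliExρ M x = pauliExL (pauliExR M) x := rfl

lemma pauliExρ_coord (x : X3) (i : Fin 9) (B : Fin 3) :
    pauliExρ M x (i, B) = ∑ A, pauliExR M B A * x (i, A) := rfl

lemma pauliExρ_inv (x : X3) (i : Fin 9) (A : Fin 3) :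
    x (i, A) = ∑ B, pauliExR M B A * pauliExρ M x (i, B) := by
  have h : x = pauliExL (pauliExR M).transpose (pauliExρ M x) := by
    rw [pauliExρ_apply, pauliExL_comp, pauliEx_RtR, pauliExL_one]
  conv_lhs => rw [h]
  rfl

lemma pauliExρ_act (U : SU2) (x : X3) :
    pauliExρ M (M.act U x) = (pauliExM M).act U (pauliExρ M x) := by
  have h1 : M.act U x = pauliExL (Matrix.of fun B A => adCoeff M.T U B A) x := rfl
  have h2 : (pauliExM M).act U (pauliExρ M x) =
      pauliExL (Matrix.of fun B A => adCoeff pauliT U B A) (pauliExρ M x) := rfl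
  have h3 : (Matrix.of fun B A => adCoeff pauliT U B A) =
      pauliExR M * (Matrix.of fun B A => adCoeff M.T U B A) * (pauliExR M).transpose := by
    ext B A
    rw [Matrix.mul_apply]
    simp only [Matrix.mul_apply, Matrix.of_apply, Matrix.transpose_apply, pauliEx_ad M,
      Finset.sum_mul]
    rw [Finset.sum_comm]
    refine Finset.sum_congr rfl fun A' _ => Finset.sum_congr rfl fun B' _ => ?_
    ring
  rw [h1, h2, h3, pauliExρ_apply, pauliExρ_apply, pauliExL_comp, pauliExL_comp, Matrix.mul_assoc,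
    Matrix.mul_assoc, pauliEx_RtR, Matrix.mul_one]

lemma pauliExρ_single (i : Fin 9) (A : Fin 3) :
    pauliExρ M (EuclideanSpace.single (i, A) 1) =
      ∑ B, pauliExR M B A • (EuclideanSpace.single (i, B) 1 : X3) := by
  ext ⟨j, C⟩
  have h1 : ∀ B : Fin 3, (EuclideanSpace.single (i, B) (1 : ℝ) : X3) (j, C) =
      if j = i ∧ C = B then 1 else 0 := by
    intro B
    rw [PiLp.single_apply]
    simp only [Prod.mk.injEq]
  have h2 : (∑ B, pauliExR M B A • (EuclideanSpace.single (i, B) 1 : X3)) (j, C) =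
      ∑ B, pauliExR M B A * (if j = i ∧ C = B then 1 else 0) := by
    rw [WithLp.ofLp_sum, Finset.sum_apply]
    refine Finset.sum_congr rfl fun B _ => ?_
    rw [PiLp.smul_apply, h1, smul_eq_mul]
  rw [pauliExρ_coord, h2]
  simp only [PiLp.single_apply, Prod.mk.injEq]
  by_cases hj : j = i
  · simp [hj]
  · simp [hj]

lemma pauliEx_pd (u : X3 → F) (i : Fin 9) (A : Fin 3) (x : X3) :
    pd i A (fun y => u (pauliExρ M y)) x =
      ∑ B, ((pauliExR M B A : ℝ) : ℂ) • pd i B u (pauliExρ M x) := by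
  have h1 : fderiv ℝ (fun y => u (pauliExρ M y)) x =
      (fderiv ℝ u (pauliExρ M x)).comp ((pauliExρ M).toContinuousLinearEquiv : X3 →L[ℝ] X3) :=
    (pauliExρ M).toContinuousLinearEquiv.comp_right_fderiv
  rw [pd, h1]
  show (fderiv ℝ u (pauliExρ M x)) (pauliExρ M (EuclideanSpace.single (i, A) 1)) = _
  rw [pauliExρ_single, map_sum]
  refine Finset.sum_congr rfl fun B _ => ?_
  rw [map_smul, pd, Complex.coe_smul]

/-- the potential term -/
lemma pauliEx_slot (q : pauliExI) (y z : Fin 3 → ℝ) (g : ℝ) (t : Fin 3 → V) :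
    ∑ p : pauliExI, ((pauliExR3 M p q : ℝ) : ℂ) • (((y p.2.1 * z p.2.2 * g : ℝ) : ℂ) • t p.1) =
      ((((∑ B, pauliExR M B q.2.1 * y B) * (∑ C, pauliExR M C q.2.2 * z C) * g : ℝ)) : ℂ) •
        ∑ A, ((pauliExR M A q.1 : ℝ) : ℂ) • t A := by
  rw [← pauliEx_sum3 (fun A B C => ((pauliExR3 M (A, B, C) q : ℝ) : ℂ) •
    (((y B * z C * g : ℝ) : ℂ) • t A)), Finset.smul_sum]
  refine Finset.sum_congr rfl fun A _ => ?_
  simp only [smul_smul, ← Finset.sum_smul]
  congr 1
  have h : ∑ B, ∑ C, pauliExR3 M (A, B, C) q * (y B * z C * g) =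
      (∑ B, pauliExR M B q.2.1 * y B) * (∑ C, pauliExR M C q.2.2 * z C) * g * pauliExR M A q.1 := by
    rw [Finset.sum_mul_sum, Finset.sum_mul, Finset.sum_mul]
    refine Finset.sum_congr rfl fun B _ => ?_
    rw [Finset.sum_mul, Finset.sum_mul]
    refine Finset.sum_congr rfl fun C _ => ?_
    rw [pauliExR3]
    ring
  rw [← Complex.ofReal_mul, ← h]
  push_cast
  rfl

lemma pauliEx_pot (f : Fin 3 → Fin 3 → Fin 3 → ℝ) (X : Fin 9 → Fin 3 → ℝ)
    (g : Fin 9 → Fin 9 → Fin 16 → ℝ) (t : Fin 16 → Fin 3 → V) :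
    ∑ A, ∑ B, ∑ C, ∑ i, ∑ j, ∑ β, ((f A B C * X i B * X j C * g i j β : ℝ) : ℂ) • t β A =
      ∑ q : pauliExI, ((f q.1 q.2.1 q.2.2 : ℝ) : ℂ) •
        ∑ i, ∑ j, ∑ β, ((X i q.2.1 * X j q.2.2 * g i j β : ℝ) : ℂ) • t β q.1 := by
  rw [pauliEx_sum3]
  refine Finset.sum_congr rfl fun q _ => ?_
  simp only [Finset.smul_sum, smul_smul]
  refine Finset.sum_congr rfl fun i _ => Finset.sum_congr rfl fun j _ =>
    Finset.sum_congr rfl fun β _ => ?_
  congr 1
  push_cast
  ring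

lemma pauliEx_K (g : Fin 9 → Fin 9 → Fin 16 → ℝ) (v : F) (x : X3) (q : pauliExI) :
    ∑ i, ∑ j, ∑ β, ((x (i, q.2.1) * x (j, q.2.2) * g i j β : ℝ) : ℂ) • M.θ β q.1 v =
      ∑ p : pauliExI, ((pauliExR3 M p q : ℝ) : ℂ) • ∑ i, ∑ j, ∑ β,
        ((pauliExρ M x (i, p.2.1) * pauliExρ M x (j, p.2.2) * g i j β : ℝ) : ℂ) •
          pauliExth M β p.1 v := by
  symm
  simp only [Finset.smul_sum]
  refine Finset.sum_comm.trans (Finset.sum_congr rfl fun i _ => ?_)
  refine Finset.sum_comm.trans (Finset.sum_congr rfl fun j _ => ?_)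
  refine Finset.sum_comm.trans (Finset.sum_congr rfl fun β _ => ?_)
  have h1 := pauliEx_slot M q (fun B => pauliExρ M x (i, B)) (fun C => pauliExρ M x (j, C))
    (g i j β) (fun A => pauliExth M β A v)
  have h2 : M.θ β q.1 v = ∑ A, ((pauliExR M A q.1 : ℝ) : ℂ) • pauliExth M β A v := by
    conv_lhs => rw [pauliEx_th M β q.1]
    simp only [_root_.sum_apply, _root_.smul_apply]
  rw [h1, h2, ← pauliExρ_inv, ← pauliExρ_inv]

lemma pauliEx_Q2 (g : Fin 9 → Fin 9 → Fin 16 → ℝ) (v : F) (x : X3) :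
    ∑ A, ∑ B, ∑ C, ∑ i, ∑ j, ∑ β,
      ((M.f A B C * x (i, B) * x (j, C) * g i j β : ℝ) : ℂ) • M.θ β A v =
    ∑ A, ∑ B, ∑ C, ∑ i, ∑ j, ∑ β,
      ((pauliExf M A B C * pauliExρ M x (i, B) * pauliExρ M x (j, C) * g i j β : ℝ) : ℂ) •
        pauliExth M β A v := by
  have h1 := pauliEx_pot M.f (fun i A => x (i, A)) g (fun β A => M.θ β A v)
  have h2 := pauliEx_pot (pauliExf M) (fun i A => pauliExρ M x (i, A)) g
    (fun β A => pauliExth M β A v)
  have h3 := pauliEx_contr M (K := fun q => ∑ i, ∑ j, ∑ β,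
    ((x (i, q.2.1) * x (j, q.2.2) * g i j β : ℝ) : ℂ) • M.θ β q.1 v) (pauliEx_K M g v x)
  exact h1.trans (h3.trans h2.symm)

lemma pauliEx_Q1 (α : Fin 16) (u : X3 → F) (x : X3) :
    ∑ i, ∑ β, ∑ A, ((M.γ i α β : ℝ) : ℂ) • M.θ β A (pd i A (fun y => u (pauliExρ M y)) x) =
      ∑ i, ∑ β, ∑ A, ((M.γ i α β : ℝ) : ℂ) • pauliExth M β A (pd i A u (pauliExρ M x)) := by
  refine Finset.sum_congr rfl fun i _ => Finset.sum_congr rfl fun β _ => ?_
  simp only [pauliEx_pd, map_sum, map_smul, pauliExth, _root_.sum_apply, _root_.smul_apply]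
  rw [← Finset.smul_sum, ← Finset.smul_sum, Finset.sum_comm]

lemma pauliEx_Q (α : Fin 16) (u : X3 → F) (x : X3) :
    M.Q α (fun y => u (pauliExρ M y)) x = (pauliExM M).Q α u (pauliExρ M x) := by
  have e1 : (pauliExM M).γ2 = M.γ2 := rfl
  have e2 : (pauliExM M).f = pauliExf M := rfl
  have e3 : (pauliExM M).θ = pauliExth M := rfl
  have e4 : (pauliExM M).γ = M.γ := rfl
  rw [Model.Q, Model.Q, e1, e2, e3, e4, pauliEx_Q1,
    pauliEx_Q2 M (fun i j β => M.γ2 i j α β) (u (pauliExρ M x)) x]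

lemma pauliExρ_mp : MeasurePreserving (pauliExρ M) (volume : Measure X3) volume :=
  (pauliExρ M).measurePreserving

lemma pauliEx_int {G : Type*} [NormedAddCommGroup G] [NormedSpace ℝ G] (g : X3 → G) :
    ∫ x, g (pauliExρ M x) = ∫ x, g x :=
  (pauliExρ_mp M).integral_comp (pauliExρ M).toHomeomorph.measurableEmbedding g

lemma pauliEx_form (φ u : X3 → F) :
    M.form (fun x => φ (pauliExρ M x)) (fun x => u (pauliExρ M x)) = (pauliExM M).form φ u := by
  rw [Model.form, Model.form]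
  congr 1
  refine Finset.sum_congr rfl fun α _ => ?_
  simp only [pauliEx_Q]
  exact pauliEx_int M fun y => inner ℂ ((pauliExM M).Q α φ y) ((pauliExM M).Q α u y)

lemma pauliEx_core {u : X3 → F} (hu : (pauliExM M).IsCore u) :
    M.IsCore fun x => u (pauliExρ M x) := by
  refine ⟨hu.1.comp (pauliExρ M).contDiff, hu.2.1.comp_homeomorph (pauliExρ M).toHomeomorph,
    fun U x => ?_⟩
  show u (pauliExρ M (M.act U x)) = M.S U (u (pauliExρ M x))
  rw [pauliExρ_act]
  exact hu.2.2 U (pauliExρ M x)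

lemma pauliEx_core' {φ : X3 → F} (hφ : M.IsCore φ) :
    (pauliExM M).IsCore fun x => φ ((pauliExρ M).symm x) := by
  refine ⟨hφ.1.comp (pauliExρ M).symm.contDiff,
    hφ.2.1.comp_homeomorph (pauliExρ M).symm.toHomeomorph, fun U x => ?_⟩
  have h1 : (pauliExρ M).symm ((pauliExM M).act U x) = M.act U ((pauliExρ M).symm x) := by
    rw [LinearIsometryEquiv.symm_apply_eq, pauliExρ_act, LinearIsometryEquiv.apply_symm_apply]
  show φ ((pauliExρ M).symm ((pauliExM M).act U x)) = M.S U (φ ((pauliExρ M).symm x))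
  rw [h1]
  exact hφ.2.2 U ((pauliExρ M).symm x)

end Alg

theorem exists_pauli (M : Model 2 3 F) :
    ∃ M' : Model 2 3 F, M'.T = pauliT ∧
      ((∃ Ψ : Lp F 2 (volume : Measure X3), M'.IsZeroEnergyState Ψ ∧ Ψ ≠ 0) →
        ∃ Ψ : Lp F 2 (volume : Measure X3), M.IsZeroEnergyState Ψ ∧ Ψ ≠ 0) := by
  refine ⟨pauliExM M, rfl, ?_⟩
  rintro ⟨Ψ, ⟨u, hu, h1, h2, h3⟩, hne⟩
  refine ⟨Lp.compMeasurePreserving (pauliExρ M) (pauliExρ_mp M) Ψ,
    ⟨fun n x => u n (pauliExρ M x), fun n => pauliEx_core M (hu n), ?_, ?_, ?_⟩, ?_⟩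
  · refine h1.congr fun n => ?_
    rw [← pauliEx_int M]
    refine integral_congr_ae ?_
    filter_upwards [Lp.coeFn_compMeasurePreserving Ψ (pauliExρ_mp M)] with x hx
    rw [hx]
    rfl
  · refine h2.congr fun p => ?_
    exact (pauliEx_form M (u p.1 - u p.2) (u p.1 - u p.2)).symm
  · intro φ hφ
    refine (h3 _ (pauliEx_core' M hφ)).congr fun n => ?_
    rw [← pauliEx_form M]
    simp only [LinearIsometryEquiv.symm_apply_apply]
  · intro h0
    apply hne
    have h4 : ‖Lp.compMeasurePreserving (pauliExρ M) (pauliExρ_mp M) Ψ‖ = ‖Ψ‖ :=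
      Lp.norm_compMeasurePreserving Ψ (pauliExρ_mp M)
    rw [h0, norm_zero] at h4
    exact norm_eq_zero.1 h4.symm

end Vale.Agent.P353.Ex
end

section

/-! Task EX-16: the averaging operator.

`B0 ≤ 1`, `ze (act U⁻¹ x) ≤ √(phsq x)`.
`Av_bound`: `(1+ze)³ ≤ (1+√phsq)³` and `sph_bound`.
`Av_memLp`: Cauchy-Schwarz in `v`:
`‖Av f x‖² ≤ (∫ e^{-|v|²} e^{-s perp2}) (∫ e^{-|v|²} e^{s perp2} ‖f(U⁻¹x)‖²)`, the first factor is
`≤ C/(1+phsq x)`, invariant; then Tonelli, `x ↦ act U x` measure preserving, and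
`∫ (1+phsq)^{-1} e^{s perp2} ‖f‖² ≤ C ∫ (1+ze)⁴ e^{-s perp2} B0 < ∞` (`integrable_J`). -/

open MeasureTheory Filter Topology
open scoped ContDiff ComplexConjugate

namespace Vale.Agent.P353.Ex

variable {F : Type*} [NormedAddCommGroup F] [InnerProductSpace ℂ F]

namespace Fk

variable (K : Fk F)

/-- the average over the group -/
noncomputable def Av (f : X3 → F) (x : X3) : F :=
  ∫ v : V4, (Real.exp (-‖v‖ ^ 2) : ℂ) • K.S (gU v) (f (act (gU v)⁻¹ x))

/-- admissible functions -/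
def Adm (f : X3 → F) : Prop := Continuous f ∧ ∃ C s : ℝ, 0 < s ∧ ∀ x,
  ‖f x‖ ≤ C * (1 + ze x) ^ 3 * Real.exp (-s * perp2 x) * B0 x

/-- `∫ e^{-|v|²}` -/
noncomputable def c0 : ℝ := ∫ v : V4, Real.exp (-‖v‖ ^ 2)

theorem c0_pos : 0 < c0 := by
  unfold c0
  rw [integral_pos_iff_support_of_nonneg (fun v => (Real.exp_pos _).le) integrable_gauss4]
  have h : Function.support (fun v : V4 => Real.exp (-‖v‖ ^ 2)) = Set.univ :=
    Set.eq_univ_of_forall fun v => (Real.exp_pos _).ne'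
  rw [h]
  exact Measure.measure_univ_pos.2 (NeZero.ne _)

/-! ### elementary facts -/

private theorem r3_nonneg (x : X3) : 0 ≤ r3 x := by unfold r3; positivity

private theorem perp2_nonnegA (x : X3) : 0 ≤ perp2 x := by unfold perp2; positivity

private theorem phsq_nonneg (x : X3) : 0 ≤ phsq x :=
  Finset.sum_nonneg fun A _ => by positivity

private theorem ze_nonnegA (x : X3) : 0 ≤ ze x := Real.sqrt_nonneg _

private theorem B0_pos (x : X3) : 0 < B0 x := Real.exp_pos _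

private theorem B0_le_one (x : X3) : B0 x ≤ 1 := by
  unfold B0
  rw [Real.exp_le_one_iff]
  have h1 : 0 ≤ x3sq x := Finset.sum_nonneg fun i _ => sq_nonneg _
  have h2 : 0 ≤ wsq x := Finset.sum_nonneg fun i _ => by positivity
  have h3 : 0 ≤ gg x := by unfold gg; positivity
  have h4 : 0 ≤ gg x * r3 x * wsq x := mul_nonneg (mul_nonneg h3 (r3_nonneg x)) h2
  have h5 : 0 ≤ wsq x ^ 2 := sq_nonneg _
  linarith

private theorem ze_le (x : X3) : ze x ≤ Real.sqrt (phsq x) := by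
  unfold ze
  apply Real.sqrt_le_sqrt
  rw [phsq_eq]
  linarith [perp2_nonnegA x]

private theorem continuous_coord (p : Fin 9 × Fin 3) : Continuous fun x : X3 => x p :=
  (EuclideanSpace.proj (𝕜 := ℝ) p).continuous

private theorem continuous_perp2 : Continuous perp2 := by
  unfold perp2
  exact ((((continuous_coord _).pow 2).add ((continuous_coord _).pow 2)).add
    ((continuous_coord _).pow 2)).add ((continuous_coord _).pow 2)

private theorem continuous_phsq : Continuous phsq := by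
  unfold phsq
  exact continuous_finsetSum _ fun A _ => ((continuous_coord _).pow 2).add
    ((continuous_coord _).pow 2)

private theorem continuous_inv_SU2 : Continuous fun U : SU2 => U⁻¹ :=
  continuous_induced_rng.2 (continuous_star.comp continuous_subtype_val)

private theorem S_joint : Continuous fun p : SU2 × F => K.S p.1 p.2 := by
  rw [continuous_iff_continuousAt]
  rintro ⟨U0, w0⟩
  rw [ContinuousAt, tendsto_iff_norm_sub_tendsto_zero]
  have h1 : Tendsto (fun p : SU2 × F => ‖p.2 - w0‖ + ‖K.S p.1 w0 - K.S U0 w0‖) (𝓝 (U0, w0))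
      (𝓝 0) := by
    have hc : Continuous fun p : SU2 × F => ‖p.2 - w0‖ + ‖K.S p.1 w0 - K.S U0 w0‖ :=
      (continuous_snd.sub continuous_const).norm.add
        (((K.S_continuous w0).comp continuous_fst).sub continuous_const).norm
    have := hc.tendsto (U0, w0)
    simpa only [sub_self, norm_zero, add_zero] using this
  refine squeeze_zero (fun _ => norm_nonneg _) (fun p => ?_) h1
  have e : K.S p.1 p.2 - K.S U0 w0 = K.S p.1 (p.2 - w0) + (K.S p.1 w0 - K.S U0 w0) := by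
    rw [map_sub]; abel
  rw [e]
  refine (norm_add_le _ _).trans ?_
  rw [K.S_isometry]

/-! ### measurability off `v = 0` -/

private theorem contAt_act (v : V4) (hv : v ≠ 0) (x : X3) :
    ContinuousAt (fun p : V4 × X3 => act (gU p.1)⁻¹ p.2) (v, x) := by
  have h1 : Tendsto (fun p : V4 × X3 => gU p.1) (𝓝 (v, x)) (𝓝 (gU v)) :=
    (continuousAt_gU v hv).tendsto.comp (continuous_fst.tendsto (v, x))
  have h2 : Tendsto (fun p : V4 × X3 => (gU p.1)⁻¹) (𝓝 (v, x)) (𝓝 (gU v)⁻¹) :=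
    (continuous_inv_SU2.tendsto (gU v)).comp h1
  have h3 : Tendsto (fun p : V4 × X3 => ((gU p.1)⁻¹, p.2)) (𝓝 (v, x)) (𝓝 ((gU v)⁻¹, x)) :=
    h2.prodMk_nhds (continuous_snd.tendsto (v, x))
  have h4 : Tendsto (fun p : SU2 × X3 => act p.1 p.2) (𝓝 ((gU v)⁻¹, x)) (𝓝 (act (gU v)⁻¹ x)) :=
    continuous_act.tendsto ((gU v)⁻¹, x)
  have h5 := h4.comp h3
  rw [Function.comp_def] at h5
  exact h5

private theorem ae_ne : ∀ᵐ v : V4, v ≠ 0 := by
  rw [ae_iff]
  simp

private theorem aesm_v {E : Type*} [NormedAddCommGroup E] {g : V4 → E}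
    (hg : ∀ v, v ≠ 0 → ContinuousAt g v) : AEStronglyMeasurable g (volume : Measure V4) := by
  have h : ContinuousOn g {0}ᶜ := fun v hv => (hg v hv).continuousWithinAt
  have h2 := h.aestronglyMeasurable (μ := (volume : Measure V4))
    (measurableSet_singleton (0 : V4)).compl
  rwa [Measure.restrict_eq_self_of_ae_mem] at h2
  exact ae_ne

private theorem aesm_prod {E : Type*} [NormedAddCommGroup E] {g : V4 × X3 → E}
    (hg : ∀ v, v ≠ 0 → ∀ x, ContinuousAt g (v, x)) :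
    AEStronglyMeasurable g ((volume : Measure V4).prod (volume : Measure X3)) := by
  have h : ContinuousOn g (({0}ᶜ : Set V4) ×ˢ (Set.univ : Set X3)) := by
    rintro ⟨v, x⟩ hv
    exact (hg v hv.1 x).continuousWithinAt
  have h2 := h.aestronglyMeasurable (μ := ((volume : Measure V4).prod (volume : Measure X3)))
    ((measurableSet_singleton (0 : V4)).compl.prod MeasurableSet.univ)
  rwa [Measure.restrict_eq_self_of_ae_mem] at h2
  have := (Measure.quasiMeasurePreserving_fst (μ := (volume : Measure V4))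
    (ν := (volume : Measure X3))).ae ae_ne
  filter_upwards [this] with p hp
  exact ⟨hp, Set.mem_univ _⟩

/-! ### Fubini -/

private theorem mp_act (U : SU2) : MeasurePreserving (act U) (volume : Measure X3) volume :=
  (actL U).measurePreserving

private theorem me_act (U : SU2) : MeasurableEmbedding (act U) :=
  (actL U).toHomeomorph.measurableEmbedding

private theorem integral_act {E : Type*} [NormedAddCommGroup E] [NormedSpace ℝ E] (U : SU2)
    (h : X3 → E) : ∫ x, h (act U x) = ∫ x, h x :=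
  (mp_act U).integral_comp (me_act U) h

private theorem integrable_act {E : Type*} [NormedAddCommGroup E] (U : SU2) {h : X3 → E}
    (hh : Integrable h) : Integrable fun x => h (act U x) :=
  ((mp_act U).integrable_comp_emb (me_act U)).2 hh

private theorem fub_integrable {E : Type*} [NormedAddCommGroup E] [NormedSpace ℝ E] {h : X3 → E}
    (hc : Continuous h) (hi : Integrable h) :
    Integrable (fun p : V4 × X3 => Real.exp (-‖p.1‖ ^ 2) • h (act (gU p.1)⁻¹ p.2))
      ((volume : Measure V4).prod (volume : Measure X3)) := by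
  have hm : AEStronglyMeasurable
      (fun p : V4 × X3 => Real.exp (-‖p.1‖ ^ 2) • h (act (gU p.1)⁻¹ p.2))
      ((volume : Measure V4).prod (volume : Measure X3)) := by
    refine aesm_prod fun v hv x => ?_
    have h1 : ContinuousAt (fun p : V4 × X3 => Real.exp (-‖p.1‖ ^ 2)) (v, x) :=
      (Real.continuous_exp.comp ((continuous_fst.norm.pow 2).neg)).continuousAt
    exact h1.smul (ContinuousAt.comp (g := h) hc.continuousAt (contAt_act v hv x))
  rw [integrable_prod_iff hm]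
  constructor
  · filter_upwards with v
    exact (integrable_act _ hi).smul _
  · have e : (fun v : V4 => ∫ y : X3, ‖Real.exp (-‖v‖ ^ 2) • h (act (gU v)⁻¹ y)‖) =
        fun v : V4 => Real.exp (-‖v‖ ^ 2) * ∫ y : X3, ‖h y‖ := by
      funext v
      rw [← integral_act (gU v)⁻¹ fun y => ‖h y‖, ← integral_const_mul]
      refine integral_congr_ae (Eventually.of_forall fun y => ?_)
      simp only [norm_smul, Real.norm_eq_abs, Real.abs_exp]
    rw [e]
    exact integrable_gauss4.mul_const _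

private theorem fub_eq {E : Type*} [NormedAddCommGroup E] [NormedSpace ℝ E] [CompleteSpace E]
    {h : X3 → E} (hc : Continuous h) (hi : Integrable h) :
    ∫ x : X3, ∫ v : V4, Real.exp (-‖v‖ ^ 2) • h (act (gU v)⁻¹ x) = c0 • ∫ x, h x := by
  rw [← integral_integral_swap (f := fun (v : V4) (x : X3) => Real.exp (-‖v‖ ^ 2) •
    h (act (gU v)⁻¹ x)) (fub_integrable hc hi)]
  have e : (fun v : V4 => ∫ x : X3, Real.exp (-‖v‖ ^ 2) • h (act (gU v)⁻¹ x)) =
      fun v : V4 => Real.exp (-‖v‖ ^ 2) • ∫ x : X3, h x := by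
    funext v
    rw [integral_smul, integral_act]
  rw [e, integral_smul_const]
  rfl

/-! ### the integrand -/

private theorem Adm.C_nonneg {f : X3 → F} {C s : ℝ}
    (hb : ∀ x, ‖f x‖ ≤ C * (1 + ze x) ^ 3 * Real.exp (-s * perp2 x) * B0 x) : 0 ≤ C := by
  by_contra hC
  have h1 := (norm_nonneg (f 0)).trans (hb 0)
  have h2 : 0 < (1 + ze (0 : X3)) ^ 3 * Real.exp (-s * perp2 (0 : X3)) * B0 (0 : X3) :=
    mul_pos (mul_pos (pow_pos (by linarith [ze_nonnegA (0 : X3)]) 3) (Real.exp_pos _)) (B0_pos _)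
  have h3 : C * (1 + ze (0 : X3)) ^ 3 * Real.exp (-s * perp2 (0 : X3)) * B0 (0 : X3) =
      C * ((1 + ze (0 : X3)) ^ 3 * Real.exp (-s * perp2 (0 : X3)) * B0 (0 : X3)) := by ring
  rw [h3] at h1
  exact absurd (mul_neg_of_neg_of_pos (not_le.1 hC) h2) (not_lt.2 h1)

private theorem norm_f_act {f : X3 → F} {C s : ℝ}
    (hb : ∀ x, ‖f x‖ ≤ C * (1 + ze x) ^ 3 * Real.exp (-s * perp2 x) * B0 x) (U : SU2) (x : X3) :
    ‖f (act U x)‖ ≤ C * (1 + Real.sqrt (phsq x)) ^ 3 * Real.exp (-s * perp2 (act U x)) := by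
  have hC := Adm.C_nonneg hb
  have h1 := hb (act U x)
  have h2 : ze (act U x) ≤ Real.sqrt (phsq x) := by
    have := ze_le (act U x)
    rwa [phsq_act] at this
  have h0 := ze_nonnegA (act U x)
  have h3 : (1 + ze (act U x)) ^ 3 ≤ (1 + Real.sqrt (phsq x)) ^ 3 :=
    pow_le_pow_left₀ (by linarith) (by linarith) 3
  have h4 := Real.exp_pos (-s * perp2 (act U x))
  have h5 := B0_le_one (act U x)
  calc ‖f (act U x)‖ ≤ C * (1 + ze (act U x)) ^ 3 * Real.exp (-s * perp2 (act U x)) *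
        B0 (act U x) := h1
    _ ≤ C * (1 + ze (act U x)) ^ 3 * Real.exp (-s * perp2 (act U x)) * 1 :=
        mul_le_mul_of_nonneg_left h5 (mul_nonneg (mul_nonneg hC (pow_nonneg (by linarith) 3))
          h4.le)
    _ = C * (1 + ze (act U x)) ^ 3 * Real.exp (-s * perp2 (act U x)) := mul_one _
    _ ≤ C * (1 + Real.sqrt (phsq x)) ^ 3 * Real.exp (-s * perp2 (act U x)) :=
        mul_le_mul_of_nonneg_right (mul_le_mul_of_nonneg_left h3 hC) h4.le

private theorem norm_f_act' {f : X3 → F} {C s : ℝ} (hs : 0 < s)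
    (hb : ∀ x, ‖f x‖ ≤ C * (1 + ze x) ^ 3 * Real.exp (-s * perp2 x) * B0 x) (U : SU2) (x : X3) :
    ‖f (act U x)‖ ≤ C * (1 + Real.sqrt (phsq x)) ^ 3 := by
  have hC := Adm.C_nonneg hb
  have h1 := norm_f_act hb U x
  have h2 : Real.exp (-s * perp2 (act U x)) ≤ 1 := by
    rw [Real.exp_le_one_iff]
    have := mul_nonneg hs.le (perp2_nonnegA (act U x))
    linarith
  have h3 : 0 ≤ C * (1 + Real.sqrt (phsq x)) ^ 3 :=
    mul_nonneg hC (pow_nonneg (by linarith [Real.sqrt_nonneg (phsq x)]) 3)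
  calc ‖f (act U x)‖ ≤ _ := h1
    _ ≤ C * (1 + Real.sqrt (phsq x)) ^ 3 * 1 := mul_le_mul_of_nonneg_left h2 h3
    _ = _ := mul_one _

private theorem contAt_int {f : X3 → F} (hf : Continuous f) (v : V4) (hv : v ≠ 0) (x : X3) :
    ContinuousAt (fun p : V4 × X3 => (Real.exp (-‖p.1‖ ^ 2) : ℂ) •
      K.S (gU p.1) (f (act (gU p.1)⁻¹ p.2))) (v, x) := by
  have h1 : Tendsto (fun p : V4 × X3 => (Real.exp (-‖p.1‖ ^ 2) : ℂ)) (𝓝 (v, x))
      (𝓝 (Real.exp (-‖v‖ ^ 2) : ℂ)) :=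
    (Complex.continuous_ofReal.comp
      (Real.continuous_exp.comp ((continuous_fst.norm.pow 2).neg))).tendsto (v, x)
  have h2 : Tendsto (fun p : V4 × X3 => gU p.1) (𝓝 (v, x)) (𝓝 (gU v)) :=
    (continuousAt_gU v hv).tendsto.comp (continuous_fst.tendsto (v, x))
  have h3 : Tendsto (fun p : V4 × X3 => f (act (gU p.1)⁻¹ p.2)) (𝓝 (v, x))
      (𝓝 (f (act (gU v)⁻¹ x))) := by
    have h := (hf.tendsto (act (gU v)⁻¹ x)).comp (contAt_act v hv x).tendsto
    rw [Function.comp_def] at h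
    exact h
  have h4 : Tendsto (fun p : V4 × X3 => (gU p.1, f (act (gU p.1)⁻¹ p.2))) (𝓝 (v, x))
      (𝓝 (gU v, f (act (gU v)⁻¹ x))) := h2.prodMk_nhds h3
  have h5 : Tendsto (fun p : SU2 × F => K.S p.1 p.2) (𝓝 (gU v, f (act (gU v)⁻¹ x)))
      (𝓝 (K.S (gU v) (f (act (gU v)⁻¹ x)))) := K.S_joint.tendsto (gU v, f (act (gU v)⁻¹ x))
  have h6 := h5.comp h4
  rw [Function.comp_def] at h6
  exact h1.smul h6

private theorem aesm_int {f : X3 → F} (hf : Continuous f) (x : X3) :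
    AEStronglyMeasurable (fun v : V4 => (Real.exp (-‖v‖ ^ 2) : ℂ) •
      K.S (gU v) (f (act (gU v)⁻¹ x))) (volume : Measure V4) := by
  refine aesm_v fun v hv => ?_
  exact ContinuousAt.comp (g := fun p : V4 × X3 => (Real.exp (-‖p.1‖ ^ 2) : ℂ) •
      K.S (gU p.1) (f (act (gU p.1)⁻¹ p.2))) (f := fun v : V4 => (v, x))
      (K.contAt_int hf v hv x) (continuousAt_id.prodMk continuousAt_const)

private theorem norm_int (f : X3 → F) (v : V4) (x : X3) :
    ‖(Real.exp (-‖v‖ ^ 2) : ℂ) • K.S (gU v) (f (act (gU v)⁻¹ x))‖ =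
      Real.exp (-‖v‖ ^ 2) * ‖f (act (gU v)⁻¹ x)‖ := by
  rw [norm_smul, K.S_isometry, Complex.norm_real, Real.norm_eq_abs, Real.abs_exp]

private theorem integrable_int {f : X3 → F} (hf : Adm f) (x : X3) :
    Integrable fun v : V4 => (Real.exp (-‖v‖ ^ 2) : ℂ) •
      K.S (gU v) (f (act (gU v)⁻¹ x)) := by
  obtain ⟨hc, C, s, hs, hb⟩ := hf
  refine (integrable_gauss4.mul_const (C * (1 + Real.sqrt (phsq x)) ^ 3)).mono'
    (K.aesm_int hc x) (Eventually.of_forall fun v => ?_)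
  rw [K.norm_int]
  exact mul_le_mul_of_nonneg_left (norm_f_act' hs hb _ _) (Real.exp_pos _).le

variable [FiniteDimensional ℂ F]

theorem Av_continuous {f : X3 → F} (hf : Adm f) : Continuous (K.Av f) := by
  have hf' := hf
  obtain ⟨hc, C, s, hs, hb⟩ := hf'
  rw [continuous_iff_continuousAt]
  intro x0
  set R : ℝ := C * (1 + Real.sqrt (phsq x0)) ^ 3 + 1 with hR
  have hcont : Continuous fun x : X3 => C * (1 + Real.sqrt (phsq x)) ^ 3 :=
    continuous_const.mul
      ((continuous_const.add (Real.continuous_sqrt.comp continuous_phsq)).pow 3)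
  have hev : ∀ᶠ x in 𝓝 x0, C * (1 + Real.sqrt (phsq x)) ^ 3 < R :=
    hcont.continuousAt.eventually_lt continuousAt_const (by rw [hR]; linarith)
  refine continuousAt_of_dominated (bound := fun v : V4 => Real.exp (-‖v‖ ^ 2) * R)
    (Eventually.of_forall fun x => K.aesm_int hc x) ?_ (integrable_gauss4.mul_const _) ?_
  · filter_upwards [hev] with x hx
    refine Eventually.of_forall fun v => ?_
    rw [K.norm_int]
    exact mul_le_mul_of_nonneg_left ((norm_f_act' hs hb _ _).trans hx.le) (Real.exp_pos _).le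
  · filter_upwards [ae_ne] with v hv
    exact ContinuousAt.comp (g := fun p : V4 × X3 => (Real.exp (-‖p.1‖ ^ 2) : ℂ) •
      K.S (gU p.1) (f (act (gU p.1)⁻¹ p.2))) (f := fun x : X3 => (v, x))
      (K.contAt_int hc v hv x0) (continuousAt_const.prodMk continuousAt_id)

private theorem norm_Av_le (f : X3 → F) (x : X3) :
    ‖K.Av f x‖ ≤ ∫ v : V4, Real.exp (-‖v‖ ^ 2) * ‖f (act (gU v)⁻¹ x)‖ := by
  unfold Av
  refine (norm_integral_le_integral_norm _).trans (le_of_eq ?_)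
  exact integral_congr_ae (Eventually.of_forall fun v => K.norm_int f v x)

private theorem integrable_wexp {s : ℝ} (hs : 0 < s) (x : X3) :
    Integrable fun v : V4 => Real.exp (-‖v‖ ^ 2) * Real.exp (-s * perp2 (act (gU v)⁻¹ x)) := by
  refine integrable_gauss4.mono' (aesm_v fun v hv => ?_) (Eventually.of_forall fun v => ?_)
  · have h1 : ContinuousAt (fun v : V4 => act (gU v)⁻¹ x) v :=
      ContinuousAt.comp (g := fun p : V4 × X3 => act (gU p.1)⁻¹ p.2) (f := fun v : V4 => (v, x))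
        (contAt_act v hv x) (continuousAt_id.prodMk continuousAt_const)
    have h2 : Continuous fun y : X3 => Real.exp (-s * perp2 y) :=
      Real.continuous_exp.comp (continuous_const.mul continuous_perp2)
    exact (Real.continuous_exp.comp ((continuous_norm.pow 2).neg)).continuousAt.mul
      (ContinuousAt.comp (g := fun y : X3 => Real.exp (-s * perp2 y)) h2.continuousAt h1)
  · rw [Real.norm_eq_abs, abs_of_pos (mul_pos (Real.exp_pos _) (Real.exp_pos _))]
    refine mul_le_of_le_one_right (Real.exp_pos _).le ?_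
    rw [Real.exp_le_one_iff]
    have := mul_nonneg hs.le (perp2_nonnegA (act (gU v)⁻¹ x))
    linarith

private theorem sq_ratio {s : ℝ} (hs : 0 < s) {r : ℝ} (_hr : 0 ≤ r) {p : ℝ} (hp : r ^ 2 ≤ p) :
    (1 + r) ^ 2 ≤ 2 * (1 + 1 / s) * (1 + s * p) := by
  have h1 : s * r ^ 2 ≤ s * p := mul_le_mul_of_nonneg_left hp hs.le
  have h2 : (1 + r) ^ 2 ≤ 2 * (1 + r ^ 2) := by nlinarith only [sq_nonneg (1 - r)]
  have h3 : (1 + 1 / s) * (1 + s * p) = 1 + s * p + 1 / s + p := by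
    field_simp
    ring
  have h4 : 0 < 1 / s := by positivity
  have h5 : 0 ≤ s * p := le_trans (by positivity) h1
  nlinarith only [h2, h3, h4, h5, hp]

theorem Av_bound {f : X3 → F} (hf : Adm f) : ∃ C, ∀ x, ‖K.Av f x‖ ≤ C * (1 + Real.sqrt (phsq x)) := by
  obtain ⟨hc, C, s, hs, hb⟩ := hf
  have hC := Adm.C_nonneg hb
  obtain ⟨C1, hC1, hsph⟩ := sph_bound
  refine ⟨C * (C1 * (2 * (1 + 1 / s))), fun x => ?_⟩
  set r := Real.sqrt (phsq x) with hr
  have hr0 : 0 ≤ r := Real.sqrt_nonneg _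
  have hr2 : r ^ 2 = phsq x := Real.sq_sqrt (phsq_nonneg x)
  have h1 : ‖K.Av f x‖ ≤ ∫ v : V4, C * (1 + r) ^ 3 *
      (Real.exp (-‖v‖ ^ 2) * Real.exp (-s * perp2 (act (gU v)⁻¹ x))) := by
    refine (K.norm_Av_le f x).trans ?_
    refine integral_mono_of_nonneg (Eventually.of_forall fun v =>
      mul_nonneg (Real.exp_pos _).le (norm_nonneg _)) ((integrable_wexp hs x).const_mul _)
      (Eventually.of_forall fun v => ?_)
    have := mul_le_mul_of_nonneg_left (norm_f_act hb (gU v)⁻¹ x) (Real.exp_pos (-‖v‖ ^ 2)).le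
    refine this.trans (le_of_eq ?_)
    rw [← hr]; ring
  rw [integral_const_mul] at h1
  have h2 := hsph s hs x
  have hpos : 0 < 1 + s * phsq x := by
    have := mul_nonneg hs.le (phsq_nonneg x); linarith
  have h3 : C * (1 + r) ^ 3 * (C1 / (1 + s * phsq x)) ≤
      C * (C1 * (2 * (1 + 1 / s))) * (1 + r) := by
    have h4 := sq_ratio hs hr0 hr2.le
    have h5 : (1 + r) ^ 2 / (1 + s * phsq x) ≤ 2 * (1 + 1 / s) := by
      rw [div_le_iff₀ hpos]; exact h4
    have h6 : C * (1 + r) ^ 3 * (C1 / (1 + s * phsq x)) =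
        (C * C1 * (1 + r)) * ((1 + r) ^ 2 / (1 + s * phsq x)) := by ring
    rw [h6]
    have h7 : 0 ≤ C * C1 * (1 + r) := mul_nonneg (mul_nonneg hC hC1) (by linarith)
    refine (mul_le_mul_of_nonneg_left h5 h7).trans (le_of_eq ?_)
    ring
  refine (h1.trans ?_).trans h3
  exact mul_le_mul_of_nonneg_left h2 (mul_nonneg hC (pow_nonneg (by linarith) 3))

/-- Cauchy-Schwarz for a weight -/
private theorem cs_weight {w a b : V4 → ℝ} (hw : ∀ v, 0 ≤ w v)
    (haa : Integrable fun v => w v * a v ^ 2) (hab : Integrable fun v => w v * (a v * b v))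
    (hbb : Integrable fun v => w v * b v ^ 2) :
    (∫ v, w v * (a v * b v)) ^ 2 ≤ (∫ v, w v * a v ^ 2) * ∫ v, w v * b v ^ 2 := by
  have key : ∀ t : ℝ, 0 ≤ (∫ v, w v * a v ^ 2) * (t * t) + (2 * ∫ v, w v * (a v * b v)) * t +
      ∫ v, w v * b v ^ 2 := by
    intro t
    have h1 : 0 ≤ ∫ v, w v * (t * a v + b v) ^ 2 :=
      integral_nonneg fun v => mul_nonneg (hw v) (sq_nonneg _)
    have h2 : (∫ v, w v * (t * a v + b v) ^ 2) = ∫ v, ((t * t) * (w v * a v ^ 2) +
        (2 * t) * (w v * (a v * b v)) + w v * b v ^ 2) :=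
      integral_congr_ae (Eventually.of_forall fun v => by ring)
    have hi : Integrable fun v => (t * t) * (w v * a v ^ 2) + (2 * t) * (w v * (a v * b v)) :=
      (haa.const_mul _).add (hab.const_mul _)
    rw [h2, integral_add hi hbb,
      integral_add (haa.const_mul _) (hab.const_mul _), integral_const_mul,
      integral_const_mul] at h1
    refine h1.trans (le_of_eq ?_)
    ring
  have := discrim_le_zero key
  unfold discrim at this
  nlinarith only [this]

theorem Av_memLp {f : X3 → F} (hf : Adm f) : MemLp (K.Av f) 2 (volume : Measure X3) := by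
  have hAc := K.Av_continuous hf
  rw [memLp_two_iff_integrable_sq_norm hAc.aestronglyMeasurable]
  obtain ⟨hc, C, s, hs, hb⟩ := hf
  have hC := Adm.C_nonneg hb
  obtain ⟨C1, hC1, hsph⟩ := sph_bound
  set H : X3 → ℝ := fun y => Real.exp (s * perp2 y) * ‖f y‖ ^ 2 / (1 + s * phsq y) with hH
  have hpos : ∀ y, 0 < 1 + s * phsq y := fun y => by
    have := mul_nonneg hs.le (phsq_nonneg y); linarith
  have hHc : Continuous H :=
    ((Real.continuous_exp.comp (continuous_const.mul continuous_perp2)).mul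
      (hc.norm.pow 2)).div (continuous_const.add (continuous_const.mul continuous_phsq))
      fun y => (hpos y).ne'
  have hH0 : ∀ y, 0 ≤ H y := fun y =>
    div_nonneg (mul_nonneg (Real.exp_pos _).le (sq_nonneg _)) (hpos y).le
  have hHi : Integrable H := by
    refine ((integrable_J hs).const_mul (C ^ 2 * (2 * (1 + 1 / s)))).mono'
      hHc.aestronglyMeasurable (Eventually.of_forall fun y => ?_)
    rw [Real.norm_eq_abs, abs_of_nonneg (hH0 y)]
    have h1 := hb y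
    have hz := ze_nonnegA y
    have hB := B0_pos y
    have hB1 := B0_le_one y
    have h2 : ‖f y‖ ^ 2 ≤ (C * (1 + ze y) ^ 3 * Real.exp (-s * perp2 y) * B0 y) ^ 2 :=
      pow_le_pow_left₀ (norm_nonneg _) h1 2
    have he : Real.exp (s * perp2 y) * Real.exp (-s * perp2 y) = 1 := by
      rw [← Real.exp_add]; simp
    have h3 : Real.exp (s * perp2 y) * (C * (1 + ze y) ^ 3 * Real.exp (-s * perp2 y) * B0 y) ^ 2 =
        C ^ 2 * (1 + ze y) ^ 6 * Real.exp (-s * perp2 y) * B0 y ^ 2 := by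
      calc _ = C ^ 2 * (1 + ze y) ^ 6 * Real.exp (-s * perp2 y) * B0 y ^ 2 *
            (Real.exp (s * perp2 y) * Real.exp (-s * perp2 y)) := by ring
        _ = _ := by rw [he, mul_one]
    have h4 : B0 y ^ 2 ≤ B0 y := by nlinarith only [hB, hB1]
    have h5 : (1 + ze y) ^ 2 / (1 + s * phsq y) ≤ 2 * (1 + 1 / s) := by
      rw [div_le_iff₀ (hpos y)]
      refine sq_ratio hs hz ?_
      have : ze y ^ 2 = r3 y := Real.sq_sqrt (r3_nonneg y)
      rw [this, phsq_eq]
      linarith [perp2_nonnegA y]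
    have h6 : H y ≤ (C ^ 2 * (1 + ze y) ^ 6 * Real.exp (-s * perp2 y) * B0 y ^ 2) /
        (1 + s * phsq y) := by
      rw [hH]
      refine div_le_div_of_nonneg_right ?_ (hpos y).le
      rw [← h3]
      exact mul_le_mul_of_nonneg_left h2 (Real.exp_pos _).le
    have hE := Real.exp_pos (-s * perp2 y)
    calc H y ≤ _ := h6
      _ = (C ^ 2 * (1 + ze y) ^ 4 * Real.exp (-s * perp2 y)) * B0 y ^ 2 *
          ((1 + ze y) ^ 2 / (1 + s * phsq y)) := by ring
      _ ≤ (C ^ 2 * (1 + ze y) ^ 4 * Real.exp (-s * perp2 y)) * B0 y * (2 * (1 + 1 / s)) := by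
          have h7 : 0 ≤ C ^ 2 * (1 + ze y) ^ 4 * Real.exp (-s * perp2 y) :=
            mul_nonneg (mul_nonneg (sq_nonneg _) (pow_nonneg (by linarith) 4)) hE.le
          refine mul_le_mul (mul_le_mul_of_nonneg_left h4 h7) h5 ?_ (mul_nonneg h7 hB.le)
          exact div_nonneg (sq_nonneg _) (hpos y).le
      _ = _ := by ring
  have hfub : Integrable fun x : X3 => ∫ v : V4, Real.exp (-‖v‖ ^ 2) * H (act (gU v)⁻¹ x) :=
    (fub_integrable hHc hHi).integral_prod_right
  refine (hfub.const_mul C1).mono' (hAc.norm.pow 2).aestronglyMeasurable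
    (Eventually.of_forall fun x => ?_)
  rw [Real.norm_eq_abs, abs_of_nonneg (sq_nonneg _)]
  -- Cauchy-Schwarz
  set a : V4 → ℝ := fun v => Real.exp (-s / 2 * perp2 (act (gU v)⁻¹ x)) with ha
  set b : V4 → ℝ := fun v => Real.exp (s / 2 * perp2 (act (gU v)⁻¹ x)) *
    ‖f (act (gU v)⁻¹ x)‖ with hbdef
  have hcv : ∀ v : V4, v ≠ 0 → ContinuousAt (fun v : V4 => act (gU v)⁻¹ x) v := fun v hv =>
    ContinuousAt.comp (g := fun p : V4 × X3 => act (gU p.1)⁻¹ p.2) (f := fun v : V4 => (v, x))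
        (contAt_act v hv x) (continuousAt_id.prodMk continuousAt_const)
  have hwc : Continuous fun v : V4 => Real.exp (-‖v‖ ^ 2) :=
    Real.continuous_exp.comp ((continuous_norm.pow 2).neg)
  have hac : ∀ v : V4, v ≠ 0 → ContinuousAt a v := fun v hv =>
    ContinuousAt.comp (g := fun y : X3 => Real.exp (-s / 2 * perp2 y))
      (Real.continuous_exp.comp (continuous_const.mul continuous_perp2)).continuousAt (hcv v hv)
  have hbc : ∀ v : V4, v ≠ 0 → ContinuousAt b v := fun v hv =>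
    ContinuousAt.comp (g := fun y : X3 => Real.exp (s / 2 * perp2 y) * ‖f y‖)
      ((Real.continuous_exp.comp (continuous_const.mul continuous_perp2)).mul
        hc.norm).continuousAt (hcv v hv)
  have ha2 : ∀ v, a v ^ 2 = Real.exp (-s * perp2 (act (gU v)⁻¹ x)) := fun v => by
    rw [ha, ← Real.exp_nat_mul]
    congr 1
    push_cast; ring
  have hb2 : ∀ v, b v ^ 2 = Real.exp (s * perp2 (act (gU v)⁻¹ x)) *
      ‖f (act (gU v)⁻¹ x)‖ ^ 2 := fun v => by
    rw [hbdef, mul_pow, ← Real.exp_nat_mul]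
    congr 2
    push_cast; ring
  have hab1 : ∀ v, a v * b v = ‖f (act (gU v)⁻¹ x)‖ := fun v => by
    rw [ha, hbdef]
    have : Real.exp (-s / 2 * perp2 (act (gU v)⁻¹ x)) *
        Real.exp (s / 2 * perp2 (act (gU v)⁻¹ x)) = 1 := by
      rw [← Real.exp_add, ← Real.exp_zero]; congr 1; ring
    calc _ = (Real.exp (-s / 2 * perp2 (act (gU v)⁻¹ x)) *
        Real.exp (s / 2 * perp2 (act (gU v)⁻¹ x))) * ‖f (act (gU v)⁻¹ x)‖ := by ring
      _ = _ := by rw [this, one_mul]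
  have i1 : Integrable fun v : V4 => Real.exp (-‖v‖ ^ 2) * a v ^ 2 := by
    simp only [ha2]
    exact integrable_wexp hs x
  have i2 : Integrable fun v : V4 => Real.exp (-‖v‖ ^ 2) * (a v * b v) := by
    refine (integrable_gauss4.mul_const (C * (1 + Real.sqrt (phsq x)) ^ 3)).mono'
      (aesm_v fun v hv => hwc.continuousAt.mul ((hac v hv).mul (hbc v hv)))
      (Eventually.of_forall fun v => ?_)
    rw [hab1, norm_mul, Real.norm_eq_abs, Real.abs_exp, norm_norm]
    exact mul_le_mul_of_nonneg_left (norm_f_act' hs hb _ _) (Real.exp_pos _).le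
  have i3 : Integrable fun v : V4 => Real.exp (-‖v‖ ^ 2) * b v ^ 2 := by
    refine (integrable_gauss4.mul_const ((C * (1 + Real.sqrt (phsq x)) ^ 3) ^ 2)).mono'
      (aesm_v fun v hv => hwc.continuousAt.mul ((hbc v hv).pow 2))
      (Eventually.of_forall fun v => ?_)
    rw [norm_mul, Real.norm_eq_abs, Real.abs_exp, Real.norm_eq_abs, abs_of_nonneg (sq_nonneg _),
      hb2]
    refine mul_le_mul_of_nonneg_left ?_ (Real.exp_pos _).le
    have h1 := norm_f_act hb (gU v)⁻¹ x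
    have h2 := norm_f_act' hs hb (gU v)⁻¹ x
    set E := Real.exp (-s * perp2 (act (gU v)⁻¹ x)) with hE
    set N := ‖f (act (gU v)⁻¹ x)‖
    set R := C * (1 + Real.sqrt (phsq x)) ^ 3
    have hEE : Real.exp (s * perp2 (act (gU v)⁻¹ x)) * E = 1 := by
      rw [hE, ← Real.exp_add]; simp
    have hN : 0 ≤ N := norm_nonneg _
    have hR : 0 ≤ R := hN.trans h2
    have hE' := Real.exp_pos (s * perp2 (act (gU v)⁻¹ x))
    calc Real.exp (s * perp2 (act (gU v)⁻¹ x)) * N ^ 2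
        = (Real.exp (s * perp2 (act (gU v)⁻¹ x)) * N) * N := by ring
      _ ≤ (Real.exp (s * perp2 (act (gU v)⁻¹ x)) * (R * E)) * R :=
          mul_le_mul (mul_le_mul_of_nonneg_left h1 hE'.le) h2 hN
            (mul_nonneg hE'.le (hN.trans h1))
      _ = (Real.exp (s * perp2 (act (gU v)⁻¹ x)) * E) * R ^ 2 := by ring
      _ = R ^ 2 := by rw [hEE, one_mul]
  have hcs := cs_weight (w := fun v : V4 => Real.exp (-‖v‖ ^ 2)) (fun v => (Real.exp_pos _).le)
    i1 i2 i3
  have h1 : ‖K.Av f x‖ ≤ ∫ v : V4, Real.exp (-‖v‖ ^ 2) * (a v * b v) := by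
    refine (K.norm_Av_le f x).trans (le_of_eq ?_)
    exact integral_congr_ae (Eventually.of_forall fun v => by simp only [hab1])
  have h2 : (∫ v : V4, Real.exp (-‖v‖ ^ 2) * a v ^ 2) ≤ C1 / (1 + s * phsq x) := by
    have := hsph s hs x
    simpa only [ha2] using this
  have h3 : C1 / (1 + s * phsq x) * (∫ v : V4, Real.exp (-‖v‖ ^ 2) * b v ^ 2) =
      C1 * ∫ v : V4, Real.exp (-‖v‖ ^ 2) * H (act (gU v)⁻¹ x) := by
    have h4 : (fun v : V4 => Real.exp (-‖v‖ ^ 2) * H (act (gU v)⁻¹ x)) =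
        fun v : V4 => (1 + s * phsq x)⁻¹ * (Real.exp (-‖v‖ ^ 2) * b v ^ 2) := by
      funext v
      rw [hb2]
      simp only [hH, phsq_act]
      ring
    rw [h4, integral_const_mul]
    ring
  have h0 : 0 ≤ ∫ v : V4, Real.exp (-‖v‖ ^ 2) * b v ^ 2 :=
    integral_nonneg fun v => mul_nonneg (Real.exp_pos _).le (sq_nonneg _)
  calc ‖K.Av f x‖ ^ 2 ≤ (∫ v : V4, Real.exp (-‖v‖ ^ 2) * (a v * b v)) ^ 2 :=
        pow_le_pow_left₀ (norm_nonneg _) h1 2
    _ ≤ _ := hcs
    _ ≤ C1 / (1 + s * phsq x) * (∫ v : V4, Real.exp (-‖v‖ ^ 2) * b v ^ 2) :=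
        mul_le_mul_of_nonneg_right h2 h0
    _ = _ := h3

theorem Av_act {f : X3 → F} (hf : Adm f) (U : SU2) (x : X3) :
    K.Av f (act U x) = K.S U (K.Av f x) := by
  have : CompleteSpace F := FiniteDimensional.complete ℂ F
  obtain ⟨L, hL⟩ := gU_left U⁻¹
  unfold Av
  have h1 : (K.S U) (∫ v : V4, (Real.exp (-‖v‖ ^ 2) : ℂ) • K.S (gU v) (f (act (gU v)⁻¹ x))) =
      ∫ v : V4, (K.S U) ((Real.exp (-‖v‖ ^ 2) : ℂ) • K.S (gU v) (f (act (gU v)⁻¹ x))) :=
    (ContinuousLinearMap.integral_comp_comm (K.S U) (K.integrable_int hf x)).symm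
  rw [h1]
  rw [← (L.measurePreserving).integral_comp L.toHomeomorph.measurableEmbedding
    (fun v : V4 => (K.S U) ((Real.exp (-‖v‖ ^ 2) : ℂ) • K.S (gU v) (f (act (gU v)⁻¹ x))))]
  refine integral_congr_ae ?_
  filter_upwards [ae_ne] with v hv
  rw [L.norm_map, hL v hv, map_smul]
  congr 1
  rw [mul_inv_rev, inv_inv, act_mul, map_mul]
  change _ = K.S U (K.S U⁻¹ (K.S (gU v) _))
  rw [K.S_S_inv]

private theorem pair_aux {f : X3 → F} (hf : Adm f) {ξ : X3 → F} (hc : Continuous ξ)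
    (hi : Integrable fun x => inner ℂ (f x) (ξ x)) (hξ : ∀ U x, ξ (act U x) = K.S U (ξ x)) :
    ∫ x, inner ℂ (K.Av f x) (ξ x) = (c0 : ℂ) * ∫ x, inner ℂ (f x) (ξ x) := by
  have : CompleteSpace F := FiniteDimensional.complete ℂ F
  have hfc := hf.1
  have h1 := fub_eq (h := fun x => inner ℂ (f x) (ξ x)) (hfc.inner hc) hi
  have h2 : ∀ x, inner ℂ (K.Av f x) (ξ x) = ∫ v : V4, Real.exp (-‖v‖ ^ 2) •
      (fun x => inner ℂ (f x) (ξ x)) (act (gU v)⁻¹ x) := by
    intro x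
    rw [← inner_conj_symm]
    unfold Av
    rw [← integral_inner (K.integrable_int hf x), ← integral_conj]
    refine integral_congr_ae (Eventually.of_forall fun v => ?_)
    simp only
    have h3 : ξ x = K.S (gU v) (ξ (act (gU v)⁻¹ x)) := by
      rw [← hξ, act_act_inv]
    rw [inner_conj_symm, inner_smul_left, Complex.conj_ofReal, h3, K.S_inner]
    exact (Complex.real_smul ..).symm
  rw [integral_congr_ae (Eventually.of_forall h2), h1]
  rfl

theorem Av_pair {f : X3 → F} (hf : Adm f) {ξ : X3 → F} (hc : Continuous ξ)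
    (hs : HasCompactSupport ξ) (hξ : ∀ U x, ξ (act U x) = K.S U (ξ x)) :
    ∫ x, inner ℂ (K.Av f x) (ξ x) = (c0 : ℂ) * ∫ x, inner ℂ (f x) (ξ x) := by
  refine K.pair_aux hf hc ?_ hξ
  refine (hf.1.inner hc).integrable_of_hasCompactSupport ?_
  refine hs.mono fun x hx => ?_
  intro h
  apply hx
  simp only [h, inner_zero_right]

theorem Av_Av {f g : X3 → F} (hf : Adm f) (hg : Adm g) :
    ∫ x, inner ℂ (K.Av f x) (K.Av g x) = (c0 : ℂ) * ∫ x, inner ℂ (f x) (K.Av g x) := by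
  have hgc := K.Av_continuous hg
  refine K.pair_aux hf hgc ?_ (K.Av_act hg)
  obtain ⟨D, hD⟩ := K.Av_bound hg
  obtain ⟨hc, C, s, hs, hb⟩ := hf
  have hC := Adm.C_nonneg hb
  have hD0 : 0 ≤ D := by
    have h := (norm_nonneg _).trans (hD 0)
    have h2 : 0 < 1 + Real.sqrt (phsq (0 : X3)) := by linarith [Real.sqrt_nonneg (phsq (0 : X3))]
    exact nonneg_of_mul_nonneg_left h h2
  have hs2 : 0 < s / 2 := by linarith
  refine ((integrable_J hs2).const_mul (C * D * (2 + 2 / s))).mono'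
    (hc.inner hgc).aestronglyMeasurable (Eventually.of_forall fun x => ?_)
  have h1 := hb x
  have h2 := hD x
  have hz := ze_nonnegA x
  have hp := perp2_nonnegA x
  have hB := B0_pos x
  set q := Real.sqrt (perp2 x) with hq
  have hq0 : 0 ≤ q := Real.sqrt_nonneg _
  have hq2 : q ^ 2 = perp2 x := Real.sq_sqrt hp
  have hz2 : ze x ^ 2 = r3 x := Real.sq_sqrt (r3_nonneg x)
  have h3 : Real.sqrt (phsq x) ≤ ze x + q := by
    rw [phsq_eq, ← hq2, ← hz2]
    refine Real.sqrt_le_iff.2 ⟨by linarith, ?_⟩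
    nlinarith only [mul_nonneg hz hq0]
  have h4 : 1 + Real.sqrt (phsq x) ≤ (1 + ze x) * (1 + q) := by
    nlinarith only [h3, mul_nonneg hz hq0]
  -- `1 + q ≤ (2 + 2/s) e^{s q²/2}`
  have h5 : 1 + q ≤ (2 + 2 / s) * Real.exp (s / 2 * perp2 x) := by
    have h6 : s / 2 * perp2 x + 1 ≤ Real.exp (s / 2 * perp2 x) := Real.add_one_le_exp _
    have h7 : 0 < 2 / s := by positivity
    have h8 : (2 / s) * (s / 2 * perp2 x) = q ^ 2 := by
      rw [hq2]; field_simp
    have h9 : q ≤ 1 + q ^ 2 := by nlinarith only [sq_nonneg (q - 1)]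
    have h10 : 0 ≤ s / 2 * perp2 x := mul_nonneg hs2.le hp
    have h11 := mul_le_mul_of_nonneg_left h6 (show (0 : ℝ) ≤ 2 + 2 / s by linarith)
    refine le_trans ?_ h11
    have h12 : (2 + 2 / s) * (s / 2 * perp2 x + 1) = 2 * (s / 2 * perp2 x) +
        (2 / s) * (s / 2 * perp2 x) + 2 + 2 / s := by ring
    rw [h12, h8]
    linarith
  have hE : Real.exp (s / 2 * perp2 x) * Real.exp (-s * perp2 x) =
      Real.exp (-(s / 2) * perp2 x) := by
    rw [← Real.exp_add]; congr 1; ring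
  have hE0 := Real.exp_pos (-s * perp2 x)
  calc ‖inner ℂ (f x) (K.Av g x)‖ ≤ ‖f x‖ * ‖K.Av g x‖ := norm_inner_le_norm _ _
    _ ≤ (C * (1 + ze x) ^ 3 * Real.exp (-s * perp2 x) * B0 x) *
        (D * ((1 + ze x) * ((2 + 2 / s) * Real.exp (s / 2 * perp2 x)))) := by
        refine mul_le_mul h1 (h2.trans (mul_le_mul_of_nonneg_left (h4.trans
          (mul_le_mul_of_nonneg_left h5 (by linarith))) hD0)) (norm_nonneg _) ?_
        exact mul_nonneg (mul_nonneg (mul_nonneg hC (pow_nonneg (by linarith) 3)) hE0.le) hB.le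
    _ = C * D * (2 + 2 / s) * ((1 + ze x) ^ 4 *
        (Real.exp (s / 2 * perp2 x) * Real.exp (-s * perp2 x)) * B0 x) := by ring
    _ = _ := by rw [hE]

end Fk

end Vale.Agent.P353.Ex
end

section

/-! # P353, uniqueness, task B8: approximation by (invariant) test functions -/

open MeasureTheory Filter Topology
open scoped ContDiff

namespace Vale.Agent.P353.U.InvL

open Vale.Agent.P353.Moll

variable {F : Type*} [NormedAddCommGroup F] [InnerProductSpace ℂ F]

lemma int_op_cs {T : X3 → F →L[ℂ] F} (hT : Continuous T) (hTc : HasCompactSupport T)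
    {f : X3 → F} (hf : MemLp f 2 (volume : Measure X3)) : Integrable (fun y => T y (f y)) := by
  have h1 : Integrable (fun y => ‖T y‖ ^ 2) := by
    refine (hT.norm.pow 2).integrable_of_hasCompactSupport ?_
    refine hTc.mono fun x hx => ?_
    simp only [Function.mem_support] at hx ⊢
    intro h0
    exact hx (by simp [h0])
  refine (h1.add (memLp_norm_sq_int hf)).mono' (continuous_apply_clm hT hf.1)
    (Eventually.of_forall fun y => ?_)
  have h2 := (T y).le_opNorm (f y)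
  simp only [Pi.add_apply]
  nlinarith [sq_nonneg (‖T y‖ - ‖f y‖), norm_nonneg (T y), norm_nonneg (f y),
    mul_nonneg (norm_nonneg (T y)) (norm_nonneg (f y))]

section kernel

variable {ρ : X3 → ℝ}

lemma pdr_kernel (hρ : ContDiff ℝ ∞ ρ) (i : Fin 9) (A : Fin 3) (x y : X3) :
    pdr i A (fun y => ρ (x - y)) y = -pdr i A ρ (x - y) := by
  have h1 : HasFDerivAt (fun y : X3 => x - y) (-ContinuousLinearMap.id ℝ X3) y :=
    (hasFDerivAt_id y).const_sub x
  have h2 := ((hρ.differentiable (by simp)) (x - y)).hasFDerivAt.comp y h1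
  have h3 : fderiv ℝ (fun y => ρ (x - y)) y = _ := h2.fderiv
  rw [pdr, h3]
  simp [pdr]

lemma contDiff_kernel (hρ : ContDiff ℝ ∞ ρ) (x : X3) : ContDiff ℝ ∞ (fun y => ρ (x - y)) :=
  hρ.comp (contDiff_const.sub contDiff_id)

lemma hcs_kernel (hc : HasCompactSupport ρ) (x : X3) :
    HasCompactSupport (fun y => ρ (x - y)) :=
  hc.comp_homeomorph (Homeomorph.subLeft x)

lemma Tst_kernel (hρ : ContDiff ℝ ∞ ρ) (hc : HasCompactSupport ρ) (x : X3) (v : F) :
    Setup.Tst (fun y => ((ρ (x - y) : ℝ) : ℂ) • v) := by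
  refine ⟨(Setup.contDiff_ofReal (contDiff_kernel hρ x)).smul contDiff_const,
    (hcs_kernel hc x).mono fun y hy => ?_⟩
  simp only [Function.mem_support] at hy ⊢
  intro h0
  exact hy (by simp [h0])

lemma pd_kernel (hρ : ContDiff ℝ ∞ ρ) (i : Fin 9) (A : Fin 3) (x y : X3) (v : F) :
    pd i A (fun y => ((ρ (x - y) : ℝ) : ℂ) • v) y = (-(pdr i A ρ (x - y) : ℝ) : ℂ) • v := by
  have h1 := pd_rsmul (i := i) (A := A) (φ := fun y => ρ (x - y)) (u := fun _ : X3 => v) (x := y)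
    ((contDiff_kernel hρ x).differentiable (by simp) y) (differentiableAt_const v)
  have h2 : pd i A (fun _ : X3 => v) y = 0 := by simp [pd]
  have h3 := pdr_kernel hρ i A x y
  rw [pdr] at h3
  rw [h1, h2, smul_zero, add_zero, h3]
  push_cast
  rfl

lemma inner_mo_eq (hρ : Continuous ρ) (hc : HasCompactSupport ρ) {f : X3 → F} [CompleteSpace F]
    (hf : MemLp f 2 (volume : Measure X3)) (x : X3) (v : F) :
    ∫ y, inner ℂ (((ρ (x - y) : ℝ) : ℂ) • v) (f y) = inner ℂ v (mo ρ f x) := by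
  rw [mo, ← integral_inner (integrable_mo hρ hc (locInt hf) x) v]
  refine integral_congr_ae (Eventually.of_forall fun y => ?_)
  simp only
  rw [inner_smul_left, Complex.conj_ofReal, ← Complex.coe_smul, inner_smul_right]

lemma pd_mo (hρ : ContDiff ℝ ∞ ρ) (hc : HasCompactSupport ρ) {f : X3 → F}
    (hf : MemLp f 2 (volume : Measure X3)) (i : Fin 9) (A : Fin 3) (x : X3) :
    pd i A (mo ρ f) x = mo (pdr i A ρ) f x :=
  fderiv_mo hρ hc (locInt hf) x _

lemma contDiff_pdr' (hρ : ContDiff ℝ ∞ ρ) (i : Fin 9) (A : Fin 3) : ContDiff ℝ ∞ (pdr i A ρ) :=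
  (hρ.fderiv_right (m := ∞) (by simp)).clm_apply contDiff_const

lemma hcs_pdr (hc : HasCompactSupport ρ) (i : Fin 9) (A : Fin 3) :
    HasCompactSupport (pdr i A ρ) :=
  hc.fderiv_apply (𝕜 := ℝ) (EuclideanSpace.single (i, A) (1 : ℝ) : X3)

end kernel

variable (S : Setup F)

/-- zero order part of `Q_β + m M_β` -/
noncomputable def AA (m : ℝ) (β : Fin 16) (x : X3) : F →L[ℂ] F :=
  S.W β x + (m : ℂ) • S.MM β x

lemma MM_symm (β : Fin 16) (x : X3) (v w : F) :
    inner ℂ (S.MM β x v) w = inner ℂ v (S.MM β x w) := by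
  simp only [Setup.MM, _root_.sum_apply, _root_.smul_apply, sum_inner,
    inner_sum, inner_smul_left, inner_smul_right,
    S.vec_symm _ (Setup.mul_im_zero (S.g_im _) S.Gam_real), Complex.conj_ofReal]

lemma continuous_AA (m : ℝ) (β : Fin 16) : Continuous (AA S m β) := by
  have h1 : ContDiff ℝ ∞ (S.MM β) := by
    unfold Setup.MM
    refine ContDiff.sum fun i _ => ContDiff.sum fun A _ => ?_
    exact (Setup.contDiff_ofReal (contDiff_const.mul (Setup.contDiff_coord _))).smul contDiff_const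
  exact (S.contDiff_W β).continuous.add (h1.continuous.const_smul (m : ℂ))

variable {S} {m : ℝ} {β : Fin 16} {Ψ Θ : X3 → F} {ρ : X3 → ℝ}

lemma int_AA (hΨ : MemLp Ψ 2 (volume : Measure X3)) (hρ : Continuous ρ)
    (hc : HasCompactSupport ρ) (x : X3) :
    Integrable (fun y => ρ (x - y) • AA S m β y (Ψ y)) := by
  have h1 : Continuous (fun y => ((ρ (x - y) : ℝ) : ℂ) • AA S m β y) :=
    Setup.continuous_rsmul_op (hρ.comp (continuous_const.sub continuous_id)) (continuous_AA S m β)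
  have h2 : HasCompactSupport (fun y => ((ρ (x - y) : ℝ) : ℂ) • AA S m β y) := by
    refine (hcs_kernel hc x).mono fun y hy => ?_
    simp only [Function.mem_support] at hy ⊢
    intro h0
    exact hy (by simp [h0])
  refine (int_op_cs h1 h2 hΨ).congr (Eventually.of_forall fun y => ?_)
  simp only [_root_.smul_apply, Complex.coe_smul]

/-- the weak equation tested with kernels -/
lemma weakQ [CompleteSpace F] (hΨ : MemLp Ψ 2 (volume : Measure X3))
    (hΘ : MemLp Θ 2 (volume : Measure X3)) (h : S.wQ m β Ψ Θ) (hρ : ContDiff ℝ ∞ ρ)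
    (hc : HasCompactSupport ρ) (x : X3) :
    (-Complex.I) • ∑ i, ∑ A, S.vec (S.g i) A β (mo (pdr i A ρ) Ψ x) +
      ∫ y, ρ (x - y) • AA S m β y (Ψ y) = mo ρ Θ x := by
  have i1 : ∀ i A, Integrable (fun y => S.vec (S.g i) A β (pdr i A ρ (x - y) • Ψ y)) :=
    fun i A => (S.vec (S.g i) A β).integrable_comp
      (integrable_mo (contDiff_pdr' hρ i A).continuous (hcs_pdr hc i A) (locInt hΨ) x)
  have i2 := int_AA (S := S) (m := m) (β := β) hΨ hρ.continuous hc x
  have i3 : Integrable (fun y => (-Complex.I) • ∑ i, ∑ A,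
      S.vec (S.g i) A β (pdr i A ρ (x - y) • Ψ y)) :=
    (integrable_finsetSum _ fun i _ => integrable_finsetSum _ fun A _ => i1 i A).smul _
  have e1 : (-Complex.I) • ∑ i, ∑ A, S.vec (S.g i) A β (mo (pdr i A ρ) Ψ x) +
      ∫ y, ρ (x - y) • AA S m β y (Ψ y) = ∫ y, ((-Complex.I) • ∑ i, ∑ A,
      S.vec (S.g i) A β (pdr i A ρ (x - y) • Ψ y) + ρ (x - y) • AA S m β y (Ψ y)) := by
    rw [integral_add i3 i2, integral_smul, integral_finsetSum _ fun i _ =>
      integrable_finsetSum _ fun A _ => i1 i A]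
    congr 2
    refine Finset.sum_congr rfl fun i _ => ?_
    rw [integral_finsetSum _ fun A _ => i1 i A]
    refine Finset.sum_congr rfl fun A _ => ?_
    rw [(S.vec (S.g i) A β).integral_comp_comm
      (integrable_mo (contDiff_pdr' hρ i A).continuous (hcs_pdr hc i A) (locInt hΨ) x)]
    rfl
  have i4 : Integrable (fun y => (-Complex.I) • ∑ i, ∑ A,
      S.vec (S.g i) A β (pdr i A ρ (x - y) • Ψ y) + ρ (x - y) • AA S m β y (Ψ y)) := i3.add i2
  rw [e1]
  refine ext_inner_left ℂ fun v => ?_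
  rw [← integral_inner i4 v, ← inner_mo_eq hρ.continuous hc hΘ x v,
    ← h _ (Tst_kernel hρ hc x v)]
  refine integral_congr_ae (Eventually.of_forall fun y => ?_)
  simp only [Setup.Qm, Setup.Q, pd_kernel hρ, AA]
  simp only [← Complex.coe_smul, inner_add_left, inner_add_right, inner_smul_left,
    inner_smul_right, sum_inner, inner_sum, map_smul, map_neg, Complex.conj_ofReal,
    Complex.conj_I, _root_.add_apply, _root_.smul_apply,
    S.vec_symm _ (S.g_im _), S.W_symm, MM_symm, neg_mul, mul_neg, neg_neg,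
    Finset.sum_neg_distrib]
  ring

/-- `Q_β (ρ * Ψ) = ρ * Θ_β + commutator` -/
lemma Qm_mo [CompleteSpace F] (hΨ : MemLp Ψ 2 (volume : Measure X3))
    (hΘ : MemLp Θ 2 (volume : Measure X3)) (h : S.wQ m β Ψ Θ) (hρ : ContDiff ℝ ∞ ρ)
    (hc : HasCompactSupport ρ) (x : X3) :
    S.Qm m β (mo ρ Ψ) x = mo ρ Θ x +
      ∫ y, ρ (x - y) • ((AA S m β x - AA S m β y) (Ψ y)) := by
  have h1 := weakQ hΨ hΘ h hρ hc x
  have i2 := int_AA (S := S) (m := m) (β := β) hΨ hρ.continuous hc x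
  have i0 := integrable_mo hρ.continuous hc (locInt hΨ) x
  have i1 : Integrable (fun y => ρ (x - y) • AA S m β x (Ψ y)) := by
    refine ((AA S m β x).integrable_comp i0).congr (Eventually.of_forall fun y => ?_)
    simp only [← Complex.coe_smul, map_smul]
  have e1 : ∫ y, ρ (x - y) • ((AA S m β x - AA S m β y) (Ψ y)) =
      AA S m β x (mo ρ Ψ x) - ∫ y, ρ (x - y) • AA S m β y (Ψ y) := by
    have e2 : AA S m β x (mo ρ Ψ x) = ∫ y, ρ (x - y) • AA S m β x (Ψ y) := by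
      rw [mo, ← (AA S m β x).integral_comp_comm i0]
      refine integral_congr_ae (Eventually.of_forall fun y => ?_)
      simp only [← Complex.coe_smul, map_smul]
    rw [e2, ← integral_sub i1 i2]
    refine integral_congr_ae (Eventually.of_forall fun y => ?_)
    simp only [_root_.sub_apply, smul_sub]
  rw [e1, ← h1]
  simp only [Setup.Qm, Setup.Q, pd_mo hρ hc hΨ, AA, _root_.add_apply, _root_.smul_apply]
  abel

/-- bound of the commutator -/
lemma comm_bound {ε η : ℝ} (hρ : IsMol ε ρ) (hΨ : MemLp Ψ 2 (volume : Measure X3)) {x : X3}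
    (hx : ∀ y, ‖x - y‖ < ε → ‖AA S m β x - AA S m β y‖ ≤ η) :
    ‖∫ y, ρ (x - y) • ((AA S m β x - AA S m β y) (Ψ y))‖ ≤ η * mo ρ (fun y => ‖Ψ y‖) x := by
  have i1 : Integrable (fun y => ρ (x - y) • ‖Ψ y‖) :=
    integrable_mo hρ.contDiff.continuous hρ.hcs (fun z => (locInt hΨ z).norm) x
  rw [mo, ← integral_const_mul]
  refine norm_integral_le_of_norm_le (i1.const_mul η) (Eventually.of_forall fun y => ?_)
  rw [norm_smul, Real.norm_of_nonneg (hρ.nonneg _), smul_eq_mul]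
  by_cases hy : ‖x - y‖ < ε
  · have h1 := ((AA S m β x - AA S m β y).le_opNorm (Ψ y)).trans
      (mul_le_mul_of_nonneg_right (hx y hy) (norm_nonneg _))
    calc ρ (x - y) * ‖(AA S m β x - AA S m β y) (Ψ y)‖ ≤ ρ (x - y) * (η * ‖Ψ y‖) :=
          mul_le_mul_of_nonneg_left h1 (hρ.nonneg _)
      _ = η * (ρ (x - y) * ‖Ψ y‖) := by ring
  · rw [hρ.supp _ (not_lt.1 hy)]
    simp

end Vale.Agent.P353.U.InvL
end

section

/-! # P353, uniqueness, task B8: invariance of mollified functions -/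

open MeasureTheory Filter Topology
open scoped ContDiff

namespace Vale.Agent.P353.U.InvL

open Vale.Agent.P353.Moll

variable {F : Type*} [NormedAddCommGroup F] [InnerProductSpace ℂ F]

lemma eps_sum_zero (C : Fin 3) (a : Fin 3 → ℂ) :
    ∑ A, ∑ B, (eps C A B : ℂ) * (a A * a B) = 0 := by
  have he : ∀ A B : Fin 3, eps C B A = - eps C A B := by
    revert C; decide
  have h1 : ∑ A, ∑ B, (eps C A B : ℂ) * (a A * a B) =
      -∑ A, ∑ B, (eps C A B : ℂ) * (a A * a B) := by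
    conv_lhs => rw [Finset.sum_comm]
    rw [← Finset.sum_neg_distrib]
    refine Finset.sum_congr rfl fun A _ => ?_
    rw [← Finset.sum_neg_distrib]
    refine Finset.sum_congr rfl fun B _ => ?_
    rw [he A B]
    push_cast
    ring
  have h2 : (2 : ℂ) * ∑ A, ∑ B, (eps C A B : ℂ) * (a A * a B) = 0 := by
    linear_combination h1
  simpa using h2

variable (S : Setup F)

lemma G_rad {f : ℝ → ℝ} (hf : ContDiff ℝ ∞ f) (C : Fin 3) (u : X3 → F) (x : X3)
    (hu : DifferentiableAt ℝ u x) :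
    S.G C (fun y => ((rad f y : ℝ) : ℂ) • u y) x = ((rad f x : ℝ) : ℂ) • S.G C u x := by
  have h : ∀ i A, pd i A (fun y => ((rad f y : ℝ) : ℂ) • u y) x =
      ((2 * deriv f (‖x‖ ^ 2) * x (i, A) : ℝ) : ℂ) • u x + ((rad f x : ℝ) : ℂ) • pd i A u x := by
    intro i A
    rw [pd_rsmul ((contDiff_rad hf).differentiable (by simp) x) hu]
    have := pdr_rad hf i A x
    rw [pdr] at this
    rw [this]
  have e : ∑ i, ∑ A, ∑ B, ((eps C A B : ℂ) * (x (i, A) : ℂ)) •
      (((2 * deriv f (‖x‖ ^ 2) * x (i, B) : ℝ) : ℂ) • u x) = 0 := by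
    refine Finset.sum_eq_zero fun i _ => ?_
    have e1 := eps_sum_zero C (fun A => (x (i, A) : ℂ))
    have e2 : ∑ A, ∑ B, ((eps C A B : ℂ) * (x (i, A) : ℂ)) •
        (((2 * deriv f (‖x‖ ^ 2) * x (i, B) : ℝ) : ℂ) • u x) =
        ((2 * deriv f (‖x‖ ^ 2) : ℝ) : ℂ) •
          (∑ A, ∑ B, (eps C A B : ℂ) * ((x (i, A) : ℂ) * (x (i, B) : ℂ))) • u x := by
      rw [Finset.sum_smul, Finset.smul_sum]
      refine Finset.sum_congr rfl fun A _ => ?_
      rw [Finset.sum_smul, Finset.smul_sum]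
      refine Finset.sum_congr rfl fun B _ => ?_
      rw [smul_smul, smul_smul]
      congr 1
      push_cast
      ring
    rw [e2, e1, zero_smul, smul_zero]
  have e3 : ∑ i, ∑ A, ∑ B, ((eps C A B : ℂ) * (x (i, A) : ℂ)) •
      (((2 * deriv f (‖x‖ ^ 2) * x (i, B) : ℝ) : ℂ) • u x + ((rad f x : ℝ) : ℂ) • pd i B u x) =
      ((rad f x : ℝ) : ℂ) • ∑ i, ∑ A, ∑ B, ((eps C A B : ℂ) * (x (i, A) : ℂ)) • pd i B u x := by
    simp only [smul_add, Finset.sum_add_distrib]
    rw [e, zero_add]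
    simp only [Finset.smul_sum]
    refine Finset.sum_congr rfl fun i _ => Finset.sum_congr rfl fun A _ =>
      Finset.sum_congr rfl fun B _ => ?_
    rw [smul_comm]
  simp only [Setup.G, h]
  rw [e3, map_smul, smul_add, smul_comm ((rad f x : ℝ) : ℂ) (-Complex.I)]

variable {S} {Ψ : X3 → F} {g : ℝ → ℝ}

/-- the radial kernel is killed by the sum of the gauge generators in `x` and in `y` -/
lemma ker_G (hg : ContDiff ℝ ∞ g) (C : Fin 3) (x y : X3) :
    ∑ i, ∑ A, ∑ B, (eps C A B : ℂ) * (y (i, A) : ℂ) * ((pdr i B (rad g) (x - y) : ℝ) : ℂ) =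
      ∑ i, ∑ A, ∑ B, (eps C A B : ℂ) * (x (i, A) : ℂ) * ((pdr i B (rad g) (x - y) : ℝ) : ℂ) := by
  refine Finset.sum_congr rfl fun i _ => ?_
  have e1 := eps_sum_zero C (fun A => ((x - y) (i, A) : ℂ))
  have e2 : ∑ A, ∑ B, ((eps C A B : ℂ) * (x (i, A) : ℂ) * ((pdr i B (rad g) (x - y) : ℝ) : ℂ) -
      (eps C A B : ℂ) * (y (i, A) : ℂ) * ((pdr i B (rad g) (x - y) : ℝ) : ℂ)) =
      ((2 * deriv g (‖x - y‖ ^ 2) : ℝ) : ℂ) * ∑ A, ∑ B, (eps C A B : ℂ) *
        (((x - y) (i, A) : ℂ) * ((x - y) (i, B) : ℂ)) := by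
    rw [Finset.mul_sum]
    refine Finset.sum_congr rfl fun A _ => ?_
    rw [Finset.mul_sum]
    refine Finset.sum_congr rfl fun B _ => ?_
    rw [pdr_rad hg]
    simp only [PiLp.sub_apply]
    push_cast
    ring
  rw [e1, mul_zero] at e2
  simp only [Finset.sum_sub_distrib] at e2
  exact (sub_eq_zero.1 e2).symm

lemma ker_J (hg : ContDiff ℝ ∞ g) (k l : Fin 9) (A : Fin 3) (x y : X3) :
    (y (k, A) : ℂ) * ((pdr l A (rad g) (x - y) : ℝ) : ℂ) -
      (y (l, A) : ℂ) * ((pdr k A (rad g) (x - y) : ℝ) : ℂ) =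
    (x (k, A) : ℂ) * ((pdr l A (rad g) (x - y) : ℝ) : ℂ) -
      (x (l, A) : ℂ) * ((pdr k A (rad g) (x - y) : ℝ) : ℂ) := by
  rw [pdr_rad hg, pdr_rad hg]
  simp only [PiLp.sub_apply]
  push_cast
  ring

lemma G_mo_zero [CompleteSpace F] (hΨ : MemLp Ψ 2 (volume : Measure X3)) (h : S.wG Ψ)
    (hg : ContDiff ℝ ∞ g) (hc : HasCompactSupport (rad g)) (C : Fin 3) (x : X3) :
    S.G C (mo (rad g) Ψ) x = 0 := by
  have hρ := contDiff_rad hg
  have i1 : ∀ i B, Integrable (fun y => pdr i B (rad g) (x - y) • Ψ y) := fun i B =>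
    integrable_mo (contDiff_pdr' hρ i B).continuous (hcs_pdr hc i B) (locInt hΨ) x
  have i6 : ∀ (c : ℂ) i B, Integrable (fun y => c • (pdr i B (rad g) (x - y) • Ψ y)) :=
    fun c i B => (i1 i B).smul c
  have i0 := integrable_mo hρ.continuous hc (locInt hΨ) x
  have i2 : Integrable (fun y => S.cS C ((rad g) (x - y) • Ψ y)) := (S.cS C).integrable_comp i0
  have i3 : Integrable (fun y => (-Complex.I) • ∑ i, ∑ A, ∑ B,
      ((eps C A B : ℂ) * (x (i, A) : ℂ)) • (pdr i B (rad g) (x - y) • Ψ y)) :=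
    (integrable_finsetSum _ fun i _ => integrable_finsetSum _ fun A _ =>
      integrable_finsetSum _ fun B _ => i6 _ i B).smul _
  have i4 : Integrable (fun y => (-Complex.I) • ∑ i, ∑ A, ∑ B,
      ((eps C A B : ℂ) * (x (i, A) : ℂ)) • (pdr i B (rad g) (x - y) • Ψ y) +
      S.cS C ((rad g) (x - y) • Ψ y)) := i3.add i2
  have e1 : S.G C (mo (rad g) Ψ) x = ∫ y, ((-Complex.I) • ∑ i, ∑ A, ∑ B,
      ((eps C A B : ℂ) * (x (i, A) : ℂ)) • (pdr i B (rad g) (x - y) • Ψ y) +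
      S.cS C ((rad g) (x - y) • Ψ y)) := by
    rw [integral_add i3 i2, integral_smul, integral_finsetSum _ fun i _ =>
      integrable_finsetSum _ fun A _ => integrable_finsetSum _ fun B _ => i6 _ i B,
      (S.cS C).integral_comp_comm i0]
    simp only [Setup.G, pd_mo hρ hc hΨ]
    congr 2
    refine Finset.sum_congr rfl fun i _ => ?_
    rw [integral_finsetSum _ fun A _ => integrable_finsetSum _ fun B _ => i6 _ i B]
    refine Finset.sum_congr rfl fun A _ => ?_
    rw [integral_finsetSum _ fun B _ => i6 _ i B]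
    refine Finset.sum_congr rfl fun B _ => ?_
    rw [integral_smul]
    rfl
  rw [e1]
  refine ext_inner_left ℂ fun v => ?_
  rw [← integral_inner i4 v, inner_zero_right, ← h C _ (Tst_kernel hρ hc x v)]
  refine integral_congr_ae (Eventually.of_forall fun y => ?_)
  have e2 : S.G C (fun y => ((rad g (x - y) : ℝ) : ℂ) • v) y =
      (Complex.I * ∑ i, ∑ A, ∑ B, (eps C A B : ℂ) * (x (i, A) : ℂ) *
        ((pdr i B (rad g) (x - y) : ℝ) : ℂ)) • v + ((rad g (x - y) : ℝ) : ℂ) • S.cS C v := by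
    simp only [Setup.G, pd_kernel hρ, map_smul]
    congr 1
    rw [← ker_G hg C x y, mul_smul, Finset.sum_smul, neg_smul, ← smul_neg]
    congr 1
    rw [← Finset.sum_neg_distrib]
    refine Finset.sum_congr rfl fun i _ => ?_
    rw [Finset.sum_smul, ← Finset.sum_neg_distrib]
    refine Finset.sum_congr rfl fun A _ => ?_
    rw [Finset.sum_smul, ← Finset.sum_neg_distrib]
    refine Finset.sum_congr rfl fun B _ => ?_
    rw [smul_smul, mul_neg, neg_smul, neg_neg]
  have e3 : (-Complex.I) • ∑ i, ∑ A, ∑ B,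
      ((eps C A B : ℂ) * (x (i, A) : ℂ)) • (pdr i B (rad g) (x - y) • Ψ y) =
      (-Complex.I * ∑ i, ∑ A, ∑ B, (eps C A B : ℂ) * (x (i, A) : ℂ) *
        ((pdr i B (rad g) (x - y) : ℝ) : ℂ)) • Ψ y := by
    rw [mul_smul, Finset.sum_smul]
    congr 1
    refine Finset.sum_congr rfl fun i _ => ?_
    rw [Finset.sum_smul]
    refine Finset.sum_congr rfl fun A _ => ?_
    rw [Finset.sum_smul]
    refine Finset.sum_congr rfl fun B _ => ?_
    rw [← Complex.coe_smul, smul_smul]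
  have e4 : (starRingEnd ℂ) (∑ i, ∑ A, ∑ B, (eps C A B : ℂ) * (x (i, A) : ℂ) *
        ((pdr i B (rad g) (x - y) : ℝ) : ℂ)) = ∑ i, ∑ A, ∑ B, (eps C A B : ℂ) * (x (i, A) : ℂ) *
        ((pdr i B (rad g) (x - y) : ℝ) : ℂ) := by
    simp only [map_sum, map_mul, Complex.conj_ofReal, map_intCast]
  simp only
  rw [e2, e3, ← Complex.coe_smul, map_smul]
  simp only [inner_add_left, inner_add_right, inner_smul_left, inner_smul_right, map_mul,
    Complex.conj_I, Complex.conj_ofReal, S.cS_symm, e4]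

lemma J_mo_zero [CompleteSpace F] (hΨ : MemLp Ψ 2 (volume : Measure X3)) (h : S.wJ Ψ)
    (hg : ContDiff ℝ ∞ g) (hc : HasCompactSupport (rad g)) {k l : Fin 9} (hkl : Same k l)
    (x : X3) : S.J k l (mo (rad g) Ψ) x = 0 := by
  have hρ := contDiff_rad hg
  have i1 : ∀ i B, Integrable (fun y => pdr i B (rad g) (x - y) • Ψ y) := fun i B =>
    integrable_mo (contDiff_pdr' hρ i B).continuous (hcs_pdr hc i B) (locInt hΨ) x
  have i6 : ∀ (c : ℂ) i B, Integrable (fun y => c • (pdr i B (rad g) (x - y) • Ψ y)) :=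
    fun c i B => (i1 i B).smul c
  have i0 := integrable_mo hρ.continuous hc (locInt hΨ) x
  have i2 : Integrable (fun y => S.Skl k l ((rad g) (x - y) • Ψ y)) :=
    (S.Skl k l).integrable_comp i0
  have i5 : ∀ A, Integrable (fun y => (x (k, A) : ℂ) • (pdr l A (rad g) (x - y) • Ψ y) -
      (x (l, A) : ℂ) • (pdr k A (rad g) (x - y) • Ψ y)) := fun A =>
    (i6 _ l A).sub (i6 _ k A)
  have i3 : Integrable (fun y => (-Complex.I) • ∑ A, ((x (k, A) : ℂ) •
      (pdr l A (rad g) (x - y) • Ψ y) - (x (l, A) : ℂ) • (pdr k A (rad g) (x - y) • Ψ y))) :=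
    (integrable_finsetSum _ fun A _ => i5 A).smul _
  have i4 : Integrable (fun y => (-Complex.I) • ∑ A, ((x (k, A) : ℂ) •
      (pdr l A (rad g) (x - y) • Ψ y) - (x (l, A) : ℂ) • (pdr k A (rad g) (x - y) • Ψ y)) +
      S.Skl k l ((rad g) (x - y) • Ψ y)) := i3.add i2
  have e1 : S.J k l (mo (rad g) Ψ) x = ∫ y, ((-Complex.I) • ∑ A, ((x (k, A) : ℂ) •
      (pdr l A (rad g) (x - y) • Ψ y) - (x (l, A) : ℂ) • (pdr k A (rad g) (x - y) • Ψ y)) +
      S.Skl k l ((rad g) (x - y) • Ψ y)) := by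
    rw [integral_add i3 i2, integral_smul, integral_finsetSum _ fun A _ => i5 A,
      (S.Skl k l).integral_comp_comm i0]
    simp only [Setup.J, pd_mo hρ hc hΨ]
    congr 2
    refine Finset.sum_congr rfl fun A _ => ?_
    rw [integral_sub (i6 _ l A) (i6 _ k A), integral_smul, integral_smul]
    rfl
  rw [e1]
  refine ext_inner_left ℂ fun v => ?_
  rw [← integral_inner i4 v, inner_zero_right, ← h k l hkl _ (Tst_kernel hρ hc x v)]
  refine integral_congr_ae (Eventually.of_forall fun y => ?_)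
  have e2 : S.J k l (fun y => ((rad g (x - y) : ℝ) : ℂ) • v) y =
      (Complex.I * ∑ A, ((x (k, A) : ℂ) * ((pdr l A (rad g) (x - y) : ℝ) : ℂ) -
        (x (l, A) : ℂ) * ((pdr k A (rad g) (x - y) : ℝ) : ℂ))) • v +
        ((rad g (x - y) : ℝ) : ℂ) • S.Skl k l v := by
    simp only [Setup.J, pd_kernel hρ, map_smul]
    congr 1
    rw [mul_smul, Finset.sum_smul, neg_smul, ← smul_neg]
    congr 1
    rw [← Finset.sum_neg_distrib]
    refine Finset.sum_congr rfl fun A _ => ?_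
    rw [← ker_J hg k l A x y, sub_smul, smul_smul, smul_smul, mul_neg, mul_neg, neg_smul,
      neg_smul]
    abel
  have e3 : (-Complex.I) • ∑ A, ((x (k, A) : ℂ) •
      (pdr l A (rad g) (x - y) • Ψ y) - (x (l, A) : ℂ) • (pdr k A (rad g) (x - y) • Ψ y)) =
      (-Complex.I * ∑ A, ((x (k, A) : ℂ) * ((pdr l A (rad g) (x - y) : ℝ) : ℂ) -
        (x (l, A) : ℂ) * ((pdr k A (rad g) (x - y) : ℝ) : ℂ))) • Ψ y := by
    rw [mul_smul, Finset.sum_smul]
    congr 1
    refine Finset.sum_congr rfl fun A _ => ?_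
    rw [← Complex.coe_smul, ← Complex.coe_smul, smul_smul, smul_smul, sub_smul]
  have e4 : (starRingEnd ℂ) (∑ A, ((x (k, A) : ℂ) * ((pdr l A (rad g) (x - y) : ℝ) : ℂ) -
        (x (l, A) : ℂ) * ((pdr k A (rad g) (x - y) : ℝ) : ℂ))) =
        ∑ A, ((x (k, A) : ℂ) * ((pdr l A (rad g) (x - y) : ℝ) : ℂ) -
        (x (l, A) : ℂ) * ((pdr k A (rad g) (x - y) : ℝ) : ℂ)) := by
    simp only [map_sum, map_mul, map_sub, Complex.conj_ofReal]
  simp only
  rw [e2, e3, ← Complex.coe_smul, map_smul]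
  simp only [inner_add_left, inner_add_right, inner_smul_left, inner_smul_right, map_mul,
    Complex.conj_I, Complex.conj_ofReal, S.Skl_symm, e4]

end Vale.Agent.P353.U.InvL
end

section

/-! # P353, uniqueness, task B8: approximation by (invariant) test functions -/

open MeasureTheory Filter Topology
open scoped ContDiff

namespace Vale.Agent.P353.U

namespace InvL

open Vale.Agent.P353.Moll

variable {F : Type*} [NormedAddCommGroup F] [InnerProductSpace ℂ F]

lemma exists_pos_le (a : Fin 16 → ℝ) (h : ∀ β, 0 < a β) : ∃ ε > 0, ∀ β, ε ≤ a β :=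
  ⟨Finset.univ.inf' ⟨0, Finset.mem_univ _⟩ a, (Finset.lt_inf'_iff _).2 fun β _ => h β,
    fun β => Finset.inf'_le _ (Finset.mem_univ β)⟩

omit [InnerProductSpace ℂ F] in
/-- functions dominated by the tail of `f` -/
lemma nsq_tail {f w : X3 → F} (hf : MemLp f 2 (volume : Measure X3)) {c r : ℝ}
    (h : ∀ x, ‖w x‖ ≤ c * (if r ≤ ‖x‖ then ‖f x‖ else 0)) :
    nsq w ≤ c ^ 2 * ∫ x, (if r ≤ ‖x‖ then ‖f x‖ ^ 2 else 0) := by
  have hi : Integrable (fun x : X3 => if r ≤ ‖x‖ then ‖f x‖ ^ 2 else 0) := by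
    have h1 := (memLp_norm_sq_int hf).indicator
      (measurableSet_le measurable_const measurable_norm : MeasurableSet {x : X3 | r ≤ ‖x‖})
    refine h1.congr (Eventually.of_forall fun x => ?_)
    simp only [Set.indicator_apply, Set.mem_ofPred_eq]
  rw [nsq, ← integral_const_mul]
  refine integral_mono_of_nonneg (Eventually.of_forall fun x => by positivity)
    (hi.const_mul _) (Eventually.of_forall fun x => ?_)
  have h2 := pow_le_pow_left₀ (norm_nonneg _) (h x) 2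
  refine h2.trans (le_of_eq ?_)
  rw [mul_pow]
  congr 1
  split_ifs <;> simp

omit [InnerProductSpace ℂ F] in
lemma tail_nonneg (f : X3 → F) (r : ℝ) : 0 ≤ ∫ x, (if r ≤ ‖x‖ then ‖f x‖ ^ 2 else 0) :=
  integral_nonneg fun x => by
    simp only [Pi.zero_apply]
    split_ifs <;> positivity

omit [InnerProductSpace ℂ F] in
lemma memLp_of_bound {f g : X3 → F} {c : ℝ} (hm : AEStronglyMeasurable f volume)
    (hg : MemLp g 2 (volume : Measure X3)) (h : ∀ x, ‖f x‖ ≤ c * ‖g x‖) :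
    MemLp f 2 (volume : Measure X3) :=
  MemLp.of_le_mul hg hm (Eventually.of_forall h)

lemma asm_smul {φ : X3 → ℂ} (hφ : Continuous φ) {f : X3 → F}
    (hf : AEStronglyMeasurable f (volume : Measure X3)) :
    AEStronglyMeasurable (fun x => φ x • f x) (volume : Measure X3) :=
  hφ.aestronglyMeasurable.smul hf

lemma contDiff_MM (S : Setup F) (β : Fin 16) : ContDiff ℝ ∞ (S.MM β) := by
  unfold Setup.MM
  refine ContDiff.sum fun i _ => ContDiff.sum fun A _ => ?_
  exact (Setup.contDiff_ofReal (contDiff_const.mul (Setup.contDiff_coord _))).smul contDiff_const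

lemma continuous_Qm (S : Setup F) (m : ℝ) (β : Fin 16) {u : X3 → F} (hu : ContDiff ℝ ∞ u) :
    Continuous (S.Qm m β u) :=
  (S.contDiff_Q β hu).continuous.add
    ((Setup.contDiff_clm_apply' (contDiff_MM S β) hu).continuous.const_smul (m : ℂ))

/-- uniform continuity of the zero order coefficients on balls -/
lemma AA_unif (S : Setup F) (m : ℝ) (β : Fin 16) (R : ℝ) {η : ℝ} (hη : 0 < η) :
    ∃ ε > 0, ∀ x y : X3, ‖x‖ ≤ R → ‖x - y‖ < ε → ‖AA S m β x - AA S m β y‖ ≤ η := by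
  have h1 := (isCompact_closedBall (0 : X3) (R + 1)).uniformContinuousOn_of_continuous
    (continuous_AA S m β).continuousOn
  obtain ⟨ε, hε, h2⟩ := Metric.uniformContinuousOn_iff.1 h1 η hη
  refine ⟨min ε 1, lt_min hε one_pos, fun x y hx hxy => ?_⟩
  rw [← dist_eq_norm]
  refine (h2 x ?_ y ?_ ?_).le
  · rw [Metric.mem_closedBall, dist_zero_right]; linarith
  · rw [Metric.mem_closedBall, dist_zero_right]
    have h3 : ‖y‖ ≤ ‖x‖ + ‖x - y‖ := by
      have := norm_sub_norm_le y x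
      rw [norm_sub_rev] at this
      linarith
    have h4 := hxy.trans_le (min_le_right _ _)
    linarith
  · rw [dist_eq_norm]
    exact hxy.trans_le (min_le_left _ _)

/-- size of the gradient operator of a cutoff -/
noncomputable def Vc (S : Setup F) : ℝ := ∑ β, ∑ i, ∑ A, ‖S.vec (S.g i) A β‖

lemma Vc_nonneg (S : Setup F) : 0 ≤ Vc S := by unfold Vc; positivity

lemma gradOp_le (S : Setup F) {K R : ℝ} {h : ℝ → ℝ} (hK : 0 ≤ K) (hR : 0 < R) (H : IsRC K R h)
    (β : Fin 16) (x : X3) : ‖S.gradOp (rad h) β x‖ ≤ K * Vc S / R := by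
  have h1 : ∑ i, ∑ A, ‖S.vec (S.g i) A β‖ ≤ Vc S :=
    Finset.single_le_sum (f := fun β => ∑ i, ∑ A, ‖S.vec (S.g i) A β‖)
      (fun β _ => by positivity) (Finset.mem_univ β)
  have h2 : ‖S.gradOp (rad h) β x‖ ≤ ∑ i, ∑ A, K / R * ‖S.vec (S.g i) A β‖ := by
    rw [Setup.gradOp, norm_smul, norm_neg, Complex.norm_I, one_mul]
    refine (norm_sum_le _ _).trans (Finset.sum_le_sum fun i _ => ?_)
    refine (norm_sum_le _ _).trans (Finset.sum_le_sum fun A _ => ?_)
    rw [norm_smul, Complex.norm_real]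
    exact mul_le_mul_of_nonneg_right (H.grad i A x) (norm_nonneg _)
  refine h2.trans ?_
  simp only [← Finset.mul_sum]
  calc K / R * ∑ i, ∑ A, ‖S.vec (S.g i) A β‖ ≤ K / R * Vc S := by gcongr
    _ = K * Vc S / R := by ring

lemma gradOp_zero (S : Setup F) {K R : ℝ} {h : ℝ → ℝ} (H : IsRC K R h)
    (β : Fin 16) {x : X3} (hx : ‖x‖ < R / 2) : S.gradOp (rad h) β x = 0 := by
  simp only [Setup.gradOp, H.grad0 _ _ x hx, Complex.ofReal_zero, zero_smul,
    Finset.sum_const_zero, smul_zero]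

lemma continuous_gradOp (S : Setup F) {h : ℝ → ℝ} (hh : ContDiff ℝ ∞ h) (β : Fin 16) :
    Continuous (S.gradOp (rad h) β) := by
  have : ContDiff ℝ ∞ (fun x => ∑ i, ∑ A, ((pdr i A (rad h) x : ℝ) : ℂ) • S.vec (S.g i) A β) := by
    refine ContDiff.sum fun i _ => ContDiff.sum fun A _ => ?_
    exact (Setup.contDiff_ofReal (contDiff_pdr' (contDiff_rad hh) i A)).smul contDiff_const
  exact this.continuous.const_smul (-Complex.I)

section cut

variable {K R : ℝ} {h : ℝ → ℝ} {f g : X3 → F}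

lemma norm_cut_le (H : IsRC K R h) (x : X3) (v : F) : ‖((rad h x : ℝ) : ℂ) • v‖ ≤ 1 * ‖v‖ := by
  rw [norm_smul, Complex.norm_real, Real.norm_of_nonneg (H.nonneg x)]
  exact mul_le_mul_of_nonneg_right (H.le_one x) (norm_nonneg _)

lemma norm_cut1_le (H : IsRC K R h) (hR : 0 < R) (x : X3) (v : F) :
    ‖(((rad h x : ℝ) : ℂ) - 1) • v‖ ≤ 1 * (if R / 4 ≤ ‖x‖ then ‖v‖ else 0) := by
  by_cases hx : ‖x‖ ≤ R / 2
  · rw [H.one x hx]
    simp only [Complex.ofReal_one, sub_self, zero_smul, norm_zero, one_mul]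
    split_ifs <;> positivity
  · push Not at hx
    rw [if_pos (by linarith), norm_smul]
    refine mul_le_mul_of_nonneg_right ?_ (norm_nonneg _)
    have : ((rad h x : ℝ) : ℂ) - 1 = ((rad h x - 1 : ℝ) : ℂ) := by push_cast; rfl
    rw [this, Complex.norm_real, Real.norm_eq_abs, abs_le]
    constructor <;> linarith [H.nonneg x, H.le_one x]

/-- `‖χ g - f‖² ≤ 2 ‖g - f‖² + 2 ∫_{tail} |f|²` -/
lemma nsq_cut_sub (H : IsRC K R h) (hR : 0 < R) (hf : MemLp f 2 (volume : Measure X3))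
    (hg : MemLp g 2 (volume : Measure X3)) :
    nsq (fun x => ((rad h x : ℝ) : ℂ) • g x - f x) ≤
      2 * nsq (fun x => g x - f x) + 2 * ∫ x, (if R / 4 ≤ ‖x‖ then ‖f x‖ ^ 2 else 0) := by
  have hc : Continuous (fun x : X3 => ((rad h x : ℝ) : ℂ)) :=
    (Setup.contDiff_ofReal (contDiff_rad H.contDiff)).continuous
  have hgf : MemLp (fun x => g x - f x) 2 (volume : Measure X3) := hg.sub hf
  have m1 : MemLp (fun x => ((rad h x : ℝ) : ℂ) • (g x - f x)) 2 (volume : Measure X3) :=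
    memLp_of_bound (asm_smul hc hgf.1) hgf fun x => norm_cut_le H x _
  have m2 : MemLp (fun x => (((rad h x : ℝ) : ℂ) - 1) • f x) 2 (volume : Measure X3) := by
    refine memLp_of_bound (c := 1) (asm_smul (hc.sub continuous_const) hf.1) hf fun x => ?_
    refine (norm_cut1_le H hR x _).trans ?_
    split_ifs
    · exact le_rfl
    · rw [mul_zero]; positivity
  have e : (fun x => ((rad h x : ℝ) : ℂ) • g x - f x) = fun x =>
      ((rad h x : ℝ) : ℂ) • (g x - f x) + (((rad h x : ℝ) : ℂ) - 1) • f x := by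
    funext x
    rw [smul_sub, sub_smul, one_smul]
    abel
  rw [e]
  refine (nsq_add_le m1 m2).trans ?_
  have b1 := nsq_le_of hgf (fun x => norm_cut_le H x (g x - f x))
  have b2 := nsq_tail hf (fun x => norm_cut1_le H hR x (f x))
  rw [one_pow, one_mul] at b1 b2
  linarith

end cut

/-- the estimate for `Q_β` -/
lemma nsq_Q_est [CompleteSpace F] {S : Setup F} {m K R ε η δ₁ : ℝ} {β : Fin 16} {Ψ Θ : X3 → F}
    {ρ : X3 → ℝ} {h : ℝ → ℝ} (hΨ : MemLp Ψ 2 (volume : Measure X3))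
    (hΘ : MemLp Θ 2 (volume : Measure X3)) (hw : S.wQ m β Ψ Θ) (hρ : IsMol ε ρ)
    (hK : 0 ≤ K) (hR : 1 ≤ R) (H : IsRC K R h) (hη : 0 ≤ η)
    (hA : ∀ x y : X3, ‖x‖ ≤ R → ‖x - y‖ < ε → ‖AA S m β x - AA S m β y‖ ≤ η)
    (h1 : nsq (fun x => mo ρ Ψ x - Ψ x) ≤ δ₁) (h2 : nsq (fun x => mo ρ Θ x - Θ x) ≤ δ₁) :
    nsq (fun x => S.Qm m β (fun y => ((rad h y : ℝ) : ℂ) • mo ρ Ψ y) x - Θ x) ≤
      4 * δ₁ + 8 * (K * Vc S) ^ 2 * δ₁ + 8 * (η ^ 2 * nsq Ψ) +
      8 * ((K * Vc S / R) ^ 2 * ∫ x, (if R / 4 ≤ ‖x‖ then ‖Ψ x‖ ^ 2 else 0)) +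
      4 * ∫ x, (if R / 4 ≤ ‖x‖ then ‖Θ x‖ ^ 2 else 0) := by
  have hR0 : 0 < R := lt_of_lt_of_le one_pos hR
  have hcd : ContDiff ℝ ∞ (mo ρ Ψ) := contDiff_mo hρ.contDiff hρ.hcs (locInt hΨ)
  have mΨ := (nsq_mo_le hρ hΨ).1
  have mΘ := (nsq_mo_le hρ hΘ).1
  have hc : Continuous (fun x : X3 => ((rad h x : ℝ) : ℂ)) :=
    (Setup.contDiff_ofReal (contDiff_rad H.contDiff)).continuous
  have hV := Vc_nonneg S
  -- the commutator term
  have hcom : ∀ x, ‖((rad h x : ℝ) : ℂ) • (S.Qm m β (mo ρ Ψ) x - mo ρ Θ x)‖ ≤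
      η * mo ρ (fun y => ‖Ψ y‖) x := by
    intro x
    have h0 : 0 ≤ mo ρ (fun y => ‖Ψ y‖) x :=
      integral_nonneg fun y => mul_nonneg (hρ.nonneg _) (norm_nonneg _)
    by_cases hx : ‖x‖ ≤ R
    · rw [Qm_mo hΨ hΘ hw hρ.contDiff hρ.hcs, add_sub_cancel_left]
      refine (norm_cut_le H x _).trans ?_
      rw [one_mul]
      exact comm_bound hρ hΨ fun y hy => hA x y hx hy
    · push Not at hx
      rw [H.zero x hx.le, Complex.ofReal_zero, zero_smul, norm_zero]
      positivity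
  obtain ⟨m3', b3'⟩ := nsq_le_mo hρ hΨ (asm_smul hc
    (((continuous_Qm S m β hcd).sub
      (contDiff_mo hρ.contDiff hρ.hcs (locInt hΘ)).continuous).aestronglyMeasurable)) hcom
  have m3 : MemLp (fun x => ((rad h x : ℝ) : ℂ) • (S.Qm m β (mo ρ Ψ) x - mo ρ Θ x)) 2
      (volume : Measure X3) := m3'
  have b3 : nsq (fun x => ((rad h x : ℝ) : ℂ) • (S.Qm m β (mo ρ Ψ) x - mo ρ Θ x)) ≤
      η ^ 2 * nsq Ψ := b3'
  -- the gradient terms
  have hd : MemLp (fun x => mo ρ Ψ x - Ψ x) 2 (volume : Measure X3) := mΨ.sub hΨ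
  have m4 : MemLp (fun x => S.gradOp (rad h) β x (mo ρ Ψ x - Ψ x)) 2 (volume : Measure X3) :=
    memLp_op (continuous_gradOp S H.contDiff β) (gradOp_le S hK hR0 H β) hd
  have b4 := nsq_op_le (gradOp_le S hK hR0 H β) hd
  have m5 : MemLp (fun x => S.gradOp (rad h) β x (Ψ x)) 2 (volume : Measure X3) :=
    memLp_op (continuous_gradOp S H.contDiff β) (gradOp_le S hK hR0 H β) hΨ
  have b5 : nsq (fun x => S.gradOp (rad h) β x (Ψ x)) ≤
      (K * Vc S / R) ^ 2 * ∫ x, (if R / 4 ≤ ‖x‖ then ‖Ψ x‖ ^ 2 else 0) := by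
    refine nsq_tail hΨ fun x => ?_
    by_cases hx : ‖x‖ < R / 2
    · rw [gradOp_zero S H β hx]
      simp only [_root_.zero_apply, norm_zero]
      have : (0 : ℝ) ≤ if R / 4 ≤ ‖x‖ then ‖Ψ x‖ else 0 := by split_ifs <;> positivity
      positivity
    · push Not at hx
      rw [if_pos (by linarith)]
      exact ((S.gradOp (rad h) β x).le_opNorm _).trans
        (mul_le_mul_of_nonneg_right (gradOp_le S hK hR0 H β x) (norm_nonneg _))
  -- the main term
  have b1 := nsq_cut_sub H hR0 hΘ mΘ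
  have m1 : MemLp (fun x => ((rad h x : ℝ) : ℂ) • mo ρ Θ x - Θ x) 2 (volume : Measure X3) :=
    (memLp_of_bound (asm_smul hc mΘ.1) mΘ fun x => norm_cut_le H x _).sub hΘ
  have e : (fun x => S.Qm m β (fun y => ((rad h y : ℝ) : ℂ) • mo ρ Ψ y) x - Θ x) = fun x =>
      (((rad h x : ℝ) : ℂ) • mo ρ Θ x - Θ x) +
      (((rad h x : ℝ) : ℂ) • (S.Qm m β (mo ρ Ψ) x - mo ρ Θ x) +
      (S.gradOp (rad h) β x (mo ρ Ψ x - Ψ x) + S.gradOp (rad h) β x (Ψ x))) := by
    funext x
    have e1 := S.Q_cut (rad h) β (mo ρ Ψ) x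
      ((contDiff_rad H.contDiff).differentiable (by simp) x) (hcd.differentiable (by simp) x)
    rw [Setup.Qm, e1, Setup.Qm, map_smul, map_sub, smul_sub, smul_add,
      smul_comm (m : ℂ) ((rad h x : ℝ) : ℂ)]
    abel
  rw [e]
  have c1 := nsq_add_le m1 (m3.add (m4.add m5))
  have c2 := nsq_add_le m3 (m4.add m5)
  have c3 := nsq_add_le m4 m5
  have b4' : nsq (fun x => S.gradOp (rad h) β x (mo ρ Ψ x - Ψ x)) ≤ (K * Vc S) ^ 2 * δ₁ := by
    refine b4.trans ?_
    have h3 : (K * Vc S / R) ^ 2 ≤ (K * Vc S) ^ 2 := by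
      refine pow_le_pow_left₀ (by positivity) ?_ 2
      exact div_le_self (by positivity) hR
    exact mul_le_mul h3 h1 (nsq_nonneg _) (sq_nonneg _)
  have c1' : nsq (fun x => (((rad h x : ℝ) : ℂ) • mo ρ Θ x - Θ x) +
      (((rad h x : ℝ) : ℂ) • (S.Qm m β (mo ρ Ψ) x - mo ρ Θ x) +
      (S.gradOp (rad h) β x (mo ρ Ψ x - Ψ x) + S.gradOp (rad h) β x (Ψ x)))) ≤
      2 * nsq (fun x => ((rad h x : ℝ) : ℂ) • mo ρ Θ x - Θ x) +
      2 * nsq (fun x => ((rad h x : ℝ) : ℂ) • (S.Qm m β (mo ρ Ψ) x - mo ρ Θ x) +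
      (S.gradOp (rad h) β x (mo ρ Ψ x - Ψ x) + S.gradOp (rad h) β x (Ψ x))) := c1
  have c2' : nsq (fun x => ((rad h x : ℝ) : ℂ) • (S.Qm m β (mo ρ Ψ) x - mo ρ Θ x) +
      (S.gradOp (rad h) β x (mo ρ Ψ x - Ψ x) + S.gradOp (rad h) β x (Ψ x))) ≤
      2 * nsq (fun x => ((rad h x : ℝ) : ℂ) • (S.Qm m β (mo ρ Ψ) x - mo ρ Θ x)) +
      2 * nsq (fun x => S.gradOp (rad h) β x (mo ρ Ψ x - Ψ x) + S.gradOp (rad h) β x (Ψ x)) := c2
  have hn : 0 ≤ η ^ 2 * nsq Ψ := mul_nonneg (sq_nonneg η) (nsq_nonneg Ψ)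
  have h2' : nsq (fun x => mo ρ Θ x - Θ x) ≤ δ₁ := h2
  linarith

end InvL

open Vale.Agent.P353.Moll InvL

variable {F : Type*} [NormedAddCommGroup F] [InnerProductSpace ℂ F]

/-- **B8** -/
theorem invLem [FiniteDimensional ℂ F] (S : Setup F) : InvLemStmt S := by
  have : CompleteSpace F := FiniteDimensional.complete ℂ F
  intro m Ψ Θ hΨ hΘ hw _
  obtain ⟨K, hK, hcut⟩ := exists_rc
  have hV := Vc_nonneg S
  obtain ⟨G0, hG0⟩ : ∃ G0, G0 = (K * Vc S) ^ 2 := ⟨_, rfl⟩
  have hG0' : 0 ≤ G0 := hG0 ▸ sq_nonneg _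
  have hN := nsq_nonneg Ψ
  refine ⟨4 + 8 * G0, fun R hR δ hδ => ?_⟩
  have hR0 : 0 < R := lt_of_lt_of_le one_pos hR
  obtain ⟨h, H⟩ := hcut R hR0
  obtain ⟨δ₁, hδ₁⟩ : ∃ δ₁, δ₁ = δ / (8 * (1 + G0) * 2) := ⟨_, rfl⟩
  have hδ₁' : 0 < δ₁ := by rw [hδ₁]; positivity
  have hδ₂ : 8 * (1 + G0) * δ₁ = δ / 2 := by rw [hδ₁]; field_simp
  obtain ⟨η, hη⟩ : ∃ η, η = Real.sqrt (δ / (16 * (nsq Ψ + 1))) := ⟨_, rfl⟩
  have hη0 : 0 < η := hη ▸ Real.sqrt_pos.2 (by positivity)
  have hη2 : 8 * (η ^ 2 * nsq Ψ) ≤ δ / 2 := by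
    rw [hη, Real.sq_sqrt (by positivity)]
    rw [div_mul_eq_mul_div, mul_div_assoc', div_le_iff₀ (by positivity)]
    nlinarith
  obtain ⟨ε₁, hε₁, hm1⟩ := mo_approx hΨ hδ₁'
  choose ε₂ hε₂ hm2 using fun β => mo_approx (hΘ β) hδ₁'
  choose ε₃ hε₃ hm3 using fun β => AA_unif S m β R hη0
  obtain ⟨ε₄, hε₄, hm4⟩ := exists_pos_le ε₂ hε₂
  obtain ⟨ε₅, hε₅, hm5⟩ := exists_pos_le ε₃ hε₃
  obtain ⟨ε, hε⟩ : ∃ ε, ε = min ε₁ (min ε₄ ε₅) := ⟨_, rfl⟩
  have hε0 : 0 < ε := hε ▸ lt_min hε₁ (lt_min hε₄ hε₅)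
  have hε1 : ε ≤ ε₁ := hε ▸ min_le_left _ _
  have hε4 : ε ≤ ε₄ := hε ▸ (min_le_right _ _).trans (min_le_left _ _)
  have hε5 : ε ≤ ε₅ := hε ▸ (min_le_right _ _).trans (min_le_right _ _)
  obtain ⟨g, hg, hρ⟩ := exists_mol hε0
  have hcd : ContDiff ℝ ∞ (mo (rad g) Ψ) := contDiff_mo hρ.contDiff hρ.hcs (locInt hΨ)
  have hdf : ∀ x, DifferentiableAt ℝ (mo (rad g) Ψ) x := hcd.differentiable (by simp)
  have hzero : ∀ x, R ≤ ‖x‖ → ((rad h x : ℝ) : ℂ) • mo (rad g) Ψ x = 0 := by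
    intro x hx
    rw [H.zero x hx, Complex.ofReal_zero, zero_smul]
  have hΨm := hm1 ε hε1 _ hρ
  refine ⟨fun x => ((rad h x : ℝ) : ℂ) • mo (rad g) Ψ x, ⟨?_, ?_⟩, hzero, ?_, ?_, ?_, ?_⟩
  · exact (Setup.contDiff_ofReal (contDiff_rad H.contDiff)).smul hcd
  · refine HasCompactSupport.intro (isCompact_closedBall (0 : X3) R) fun x hx => ?_
    rw [Metric.mem_closedBall, dist_zero_right, not_le] at hx
    exact hzero x hx.le
  · intro hG C x
    rw [G_rad S H.contDiff C _ x (hdf x), G_mo_zero hΨ hG hg hρ.hcs, smul_zero]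
  · intro hJ k l hkl x
    rw [S.J_rad H.contDiff k l _ x (hdf x), J_mo_zero hΨ hJ hg hρ.hcs hkl, smul_zero]
  · have b := nsq_cut_sub H hR0 hΨ (nsq_mo_le hρ hΨ).1
    have ht := tail_nonneg Ψ (R / 4)
    nlinarith [mul_nonneg hG0' ht, mul_nonneg hG0' hδ₁'.le]
  · intro β
    have hΘm := hm2 β ε (hε4.trans (hm4 β)) _ hρ
    have hA : ∀ x y : X3, ‖x‖ ≤ R → ‖x - y‖ < ε → ‖AA S m β x - AA S m β y‖ ≤ η :=
      fun x y hx hxy => hm3 β x y hx (hxy.trans_le (hε5.trans (hm5 β)))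
    have b := nsq_Q_est hΨ (hΘ β) (hw β) hρ hK hR H hη0.le hA hΨm hΘm
    have ht := tail_nonneg Ψ (R / 4)
    have ht2 := tail_nonneg (Θ β) (R / 4)
    have e1 : (K * Vc S / R) ^ 2 = G0 / R ^ 2 := by rw [hG0, div_pow]
    rw [e1, ← hG0] at b
    have hR2 : 0 < R ^ 2 := by positivity
    have e2 : 8 * (G0 / R ^ 2 * ∫ x, (if R / 4 ≤ ‖x‖ then ‖Ψ x‖ ^ 2 else 0)) ≤
        (4 + 8 * G0) / R ^ 2 * ∫ x, (if R / 4 ≤ ‖x‖ then ‖Ψ x‖ ^ 2 else 0) := by
      have : (4 + 8 * G0) / R ^ 2 * ∫ x, (if R / 4 ≤ ‖x‖ then ‖Ψ x‖ ^ 2 else 0) =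
          8 * (G0 / R ^ 2 * ∫ x, (if R / 4 ≤ ‖x‖ then ‖Ψ x‖ ^ 2 else 0)) +
          4 / R ^ 2 * ∫ x, (if R / 4 ≤ ‖x‖ then ‖Ψ x‖ ^ 2 else 0) := by ring
      rw [this]
      have : 0 ≤ 4 / R ^ 2 * ∫ x, (if R / 4 ≤ ‖x‖ then ‖Ψ x‖ ^ 2 else 0) := by positivity
      linarith
    nlinarith [mul_nonneg hG0' ht2, mul_nonneg hG0' hδ₁'.le]

end Vale.Agent.P353.U
end

section

/-! # P353, uniqueness for `N = 2`: Theorem D (`m → 0`)

Two independent zero modes at `m = 0`, cut off at `‖x‖ = c₀ m^{-1/2}`, together with the outer state of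
`OutStmt` span a three dimensional space on which the energy is `< 8m`. -/

open MeasureTheory Filter Topology
open scoped ContDiff

namespace Vale.Agent.P353.U

variable {F : Type*} [NormedAddCommGroup F] [InnerProductSpace ℂ F]

/-! ### locality and disjoint supports -/

theorem thd_Qm_zero (S : Setup F) (m : ℝ) (β : Fin 16) {u : X3 → F} {x : X3}
    (h : u =ᶠ[𝓝 x] fun _ => 0) : S.Qm m β u x = 0 := by
  have h0 : u x = 0 := h.self_of_nhds
  have h1 : ∀ i A, pd i A u x = 0 := by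
    intro i A
    unfold pd
    rw [h.fderiv_eq]
    simp
  simp [Setup.Qm, Setup.Q, h0, h1]

theorem thd_Qm_in (S : Setup F) (m : ℝ) (β : Fin 16) {u : X3 → F} {R : ℝ}
    (h : ∀ x, ‖x‖ ≤ R → u x = 0) {x : X3} (hx : ‖x‖ < R) : S.Qm m β u x = 0 := by
  refine thd_Qm_zero S m β ?_
  filter_upwards [(isOpen_lt continuous_norm continuous_const).mem_nhds hx] with y hy
  exact h y (le_of_lt hy)

theorem thd_Qm_out (S : Setup F) (m : ℝ) (β : Fin 16) {u : X3 → F} {R : ℝ}
    (h : ∀ x, R ≤ ‖x‖ → u x = 0) {x : X3} (hx : R < ‖x‖) : S.Qm m β u x = 0 := by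
  refine thd_Qm_zero S m β ?_
  filter_upwards [(isOpen_lt continuous_const continuous_norm).mem_nhds hx] with y hy
  exact h y (le_of_lt hy)

theorem thd_ae_sphere {R : ℝ} (hR : 0 < R) : ∀ᵐ x : X3, ‖x‖ ≠ R := by
  have h1 : (volume : Measure X3) (Metric.sphere (0 : X3) R) = 0 :=
    Measure.addHaar_sphere_of_ne_zero _ _ hR.ne'
  rw [ae_iff]
  convert h1 using 2
  ext x
  simp

omit [InnerProductSpace ℂ F] in
theorem thd_nsq_split {f g : X3 → F} (hf : Integrable (fun x : X3 => ‖f x‖ ^ 2))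
    (hg : Integrable (fun x : X3 => ‖g x‖ ^ 2)) (h : ∀ᵐ x : X3, f x = 0 ∨ g x = 0) :
    nsq (fun x => f x + g x) = nsq f + nsq g := by
  rw [nsq, nsq, nsq, ← integral_add hf hg]
  refine integral_congr_ae ?_
  filter_upwards [h] with x hx
  rcases hx with hx | hx <;> simp [hx]

theorem thd_nsq_pair {f g : X3 → F} (hf : Setup.Tst f) (hg : Setup.Tst g) (a b : ℂ) :
    nsq (fun x => a • f x + b • g x) ≤ 2 * (‖a‖ ^ 2 * nsq f) + 2 * (‖b‖ ^ 2 * nsq g) := by
  have h := nsq_add_le (thb_smul_tst a hf).memLp (thb_smul_tst b hg).memLp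
  rwa [thb_nsq_smul, thb_nsq_smul] at h

/-- assembly of the three dimensional space -/
theorem thd_low (S : Setup F) {m R c e : ℝ} (hR : 0 < R) (hm : 0 < m) {u1 u2 u3 : X3 → F}
    (h1 : S.Inv u1) (h2 : S.Inv u2) (h3 : S.Inv u3)
    (z1 : ∀ x, R ≤ ‖x‖ → u1 x = 0) (z2 : ∀ x, R ≤ ‖x‖ → u2 x = 0)
    (z3 : ∀ x, ‖x‖ ≤ R → u3 x = 0)
    (hlow : ∀ a b : ℂ, c * (‖a‖ ^ 2 + ‖b‖ ^ 2) ≤ nsq (fun x => a • u1 x + b • u2 x))
    (e1 : ∑ β, nsq (S.Qm m β u1) ≤ e) (e2 : ∑ β, nsq (S.Qm m β u2) ≤ e)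
    (he : e < 4 * m * c) (hp : 0 < nsq u3)
    (e3 : ∑ β, nsq (S.Qm m β u3) ≤ 4 * m * nsq u3) : S.Low m (8 * m) := by
  refine ⟨![u1, u2, u3], ?_, ?_⟩
  · intro j
    fin_cases j
    · exact h1
    · exact h2
    · exact h3
  intro a ha
  have hT : ∀ j, Setup.Tst ((![u1, u2, u3] : Fin 3 → X3 → F) j) := by
    intro j
    fin_cases j
    · exact h1.1
    · exact h2.1
    · exact h3.1
  have hcomb : (fun x => ∑ j, a j • (![u1, u2, u3] : Fin 3 → X3 → F) j x) =
      fun x => (a 0 • u1 x + a 1 • u2 x) + a 2 • u3 x := by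
    funext x
    simp [Fin.sum_univ_three]
  have hQ : ∀ β, S.Qm m β (fun x => ∑ j, a j • (![u1, u2, u3] : Fin 3 → X3 → F) j x) =
      fun x => (a 0 • S.Qm m β u1 x + a 1 • S.Qm m β u2 x) + a 2 • S.Qm m β u3 x := by
    intro β
    funext x
    rw [thb_Qm_comb S m β a hT]
    simp [Fin.sum_univ_three]
  have hw : Setup.Tst (fun x => a 0 • u1 x + a 1 • u2 x) :=
    (thb_smul_tst _ h1.1).add (thb_smul_tst _ h2.1)
  have hz : Setup.Tst (fun x => a 2 • u3 x) := thb_smul_tst _ h3.1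
  have hn : nsq (fun x => ∑ j, a j • (![u1, u2, u3] : Fin 3 → X3 → F) j x) =
      nsq (fun x => a 0 • u1 x + a 1 • u2 x) + ‖a 2‖ ^ 2 * nsq u3 := by
    rw [hcomb, thd_nsq_split hw.norm_sq_int hz.norm_sq_int, thb_nsq_smul]
    refine Filter.Eventually.of_forall fun x => ?_
    rcases le_total R ‖x‖ with hx | hx
    · left
      simp [z1 x hx, z2 x hx]
    · right
      simp [z3 x hx]
  have hqw : ∀ β, Setup.Tst (fun x => a 0 • S.Qm m β u1 x + a 1 • S.Qm m β u2 x) := fun β =>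
    (thb_smul_tst _ (thb_Qm_tst S m β h1.1)).add (thb_smul_tst _ (thb_Qm_tst S m β h2.1))
  have hqz : ∀ β, Setup.Tst (fun x => a 2 • S.Qm m β u3 x) := fun β =>
    thb_smul_tst _ (thb_Qm_tst S m β h3.1)
  have hq : ∀ β, nsq (S.Qm m β (fun x => ∑ j, a j • (![u1, u2, u3] : Fin 3 → X3 → F) j x)) ≤
      2 * (‖a 0‖ ^ 2 * nsq (S.Qm m β u1)) + 2 * (‖a 1‖ ^ 2 * nsq (S.Qm m β u2)) +
        ‖a 2‖ ^ 2 * nsq (S.Qm m β u3) := by
    intro β
    rw [hQ β, thd_nsq_split (hqw β).norm_sq_int (hqz β).norm_sq_int, thb_nsq_smul]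
    · have := thd_nsq_pair (thb_Qm_tst S m β h1.1) (thb_Qm_tst S m β h2.1) (a 0) (a 1)
      linarith
    · filter_upwards [thd_ae_sphere hR] with x hx
      rcases lt_or_gt_of_ne hx with hx | hx
      · right
        rw [thd_Qm_in S m β z3 hx, smul_zero]
      · left
        rw [thd_Qm_out S m β z1 hx, thd_Qm_out S m β z2 hx, smul_zero, smul_zero, add_zero]
  have hsum : ∑ β, nsq (S.Qm m β (fun x => ∑ j, a j • (![u1, u2, u3] : Fin 3 → X3 → F) j x)) ≤
      2 * (‖a 0‖ ^ 2 * e) + 2 * (‖a 1‖ ^ 2 * e) + ‖a 2‖ ^ 2 * (4 * m * nsq u3) := by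
    calc _ ≤ ∑ β, (2 * (‖a 0‖ ^ 2 * nsq (S.Qm m β u1)) + 2 * (‖a 1‖ ^ 2 * nsq (S.Qm m β u2)) +
          ‖a 2‖ ^ 2 * nsq (S.Qm m β u3)) := Finset.sum_le_sum fun β _ => hq β
      _ = 2 * (‖a 0‖ ^ 2 * ∑ β, nsq (S.Qm m β u1)) + 2 * (‖a 1‖ ^ 2 * ∑ β, nsq (S.Qm m β u2)) +
          ‖a 2‖ ^ 2 * ∑ β, nsq (S.Qm m β u3) := by
          simp only [Finset.sum_add_distrib, Finset.mul_sum]
      _ ≤ _ := by gcongr
  have hl := hlow (a 0) (a 1)
  rw [hn]
  refine lt_of_le_of_lt hsum ?_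
  have ha0 := sq_nonneg ‖a 0‖
  have ha1 := sq_nonneg ‖a 1‖
  have ha2 := sq_nonneg ‖a 2‖
  have hm8 : 8 * m * (c * (‖a 0‖ ^ 2 + ‖a 1‖ ^ 2)) ≤
      8 * m * nsq (fun x => a 0 • u1 x + a 1 • u2 x) :=
    mul_le_mul_of_nonneg_left hl (by linarith)
  have key : 0 < (8 * m * c - 2 * e) * (‖a 0‖ ^ 2 + ‖a 1‖ ^ 2) +
      4 * m * nsq u3 * ‖a 2‖ ^ 2 := by
    have hd : 0 < 8 * m * c - 2 * e := by linarith
    have hd3 : 0 < 4 * m * nsq u3 := by positivity
    by_cases h2' : a 2 = 0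
    · by_cases h0' : a 0 = 0
      · have h1' : a 1 ≠ 0 := by
          intro h1'
          apply ha
          funext j
          fin_cases j
          · exact h0'
          · exact h1'
          · exact h2'
        have : 0 < ‖a 1‖ ^ 2 := by positivity
        have h5 : 0 < (8 * m * c - 2 * e) * (‖a 0‖ ^ 2 + ‖a 1‖ ^ 2) :=
          mul_pos hd (by linarith)
        nlinarith
      · have : 0 < ‖a 0‖ ^ 2 := by positivity
        have h5 : 0 < (8 * m * c - 2 * e) * (‖a 0‖ ^ 2 + ‖a 1‖ ^ 2) :=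
          mul_pos hd (by linarith)
        nlinarith
    · have : 0 < ‖a 2‖ ^ 2 := by positivity
      have h5 : 0 < 4 * m * nsq u3 * ‖a 2‖ ^ 2 := mul_pos hd3 this
      have h6 : 0 ≤ (8 * m * c - 2 * e) * (‖a 0‖ ^ 2 + ‖a 1‖ ^ 2) :=
        mul_nonneg hd.le (by linarith)
      linarith
  nlinarith

/-! ### linear independence is stable -/

theorem thd_gram {H : Type*} [NormedAddCommGroup H] [NormedSpace ℂ H] {g1 g2 : H}
    (h : LinearIndependent ℂ ![g1, g2]) : ∃ c η : ℝ, 0 < c ∧ 0 < η ∧ ∀ f1 f2 : H,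
      ‖f1 - g1‖ ≤ η → ‖f2 - g2‖ ≤ η → ∀ a b : ℂ,
        c * (‖a‖ ^ 2 + ‖b‖ ^ 2) ≤ ‖a • f1 + b • f2‖ ^ 2 := by
  set T : (Fin 2 → ℂ) →ₗ[ℂ] H := Fintype.linearCombination ℂ ![g1, g2] with hT
  have hTa : ∀ a b : ℂ, T ![a, b] = a • g1 + b • g2 := fun a b => by
    rw [hT, Fintype.linearCombination_apply]
    simp [Fin.sum_univ_two]
  have hker : LinearMap.ker T = ⊥ := by
    rw [LinearMap.ker_eq_bot']
    intro a ha
    rw [hT, Fintype.linearCombination_apply] at ha
    funext j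
    exact (Fintype.linearIndependent_iff.1 h) a ha j
  obtain ⟨K, hK, hK'⟩ := T.exists_antilipschitzWith hker
  have hKr : (0 : ℝ) < K := by exact_mod_cast hK
  refine ⟨1 / (8 * K ^ 2), 1 / (4 * K), by positivity, by positivity, ?_⟩
  intro f1 f2 hf1 hf2 a b
  have h1 := hK'.le_mul_dist ![a, b] 0
  rw [map_zero, dist_zero_right, dist_zero_right, hTa] at h1
  set N := ‖(![a, b] : Fin 2 → ℂ)‖ with hN
  have hN0 : 0 ≤ N := norm_nonneg _
  have haN : ‖a‖ ≤ N := by
    have := norm_le_pi_norm (![a, b] : Fin 2 → ℂ) 0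
    simpa using this
  have hbN : ‖b‖ ≤ N := by
    have := norm_le_pi_norm (![a, b] : Fin 2 → ℂ) 1
    simpa using this
  have h2 : ‖a • g1 + b • g2‖ ≤ ‖a • f1 + b • f2‖ + (‖a • (f1 - g1)‖ + ‖b • (f2 - g2)‖) := by
    have e1 : a • g1 + b • g2 = (a • f1 + b • f2) - (a • (f1 - g1) + b • (f2 - g2)) := by
      module
    rw [e1]
    refine (norm_sub_le _ _).trans ?_
    gcongr
    exact norm_add_le _ _
  have h3 : ‖a • (f1 - g1)‖ ≤ N * (1 / (4 * K)) := by
    rw [norm_smul]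
    exact mul_le_mul haN hf1 (norm_nonneg _) hN0
  have h4 : ‖b • (f2 - g2)‖ ≤ N * (1 / (4 * K)) := by
    rw [norm_smul]
    exact mul_le_mul hbN hf2 (norm_nonneg _) hN0
  have h5 : N / (2 * K) ≤ ‖a • f1 + b • f2‖ := by
    have h6 : N / K ≤ ‖a • g1 + b • g2‖ := by
      rw [div_le_iff₀ hKr]
      linarith
    have h7 : N / K = N / (2 * K) + N * (1 / (4 * K)) + N * (1 / (4 * K)) := by
      field_simp
      ring
    linarith
  have h8 : (N / (2 * K)) ^ 2 ≤ ‖a • f1 + b • f2‖ ^ 2 :=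
    pow_le_pow_left₀ (by positivity) h5 2
  refine le_trans ?_ h8
  have h9 : ‖a‖ ^ 2 + ‖b‖ ^ 2 ≤ 2 * N ^ 2 := by
    have := pow_le_pow_left₀ (norm_nonneg _) haN 2
    have := pow_le_pow_left₀ (norm_nonneg _) hbN 2
    linarith
  calc 1 / (8 * (K : ℝ) ^ 2) * (‖a‖ ^ 2 + ‖b‖ ^ 2) ≤ 1 / (8 * (K : ℝ) ^ 2) * (2 * N ^ 2) := by
        gcongr
    _ = (N / (2 * K)) ^ 2 := by
        field_simp
        ring

/-! ### the inner states -/

omit [InnerProductSpace ℂ F] in
theorem thd_tail {Ψ : X3 → F} (hΨ : MemLp Ψ 2 (volume : Measure X3)) :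
    Tendsto (fun R : ℝ => ∫ x : X3, (if R / 4 ≤ ‖x‖ then ‖Ψ x‖ ^ 2 else 0)) atTop (𝓝 0) := by
  have hint := memLp_norm_sq_int hΨ
  have h0 : ∫ _x : X3, (0 : ℝ) = 0 := by simp
  have key : Tendsto (fun R : ℝ => ∫ x : X3, (if R / 4 ≤ ‖x‖ then ‖Ψ x‖ ^ 2 else 0)) atTop
      (𝓝 (∫ _x : X3, (0 : ℝ))) := by
    refine tendsto_integral_filter_of_dominated_convergence (fun x => ‖Ψ x‖ ^ 2) ?_ ?_ hint ?_
    · refine Filter.Eventually.of_forall fun R => ?_
      have : (fun x : X3 => if R / 4 ≤ ‖x‖ then ‖Ψ x‖ ^ 2 else 0) =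
          Set.indicator {x : X3 | R / 4 ≤ ‖x‖} (fun x => ‖Ψ x‖ ^ 2) := by
        ext x
        simp [Set.indicator]
      rw [this]
      exact hint.1.indicator (measurableSet_le measurable_const measurable_norm)
    · refine Filter.Eventually.of_forall fun R => Filter.Eventually.of_forall fun x => ?_
      split_ifs <;> simp
    · refine Filter.Eventually.of_forall fun x => ?_
      refine tendsto_const_nhds.congr' ?_
      filter_upwards [eventually_gt_atTop (4 * ‖x‖)] with R hR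
      rw [if_neg (by linarith)]
  rwa [h0] at key

/-- for small `m` a zero mode is close to an invariant test function supported in `‖x‖ < c₀m^{-1/2}` of energy
`o(m)` -/
theorem thd_inner (S : Setup F) (hz : ZmStmt S) (hI : InvMomStmt S)
    {Ψ : Lp F 2 (volume : Measure X3)} (hΨ : S.IsZM Ψ) {c0 η : ℝ} (hc0 : 0 < c0) (hη : 0 < η) :
    ∀ᶠ m in 𝓝[>] (0 : ℝ), ∃ u : X3 → F, S.Inv u ∧ (∀ x, c0 / Real.sqrt m ≤ ‖x‖ → u x = 0) ∧
      nsq (fun x => u x - Ψ x) ≤ η ∧ ∑ β, nsq (S.Qm m β u) ≤ η * m := by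
  obtain ⟨⟨hmem, hG, hJ, hQ⟩, hmom⟩ := hz Ψ hΨ
  obtain ⟨C, hC⟩ := hI Ψ hmem hG hJ hQ hmom
  obtain ⟨CM, hCM0, hCM⟩ := thb_MM_nsq S
  set T : ℝ → ℝ := fun R => ∫ x : X3, (if R / 4 ≤ ‖x‖ then ‖Ψ x‖ ^ 2 else 0) with hTdef
  have hR : Tendsto (fun m : ℝ => c0 / Real.sqrt m) (𝓝[>] 0) atTop := by
    have h1 : Tendsto (fun m : ℝ => Real.sqrt m) (𝓝[>] 0) (𝓝[>] 0) := by
      refine tendsto_nhdsWithin_iff.2 ⟨?_, ?_⟩
      · have := Real.continuous_sqrt.tendsto 0
        rw [Real.sqrt_zero] at this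
        exact this.mono_left nhdsWithin_le_nhds
      · filter_upwards [self_mem_nhdsWithin] with m hm
        exact Real.sqrt_pos.2 hm
    have h2 := (tendsto_inv_nhdsGT_zero.comp h1).const_mul_atTop hc0
    refine h2.congr fun m => ?_
    simp [div_eq_mul_inv]
  have hT : Tendsto (fun m : ℝ => T (c0 / Real.sqrt m)) (𝓝[>] 0) (𝓝 0) := (thd_tail hmem).comp hR
  have hid : Tendsto (fun m : ℝ => m) (𝓝[>] 0) (𝓝 0) := tendsto_id.mono_left nhdsWithin_le_nhds
  have hl1 : Tendsto (fun m : ℝ => m ^ 2 + C * T (c0 / Real.sqrt m)) (𝓝[>] 0) (𝓝 0) := by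
    have := (hid.pow 2).add (hT.const_mul C)
    simpa using this
  have hl2 : Tendsto (fun m : ℝ => 2 * m + 2 * (C / c0 ^ 2 * T (c0 / Real.sqrt m)) +
      2 * (m * (CM * C))) (𝓝[>] 0) (𝓝 0) := by
    have := ((hid.const_mul 2).add ((hT.const_mul (C / c0 ^ 2)).const_mul 2)).add
      ((hid.mul_const (CM * C)).const_mul 2)
    simpa using this
  filter_upwards [hl1.eventually_lt_const hη, hl2.eventually_lt_const hη,
    hR.eventually_ge_atTop 1, self_mem_nhdsWithin] with m hm1 hm2 hm3 hm4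
  have hm : 0 < m := hm4
  obtain ⟨u, hu, hu0, hu1, hu2, hu3⟩ := hC (c0 / Real.sqrt m) hm3 (m ^ 2) (by positivity)
  refine ⟨u, hu, hu0, hu1.trans hm1.le, ?_⟩
  have h1 := thb_Qm_nsq_shift S hCM 0 m hu.1
  have hsq : (c0 / Real.sqrt m) ^ 2 = c0 ^ 2 / m := by
    rw [div_pow, Real.sq_sqrt hm.le]
  rw [hsq] at hu2
  have h2 : C / (c0 ^ 2 / m) * T (c0 / Real.sqrt m) = m * (C / c0 ^ 2 * T (c0 / Real.sqrt m)) := by
    field_simp
  have h3 : CM * ∫ x, ‖x‖ ^ 2 * ‖u x‖ ^ 2 ≤ CM * C := mul_le_mul_of_nonneg_left hu3 hCM0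
  have h4 : 2 * (m - 0) ^ 2 * (CM * ∫ x, ‖x‖ ^ 2 * ‖u x‖ ^ 2) ≤ 2 * (m - 0) ^ 2 * (CM * C) :=
    mul_le_mul_of_nonneg_left h3 (by positivity)
  have h5 : (2 * m + 2 * (C / c0 ^ 2 * T (c0 / Real.sqrt m)) + 2 * (m * (CM * C))) * m ≤ η * m :=
    mul_le_mul_of_nonneg_right hm2.le hm.le
  have h6 : ∑ β, nsq (S.Qm 0 β u) ≤ m ^ 2 + m * (C / c0 ^ 2 * T (c0 / Real.sqrt m)) := by
    rw [← h2]
    exact hu2
  calc ∑ β, nsq (S.Qm m β u) ≤ _ := h1
    _ ≤ 2 * (m ^ 2 + m * (C / c0 ^ 2 * T (c0 / Real.sqrt m))) + 2 * (m - 0) ^ 2 * (CM * C) := by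
        linarith
    _ = (2 * m + 2 * (C / c0 ^ 2 * T (c0 / Real.sqrt m)) + 2 * (m * (CM * C))) * m := by ring
    _ ≤ η * m := h5

/-! ### Theorem D -/

theorem thd_toLp_sub {u : X3 → F} (hu : Setup.Tst u) (Ψ : Lp F 2 (volume : Measure X3)) :
    ‖hu.memLp.toLp u - Ψ‖ = Real.sqrt (nsq (fun x => u x - Ψ x)) := by
  have h1 := norm_toLp (hu.memLp.sub (Lp.memLp Ψ))
  rw [MemLp.toLp_sub hu.memLp (Lp.memLp Ψ), Lp.toLp_coeFn] at h1
  rw [h1]
  rfl

theorem thmD {S : Setup F} (hN : N0Stmt S) (hz : ZmStmt S) (hI : InvMomStmt S) (hO : OutStmt S) :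
    ThmDStmt S := by
  intro hirr hne Ψ₁ Ψ₂ hΨ₁ hΨ₂ hli
  obtain ⟨-, Ω, hΩ, ham, -⟩ := hN hirr hne
  have hΩ0 : Ω ≠ 0 := by
    rintro rfl
    simp at hΩ
  obtain ⟨c0, m0, hc0, hm0, hout⟩ := hO Ω hΩ0 ham 4 (by norm_num)
  obtain ⟨c, η, hc, hη, hgram⟩ := thd_gram hli
  have hη2 : 0 < min (η ^ 2) c := lt_min (by positivity) hc
  have E1 := thd_inner S hz hI hΨ₁ hc0 hη2
  have E2 := thd_inner S hz hI hΨ₂ hc0 hη2
  have E3 : ∀ᶠ m in 𝓝[>] (0 : ℝ), m ∈ Set.Ioo 0 m0 := Ioo_mem_nhdsGT hm0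
  obtain ⟨m, ⟨⟨u1, h1, z1, n1, e1⟩, ⟨u2, h2, z2, n2, e2⟩⟩, hm⟩ := ((E1.and E2).and E3).exists
  obtain ⟨u3, h3, z3, n3, e3⟩ := hout m hm.1 hm.2
  refine ⟨m, hm.1, ?_⟩
  have hmp := hm.1
  have hR : 0 < c0 / Real.sqrt m := div_pos hc0 (Real.sqrt_pos.2 hm.1)
  refine thd_low S (c := c) (e := c * m) hR hm.1 h1 h2 h3 z1 z2 z3 ?_ ?_ ?_ ?_ n3 e3
  · intro a b
    have hd1 : ‖h1.1.memLp.toLp u1 - Ψ₁‖ ≤ η := by
      rw [thd_toLp_sub h1.1 Ψ₁]
      refine (Real.sqrt_le_sqrt (n1.trans (min_le_left _ _))).trans ?_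
      rw [Real.sqrt_sq hη.le]
    have hd2 : ‖h2.1.memLp.toLp u2 - Ψ₂‖ ≤ η := by
      rw [thd_toLp_sub h2.1 Ψ₂]
      refine (Real.sqrt_le_sqrt (n2.trans (min_le_left _ _))).trans ?_
      rw [Real.sqrt_sq hη.le]
    have hg := hgram _ _ hd1 hd2 a b
    refine hg.trans (le_of_eq ?_)
    have hw : Setup.Tst (fun x => a • u1 x + b • u2 x) :=
      (thb_smul_tst _ h1.1).add (thb_smul_tst _ h2.1)
    have e : a • h1.1.memLp.toLp u1 + b • h2.1.memLp.toLp u2 = hw.memLp.toLp _ := by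
      rw [← MemLp.toLp_const_smul, ← MemLp.toLp_const_smul, ← MemLp.toLp_add]
      rfl
    rw [e, norm_toLp, Real.sq_sqrt (nsq_nonneg _)]
  · refine e1.trans ?_
    exact mul_le_mul_of_nonneg_right (min_le_right _ _) hmp.le
  · refine e2.trans ?_
    exact mul_le_mul_of_nonneg_right (min_le_right _ _) hmp.le
  · nlinarith [mul_pos hc hmp]

end Vale.Agent.P353.U
end
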