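import Mathlib
import Vale.Agent.P353.BdU.B14
import Vale.Agent.P353.BdU.B8
import Vale.Agent.P353.BdZ.B14
import Vale.Agent.P353.BdU.B18
import Vale.Agent.P353.BdU.B2

set_option linter.all false

section

/-! # P353, uniqueness: the main pointwise estimate, part C (third order vanishing of `E²`) -/

open MeasureTheory Filter Topology
open scoped ContDiff

namespace Vale.Agent.P353.U

variable {F : Type*} [NormedAddCommGroup F] [InnerProductSpace ℂ F]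

namespace EstP

lemma r_facts {r t : ℝ} (hr0 : 0 ≤ r) (hr : r ^ 2 = 1 - t ^ 2) (h3 : 1 / 3 ≤ r ^ 2) :
    0 < r ∧ r ≤ 1 ∧ 1 / r ≤ 2 ∧ 0 ≤ 1 / r - 1 ∧ 1 / r - 1 ≤ 2 * t ^ 2 ∧ 0 ≤ 1 - r ∧
      1 - r ≤ t ^ 2 := by
  have h2 : 1 / 2 < r := by nlinarith
  have h0 : 0 < r := by linarith
  have h1 : r ≤ 1 := by nlinarith [sq_nonneg t]
  refine ⟨h0, h1, ?_, ?_, ?_, by linarith, by nlinarith⟩
  · rw [div_le_iff₀ h0]; linarith
  · rw [sub_nonneg, le_div_iff₀ h0]; linarith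
  · rw [sub_le_iff_le_add, div_le_iff₀ h0]
    have : t ^ 2 = 1 - r ^ 2 := by linarith
    rw [this]
    nlinarith [mul_nonneg h0.le (sub_nonneg.2 h1), sq_nonneg r, mul_nonneg (sub_nonneg.2 h1)
      (sub_nonneg.2 h2.le)]

variable {S : Setup F} {n : Fin 3 → ℝ} {y : Fin 9 → ℝ} {z : X3}

/-- `d = x̂ - x_c` -/
noncomputable def dd (n : Fin 3 → ℝ) (y : Fin 9 → ℝ) (z : X3) : X3 :=
  Zz z - (‖z‖ ^ 2) • cone n y

lemma dd_le (hn : ∑ A, n A ^ 2 = 1) (hr : ry y ≤ 1) (hz : ‖z‖ ≤ 1) :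
    ‖dd n y z‖ ≤ 82 * ‖z‖ ^ 2 := by
  rw [dd]
  refine (norm_sub_le _ _).trans ?_
  rw [norm_smul, norm_cone hn, Real.norm_of_nonneg (sq_nonneg _)]
  have h1 := Zz_le z
  have h0 := norm_nonneg z
  have h2 : ‖z‖ ^ 3 ≤ ‖z‖ ^ 2 := by
    calc ‖z‖ ^ 3 = ‖z‖ ^ 2 * ‖z‖ := by ring
      _ ≤ ‖z‖ ^ 2 * 1 := by gcongr
      _ = _ := by ring
  have h3 : ‖z‖ ^ 2 * ry y ≤ ‖z‖ ^ 2 * 1 := mul_le_mul_of_nonneg_left hr (sq_nonneg _)
  linarith

section

variable (hn : ∑ A, n A ^ 2 = 1) (zn : ∀ i, ∑ A, z (i, A) * n A = 0)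
  (yz : ∀ A, ∑ i, y i * z (i, A) = 0) (h1 : ‖cone n y + z‖ = 1)

include hn zn yz h1 in
lemma sub_xh : cone n y + z - xh (cone n y + z) = z - dd n y z := by
  rw [xh_eq hn zn yz h1, dd]; abel

include hn zn yz h1 in
/-- expansion of `v` at the cone -/
lemma vv_expand {Ω : F} (h3 : 1 / 3 ≤ ry y ^ 2) {c L CF : ℝ} (hc : ‖S.om Ω (cone n y)‖ ≤ c)
    (hL : 0 ≤ L) (hom : ‖S.om Ω (xh (cone n y + z)) - S.om Ω (cone n y)‖ ≤ L * ‖dd n y z‖)
    (hCF0 : 0 ≤ CF) (hCF : ∀ x, ‖S.Fx x‖ ≤ CF * ‖x‖) :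
    ‖S.vv Ω (cone n y + z) - (S.om Ω (cone n y) -
      ((1 / (2 * S.κ * ry y) : ℝ) : ℂ) • S.Fx z (S.om Ω (cone n y)))‖ ≤
      (82 * L + 1 / (2 * S.κ) * CF * (82 * L + 82 * (c + 82 * L) + 2 * c)) * ‖z‖ ^ 2 := by
  have hrz : ry y ^ 2 = 1 - ‖z‖ ^ 2 := by
    have := norm_sq_add hn yz
    rw [h1] at this; linarith
  have hz : ‖z‖ ≤ 1 := by nlinarith [norm_nonneg z]
  obtain ⟨r0, r1, r2, r3, r4, r5, r6⟩ := r_facts (ry_nonneg y) hrz h3
  have hd := dd_le hn r1 hz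
  have hk := S.κ_pos
  have hz0 := norm_nonneg z
  have hc0 : 0 ≤ c := (norm_nonneg _).trans hc
  set w := S.om Ω (cone n y) with hw
  set w' := S.om Ω (xh (cone n y + z)) with hw'
  have e : S.vv Ω (cone n y + z) - (w - ((1 / (2 * S.κ * ry y) : ℝ) : ℂ) • S.Fx z w) =
      (w' - w) - ((1 / (2 * S.κ) : ℝ) : ℂ) • (S.Fx z (w' - w) - S.Fx (dd n y z) w') +
        ((1 / (2 * S.κ) * (1 / ry y - 1) : ℝ) : ℂ) • S.Fx z w := by
    have e1 : (1 / (2 * S.κ) * (1 / ry y - 1) : ℝ) =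
        1 / (2 * S.κ * ry y) - 1 / (2 * S.κ) := by
      field_simp
    rw [Setup.vv, sub_xh hn zn yz h1, h1, mul_one, ← hw', Fx_sub, _root_.sub_apply, map_sub, e1,
      Complex.ofReal_sub]
    module
  rw [e]
  have b0 : ‖w' - w‖ ≤ 82 * L * ‖z‖ ^ 2 := by
    refine hom.trans ?_
    calc L * ‖dd n y z‖ ≤ L * (82 * ‖z‖ ^ 2) := mul_le_mul_of_nonneg_left hd hL
      _ = _ := by ring
  have hz2 : ‖z‖ ^ 2 ≤ 1 := by nlinarith
  have b1 : ‖w'‖ ≤ c + 82 * L := by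
    have : w' = w + (w' - w) := by abel
    rw [this]
    refine (norm_add_le _ _).trans (add_le_add hc (b0.trans ?_))
    calc 82 * L * ‖z‖ ^ 2 ≤ 82 * L * 1 := mul_le_mul_of_nonneg_left hz2 (by positivity)
      _ = _ := by ring
  have b2 : ‖S.Fx z (w' - w)‖ ≤ CF * (82 * L) * ‖z‖ ^ 2 := by
    calc ‖S.Fx z (w' - w)‖ ≤ ‖S.Fx z‖ * ‖w' - w‖ := (S.Fx z).le_opNorm _
      _ ≤ (CF * ‖z‖) * (82 * L * ‖z‖ ^ 2) := mul_le_mul (hCF z) b0 (norm_nonneg _) (by positivity)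
      _ ≤ (CF * 1) * (82 * L * ‖z‖ ^ 2) := by gcongr
      _ = _ := by ring
  have b3 : ‖S.Fx (dd n y z) w'‖ ≤ CF * (82 * (c + 82 * L)) * ‖z‖ ^ 2 := by
    calc ‖S.Fx (dd n y z) w'‖ ≤ ‖S.Fx (dd n y z)‖ * ‖w'‖ := (S.Fx _).le_opNorm _
      _ ≤ (CF * (82 * ‖z‖ ^ 2)) * (c + 82 * L) :=
        mul_le_mul ((hCF _).trans (mul_le_mul_of_nonneg_left hd hCF0)) b1 (norm_nonneg _)
          (by positivity)
      _ = _ := by ring
  have b4 : ‖S.Fx z w‖ ≤ CF * c := by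
    calc ‖S.Fx z w‖ ≤ ‖S.Fx z‖ * ‖w‖ := (S.Fx z).le_opNorm _
      _ ≤ (CF * ‖z‖) * c := mul_le_mul (hCF z) hc (norm_nonneg _) (by positivity)
      _ ≤ (CF * 1) * c := by gcongr
      _ = _ := by ring
  have ha : 0 ≤ 1 / (2 * S.κ) := by positivity
  have b5 : ‖((1 / (2 * S.κ) : ℝ) : ℂ) • (S.Fx z (w' - w) - S.Fx (dd n y z) w')‖ ≤
      1 / (2 * S.κ) * (CF * (82 * L) * ‖z‖ ^ 2 + CF * (82 * (c + 82 * L)) * ‖z‖ ^ 2) := by
    rw [norm_smul, Complex.norm_real, Real.norm_of_nonneg ha]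
    exact mul_le_mul_of_nonneg_left ((norm_sub_le _ _).trans (add_le_add b2 b3)) ha
  have b6 : ‖((1 / (2 * S.κ) * (1 / ry y - 1) : ℝ) : ℂ) • S.Fx z w‖ ≤
      1 / (2 * S.κ) * (2 * ‖z‖ ^ 2) * (CF * c) := by
    rw [norm_smul, Complex.norm_real, Real.norm_of_nonneg (mul_nonneg ha r3)]
    exact mul_le_mul (mul_le_mul_of_nonneg_left r4 ha) b4 (norm_nonneg _) (by positivity)
  calc _ ≤ ‖w' - w‖ + ‖((1 / (2 * S.κ) : ℝ) : ℂ) • (S.Fx z (w' - w) - S.Fx (dd n y z) w')‖ +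
        ‖((1 / (2 * S.κ) * (1 / ry y - 1) : ℝ) : ℂ) • S.Fx z w‖ :=
        (norm_add_le _ _).trans (add_le_add_left (norm_sub_le _ _) _)
    _ ≤ 82 * L * ‖z‖ ^ 2 + 1 / (2 * S.κ) * (CF * (82 * L) * ‖z‖ ^ 2 +
        CF * (82 * (c + 82 * L)) * ‖z‖ ^ 2) + 1 / (2 * S.κ) * (2 * ‖z‖ ^ 2) * (CF * c) :=
        add_le_add (add_le_add b0 b5) b6
    _ = _ := by ring

include hn zn yz h1 in
/-- the operator in `E²` at the cone -/
lemma T_expand (h3 : 1 / 3 ≤ ry y ^ 2) (β : Fin 16) {CB : ℝ} (hCB0 : 0 ≤ CB)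
    (hCB : ∀ x, ‖S.B β x‖ ≤ CB * ‖x‖) : ∃ R : F →L[ℂ] F, ‖R‖ ≤ 87 * S.κ * CB * ‖z‖ ^ 3 ∧
      Complex.I • S.B β (PP S (cone n y + z)) + S.W β (cone n y + z) = S.T1 n y β z +
        ((Complex.I * ((S.κ * ‖z‖ ^ 2 / (2 * ry y) : ℝ) : ℂ)) • S.B β (cone n y) + S.W β z) + R := by
  have hrz : ry y ^ 2 = 1 - ‖z‖ ^ 2 := by
    have := norm_sq_add hn yz
    rw [h1] at this; linarith
  have hz : ‖z‖ ≤ 1 := by nlinarith [norm_nonneg z]
  obtain ⟨r0, r1, r2, r3, r4, r5, r6⟩ := r_facts (ry_nonneg y) hrz h3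
  have hk := S.κ_pos
  have hz0 := norm_nonneg z
  have hV := V_at hn zn yz S h1
  set s : ℝ := S.κ * ‖z‖ ^ 2 - S.V (cone n y + z) / S.κ - S.κ * ‖z‖ ^ 2 / (2 * ry y) with hs
  refine ⟨((S.κ * (1 - ry y) : ℝ) * Complex.I) • S.B β z + ((s : ℝ) * Complex.I) •
    S.B β (cone n y) - ((S.κ : ℝ) * Complex.I) • S.B β (Zz z) -
      ((S.V (cone n y + z) / S.κ : ℝ) * Complex.I) • S.B β z, ?_, ?_⟩
  · have hz2 : ‖z‖ ^ 2 ≤ 1 := by nlinarith
    have q0 := qz_nonneg z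
    have q1 := qz_le z
    have z4 : ‖z‖ ^ 4 ≤ ‖z‖ ^ 3 := by
      calc ‖z‖ ^ 4 = ‖z‖ ^ 3 * ‖z‖ := by ring
        _ ≤ ‖z‖ ^ 3 * 1 := by gcongr
        _ = _ := by ring
    have hs1 : s = S.κ * (-(1 / 2) * ‖z‖ ^ 2 * (1 / ry y - 1) + 1 / 4 * ‖z‖ ^ 4 + 1 / 4 * qz z) := by
      rw [hs, hV]
      field_simp
      ring
    have hs2 : |s| ≤ S.κ * 4 * ‖z‖ ^ 3 := by
      rw [hs1, abs_mul, abs_of_pos hk, mul_assoc S.κ 4]
      refine mul_le_mul_of_nonneg_left ?_ hk.le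
      rw [abs_le]
      have h5 : ‖z‖ ^ 2 * (1 / ry y - 1) ≤ 2 * ‖z‖ ^ 4 := by
        calc ‖z‖ ^ 2 * (1 / ry y - 1) ≤ ‖z‖ ^ 2 * (2 * ‖z‖ ^ 2) := by gcongr
          _ = _ := by ring
      have h6 : 0 ≤ ‖z‖ ^ 2 * (1 / ry y - 1) := mul_nonneg (sq_nonneg _) r3
      have h7 : 0 ≤ ‖z‖ ^ 4 := by positivity
      constructor <;> nlinarith
    have hV0 : 0 ≤ S.V (cone n y + z) := S.V_nonneg _
    have hV1 : S.V (cone n y + z) / S.κ ≤ S.κ * ‖z‖ ^ 2 := by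
      rw [div_le_iff₀ hk, hV]
      have h7 : 0 ≤ ‖z‖ ^ 4 := by positivity
      have h8 : 0 < S.κ ^ 2 := by positivity
      nlinarith [mul_nonneg h8.le h7, mul_nonneg h8.le q0, mul_nonneg h8.le (sq_nonneg ‖z‖)]
    have nI : ∀ t : ℝ, ‖((t : ℝ) : ℂ) * Complex.I‖ = |t| := by
      intro t
      rw [norm_mul, Complex.norm_I, mul_one, Complex.norm_real, Real.norm_eq_abs]
    have b1 : ‖((S.κ * (1 - ry y) : ℝ) * Complex.I) • S.B β z‖ ≤ S.κ * CB * ‖z‖ ^ 3 := by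
      rw [norm_smul, nI, abs_of_nonneg (mul_nonneg hk.le r5)]
      calc S.κ * (1 - ry y) * ‖S.B β z‖ ≤ S.κ * ‖z‖ ^ 2 * (CB * ‖z‖) :=
            mul_le_mul (mul_le_mul_of_nonneg_left r6 hk.le) (hCB z) (norm_nonneg _) (by positivity)
        _ = _ := by ring
    have b2 : ‖((s : ℝ) * Complex.I) • S.B β (cone n y)‖ ≤ 4 * S.κ * CB * ‖z‖ ^ 3 := by
      rw [norm_smul, nI]
      calc |s| * ‖S.B β (cone n y)‖ ≤ S.κ * 4 * ‖z‖ ^ 3 * (CB * 1) := by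
            refine mul_le_mul hs2 ((hCB _).trans ?_) (norm_nonneg _) (by positivity)
            rw [norm_cone hn]
            exact mul_le_mul_of_nonneg_left r1 hCB0
        _ = _ := by ring
    have b3 : ‖((S.κ : ℝ) * Complex.I) • S.B β (Zz z)‖ ≤ 81 * S.κ * CB * ‖z‖ ^ 3 := by
      rw [norm_smul, nI, abs_of_pos hk]
      calc S.κ * ‖S.B β (Zz z)‖ ≤ S.κ * (CB * (81 * ‖z‖ ^ 3)) :=
            mul_le_mul_of_nonneg_left ((hCB _).trans (mul_le_mul_of_nonneg_left (Zz_le z) hCB0))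
              hk.le
        _ = _ := by ring
    have b4 : ‖((S.V (cone n y + z) / S.κ : ℝ) * Complex.I) • S.B β z‖ ≤
        S.κ * CB * ‖z‖ ^ 3 := by
      rw [norm_smul, nI, abs_of_nonneg (div_nonneg hV0 hk.le)]
      calc S.V (cone n y + z) / S.κ * ‖S.B β z‖ ≤ S.κ * ‖z‖ ^ 2 * (CB * ‖z‖) :=
            mul_le_mul hV1 (hCB z) (norm_nonneg _) (by positivity)
        _ = _ := by ring
    calc _ ≤ ‖((S.κ * (1 - ry y) : ℝ) * Complex.I) • S.B β z‖ +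
          ‖((s : ℝ) * Complex.I) • S.B β (cone n y)‖ +
          ‖((S.κ : ℝ) * Complex.I) • S.B β (Zz z)‖ +
          ‖((S.V (cone n y + z) / S.κ : ℝ) * Complex.I) • S.B β z‖ :=
          (norm_sub_le _ _).trans (add_le_add_left ((norm_sub_le _ _).trans
            (add_le_add_left (norm_add_le _ _) _)) _)
      _ ≤ S.κ * CB * ‖z‖ ^ 3 + 4 * S.κ * CB * ‖z‖ ^ 3 + 81 * S.κ * CB * ‖z‖ ^ 3 +
          S.κ * CB * ‖z‖ ^ 3 := add_le_add (add_le_add (add_le_add b1 b2) b3) b4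
      _ = _ := by ring
  · rw [PP, sub_xh hn zn yz h1, h1, dd, W_add, Setup.T1]
    simp only [B_sub, B_smul', B_add, mul_one, one_pow, hs]
    push_cast
    module

include hn zn yz h1 in
/-- third order vanishing of `E²` -/
lemma E2_unit (hM12 : M12Stmt S) {Ω : F} (hVT : S.VT n y (S.om Ω (cone n y)))
    (h3 : 1 / 3 ≤ ry y ^ 2) (β : Fin 16) {c L CF CB CD CW : ℝ}
    (hc : ‖S.om Ω (cone n y)‖ ≤ c)
    (hL : 0 ≤ L) (hom : ‖S.om Ω (xh (cone n y + z)) - S.om Ω (cone n y)‖ ≤ L * ‖dd n y z‖)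
    (hCF0 : 0 ≤ CF) (hCF : ∀ x, ‖S.Fx x‖ ≤ CF * ‖x‖)
    (hCB0 : 0 ≤ CB) (hCB : ∀ x, ‖S.B β x‖ ≤ CB * ‖x‖)
    (hCD0 : 0 ≤ CD) (hCD : ∀ ξ x, ‖S.DW ξ β x‖ ≤ CD * (‖ξ‖ * ‖x‖))
    (hCW0 : 0 ≤ CW) (hCW : ∀ x, ‖S.W β x‖ ≤ CW * ‖x‖ ^ 2) {Ke Kf : ℝ}
    (hKe : Ke = 82 * L + 1 / (2 * S.κ) * CF * (82 * L + 82 * (c + 82 * L) + 2 * c))
    (hKf : Kf = 2 * (1 / (2 * S.κ)) * CF * c) :
    ‖E2 S Ω β (cone n y + z)‖ ≤ ((S.κ * CB + CD) * Ke + (S.κ * CB + CW) * Kf +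
      (S.κ * CB + CW) * Ke + 87 * S.κ * CB * (c + Kf + Ke)) * ‖z‖ ^ 3 := by
  have hrz : ry y ^ 2 = 1 - ‖z‖ ^ 2 := by
    have := norm_sq_add hn yz
    rw [h1] at this; linarith
  have hz : ‖z‖ ≤ 1 := by nlinarith [norm_nonneg z]
  obtain ⟨r0, r1, r2, r3, r4, r5, r6⟩ := r_facts (ry_nonneg y) hrz h3
  have hk := S.κ_pos
  have hz0 := norm_nonneg z
  have hc0 : 0 ≤ c := (norm_nonneg _).trans hc
  have hKe0 : 0 ≤ Ke := by rw [hKe]; positivity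
  have hKf0 : 0 ≤ Kf := by rw [hKf]; positivity
  have he := vv_expand hn zn yz h1 h3 hc hL hom hCF0 hCF
  rw [← hKe] at he
  obtain ⟨R, hR, hT⟩ := T_expand (S := S) hn zn yz h1 h3 β hCB0 hCB
  obtain ⟨m1, m2⟩ := hM12 n y hn r0 (S.om Ω (cone n y)) hVT z zn yz β
  set w := S.om Ω (cone n y) with hw
  set f : F := ((1 / (2 * S.κ * ry y) : ℝ) : ℂ) • S.Fx z w with hf
  set e : F := S.vv Ω (cone n y + z) - (w - f) with he'
  set T1 := S.T1 n y β z with hT1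
  set T2 := (Complex.I * ((S.κ * ‖z‖ ^ 2 / (2 * ry y) : ℝ) : ℂ)) • S.B β (cone n y) + S.W β z
    with hT2
  have hv : S.vv Ω (cone n y + z) = w - f + e := by rw [he']; abel
  have bf : ‖f‖ ≤ Kf * ‖z‖ := by
    rw [hf, norm_smul, Complex.norm_real, Real.norm_of_nonneg (by positivity), hKf]
    have h5 : (1 / (2 * S.κ * ry y) : ℝ) ≤ 2 * (1 / (2 * S.κ)) := by
      have : (1 / (2 * S.κ * ry y) : ℝ) = 1 / ry y * (1 / (2 * S.κ)) := by field_simp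
      rw [this]
      exact mul_le_mul_of_nonneg_right r2 (by positivity)
    calc 1 / (2 * S.κ * ry y) * ‖S.Fx z w‖ ≤ 2 * (1 / (2 * S.κ)) * ((CF * ‖z‖) * c) :=
          mul_le_mul h5 (((S.Fx z).le_opNorm _).trans (mul_le_mul (hCF z) hc (norm_nonneg _)
            (by positivity))) (norm_nonneg _) (by positivity)
      _ = _ := by ring
  have bf' : ‖f‖ ≤ Kf := bf.trans (by
    calc Kf * ‖z‖ ≤ Kf * 1 := mul_le_mul_of_nonneg_left hz hKf0
      _ = _ := mul_one _)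
  have be' : ‖e‖ ≤ Ke := he.trans (by
    calc Ke * ‖z‖ ^ 2 ≤ Ke * 1 := mul_le_mul_of_nonneg_left (by nlinarith) hKe0
      _ = _ := mul_one _)
  have bv : ‖S.vv Ω (cone n y + z)‖ ≤ c + Kf + Ke := by
    rw [hv]
    exact (norm_add_le _ _).trans (add_le_add ((norm_sub_le _ _).trans (add_le_add hc bf')) be')
  have bT1 : ‖T1‖ ≤ (S.κ * CB + CD) * ‖z‖ := by
    rw [hT1, Setup.T1]
    refine (norm_add_le _ _).trans ?_
    rw [norm_smul, norm_mul, Complex.norm_I, one_mul, Complex.norm_real,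
      Real.norm_of_nonneg (by positivity), add_mul]
    refine add_le_add ?_ ?_
    · calc S.κ * ry y * ‖S.B β z‖ ≤ S.κ * 1 * (CB * ‖z‖) :=
            mul_le_mul (mul_le_mul_of_nonneg_left r1 hk.le) (hCB z) (norm_nonneg _) (by positivity)
        _ = _ := by ring
    · refine (hCD _ _).trans ?_
      rw [norm_cone hn]
      calc CD * (ry y * ‖z‖) ≤ CD * (1 * ‖z‖) := by gcongr
        _ = _ := by ring
  have bT2 : ‖T2‖ ≤ (S.κ * CB + CW) * ‖z‖ ^ 2 := by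
    rw [hT2]
    refine (norm_add_le _ _).trans ?_
    rw [norm_smul, norm_mul, Complex.norm_I, one_mul, Complex.norm_real,
      Real.norm_of_nonneg (by positivity), add_mul]
    refine add_le_add ?_ (hCW z)
    have h5 : S.κ * ‖z‖ ^ 2 / (2 * ry y) ≤ S.κ * ‖z‖ ^ 2 := by
      have : S.κ * ‖z‖ ^ 2 / (2 * ry y) = S.κ * ‖z‖ ^ 2 * (1 / ry y) / 2 := by field_simp
      rw [this]
      have h6 : 0 ≤ S.κ * ‖z‖ ^ 2 := by positivity
      nlinarith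
    calc S.κ * ‖z‖ ^ 2 / (2 * ry y) * ‖S.B β (cone n y)‖ ≤ S.κ * ‖z‖ ^ 2 * (CB * 1) := by
          refine mul_le_mul h5 ((hCB _).trans ?_) (norm_nonneg _) (by positivity)
          rw [norm_cone hn]
          exact mul_le_mul_of_nonneg_left r1 hCB0
      _ = _ := by ring
  have key : E2 S Ω β (cone n y + z) = T1 e - T2 f + T2 e + R (S.vv Ω (cone n y + z)) := by
    have e1 : E2 S Ω β (cone n y + z) =
        (Complex.I • S.B β (PP S (cone n y + z)) + S.W β (cone n y + z))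
          (S.vv Ω (cone n y + z)) := by
      rw [E2, _root_.add_apply, _root_.smul_apply]
    have e2 : T2 w - T1 f = 0 := by
      rw [← m2, hT2, _root_.add_apply, _root_.smul_apply, hf, map_smul]
    rw [e1, hT, _root_.add_apply, _root_.add_apply]
    have e3 : T1 (S.vv Ω (cone n y + z)) + T2 (S.vv Ω (cone n y + z)) =
        T1 w + (T2 w - T1 f) + T1 e - T2 f + T2 e := by
      rw [hv]
      simp only [map_add, map_sub]
      abel
    rw [e3, m1, e2]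
    abel
  rw [key]
  have c1 : ‖T1 e‖ ≤ (S.κ * CB + CD) * Ke * ‖z‖ ^ 3 := by
    calc ‖T1 e‖ ≤ ‖T1‖ * ‖e‖ := T1.le_opNorm _
      _ ≤ ((S.κ * CB + CD) * ‖z‖) * (Ke * ‖z‖ ^ 2) :=
        mul_le_mul bT1 he (norm_nonneg _) (by positivity)
      _ = _ := by ring
  have c2 : ‖T2 f‖ ≤ (S.κ * CB + CW) * Kf * ‖z‖ ^ 3 := by
    calc ‖T2 f‖ ≤ ‖T2‖ * ‖f‖ := T2.le_opNorm _
      _ ≤ ((S.κ * CB + CW) * ‖z‖ ^ 2) * (Kf * ‖z‖) :=
        mul_le_mul bT2 bf (norm_nonneg _) (by positivity)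
      _ = _ := by ring
  have c3 : ‖T2 e‖ ≤ (S.κ * CB + CW) * Ke * ‖z‖ ^ 3 := by
    calc ‖T2 e‖ ≤ ‖T2‖ * ‖e‖ := T2.le_opNorm _
      _ ≤ ((S.κ * CB + CW) * ‖z‖ ^ 2) * (Ke * ‖z‖ ^ 2) :=
        mul_le_mul bT2 he (norm_nonneg _) (by positivity)
      _ = (S.κ * CB + CW) * Ke * ‖z‖ ^ 3 * ‖z‖ := by ring
      _ ≤ (S.κ * CB + CW) * Ke * ‖z‖ ^ 3 * 1 := by gcongr
      _ = _ := by ring
  have c4 : ‖R (S.vv Ω (cone n y + z))‖ ≤ 87 * S.κ * CB * (c + Kf + Ke) * ‖z‖ ^ 3 := by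
    calc ‖R (S.vv Ω (cone n y + z))‖ ≤ ‖R‖ * ‖S.vv Ω (cone n y + z)‖ := R.le_opNorm _
      _ ≤ (87 * S.κ * CB * ‖z‖ ^ 3) * (c + Kf + Ke) :=
        mul_le_mul hR bv (norm_nonneg _) (by positivity)
      _ = _ := by ring
  calc _ ≤ ‖T1 e‖ + ‖T2 f‖ + ‖T2 e‖ + ‖R (S.vv Ω (cone n y + z))‖ :=
        (norm_add_le _ _).trans (add_le_add_left ((norm_add_le _ _).trans
          (add_le_add_left (norm_sub_le _ _) _)) _)
    _ ≤ (S.κ * CB + CD) * Ke * ‖z‖ ^ 3 + (S.κ * CB + CW) * Kf * ‖z‖ ^ 3 +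
        (S.κ * CB + CW) * Ke * ‖z‖ ^ 3 + 87 * S.κ * CB * (c + Kf + Ke) * ‖z‖ ^ 3 :=
        add_le_add (add_le_add (add_le_add c1 c2) c3) c4
    _ = _ := by ring

end

end EstP
end Vale.Agent.P353.U
end

section

/-! # P353, uniqueness: the main pointwise estimate **D-Est** -/

open MeasureTheory Filter Topology
open scoped ContDiff

namespace Vale.Agent.P353.U

variable {F : Type*} [NormedAddCommGroup F] [InnerProductSpace ℂ F]

namespace EstP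

/-! ### Lipschitz bounds on compact sets -/

lemma lip_compact {f : X3 → F} {K U : Set X3} (hK : IsCompact K) (hU : IsOpen U) (hKU : K ⊆ U)
    (hf : ContDiffOn ℝ 1 f U) : ∃ C, 0 ≤ C ∧ ∀ s ⊆ K, Convex ℝ s → ∀ a ∈ s, ∀ b ∈ s,
      ‖f b - f a‖ ≤ C * ‖b - a‖ := by
  have h1 : ContinuousOn (fderiv ℝ f) U := hf.continuousOn_fderiv_of_isOpen hU le_rfl
  obtain ⟨C, hC⟩ := hK.exists_bound_of_continuousOn (h1.mono hKU)
  refine ⟨max C 0, le_max_right _ _, fun s hs hconv a ha b hb => ?_⟩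
  refine hconv.norm_image_sub_le_of_norm_hasFDerivWithin_le (𝕜 := ℝ) (f' := fderiv ℝ f) ?_ ?_ ha hb
  · intro x hx
    have hxU : U ∈ 𝓝 x := hU.mem_nhds (hKU (hs hx))
    exact ((hf.contDiffAt hxU).differentiableAt (by simp)).hasFDerivAt.hasFDerivWithinAt
  · intro x hx
    exact (hC x (hs hx)).trans (le_max_left _ _)

lemma contDiffOn_clm_apply' {U : Set X3} {T : X3 → F →L[ℂ] F} {u : X3 → F} {k : WithTop ℕ∞}
    (hT : ContDiffOn ℝ k T U) (hu : ContDiffOn ℝ k u U) : ContDiffOn ℝ k (fun x => T x (u x)) U := by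
  have hB : IsBoundedBilinearMap ℝ (fun p : (F →L[ℂ] F) × F => p.1 p.2) := by
    have h := (isBoundedBilinearMap_apply (𝕜 := ℂ) (E := F) (F := F))
    refine ⟨fun a b c => by simp, fun c a b => ?_, fun a b c => by simp, fun c a b => ?_, ?_⟩
    · simp
    · simp
    · obtain ⟨C, hC, hb⟩ := h.bound
      exact ⟨C, hC, hb⟩
  exact hB.contDiff.comp_contDiffOn (hT.prodMk hu)

lemma continuous_rho6sq : Continuous rho6sq := by
  unfold rho6sq
  refine continuous_finsetSum _ fun i _ => continuous_finsetSum _ fun A _ => ?_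
  split_ifs
  · exact (Setup.contDiff_coord (i, A)).continuous.pow 2
  · exact continuous_const

lemma isOpen_U : IsOpen {x : X3 | 0 < rho6sq x} := isOpen_lt continuous_const continuous_rho6sq

variable (S : Setup F)

/-- `ρ²E^{-1}` -/
noncomputable def G1 (Ω : F) (β : Fin 16) (x : X3) : F :=
  ((-Complex.I) * ((e1 x : ℝ) : ℂ)) • (∑ i, ∑ A, S.vec (S.g i) A β (pd i A (S.vv Ω) x)) -
    (3 * Complex.I) • S.B β x (S.vv Ω x)

lemma G1_eq (Ω : F) (β : Fin 16) {x : X3} (hx : ‖x‖ = 1) : G1 S Ω β x = E1 S Ω β x := by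
  rw [G1, E1, e1_eq, hx]
  norm_num

variable {S}

lemma contDiffOn_G1 {Ω : F} {U : Set X3} (hU : IsOpen U) (hv : ContDiffOn ℝ ∞ (S.vv Ω) U)
    (β : Fin 16) : ContDiffOn ℝ 1 (G1 S Ω β) U := by
  have h1 : ∀ i A, ContDiffOn ℝ ∞ (pd i A (S.vv Ω)) U := by
    intro i A
    unfold pd
    exact (hv.fderiv_of_isOpen hU (m := ∞) (by simp)).clm_apply contDiffOn_const
  have h2 : ContDiffOn ℝ ∞ (G1 S Ω β) U := by
    unfold G1
    refine ContDiffOn.sub (ContDiffOn.smul ?_ (ContDiffOn.sum fun i _ => ContDiffOn.sum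
      fun A _ => ?_)) (ContDiffOn.smul contDiffOn_const ?_)
    · exact (contDiff_const.mul (Setup.contDiff_ofReal contDiff_e1)).contDiffOn
    · exact contDiffOn_clm_apply' contDiffOn_const (h1 i A)
    · exact contDiffOn_clm_apply' (S.contDiff_B β).contDiffOn hv
  exact h2.of_le (by simp)

lemma contDiff_MM' (β : Fin 16) : ContDiff ℝ ∞ (S.MM β) := by
  unfold Setup.MM
  refine ContDiff.sum fun i _ => ContDiff.sum fun A _ => ?_
  exact (Setup.contDiff_ofReal (contDiff_const.mul (Setup.contDiff_coord _))).smul contDiff_const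

lemma contDiffOn_EM {Ω : F} {U : Set X3} (hv : ContDiffOn ℝ ∞ (S.vv Ω) U) (β : Fin 16) :
    ContDiffOn ℝ 1 (EM S Ω β) U := by
  have h2 : ContDiffOn ℝ ∞ (EM S Ω β) U := by
    unfold EM
    refine ContDiffOn.add (contDiffOn_clm_apply' (contDiff_MM' β).contDiffOn hv)
      (ContDiffOn.smul contDiffOn_const (ContDiffOn.sum fun i _ => ContDiffOn.sum fun A _ =>
        ContDiffOn.smul ?_ ?_))
    · exact (Setup.contDiff_ofReal (contDiff_const.mul (Setup.contDiff_coord _))).contDiffOn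
    · exact contDiffOn_clm_apply' contDiffOn_const hv
  exact h2.of_le (by simp)

/-! ### vanishing at the cone -/

lemma G1_cone (h3 : V3Stmt S) (hM3 : M3Stmt S) {Ω : F} (hΩ : ∀ A α, S.am A α Ω = 0)
    {n : Fin 3 → ℝ} {y : Fin 9 → ℝ} (hn : ∑ A, n A ^ 2 = 1) (hr : 0 < ry y)
    (h6 : 0 < rho6sq (cone n y)) (hVT : S.VT n y (S.om Ω (cone n y))) (β : Fin 16) :
    G1 S Ω β (cone n y) = 0 := by
  obtain ⟨hv, hp⟩ := h3 Ω hΩ n y hn h6
  have hM := hM3 n y hn hr (S.om Ω (cone n y)) hVT β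
  rw [G1, e1_eq, norm_cone hn, hv]
  simp only [hp]
  have h0 : ((ry y : ℝ) : ℂ) ≠ 0 := by exact_mod_cast hr.ne'
  have e : (3 * Complex.I) • S.B β (cone n y) (S.om Ω (cone n y)) =
      (Complex.I * ((ry y ^ 2 : ℝ) : ℂ)) • (((3 / ry y ^ 2 : ℝ) : ℂ) •
        S.B β (cone n y) (S.om Ω (cone n y))) := by
    rw [smul_smul]
    congr 1
    push_cast
    field_simp
  rw [e, neg_mul, neg_smul, ← neg_add', ← smul_add, hM, smul_zero, neg_zero]

lemma EM_cone {Ω : F} {n : Fin 3 → ℝ} {y : Fin 9 → ℝ}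
    (hv : S.vv Ω (cone n y) = S.om Ω (cone n y)) (hVN : S.VN n (S.om Ω (cone n y)))
    (β : Fin 16) : EM S Ω β (cone n y) = 0 := by
  rw [EM, hv]
  set w := S.om Ω (cone n y) with hw
  have h1 : S.MM β (cone n y) w = ∑ i, ((aw i * y i : ℝ) : ℂ) • ∑ γ, S.g i β γ •
      ∑ A, ((n A : ℝ) : ℂ) • S.vec S.Gam A γ w := by
    simp only [Setup.MM, _root_.sum_apply, _root_.smul_apply, S.vec_mul, cone_apply]
    refine Finset.sum_congr rfl fun i _ => ?_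
    simp only [Finset.smul_sum, smul_smul]
    rw [Finset.sum_comm]
    refine Finset.sum_congr rfl fun γ _ => Finset.sum_congr rfl fun A _ => ?_
    congr 1
    push_cast
    ring
  have h2 : ∑ i, ∑ A, ((aw i * cone n y (i, A) : ℝ) : ℂ) • S.vec (S.g i) A β w =
      ∑ i, ((aw i * y i : ℝ) : ℂ) • ∑ γ, S.g i β γ • S.thn n γ w := by
    simp only [Setup.thn, CS.vec, _root_.sum_apply, _root_.smul_apply, cone_apply]
    refine Finset.sum_congr rfl fun i _ => ?_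
    simp only [Finset.smul_sum, smul_smul]
    rw [Finset.sum_comm]
    refine Finset.sum_congr rfl fun γ _ => Finset.sum_congr rfl fun A _ => ?_
    congr 1
    push_cast
    ring
  have h3 : ∀ γ, S.thn n γ w = Complex.I • ∑ A, ((n A : ℝ) : ℂ) • S.vec S.Gam A γ w := hVN
  rw [h1, h2]
  simp only [h3]
  have h4 : ∑ i, ((aw i * y i : ℝ) : ℂ) • ∑ γ, S.g i β γ •
      (Complex.I • ∑ A, ((n A : ℝ) : ℂ) • S.vec S.Gam A γ w) =
      Complex.I • ∑ i, ((aw i * y i : ℝ) : ℂ) • ∑ γ, S.g i β γ •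
      ∑ A, ((n A : ℝ) : ℂ) • S.vec S.Gam A γ w := by
    rw [Finset.smul_sum]
    refine Finset.sum_congr rfl fun i _ => ?_
    rw [smul_comm Complex.I, Finset.smul_sum (r := Complex.I)]
    congr 1
    refine Finset.sum_congr rfl fun γ _ => ?_
    rw [smul_comm]
  rw [h4, smul_smul, Complex.I_mul_I, neg_one_smul, add_neg_cancel]

/-! ### the estimate on the unit sphere -/

lemma unit_est [FiniteDimensional ℂ F] (hd : DecStmt S) (hs : SmStmt S) (h1 : Om1Stmt S)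
    (h3 : V3Stmt S) (hM12 : M12Stmt S) (hM3 : M3Stmt S) {Ω : F}
    (hΩ : ∀ A α, S.am A α Ω = 0) {c : ℝ} (hc : 0 < c)
    (hcn : ∀ (n : Fin 3 → ℝ) (y : Fin 9 → ℝ), ∑ A, n A ^ 2 = 1 →
      0 < rho6sq (cone n y) → ‖S.om Ω (cone n y)‖ = c) {δ : ℝ} (hδ : 0 < δ) :
    ∃ ε C : ℝ, 0 < ε ∧ 0 < C ∧ ∀ x : X3, ‖x‖ = 1 → δ ^ 2 ≤ rho6sq x → S.V x ≤ ε ^ 2 →
      (c / 2 ≤ ‖S.vv Ω x‖ ∧ ‖S.vv Ω x‖ ≤ 2 * c) ∧ ∀ β, ‖E2 S Ω β x‖ ≤ C * Real.sqrt (S.V x) ^ 3 ∧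
        ‖E1 S Ω β x‖ ≤ C * Real.sqrt (S.V x) ∧ ‖EM S Ω β x‖ ≤ C * Real.sqrt (S.V x) := by
  obtain ⟨so, sv, -, -, -, -⟩ := hs Ω hΩ
  have hk := S.κ_pos
  set U : Set X3 := {x | 0 < rho6sq x} with hU
  have oU : IsOpen U := isOpen_U
  set K0 : Set X3 := {x | ‖x‖ = 1 ∧ δ ^ 2 ≤ rho6sq x} with hK0
  have cK0 : IsCompact K0 := by
    refine (isCompact_sphere (0 : X3) 1).of_isClosed_subset ?_ ?_
    · exact (isClosed_eq continuous_norm continuous_const).inter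
        (isClosed_le continuous_const continuous_rho6sq)
    · intro x hx
      rw [mem_sphere_zero_iff_norm]; exact hx.1
  have K0U : K0 ⊆ U := fun x hx => lt_of_lt_of_le (by positivity) hx.2
  obtain ⟨η, hη, hηU⟩ := cK0.exists_cthickening_subset_open oU K0U
  set K := Metric.cthickening η K0 with hK
  have cK : IsCompact K := cK0.cthickening
  obtain ⟨Lo, Lo0, hLo⟩ := lip_compact cK oU hηU (so.of_le (by simp))
  obtain ⟨Lv, Lv0, hLv⟩ := lip_compact cK oU hηU (sv.of_le (by simp))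
  choose L1 L10 hL1 using fun β => lip_compact cK oU hηU (contDiffOn_G1 (S := S) oU sv β)
  choose LM LM0 hLM using fun β => lip_compact cK oU hηU (contDiffOn_EM (S := S) sv β)
  obtain ⟨CF, CF0, hCF⟩ := Fx_bound S
  choose CB CB0 hCB using fun β => S.B_bound β
  choose CD CD0 hCD using fun β => DW_bound S β
  choose CW CW0 hCW using fun β => W_bound S β
  set Ke : ℝ := 82 * Lo + 1 / (2 * S.κ) * CF * (82 * Lo + 82 * (c + 82 * Lo) + 2 * c) with hKe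
  set Kf : ℝ := 2 * (1 / (2 * S.κ)) * CF * c with hKf
  have hKe0 : 0 ≤ Ke := by rw [hKe]; positivity
  have hKf0 : 0 ≤ Kf := by rw [hKf]; positivity
  set K2 : Fin 16 → ℝ := fun β => (S.κ * CB β + CD β) * Ke + (S.κ * CB β + CW β) * Kf +
      (S.κ * CB β + CW β) * Ke + 87 * S.κ * CB β * (c + Kf + Ke) with hK2
  have hK20 : ∀ β, 0 ≤ K2 β := by
    intro β
    have := CB0 β
    have := CD0 β
    have := CW0 β
    rw [hK2]; positivity
  set Cb : Fin 16 → ℝ := fun β => K2 β * (3 / S.κ) ^ 3 + L1 β * (3 / S.κ) + LM β * (3 / S.κ) with hCb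
  have hCb0 : ∀ β, 0 ≤ Cb β := by
    intro β
    have := hK20 β
    have := L10 β
    have := LM0 β
    rw [hCb]; positivity
  set t : ℝ := min 1 (min (η / 100) (c / (2 * (Lv + 1)))) with ht
  have ht0 : 0 < t := by
    rw [ht]; refine lt_min one_pos (lt_min (by positivity) (by positivity))
  have ht1 : t ≤ 1 := min_le_left _ _
  have ht2 : t ≤ η / 100 := (min_le_right _ _).trans (min_le_left _ _)
  have ht3 : t ≤ c / (2 * (Lv + 1)) := (min_le_right _ _).trans (min_le_right _ _)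
  refine ⟨S.κ * t / 3, (∑ β, Cb β) + 1, by positivity, ?_, ?_⟩
  · have : 0 ≤ ∑ β, Cb β := Finset.sum_nonneg fun β _ => hCb0 β
    linarith
  intro x hx h6 hV
  have hx0 : x ≠ 0 := by
    intro h; rw [h, norm_zero] at hx; exact zero_ne_one hx
  obtain ⟨n, y, z, hn, hxz, zn, yz, hr3, hz⟩ := hd x hx0
  rw [hx, one_pow, mul_one] at hz
  have hr3' : 1 / 3 ≤ ry y ^ 2 := by rw [hx] at hr3; linarith
  have hV0 := S.V_nonneg x
  have hz1 : ‖z‖ * S.κ ≤ 3 * Real.sqrt (S.V x) := by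
    refine le_of_sq_le_sq ?_ (by positivity)
    rw [mul_pow, mul_pow, Real.sq_sqrt hV0]
    linarith
  have hz2 : ‖z‖ ≤ 3 / S.κ * Real.sqrt (S.V x) := by
    rw [div_mul_eq_mul_div, le_div_iff₀ hk]; exact hz1
  have hz3 : ‖z‖ ≤ t := by
    have h4 : Real.sqrt (S.V x) ≤ S.κ * t / 3 := by
      rw [Real.sqrt_le_left (by positivity)]; exact hV
    have h5 : ‖z‖ * S.κ ≤ t * S.κ := by linarith
    exact le_of_mul_le_mul_right h5 hk
  have hz0 := norm_nonneg z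
  rw [hxz] at hx
  have hrz : ry y ^ 2 = 1 - ‖z‖ ^ 2 := by
    have := norm_sq_add hn yz
    rw [hx] at this; linarith
  obtain ⟨r0, r1, r2, r3, r4, r5, r6⟩ := r_facts (ry_nonneg y) hrz hr3'
  have hdd := dd_le (z := z) hn r1 (hz3.trans ht1)
  have hball : Metric.closedBall x η ⊆ K :=
    Metric.closedBall_subset_cthickening (show x ∈ K0 from ⟨by rw [hxz]; exact hx, h6⟩) η
  have bx : x ∈ Metric.closedBall x η := Metric.mem_closedBall_self hη.le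
  have bc : cone n y ∈ Metric.closedBall x η := by
    rw [Metric.mem_closedBall, dist_eq_norm, hxz]
    have : cone n y - (cone n y + z) = -z := by abel
    rw [this, norm_neg]
    linarith
  have bxh : xh x ∈ Metric.closedBall x η := by
    rw [Metric.mem_closedBall, dist_eq_norm, norm_sub_rev, hxz, sub_xh hn zn yz hx]
    refine (norm_sub_le _ _).trans ?_
    have : ‖z‖ ^ 2 ≤ ‖z‖ := by nlinarith
    linarith
  have hc6 : 0 < rho6sq (cone n y) := hηU (hball bc)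
  obtain ⟨hVT, hVN, -⟩ := h1 Ω hΩ n y hn hc6
  have hcone := hcn n y hn hc6
  obtain ⟨hvc, -⟩ := h3 Ω hΩ n y hn hc6
  have conv : Convex ℝ (Metric.closedBall x η) := convex_closedBall x η
  have exz : x - cone n y = z := by rw [hxz]; abel
  refine ⟨?_, fun β => ?_⟩
  · have h4 := hLv _ hball conv _ bc _ bx
    rw [exz, hvc] at h4
    have h5 : Lv * ‖z‖ ≤ c / 2 := by
      calc Lv * ‖z‖ ≤ (Lv + 1) * (c / (2 * (Lv + 1))) := by
            refine mul_le_mul (by linarith) (hz3.trans ht3) hz0 (by positivity)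
        _ = c / 2 := by field_simp
    have h7 := h4.trans h5
    have h8 : ‖S.vv Ω x‖ ≤ ‖S.om Ω (cone n y)‖ + ‖S.vv Ω x - S.om Ω (cone n y)‖ := by
      have : S.vv Ω x = S.om Ω (cone n y) + (S.vv Ω x - S.om Ω (cone n y)) := by abel
      calc ‖S.vv Ω x‖ = ‖S.om Ω (cone n y) + (S.vv Ω x - S.om Ω (cone n y))‖ := by rw [← this]
        _ ≤ _ := norm_add_le _ _
    have h9 : ‖S.om Ω (cone n y)‖ ≤ ‖S.vv Ω x‖ + ‖S.vv Ω x - S.om Ω (cone n y)‖ := by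
      have : S.om Ω (cone n y) = S.vv Ω x - (S.vv Ω x - S.om Ω (cone n y)) := by abel
      calc ‖S.om Ω (cone n y)‖ = ‖S.vv Ω x - (S.vv Ω x - S.om Ω (cone n y))‖ := by rw [← this]
        _ ≤ _ := norm_sub_le _ _
    rw [hcone] at h8 h9
    constructor <;> linarith
  have hle : Cb β ≤ (∑ β, Cb β) + 1 := by
    have := Finset.single_le_sum (f := Cb) (fun b _ => hCb0 b) (Finset.mem_univ β)
    linarith
  have sq0 := Real.sqrt_nonneg (S.V x)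
  have k3 : 0 ≤ 3 / S.κ := by positivity
  refine ⟨?_, ?_, ?_⟩
  · have hom : ‖S.om Ω (xh (cone n y + z)) - S.om Ω (cone n y)‖ ≤ Lo * ‖dd n y z‖ := by
      have h4 := hLo _ hball conv _ bc _ bxh
      rw [hxz] at h4
      have e : xh (cone n y + z) - cone n y = dd n y z := by
        rw [xh_eq hn zn yz hx, dd]; abel
      rwa [e] at h4
    have h4 := E2_unit hn zn yz hx hM12 hVT hr3' β hcone.le Lo0 hom CF0 hCF (CB0 β) (hCB β)
      (CD0 β) (hCD β) (CW0 β) (hCW β) hKe hKf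
    rw [← hxz] at h4
    calc ‖E2 S Ω β x‖ ≤ K2 β * ‖z‖ ^ 3 := h4
      _ ≤ K2 β * (3 / S.κ * Real.sqrt (S.V x)) ^ 3 :=
        mul_le_mul_of_nonneg_left (pow_le_pow_left₀ hz0 hz2 3) (hK20 β)
      _ = K2 β * (3 / S.κ) ^ 3 * Real.sqrt (S.V x) ^ 3 := by ring
      _ ≤ ((∑ β, Cb β) + 1) * Real.sqrt (S.V x) ^ 3 := by
        refine mul_le_mul_of_nonneg_right (le_trans ?_ hle) (by positivity)
        have := mul_nonneg (L10 β) k3
        have := mul_nonneg (LM0 β) k3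
        simp only [hCb]
        linarith
  · have h4 := hL1 β _ hball conv _ bc _ bx
    rw [exz, G1_cone h3 hM3 hΩ hn r0 hc6 hVT β, sub_zero,
      G1_eq S Ω β (by rw [hxz]; exact hx)] at h4
    calc ‖E1 S Ω β x‖ ≤ L1 β * ‖z‖ := h4
      _ ≤ L1 β * (3 / S.κ * Real.sqrt (S.V x)) := mul_le_mul_of_nonneg_left hz2 (L10 β)
      _ = L1 β * (3 / S.κ) * Real.sqrt (S.V x) := by ring
      _ ≤ ((∑ β, Cb β) + 1) * Real.sqrt (S.V x) := by
        refine mul_le_mul_of_nonneg_right (le_trans ?_ hle) sq0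
        have := mul_nonneg (hK20 β) (pow_nonneg k3 3)
        have := mul_nonneg (LM0 β) k3
        simp only [hCb]
        linarith
  · have h4 := hLM β _ hball conv _ bc _ bx
    rw [exz, EM_cone hvc hVN β, sub_zero] at h4
    calc ‖EM S Ω β x‖ ≤ LM β * ‖z‖ := h4
      _ ≤ LM β * (3 / S.κ * Real.sqrt (S.V x)) := mul_le_mul_of_nonneg_left hz2 (LM0 β)
      _ = LM β * (3 / S.κ) * Real.sqrt (S.V x) := by ring
      _ ≤ ((∑ β, Cb β) + 1) * Real.sqrt (S.V x) := by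
        refine mul_le_mul_of_nonneg_right (le_trans ?_ hle) sq0
        have := mul_nonneg (hK20 β) (pow_nonneg k3 3)
        have := mul_nonneg (L10 β) k3
        simp only [hCb]
        linarith

end EstP

open EstP in
/-- **D-Est** the main pointwise estimate -/
theorem est {S : Setup F} [FiniteDimensional ℂ F] (hd : DecStmt S) (hs : SmStmt S)
    (h1 : Om1Stmt S) (hn : OmNormStmt S) (h3 : V3Stmt S) (hM12 : M12Stmt S) (hM3 : M3Stmt S) :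
    EstStmt S := by
  intro Ω hΩ0 hΩ
  obtain ⟨c, hc, hcn⟩ := hn Ω hΩ0 hΩ
  obtain ⟨-, sv, -, hom, -, -⟩ := hs Ω hΩ
  refine ⟨c, hc, fun δ hδ => ?_⟩
  obtain ⟨ε, C, hε, hC, H⟩ := unit_est hd hs h1 h3 hM12 hM3 hΩ hc hcn hδ
  refine ⟨ε, C, hε, hC, fun x hx h6 hV => ?_⟩
  have hv : ∀ x, ∀ t : ℝ, 0 < t → S.vv Ω (t • x) = S.vv Ω x := fun x t ht => (hom x t ht).2
  have hk := S.κ_pos
  have ht : 0 < ‖x‖ := norm_pos_iff.2 hx
  set t := ‖x‖ with htd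
  obtain ⟨x', hx'⟩ : ∃ x' : X3, x' = t⁻¹ • x := ⟨_, rfl⟩
  have hxx : x = t • x' := by
    rw [hx', smul_smul, mul_inv_cancel₀ ht.ne', one_smul]
  have hn1 : ‖x'‖ = 1 := by
    rw [hx', norm_smul, Real.norm_of_nonneg (inv_nonneg.2 ht.le), ← htd]
    exact inv_mul_cancel₀ ht.ne'
  have e6 : rho6sq x = t ^ 2 * rho6sq x' := by
    conv_lhs => rw [hxx]
    exact rho6sq_smul t x'
  have eV : S.V x = t ^ 4 * S.V x' := by
    conv_lhs => rw [hxx]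
    exact S.V_smul t x'
  have h6' : δ ^ 2 ≤ rho6sq x' := by
    rw [e6, mul_comm] at h6
    exact le_of_mul_le_mul_left h6 (by positivity)
  have hV' : S.V x' ≤ ε ^ 2 := by
    rw [eV, mul_comm (ε ^ 2)] at hV
    exact le_of_mul_le_mul_left hV (by positivity)
  obtain ⟨hb, hE⟩ := H x' hn1 h6' hV'
  have evv : S.vv Ω x = S.vv Ω x' := by
    conv_lhs => rw [hxx]
    exact hv x' t ht
  refine ⟨by rw [evv]; exact hb, fun m hm β => ?_⟩
  obtain ⟨b2, b1, bM⟩ := hE β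
  have hxU : 0 < rho6sq x := by
    rw [e6]
    have : 0 < rho6sq x' := lt_of_lt_of_le (by positivity) h6'
    positivity
  have hdv : DifferentiableAt ℝ (S.vv Ω) x :=
    (sv.contDiffAt (isOpen_U.mem_nhds hxU)).differentiableAt (by simp)
  have hph : 0 ≤ S.ph m x := by
    unfold Setup.ph; positivity
  rw [Qm_ph S Ω m β hx hdv, norm_smul, Complex.norm_real, Real.norm_of_nonneg hph, mul_comm C,
    mul_assoc]
  refine mul_le_mul_of_nonneg_left ?_ hph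
  have E2x : E2 S Ω β x = ((t ^ 2 : ℝ) : ℂ) • E2 S Ω β x' := by
    conv_lhs => rw [hxx]
    exact E2_smul hv β ht x'
  have E1x : E1 S Ω β x = ((t⁻¹ : ℝ) : ℂ) • E1 S Ω β x' := by
    conv_lhs => rw [hxx]
    exact E1_smul hv β ht x'
  have EMx : EM S Ω β x = ((t : ℝ) : ℂ) • EM S Ω β x' := by
    conv_lhs => rw [hxx]
    exact EM_smul hv β ht x'
  have hV0' := S.V_nonneg x'
  set s := Real.sqrt (S.V x') with hsd
  have s0 : 0 ≤ s := Real.sqrt_nonneg _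
  have hs2 : s ^ 2 = S.V x' := Real.sq_sqrt hV0'
  have sV : Real.sqrt (S.V x) = t ^ 2 * s := by
    rw [eV, Real.sqrt_mul (by positivity), ← hsd]
    congr 1
    have : t ^ 4 = (t ^ 2) ^ 2 := by ring
    rw [this, Real.sqrt_sq (by positivity)]
  have pV : (S.V x) ^ (3 / 2 : ℝ) = t ^ 6 * s ^ 3 := by
    have h4 : S.V x = (t ^ 2 * s) ^ 2 := by rw [eV, ← hs2]; ring
    rw [h4, ← Real.rpow_natCast (t ^ 2 * s) 2, ← Real.rpow_mul (by positivity)]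
    norm_num
    ring
  have n2 : ‖E2 S Ω β x‖ ≤ C * ((S.V x) ^ (3 / 2 : ℝ) / t ^ 4) := by
    rw [E2x, norm_smul, Complex.norm_real, Real.norm_of_nonneg (by positivity), pV]
    calc t ^ 2 * ‖E2 S Ω β x'‖ ≤ t ^ 2 * (C * s ^ 3) :=
          mul_le_mul_of_nonneg_left b2 (by positivity)
      _ = _ := by field_simp
  have n1 : ‖E1 S Ω β x‖ ≤ C * (Real.sqrt (S.V x) / t ^ 3) := by
    rw [E1x, norm_smul, Complex.norm_real, Real.norm_of_nonneg (by positivity), sV]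
    calc t⁻¹ * ‖E1 S Ω β x'‖ ≤ t⁻¹ * (C * s) :=
          mul_le_mul_of_nonneg_left b1 (by positivity)
      _ = _ := by field_simp
  have nM : ‖(m : ℂ) • EM S Ω β x‖ ≤ C * (m * Real.sqrt (S.V x) / t) := by
    rw [EMx, norm_smul, norm_smul, Complex.norm_real, Complex.norm_real, Real.norm_of_nonneg hm,
      Real.norm_of_nonneg ht.le, sV]
    calc m * (t * ‖EM S Ω β x'‖) ≤ m * (t * (C * s)) := by gcongr
      _ = _ := by field_simp
  calc _ ≤ ‖E2 S Ω β x‖ + ‖E1 S Ω β x‖ + ‖(m : ℂ) • EM S Ω β x‖ :=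
        (norm_add_le _ _).trans (add_le_add_left (norm_add_le _ _) _)
    _ ≤ C * ((S.V x) ^ (3 / 2 : ℝ) / t ^ 4) + C * (Real.sqrt (S.V x) / t ^ 3) +
        C * (m * Real.sqrt (S.V x) / t) := add_le_add (add_le_add n2 n1) nM
    _ = _ := by ring

end Vale.Agent.P353.U
end

section

/-! # P353, uniqueness for `N = 2`: final assembly from the theorems B, C, D -/

open MeasureTheory Filter Topology
open scoped ContDiff

namespace Vale.Agent.P353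

variable {F : Type*} [NormedAddCommGroup F] [InnerProductSpace ℂ F]

namespace U

theorem uniq_of {S : Setup F} (hB : ThmBStmt S) (hC : ThmCStmt S) (hD : ThmDStmt S) :
    UniqStmt S := by
  intro hirr hne Ψ₁ Ψ₂ h1 h2 hlin
  obtain ⟨m, hm, hlow⟩ := hD hirr hne Ψ₁ Ψ₂ h1 h2 hlin
  obtain ⟨m', hm', h3⟩ := hC hirr hne
  obtain ⟨ε, hε, hn⟩ := h3 m' le_rfl
  exact hn (hB m hm hlow m' hm' ε hε)

theorem toSetup_irr (M : Model 2 3 F) : M.toSetup.Irr := fun W hW => M.θ_irreducible W hW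

/-- two zero-energy states are proportional -/
theorem prop_of (M : Model 2 3 F) (hU : UniqStmt M.toSetup)
    {Ψ₁ Ψ₂ : Lp F 2 (volume : Measure X3)} (h1 : M.IsZeroEnergyState Ψ₁)
    (h2 : M.IsZeroEnergyState Ψ₂) (hne : Ψ₁ ≠ 0) : ∃ c : ℂ, Ψ₂ = c • Ψ₁ := by
  have hF : FiniteDimensional ℂ F := M.finiteDimensional
  have h := hU (toSetup_irr M) M.nontrivial Ψ₁ Ψ₂ (isZM_of_zeroEnergy M h1)
    (isZM_of_zeroEnergy M h2)
  rw [LinearIndependent.pair_iff' hne] at h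
  push Not at h
  obtain ⟨c, hc⟩ := h
  exact ⟨c, hc.symm⟩

end U

namespace BFSS

/-- uniqueness for the `SU(2)` model, from `UniqStmt` -/
theorem unique_state (M : Model 2 3 F) (hU : U.UniqStmt M.toOld.toSetup) {Ψ₁ Ψ₂ : Conf 3 → F}
    (h1 : M.IsZeroEnergyState Ψ₁) (h2 : M.IsZeroEnergyState Ψ₂)
    (hne : ¬ (∀ᵐ x ∂leb 3, Ψ₁ x = 0)) : ∃ c : ℂ, ∀ᵐ x ∂leb 3, Ψ₂ x = c • Ψ₁ x := by
  have m1 : MemLp Ψ₁ 2 (volume : Measure (Conf 3)) := h1.1
  have m2 : MemLp Ψ₂ 2 (volume : Measure (Conf 3)) := h2.1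
  have z1 := (M.zes_iff Ψ₁ m1).mp h1
  have z2 := (M.zes_iff Ψ₂ m2).mp h2
  have hne' : m1.toLp Ψ₁ ≠ 0 := by
    intro h
    refine hne ?_
    have h3 := m1.coeFn_toLp
    rw [h] at h3
    rw [leb]
    filter_upwards [h3, Lp.coeFn_zero F 2 (volume : Measure (Conf 3))] with x hx hx'
    rw [← hx, hx', Pi.zero_apply]
  obtain ⟨c, hc⟩ := U.prop_of M.toOld hU z1 z2 hne'
  refine ⟨c, ?_⟩
  have h3 := Lp.coeFn_smul c (m1.toLp Ψ₁)
  rw [← hc] at h3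
  rw [leb]
  filter_upwards [h3, m1.coeFn_toLp, m2.coeFn_toLp] with x hx hx1 hx2
  rw [← hx2, hx, Pi.smul_apply, hx1]

/-- the kernel is one dimensional, from existence and `UniqStmt` -/
theorem one_state (M : Model 2 3 F) (hU : U.UniqStmt M.toOld.toSetup)
    (hE : ∃ Ψ : Conf 3 → F, M.IsZeroEnergyState Ψ ∧ ¬ (∀ᵐ x ∂leb 3, Ψ x = 0)) :
    ∃ Φ : Conf 3 → F, M.IsZeroEnergyState Φ ∧ ¬ (∀ᵐ x ∂leb 3, Φ x = 0) ∧
      ∀ Ψ, M.IsZeroEnergyState Ψ → ∃ c : ℂ, ∀ᵐ x ∂leb 3, Ψ x = c • Φ x := by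
  obtain ⟨Φ, h1, h2⟩ := hE
  exact ⟨Φ, h1, h2, fun Ψ hΨ => unique_state M hU h1 hΨ h2⟩

end BFSS
end Vale.Agent.P353
end
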