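import Mathlib
import Vale.Agent.P353.BdU.B23
import Vale.Agent.P353.BdU.B26
import Vale.Agent.P353.BdU.B11
import Vale.Agent.P353.BdU.B4
import Vale.Agent.P353.BdU.B2
import Vale.Agent.P353.BdU.B15

set_option linter.all false

section

/-! Task EX-18: first limit `t → ∞` (localisation at `φ_⊥ = 0`).

Change of variables `x = σ_t y`, `σ_t` multiplies the four coordinates `(7,0),(7,1),(8,0),(8,1)` by
`t^{-1/2}` (determinant `t^{-2}`), then dominated convergence: `aT`, `hh`, `B0`, `ze` do not depend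
on these coordinates.  Majorant `C (1+ze)⁴ e^{-perp2/2} B0` (`integrable_J`), for `t ≥ 1`. -/

open MeasureTheory Filter Topology
open scoped ContDiff ComplexConjugate

namespace Vale.Agent.P353.Ex

/-! ### scaling of the coordinates `φ_⊥` -/

/-- multiply the coordinates `φ_⊥` by `r` -/
noncomputable def scl (r : ℝ) (x : X3) : X3 :=
  WithLp.toLp 2 fun p => if (p.1 = 7 ∨ p.1 = 8) ∧ p.2 ≠ 2 then r * x p else x p

lemma scl_apply (r : ℝ) (x : X3) (p : Fin 9 × Fin 3) :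
    scl r x p = if (p.1 = 7 ∨ p.1 = 8) ∧ p.2 ≠ 2 then r * x p else x p := rfl

lemma scl_e9 (r : ℝ) (x : X3) (i : Fin 7) (A : Fin 3) : scl r x (e9 i, A) = x (e9 i, A) := by
  rw [scl_apply, if_neg]
  rintro ⟨h | h, _⟩
  · have := congrArg Fin.val h
    have hi := i.2
    simp only [e9, Fin.val_castSucc] at this
    have h7 : ((7 : Fin 9) : ℕ) = 7 := rfl
    omega
  · have := congrArg Fin.val h
    have hi := i.2
    simp only [e9, Fin.val_castSucc] at this
    have h8 : ((8 : Fin 9) : ℕ) = 8 := rfl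
    omega

lemma scl_two (r : ℝ) (x : X3) (i : Fin 9) : scl r x (i, 2) = x (i, 2) := by
  rw [scl_apply, if_neg]
  rintro ⟨_, h⟩
  exact h rfl

lemma scl_perp (r : ℝ) (x : X3) {i : Fin 9} (hi : i = 7 ∨ i = 8) {A : Fin 3} (hA : A ≠ 2) :
    scl r x (i, A) = r * x (i, A) := by
  rw [scl_apply, if_pos ⟨hi, hA⟩]

lemma scl_zero (x : X3) : scl 0 x = pr x := by
  unfold scl pr
  simp only [zero_mul]

lemma perp2_scl (r : ℝ) (x : X3) : Fk.perp2 (scl r x) = r ^ 2 * Fk.perp2 x := by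
  unfold Fk.perp2
  rw [scl_perp r x (Or.inl rfl) (by decide), scl_perp r x (Or.inr rfl) (by decide),
    scl_perp r x (Or.inl rfl) (by decide), scl_perp r x (Or.inr rfl) (by decide)]
  ring

lemma r3_scl (r : ℝ) (x : X3) : Fk.r3 (scl r x) = Fk.r3 x := by
  unfold Fk.r3
  rw [scl_two, scl_two]

lemma ze_scl (r : ℝ) (x : X3) : Fk.ze (scl r x) = Fk.ze x := by
  unfold Fk.ze
  rw [r3_scl]

lemma gg_scl (r : ℝ) (x : X3) : Fk.gg (scl r x) = Fk.gg x := by
  unfold Fk.gg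
  rw [r3_scl]

lemma B0_scl (r : ℝ) (x : X3) : Fk.B0 (scl r x) = Fk.B0 x := by
  unfold Fk.B0 Fk.x3sq Fk.wsq
  simp only [scl_e9, gg_scl, r3_scl]

lemma continuous_scl : Continuous fun p : ℝ × X3 => scl p.1 p.2 := by
  unfold scl
  refine (PiLp.continuous_toLp 2 _).comp (continuous_pi fun p => ?_)
  by_cases h : (p.1 = 7 ∨ p.1 = 8) ∧ p.2 ≠ 2
  · simp only [if_pos h]
    fun_prop
  · simp only [if_neg h]
    fun_prop

lemma scl_scl (r s : ℝ) (x : X3) : scl r (scl s x) = scl (r * s) x := by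
  ext p
  by_cases h : (p.1 = 7 ∨ p.1 = 8) ∧ p.2 ≠ 2
  · rw [scl_apply, scl_apply, scl_apply, if_pos h, if_pos h, if_pos h, mul_assoc]
  · rw [scl_apply, scl_apply, scl_apply, if_neg h, if_neg h, if_neg h]

lemma scl_one (x : X3) : scl 1 x = x := by
  ext p
  rw [scl_apply]
  split_ifs <;> simp

/-- the scaling as a linear map -/
noncomputable def sclL (r : ℝ) : X3 →ₗ[ℝ] X3 where
  toFun := scl r
  map_add' x y := by
    ext p
    change scl r (x + y) p = scl r x p + scl r y p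
    rw [scl_apply, scl_apply, scl_apply]
    split_ifs
    · simp [mul_add]
    · simp
  map_smul' c x := by
    ext p
    change scl r (c • x) p = c * scl r x p
    rw [scl_apply, scl_apply]
    split_ifs
    · simp only [PiLp.smul_apply, smul_eq_mul]
      ring
    · simp

lemma det_sclL (r : ℝ) : LinearMap.det (sclL r) = r ^ 4 := by
  classical
  rw [← LinearMap.det_toMatrix (EuclideanSpace.basisFun (Fin 9 × Fin 3) ℝ).toBasis]
  have h : LinearMap.toMatrix (EuclideanSpace.basisFun (Fin 9 × Fin 3) ℝ).toBasis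
      (EuclideanSpace.basisFun (Fin 9 × Fin 3) ℝ).toBasis (sclL r) =
      Matrix.diagonal fun p : Fin 9 × Fin 3 =>
        if (p.1 = 7 ∨ p.1 = 8) ∧ p.2 ≠ 2 then r else 1 := by
    ext p q
    rw [LinearMap.toMatrix_apply, Matrix.diagonal_apply]
    simp only [OrthonormalBasis.coe_toBasis, OrthonormalBasis.coe_toBasis_repr_apply,
      EuclideanSpace.basisFun_apply, EuclideanSpace.basisFun_repr]
    change scl r (EuclideanSpace.single q 1) p = _
    rw [scl_apply]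
    by_cases hpq : p = q
    · subst hpq
      simp
    · simp [hpq]
  rw [h, Matrix.det_diagonal, Finset.prod_ite, Finset.prod_const, Finset.prod_const_one, mul_one]
  congr 1

/-- the scaling as a homeomorphism -/
noncomputable def sclH (r : ℝ) (hr : r ≠ 0) : X3 ≃ₜ X3 where
  toFun := scl r
  invFun := scl r⁻¹
  left_inv x := by rw [scl_scl, inv_mul_cancel₀ hr, scl_one]
  right_inv x := by rw [scl_scl, mul_inv_cancel₀ hr, scl_one]
  continuous_toFun := continuous_scl.comp (Continuous.prodMk_right r)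
  continuous_invFun := continuous_scl.comp (Continuous.prodMk_right r⁻¹)

lemma integral_scl {r : ℝ} (hr : 0 < r) (f : X3 → ℂ) :
    ∫ x, f x = ∫ y, ((r ^ 4 : ℝ) : ℂ) * f (scl r y) := by
  have h4 : 0 < r ^ 4 := pow_pos hr 4
  have hdet : LinearMap.det (sclL r) ≠ 0 := by
    rw [det_sclL]
    exact h4.ne'
  have h1 := Measure.map_linearMap_addHaar_eq_smul_addHaar (volume : Measure X3) hdet
  have h2 : ∫ x, f x ∂(Measure.map (sclL r) (volume : Measure X3)) = ∫ y, f (scl r y) :=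
    (sclH r hr.ne').measurableEmbedding.integral_map f
  rw [h1, integral_smul_measure, det_sclL, abs_of_pos (inv_pos.2 h4),
    ENNReal.toReal_ofReal (inv_pos.2 h4).le] at h2
  rw [integral_const_mul, ← h2, Complex.real_smul, ← mul_assoc, ← Complex.ofReal_mul,
    mul_inv_cancel₀ h4.ne', Complex.ofReal_one, one_mul]

variable {F : Type*} [NormedAddCommGroup F] [InnerProductSpace ℂ F]

namespace Fk

variable (K : Fk F)

/-- the leading coefficient of `Ps t` at `φ_⊥ = 0` -/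
noncomputable def xi (x : X3) : F :=
  (Real.exp (-K.hh x) : ℂ) • (-((1 / K.nu ^ 2) • K.dpb 0 (K.dpb 1 (K.aT x))))

lemma hh_scl (r : ℝ) (x : X3) : K.hh (scl r x) = K.hh x := by
  unfold hh
  simp only [scl_e9]

lemma aT_scl (r : ℝ) (x : X3) : K.aT (scl r x) = K.aT x := by
  unfold aT expo tau0 bet rho eeT ds dsb db dkap mu qp qq phb ph ss bb kap wsq
  simp only [scl_e9, scl_two, r3_scl, gg_scl]

lemma norm_nu_inv_le : ‖(1 / K.nu : ℂ)‖ ≤ 1 := by
  have h1 : ‖K.nu‖ ^ 2 = 2 := by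
    unfold nu
    rw [norm_mul, Complex.norm_I, one_mul, Complex.norm_real, Real.norm_eq_abs, sq_abs, sq, K.f0_sq]
  have h2 : 1 ≤ ‖K.nu‖ := by
    by_contra h
    have h0 := norm_nonneg K.nu
    nlinarith
  rw [norm_div, norm_one]
  exact (div_le_one (lt_of_lt_of_le one_pos h2)).2 h2

lemma norm_phb_two (x : X3) : ‖K.phb 2 x‖ = ze x := by
  unfold phb ze r3
  have e : (x (7, 2) : ℂ) - Complex.I * (K.sg : ℂ) * (x (8, 2) : ℂ) =
      ⟨x (7, 2), -(K.sg * x (8, 2))⟩ := by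
    apply Complex.ext <;> simp
  rw [e, Complex.norm_eq_sqrt_sq_add_sq]
  congr 1
  have h := K.sg_sq
  linear_combination (x (8, 2) ^ 2) * h

lemma norm_dpb_le (A : Fin 3) (v : F) : ‖K.dpb A v‖ ≤ 2 * ‖v‖ := by
  unfold dpb
  rw [smul_apply, norm_smul, Complex.norm_ofNat]
  have := K.norm_c_le 7 A v
  linarith

lemma continuous_aT : Continuous K.aT := K.contDiff_aT.continuous

/-- decomposition of `s² Ps t`, `s t = 1` -/
lemma Ps_split (t s : ℝ) (hst : s * t = 1) (x : X3) :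
    ((s ^ 2 : ℝ) : ℂ) • K.Ps t x = (Real.exp (-t * perp2 x) : ℂ) •
      (-((1 / K.nu ^ 2) • ((Real.exp (-K.hh x) : ℂ) • K.dpb 0 (K.dpb 1 (K.aT x)))) +
      (-((((s ^ 2 : ℝ) : ℂ) * (1 / K.nu)) • ((Real.exp (-K.hh x) : ℂ) • K.dph 2 K.aT x)) +
      ((s ^ 2 : ℝ) : ℂ) • ((Real.exp (-K.hh x) : ℂ) • K.io 1 x (K.io 0 x (K.aT x))) -
      ((2 * (s : ℂ)) * (1 / K.nu) * K.phb 2 x) • ((Real.exp (-K.hh x) : ℂ) • K.aT x) +
      ((s : ℂ) * (1 / K.nu)) • ((Real.exp (-K.hh x) : ℂ) •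
        (K.dpb 0 (K.io 1 x (K.aT x)) - K.dpb 1 (K.io 0 x (K.aT x)))))) := by
  have h1 : (s : ℂ) * (t : ℂ) = 1 := by
    rw [← Complex.ofReal_mul, hst, Complex.ofReal_one]
  unfold Ps KK KK0
  have h2 : (s : ℂ) ^ 2 * (t : ℂ) = s := by linear_combination (s : ℂ) * h1
  have h3 : (s : ℂ) ^ 2 * (t : ℂ) ^ 2 = 1 := by linear_combination ((s : ℂ) * t + 1) * h1
  generalize ((Real.exp (-K.hh x) : ℝ) : ℂ) = E
  generalize ((Real.exp (-t * perp2 x) : ℝ) : ℂ) = e
  generalize K.dpb 0 (K.dpb 1 (K.aT x)) = v4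
  generalize K.dph 2 K.aT x = v1
  generalize K.io 1 x (K.io 0 x (K.aT x)) = v2
  generalize (K.dpb 0 (K.io 1 x (K.aT x)) - K.dpb 1 (K.io 0 x (K.aT x))) = v5
  generalize K.aT x = v3
  generalize K.phb 2 x = z
  push_cast
  match_scalars
  · ring
  · ring
  · linear_combination (-(2 / K.nu * z * E * e)) * h2
  · linear_combination (-(E * e / K.nu ^ 2)) * h3
  · linear_combination (1 / K.nu * E * e) * h2

/-- the polynomial-Gaussian majorant -/
noncomputable def WW (x : X3) : ℝ := (1 + ze x) ^ 3 * (1 + Real.sqrt (perp2 x)) ^ 2 * B0 x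

lemma ze_nonneg (x : X3) : 0 ≤ ze x := Real.sqrt_nonneg _

lemma perp2_nonneg (x : X3) : 0 ≤ perp2 x := by
  unfold perp2
  positivity

lemma B0_nonneg (x : X3) : 0 ≤ B0 x := (Real.exp_pos _).le

lemma WW_nonneg (x : X3) : 0 ≤ WW x := by
  unfold WW
  have h5 := ze_nonneg x
  have h6 := B0_nonneg x
  positivity

lemma norm_exp_smul (h : ℝ) (v : F) : ‖((Real.exp h : ℝ) : ℂ) • v‖ = Real.exp h * ‖v‖ := by
  rw [norm_smul, Complex.norm_real, Real.norm_of_nonneg (Real.exp_pos _).le]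

/-- the four remainder terms and the leading term -/
lemma exists_Ps_bound : ∃ C : ℝ, 0 ≤ C ∧ ∀ (t s : ℝ) (x : X3), 0 < s → s * t = 1 →
    ‖((s ^ 2 : ℝ) : ℂ) • K.Ps t x - ((Real.exp (-t * perp2 x) : ℝ) : ℂ) • K.xi x‖ ≤
      Real.exp (-t * perp2 x) * (C * (s * (1 + s)) * WW x) ∧ ‖K.xi x‖ ≤ C * WW x := by
  obtain ⟨C, hC, hb⟩ := K.exists_bounds
  refine ⟨4 * C, by linarith, fun t s x hs hst => ?_⟩
  obtain ⟨h3, h1, h2, h5⟩ := hb x
  have hA : 0 ≤ ze x := ze_nonneg x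
  have hq : 0 ≤ Real.sqrt (perp2 x) := Real.sqrt_nonneg _
  have hB := B0_nonneg x
  have hν := K.norm_nu_inv_le
  have hν0 : 0 ≤ ‖(1 / K.nu : ℂ)‖ := norm_nonneg _
  -- monomials bounded by `WW`
  set A := ze x with hAdef
  set q := Real.sqrt (perp2 x) with hqdef
  have hCB : 0 ≤ C * B0 x := mul_nonneg hC hB
  have hq1 : 1 ≤ (1 + q) ^ 2 := one_le_pow₀ (by linarith)
  have hq2 : (1 + q) ≤ (1 + q) ^ 2 := by nlinarith
  have hA3 : (1 + A) ^ 2 ≤ (1 + A) ^ 3 := pow_le_pow_right₀ (by linarith) (by norm_num)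
  have hA2 : A * (1 + A) ≤ (1 + A) ^ 2 := by nlinarith
  have hA4 : A * (A * (1 + A)) ≤ (1 + A) ^ 3 := by nlinarith [mul_nonneg hA hA]
  have hW : WW x = (1 + A) ^ 3 * (1 + q) ^ 2 * B0 x := rfl
  have hW0 : 0 ≤ C * WW x := by rw [hW]; positivity
  have m1 : C * (1 + A) ^ 2 * B0 x ≤ C * WW x := by
    rw [hW]
    calc C * (1 + A) ^ 2 * B0 x = ((1 + A) ^ 2 * 1) * (C * B0 x) := by ring
      _ ≤ ((1 + A) ^ 3 * (1 + q) ^ 2) * (C * B0 x) := by gcongr
      _ = _ := by ring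
  have m2 : C * A * (1 + A) * (1 + q) ^ 2 * B0 x ≤ C * WW x := by
    rw [hW]
    calc C * A * (1 + A) * (1 + q) ^ 2 * B0 x
        = ((A * (1 + A)) * (1 + q) ^ 2) * (C * B0 x) := by ring
      _ ≤ ((1 + A) ^ 3 * (1 + q) ^ 2) * (C * B0 x) := by gcongr; exact hA2.trans hA3
      _ = _ := by ring
  have m3 : A * (C * A * (1 + A) * B0 x) ≤ C * WW x := by
    rw [hW]
    calc A * (C * A * (1 + A) * B0 x) = ((A * (A * (1 + A))) * 1) * (C * B0 x) := by ring
      _ ≤ ((1 + A) ^ 3 * (1 + q) ^ 2) * (C * B0 x) := by gcongr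
      _ = _ := by ring
  have m3' : C * A * (1 + A) * B0 x ≤ C * WW x := by
    rw [hW]
    calc C * A * (1 + A) * B0 x = ((A * (1 + A)) * 1) * (C * B0 x) := by ring
      _ ≤ ((1 + A) ^ 3 * (1 + q) ^ 2) * (C * B0 x) := by gcongr; exact hA2.trans hA3
      _ = _ := by ring
  have m5 : C * A * (1 + A) * (1 + q) * B0 x ≤ C * WW x := by
    rw [hW]
    calc C * A * (1 + A) * (1 + q) * B0 x
        = ((A * (1 + A)) * (1 + q)) * (C * B0 x) := by ring
      _ ≤ ((1 + A) ^ 3 * (1 + q) ^ 2) * (C * B0 x) := by gcongr; exact hA2.trans hA3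
      _ = _ := by ring
  have n1 := h1.trans m1
  have n2 := h2.trans m2
  have n3 : A * (Real.exp (-K.hh x) * ‖K.aT x‖) ≤ C * WW x :=
    (mul_le_mul_of_nonneg_left h3 hA).trans m3
  have n3' := h3.trans m3'
  have n5 := h5.trans m5
  constructor
  · have e : ((s ^ 2 : ℝ) : ℂ) • K.Ps t x - ((Real.exp (-t * perp2 x) : ℝ) : ℂ) • K.xi x =
        ((Real.exp (-t * perp2 x) : ℝ) : ℂ) •
        (-((((s ^ 2 : ℝ) : ℂ) * (1 / K.nu)) • ((Real.exp (-K.hh x) : ℂ) • K.dph 2 K.aT x)) +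
        ((s ^ 2 : ℝ) : ℂ) • ((Real.exp (-K.hh x) : ℂ) • K.io 1 x (K.io 0 x (K.aT x))) -
        ((2 * (s : ℂ)) * (1 / K.nu) * K.phb 2 x) • ((Real.exp (-K.hh x) : ℂ) • K.aT x) +
        ((s : ℂ) * (1 / K.nu)) • ((Real.exp (-K.hh x) : ℂ) •
          (K.dpb 0 (K.io 1 x (K.aT x)) - K.dpb 1 (K.io 0 x (K.aT x))))) := by
      have e0 : K.xi x = -((1 / K.nu ^ 2) • ((Real.exp (-K.hh x) : ℂ) •
          K.dpb 0 (K.dpb 1 (K.aT x)))) := by
        unfold xi
        rw [smul_neg, smul_comm]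
      rw [K.Ps_split t s hst x, smul_add, e0, add_sub_cancel_left]
    rw [e, norm_exp_smul]
    refine mul_le_mul_of_nonneg_left ?_ (Real.exp_pos _).le
    have b1 : ‖(((s ^ 2 : ℝ) : ℂ) * (1 / K.nu)) • ((Real.exp (-K.hh x) : ℂ) • K.dph 2 K.aT x)‖ ≤
        s ^ 2 * (C * WW x) := by
      rw [norm_smul, norm_exp_smul, norm_mul, Complex.norm_real,
        Real.norm_of_nonneg (by positivity)]
      calc s ^ 2 * ‖1 / K.nu‖ * (Real.exp (-K.hh x) * ‖K.dph 2 K.aT x‖)
          ≤ s ^ 2 * 1 * (C * WW x) := by gcongr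
        _ = _ := by ring
    have b2 : ‖((s ^ 2 : ℝ) : ℂ) • ((Real.exp (-K.hh x) : ℂ) • K.io 1 x (K.io 0 x (K.aT x)))‖ ≤
        s ^ 2 * (C * WW x) := by
      rw [norm_smul, norm_exp_smul, Complex.norm_real, Real.norm_of_nonneg (by positivity)]
      gcongr
    have b3 : ‖((2 * (s : ℂ)) * (1 / K.nu) * K.phb 2 x) • ((Real.exp (-K.hh x) : ℂ) • K.aT x)‖ ≤
        2 * s * (C * WW x) := by
      rw [norm_smul, norm_exp_smul, norm_mul, norm_mul, norm_mul, Complex.norm_real,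
        Real.norm_of_nonneg hs.le, norm_phb_two, Complex.norm_ofNat]
      calc 2 * s * ‖1 / K.nu‖ * ze x * (Real.exp (-K.hh x) * ‖K.aT x‖)
          = 2 * s * ‖1 / K.nu‖ * (A * (Real.exp (-K.hh x) * ‖K.aT x‖)) := by rw [hAdef]; ring
        _ ≤ 2 * s * 1 * (C * WW x) := by gcongr
        _ = _ := by ring
    have b5 : ‖((s : ℂ) * (1 / K.nu)) • ((Real.exp (-K.hh x) : ℂ) •
        (K.dpb 0 (K.io 1 x (K.aT x)) - K.dpb 1 (K.io 0 x (K.aT x))))‖ ≤ s * (C * WW x) := by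
      rw [norm_smul, norm_exp_smul, norm_mul, Complex.norm_real, Real.norm_of_nonneg hs.le]
      calc s * ‖1 / K.nu‖ * (Real.exp (-K.hh x) *
            ‖K.dpb 0 (K.io 1 x (K.aT x)) - K.dpb 1 (K.io 0 x (K.aT x))‖)
          ≤ s * 1 * (C * WW x) := by gcongr
        _ = _ := by ring
    refine (norm_add_le _ _).trans ?_
    refine (add_le_add (norm_sub_le _ _) b5).trans ?_
    refine (add_le_add_left (add_le_add (norm_add_le _ _) b3) _).trans ?_
    rw [norm_neg]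
    nlinarith only [b1, b2, hW0, hs, mul_nonneg hs.le hW0, mul_nonneg (mul_nonneg hs.le hs.le) hW0]
  · unfold xi
    rw [norm_exp_smul, norm_neg, norm_smul]
    have hν2 : ‖(1 / K.nu ^ 2 : ℂ)‖ ≤ 1 := by
      have : (1 / K.nu ^ 2 : ℂ) = (1 / K.nu) * (1 / K.nu) := by ring
      rw [this, norm_mul]
      nlinarith
    have h4 : ‖K.dpb 0 (K.dpb 1 (K.aT x))‖ ≤ 4 * ‖K.aT x‖ := by
      have g1 := K.norm_dpb_le 0 (K.dpb 1 (K.aT x))
      have g2 := K.norm_dpb_le 1 (K.aT x)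
      linarith
    have hE := (Real.exp_pos (-K.hh x)).le
    calc Real.exp (-K.hh x) * (‖(1 / K.nu ^ 2 : ℂ)‖ * ‖K.dpb 0 (K.dpb 1 (K.aT x))‖)
        ≤ Real.exp (-K.hh x) * (1 * (4 * ‖K.aT x‖)) := by gcongr
      _ = 4 * (Real.exp (-K.hh x) * ‖K.aT x‖) := by ring
      _ ≤ 4 * (C * WW x) := by linarith
      _ = 4 * C * WW x := by ring

lemma gauss_two {t : ℝ} (ht : 0 < t) {p : ℝ} (hp : 0 ≤ p) :
    (1 + Real.sqrt p) ^ 2 * Real.exp (-t * p) ≤ (2 + 4 / t) * Real.exp (-(t / 2) * p) := by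
  have h1 : Real.exp (-t * p) = Real.exp (-(t / 2) * p) * Real.exp (-(t / 2) * p) := by
    rw [← Real.exp_add]
    congr 1
    ring
  have h2 : t / 2 * p + 1 ≤ Real.exp (t / 2 * p) := Real.add_one_le_exp _
  have h3 : (1 + Real.sqrt p) ^ 2 ≤ (2 + 4 / t) * (t / 2 * p + 1) := by
    have h4 : Real.sqrt p ^ 2 = p := Real.sq_sqrt hp
    have h5 : (2 + 4 / t) * (t / 2 * p + 1) = t * p + 2 + 2 * p + 4 / t := by
      field_simp
      ring
    have h6 : 0 ≤ 4 / t := by positivity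
    have h7 : 0 ≤ t * p := by positivity
    have h8 := sq_nonneg (1 - Real.sqrt p)
    rw [h5]
    linarith only [h4, h6, h7, h8]
  have h4 : Real.exp (t / 2 * p) * Real.exp (-(t / 2) * p) = 1 := by
    rw [← Real.exp_add, neg_mul, add_neg_cancel, Real.exp_zero]
  rw [h1, ← mul_assoc]
  refine mul_le_mul_of_nonneg_right ?_ (Real.exp_pos _).le
  calc (1 + Real.sqrt p) ^ 2 * Real.exp (-(t / 2) * p)
      ≤ ((2 + 4 / t) * Real.exp (t / 2 * p)) * Real.exp (-(t / 2) * p) := by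
        gcongr
        exact h3.trans (by gcongr)
    _ = 2 + 4 / t := by rw [mul_assoc, h4, mul_one]

lemma gauss_three {p : ℝ} (hp : 0 ≤ p) :
    (1 + Real.sqrt p) ^ 3 * Real.exp (-p) ≤ 16 * Real.exp (-(1 / 2) * p) := by
  have h1 : Real.exp (-p) = Real.exp (-(1 / 2) * p) * Real.exp (-(1 / 2) * p) := by
    rw [← Real.exp_add]
    congr 1
    ring
  have h2 : 1 + 1 / 2 * p + (1 / 2 * p) ^ 2 / 2 ≤ Real.exp (1 / 2 * p) :=
    Real.quadratic_le_exp_of_nonneg (by linarith)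
  have h3 : (1 + Real.sqrt p) ^ 3 ≤ 16 * (1 + 1 / 2 * p + (1 / 2 * p) ^ 2 / 2) := by
    have h4 : Real.sqrt p ^ 2 = p := Real.sq_sqrt hp
    have h5 := Real.sqrt_nonneg p
    set u := Real.sqrt p
    rw [← h4]
    nlinarith only [h5, sq_nonneg (u - 1), sq_nonneg (u ^ 2 - u), sq_nonneg (u ^ 2 - 1),
      mul_nonneg h5 (sq_nonneg (u - 1))]
  have h4 : Real.exp (1 / 2 * p) * Real.exp (-(1 / 2) * p) = 1 := by
    rw [← Real.exp_add, neg_mul, add_neg_cancel, Real.exp_zero]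
  rw [h1, ← mul_assoc]
  refine mul_le_mul_of_nonneg_right ?_ (Real.exp_pos _).le
  calc (1 + Real.sqrt p) ^ 3 * Real.exp (-(1 / 2) * p)
      ≤ (16 * Real.exp (1 / 2 * p)) * Real.exp (-(1 / 2) * p) := by
        gcongr
        exact h3.trans (by gcongr)
    _ = 16 := by rw [mul_assoc, h4, mul_one]

theorem Ps_adm {t : ℝ} (ht : 0 < t) : Adm (K.Ps t) := by
  refine ⟨(K.contDiff_Ps t).continuous, ?_⟩
  obtain ⟨C, hC, hb⟩ := K.exists_Ps_bound
  refine ⟨t ^ 2 * (C * (t⁻¹ * (1 + t⁻¹)) + C) * (2 + 4 / t), t / 2, by linarith, fun x => ?_⟩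
  have hs : 0 < t⁻¹ := inv_pos.2 ht
  obtain ⟨h1, h2⟩ := hb t t⁻¹ x hs (inv_mul_cancel₀ ht.ne')
  have hp := perp2_nonneg x
  have hB := B0_nonneg x
  have hz := ze_nonneg x
  set e := Real.exp (-t * perp2 x) with he
  have he0 : 0 < e := Real.exp_pos _
  have h3 : ‖(((t⁻¹) ^ 2 : ℝ) : ℂ) • K.Ps t x‖ ≤
      e * (C * (t⁻¹ * (1 + t⁻¹)) * WW x) + e * (C * WW x) := by
    have e1 : (((t⁻¹) ^ 2 : ℝ) : ℂ) • K.Ps t x =
        ((((t⁻¹) ^ 2 : ℝ) : ℂ) • K.Ps t x - (e : ℂ) • K.xi x) + (e : ℂ) • K.xi x := by abel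
    rw [e1]
    refine (norm_add_le _ _).trans (add_le_add h1 ?_)
    rw [he, norm_exp_smul]
    exact mul_le_mul_of_nonneg_left h2 he0.le
  have h4 : ‖K.Ps t x‖ = t ^ 2 * ‖(((t⁻¹) ^ 2 : ℝ) : ℂ) • K.Ps t x‖ := by
    rw [norm_smul, Complex.norm_real, Real.norm_of_nonneg (by positivity), ← mul_assoc,
      ← mul_pow, mul_inv_cancel₀ ht.ne', one_pow, one_mul]
  rw [h4]
  calc t ^ 2 * ‖(((t⁻¹) ^ 2 : ℝ) : ℂ) • K.Ps t x‖
      ≤ t ^ 2 * (e * (C * (t⁻¹ * (1 + t⁻¹)) * WW x) + e * (C * WW x)) := by gcongr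
    _ = t ^ 2 * (C * (t⁻¹ * (1 + t⁻¹)) + C) *
        ((1 + Real.sqrt (perp2 x)) ^ 2 * e) * ((1 + ze x) ^ 3 * B0 x) := by
        unfold WW
        ring
    _ ≤ t ^ 2 * (C * (t⁻¹ * (1 + t⁻¹)) + C) *
        ((2 + 4 / t) * Real.exp (-(t / 2) * perp2 x)) * ((1 + ze x) ^ 3 * B0 x) := by
        have h5 := gauss_two ht hp
        exact mul_le_mul_of_nonneg_right (mul_le_mul_of_nonneg_left h5 (by positivity))
          (by positivity)
    _ = _ := by ring

theorem lim1 {Φ : X3 → F} (hΦ : Continuous Φ)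
    (hb : ∃ C, ∀ x, ‖Φ x‖ ≤ C * (1 + Real.sqrt (phsq x))) :
    Tendsto (fun t : ℝ => ∫ x, inner ℂ (K.Ps t x) (Φ x)) atTop
      (𝓝 (∫ x, (Real.exp (-perp2 x) : ℂ) * inner ℂ (K.xi (pr x)) (Φ (pr x)))) := by
  obtain ⟨C, hC, hbd⟩ := K.exists_Ps_bound
  obtain ⟨C', hΦb⟩ := hb
  have hC' : 0 ≤ C' := by
    have h1 := (norm_nonneg _).trans (hΦb 0)
    have h2 : 0 < 1 + Real.sqrt (phsq 0) := by positivity
    exact nonneg_of_mul_nonneg_left h1 h2
  -- the rescaled integrand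
  set r : ℝ → ℝ := fun t => (Real.sqrt t)⁻¹ with hr
  have hr2 : ∀ t, 0 < t → r t ^ 2 = t⁻¹ := fun t ht => by
    rw [hr, inv_pow, Real.sq_sqrt ht.le]
  set f : ℝ → X3 → ℂ := fun t y =>
    inner ℂ (((t⁻¹ ^ 2 : ℝ) : ℂ) • K.Ps t (scl (r t) y)) (Φ (scl (r t) y)) with hf
  have hev : ∀ᶠ t : ℝ in atTop, ∫ x, inner ℂ (K.Ps t x) (Φ x) = ∫ y, f t y := by
    filter_upwards [eventually_gt_atTop 0] with t ht
    have hr0 : 0 < r t := inv_pos.2 (Real.sqrt_pos.2 ht)
    rw [integral_scl hr0]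
    refine integral_congr_ae (Eventually.of_forall fun y => ?_)
    simp only [hf]
    rw [inner_smul_left, Complex.conj_ofReal]
    have h4 : r t ^ 4 = t⁻¹ ^ 2 := by rw [← hr2 t ht]; ring
    rw [h4]
  have hkey : ∀ t, 1 ≤ t → ∀ y, ‖((t⁻¹ ^ 2 : ℝ) : ℂ) • K.Ps t (scl (r t) y) -
      ((Real.exp (-perp2 y) : ℝ) : ℂ) • K.xi (pr y)‖ ≤
      t⁻¹ * (Real.exp (-perp2 y) * (2 * C * WW y)) ∧
      ‖((t⁻¹ ^ 2 : ℝ) : ℂ) • K.Ps t (scl (r t) y)‖ ≤ Real.exp (-perp2 y) * (3 * C * WW y) := by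
    intro t ht y
    have ht0 : 0 < t := by linarith
    have hs : 0 < t⁻¹ := inv_pos.2 ht0
    have hs1 : t⁻¹ ≤ 1 := inv_le_one_of_one_le₀ ht
    have hp := perp2_nonneg y
    obtain ⟨h1, h2⟩ := hbd t t⁻¹ (scl (r t) y) hs (inv_mul_cancel₀ ht0.ne')
    have e1 : -t * perp2 (scl (r t) y) = -perp2 y := by
      rw [perp2_scl, hr2 t ht0]
      field_simp
    have e2 : K.xi (scl (r t) y) = K.xi (pr y) := by
      rw [← scl_zero]
      unfold xi
      rw [K.hh_scl, K.hh_scl, K.aT_scl, K.aT_scl]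
    have e3 : WW (scl (r t) y) ≤ WW y := by
      unfold WW
      rw [ze_scl, B0_scl, perp2_scl, hr2 t ht0]
      have h3 : t⁻¹ * perp2 y ≤ perp2 y := by nlinarith
      have h4 := Real.sqrt_le_sqrt h3
      have h5 := ze_nonneg y
      have h6 := B0_nonneg y
      have h7 := Real.sqrt_nonneg (t⁻¹ * perp2 y)
      gcongr
    have hW0 := WW_nonneg y
    have hW1 := WW_nonneg (scl (r t) y)
    have hE := (Real.exp_pos (-perp2 y)).le
    rw [e1, e2] at h1
    rw [e2] at h2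
    have h8 : C * (t⁻¹ * (1 + t⁻¹)) * WW (scl (r t) y) ≤ t⁻¹ * (2 * C * WW y) := by
      calc C * (t⁻¹ * (1 + t⁻¹)) * WW (scl (r t) y) ≤ C * (t⁻¹ * (1 + 1)) * WW y := by gcongr
        _ = _ := by ring
    have h9 : ‖((t⁻¹ ^ 2 : ℝ) : ℂ) • K.Ps t (scl (r t) y) -
        ((Real.exp (-perp2 y) : ℝ) : ℂ) • K.xi (pr y)‖ ≤
        t⁻¹ * (Real.exp (-perp2 y) * (2 * C * WW y)) := by
      refine h1.trans ((mul_le_mul_of_nonneg_left h8 hE).trans (le_of_eq ?_))
      ring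
    refine ⟨h9, ?_⟩
    have e4 : ((t⁻¹ ^ 2 : ℝ) : ℂ) • K.Ps t (scl (r t) y) =
        (((t⁻¹ ^ 2 : ℝ) : ℂ) • K.Ps t (scl (r t) y) -
        ((Real.exp (-perp2 y) : ℝ) : ℂ) • K.xi (pr y)) +
        ((Real.exp (-perp2 y) : ℝ) : ℂ) • K.xi (pr y) := by abel
    rw [e4]
    refine (norm_add_le _ _).trans ?_
    rw [norm_exp_smul]
    have h10 : ‖K.xi (pr y)‖ ≤ C * WW y := h2.trans (by gcongr)
    have h11 : t⁻¹ * (Real.exp (-perp2 y) * (2 * C * WW y)) ≤
        1 * (Real.exp (-perp2 y) * (2 * C * WW y)) := by gcongr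
    calc _ ≤ 1 * (Real.exp (-perp2 y) * (2 * C * WW y)) + Real.exp (-perp2 y) * (C * WW y) :=
          add_le_add (h9.trans h11) (by gcongr)
      _ = _ := by ring
  have htop : Tendsto (fun t : ℝ => t⁻¹) atTop (𝓝 0) := tendsto_inv_atTop_zero
  have hrt : Tendsto r atTop (𝓝 0) := by
    have h1 : Tendsto Real.sqrt atTop atTop := Real.tendsto_sqrt_atTop
    exact tendsto_inv_atTop_zero.comp h1
  -- the majorant
  have hint : Integrable fun y : X3 => (3 * C * C' * 16) *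
      ((1 + ze y) ^ 4 * Real.exp (-(1 / 2) * perp2 y) * B0 y) :=
    (integrable_J (by norm_num : (0 : ℝ) < 1 / 2)).const_mul _
  have hmain : Tendsto (fun t : ℝ => ∫ y, f t y) atTop
      (𝓝 (∫ x, (Real.exp (-perp2 x) : ℂ) * inner ℂ (K.xi (pr x)) (Φ (pr x)))) := by
    refine tendsto_integral_filter_of_dominated_convergence _ ?_ ?_ hint ?_
    · filter_upwards with t
      have hc : Continuous fun y => scl (r t) y :=
        continuous_scl.comp (Continuous.prodMk_right (r t))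
      have hP := (K.contDiff_Ps t).continuous.comp hc
      have hcont : Continuous (f t) := by
        simp only [hf]
        exact (hP.const_smul _).inner (hΦ.comp hc)
      exact hcont.aestronglyMeasurable
    · filter_upwards [eventually_ge_atTop 1] with t ht
      refine Eventually.of_forall fun y => ?_
      have ht0 : 0 < t := by linarith
      have hp := perp2_nonneg y
      have hz := ze_nonneg y
      have hB := B0_nonneg y
      have h1 := (hkey t ht y).2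
      have h2 : ‖Φ (scl (r t) y)‖ ≤ C' * ((1 + ze y) * (1 + Real.sqrt (perp2 y))) := by
        refine (hΦb _).trans (mul_le_mul_of_nonneg_left ?_ hC')
        have h3 : Real.sqrt (phsq (scl (r t) y)) ≤ Real.sqrt (perp2 y) + ze y := by
          apply Real.sqrt_le_iff.2
          refine ⟨by positivity, ?_⟩
          rw [phsq_eq, perp2_scl, r3_scl, hr2 t ht0]
          have h4 : Real.sqrt (perp2 y) ^ 2 = perp2 y := Real.sq_sqrt hp
          have h5 : ze y ^ 2 = r3 y := by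
            unfold ze
            rw [Real.sq_sqrt]
            unfold r3
            positivity
          have h6 : t⁻¹ * perp2 y ≤ 1 * perp2 y := by
            gcongr
            exact inv_le_one_of_one_le₀ ht
          have h7 : 0 ≤ Real.sqrt (perp2 y) * ze y := by positivity
          nlinarith only [h4, h5, h6, h7]
        have h7 : 0 ≤ Real.sqrt (perp2 y) * ze y := by positivity
        nlinarith only [h3, h7]
      have hE := (Real.exp_pos (-perp2 y)).le
      have hW := WW_nonneg y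
      simp only [hf]
      calc ‖(inner ℂ (((t⁻¹ ^ 2 : ℝ) : ℂ) • K.Ps t (scl (r t) y)) (Φ (scl (r t) y)) : ℂ)‖
          ≤ ‖((t⁻¹ ^ 2 : ℝ) : ℂ) • K.Ps t (scl (r t) y)‖ * ‖Φ (scl (r t) y)‖ :=
            norm_inner_le_norm _ _
        _ ≤ (Real.exp (-perp2 y) * (3 * C * WW y)) *
            (C' * ((1 + ze y) * (1 + Real.sqrt (perp2 y)))) := by gcongr
        _ = (3 * C * C') * (((1 + Real.sqrt (perp2 y)) ^ 3 * Real.exp (-perp2 y)) *
            ((1 + ze y) ^ 4 * B0 y)) := by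
            unfold WW
            ring
        _ ≤ (3 * C * C') * ((16 * Real.exp (-(1 / 2) * perp2 y)) * ((1 + ze y) ^ 4 * B0 y)) := by
            have h5 := gauss_three hp
            exact mul_le_mul_of_nonneg_left (mul_le_mul_of_nonneg_right h5 (by positivity))
              (by positivity)
        _ = _ := by ring
    · refine Eventually.of_forall fun y => ?_
      have h1 : Tendsto (fun t : ℝ => ((t⁻¹ ^ 2 : ℝ) : ℂ) • K.Ps t (scl (r t) y)) atTop
          (𝓝 (((Real.exp (-perp2 y) : ℝ) : ℂ) • K.xi (pr y))) := by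
        rw [tendsto_iff_norm_sub_tendsto_zero]
        have h2 : Tendsto (fun t : ℝ => t⁻¹ * (Real.exp (-perp2 y) * (2 * C * WW y))) atTop
            (𝓝 0) := by
          have := htop.mul_const (Real.exp (-perp2 y) * (2 * C * WW y))
          rwa [zero_mul] at this
        refine squeeze_zero' (Eventually.of_forall fun t => norm_nonneg _) ?_ h2
        filter_upwards [eventually_ge_atTop 1] with t ht
        exact (hkey t ht y).1
      have h3 : Tendsto (fun t : ℝ => Φ (scl (r t) y)) atTop (𝓝 (Φ (pr y))) := by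
        rw [← scl_zero]
        have hc : Continuous fun ρ => Φ (scl ρ y) :=
          hΦ.comp (continuous_scl.comp (Continuous.prodMk_left y))
        exact (hc.tendsto 0).comp hrt
      have h4 := h1.inner (𝕜 := ℂ) h3
      rw [inner_smul_left, Complex.conj_ofReal] at h4
      exact h4
  exact (tendsto_congr' hev).2 hmain

end Fk

end Vale.Agent.P353.Ex
end

section

/-! Task EX-17: equivariance of the `T`-level form and of the induced form.

Under `Tel θ`: `w → e^{∓2iθ} w`, `s` gets a phase, `κ, b, μ, |w|², φ_2, db, dκ, ds ds̄, dx¹dx²`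
(summed or single `k`) are invariant.  Under `Wel` (`x¹ → x¹, x² → -x², x³ → -x³`,
`φ_2 → -φ_2`): `s ↔ s̄` (`ds ↔ ds̄`), `κ → -κ`, `b → -b`, `μ → -μ`, so
`tau0 → -tau0` (uses `ds̄ ds = - ds ds̄`), `bet → -bet` (7 factors), `rho, eeT` invariant, and the
prefactor `z → -z`; total sign `-1`. -/

open MeasureTheory Filter Topology
open scoped ContDiff ComplexConjugate

namespace Vale.Agent.P353.Ex

variable {F : Type*} [NormedAddCommGroup F] [InnerProductSpace ℂ F]

private lemma act_coord (U : SU2) (x : X3) (i : Fin 9) (B : Fin 3) :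
    act U x (i, B) = rotm U B 0 * x (i, 0) + rotm U B 1 * x (i, 1) + rotm U B 2 * x (i, 2) := by
  simp only [act, Fin.sum_univ_three]

private lemma wel_0 (x : X3) (i : Fin 9) : act Wel x (i, 0) = x (i, 0) := by
  rw [act_coord]; simp [rotm_Wel]

private lemma wel_1 (x : X3) (i : Fin 9) : act Wel x (i, 1) = - x (i, 1) := by
  rw [act_coord]; simp [rotm_Wel]

private lemma wel_2 (x : X3) (i : Fin 9) : act Wel x (i, 2) = - x (i, 2) := by
  rw [act_coord]; simp [rotm_Wel]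

private lemma tel_0 (θ : ℝ) (x : X3) (i : Fin 9) :
    act (Tel θ) x (i, 0) = Real.cos (2 * θ) * x (i, 0) + Real.sin (2 * θ) * x (i, 1) := by
  rw [act_coord]; simp [rotm_Tel]

private lemma tel_1 (θ : ℝ) (x : X3) (i : Fin 9) :
    act (Tel θ) x (i, 1) = -Real.sin (2 * θ) * x (i, 0) + Real.cos (2 * θ) * x (i, 1) := by
  rw [act_coord]; simp [rotm_Tel]

private lemma tel_2 (θ : ℝ) (x : X3) (i : Fin 9) : act (Tel θ) x (i, 2) = x (i, 2) := by
  rw [act_coord]; simp [rotm_Tel]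

namespace Fk

variable (K : Fk F)

private lemma wc0 (i : Fin 8) : K.S Wel * K.c i 0 = K.c i 0 * K.S Wel := by
  rw [K.S_c, Fin.sum_univ_three]; simp [rotm_Wel]

private lemma wc1 (i : Fin 8) : K.S Wel * K.c i 1 = -(K.c i 1 * K.S Wel) := by
  rw [K.S_c, Fin.sum_univ_three]; simp [rotm_Wel]

private lemma wc2 (i : Fin 8) : K.S Wel * K.c i 2 = -(K.c i 2 * K.S Wel) := by
  rw [K.S_c, Fin.sum_univ_three]; simp [rotm_Wel]

private lemma wa0 (i : Fin 8) : K.S Wel * K.a i 0 = K.a i 0 * K.S Wel := by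
  rw [K.S_a, Fin.sum_univ_three]; simp [rotm_Wel]

private lemma wa1 (i : Fin 8) : K.S Wel * K.a i 1 = -(K.a i 1 * K.S Wel) := by
  rw [K.S_a, Fin.sum_univ_three]; simp [rotm_Wel]

private lemma wa2 (i : Fin 8) : K.S Wel * K.a i 2 = -(K.a i 2 * K.S Wel) := by
  rw [K.S_a, Fin.sum_univ_three]; simp [rotm_Wel]

private lemma tc0 (θ : ℝ) (i : Fin 8) : K.S (Tel θ) * K.c i 0 =
    ((Real.cos (2 * θ) : ℝ) : ℂ) • (K.c i 0 * K.S (Tel θ)) -
    ((Real.sin (2 * θ) : ℝ) : ℂ) • (K.c i 1 * K.S (Tel θ)) := by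
  rw [K.S_c, Fin.sum_univ_three, sub_eq_add_neg, ← neg_smul]; simp [rotm_Tel]

private lemma tc1 (θ : ℝ) (i : Fin 8) : K.S (Tel θ) * K.c i 1 =
    ((Real.sin (2 * θ) : ℝ) : ℂ) • (K.c i 0 * K.S (Tel θ)) +
    ((Real.cos (2 * θ) : ℝ) : ℂ) • (K.c i 1 * K.S (Tel θ)) := by
  rw [K.S_c, Fin.sum_univ_three]; simp [rotm_Tel]

private lemma tc2 (θ : ℝ) (i : Fin 8) : K.S (Tel θ) * K.c i 2 = K.c i 2 * K.S (Tel θ) := by
  rw [K.S_c, Fin.sum_univ_three]; simp [rotm_Tel]


private lemma anti_c (i : Fin 8) (A : Fin 3) (j : Fin 8) (B : Fin 3) :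
    K.c i A * K.c j B = -(K.c j B * K.c i A) := eq_neg_of_add_eq_zero_left (K.cc i A j B)

/-! ### Weyl element, algebra -/

private lemma wel_ds (x : X3) : K.ds (act Wel x) * K.S Wel = K.S Wel * K.dsb x := by
  unfold ds dsb
  rw [Finset.sum_mul, Finset.mul_sum]
  refine Finset.sum_congr rfl fun i _ => ?_
  rw [wel_0, wel_1, smul_mul_assoc, mul_smul_comm, add_mul, mul_sub (K.S Wel), mul_smul_comm,
    smul_mul_assoc,
    K.wc0, K.wc1]
  push_cast
  module

private lemma wel_dsb (x : X3) : K.dsb (act Wel x) * K.S Wel = K.S Wel * K.ds x := by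
  unfold ds dsb
  rw [Finset.sum_mul, Finset.mul_sum]
  refine Finset.sum_congr rfl fun i _ => ?_
  rw [wel_0, wel_1, smul_mul_assoc, mul_smul_comm, sub_mul, mul_add (K.S Wel), mul_smul_comm,
    smul_mul_assoc,
    K.wc0, K.wc1]
  push_cast
  module

/-- linear combinations of creation operators anticommute -/
private lemma lin_anti {ι : Type*} (s t : Finset ι) (f g : ι → F →L[ℂ] F)
    (h : ∀ i j, f i * g j = -(g j * f i)) :
    (∑ i ∈ s, f i) * (∑ j ∈ t, g j) = -((∑ j ∈ t, g j) * (∑ i ∈ s, f i)) := by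
  rw [Finset.sum_mul_sum, Finset.sum_mul_sum, Finset.sum_comm, ← Finset.sum_neg_distrib]
  refine Finset.sum_congr rfl fun i _ => ?_
  rw [← Finset.sum_neg_distrib]
  exact Finset.sum_congr rfl fun j _ => h j i

private lemma ds_dsb (x : X3) : K.ds x * K.dsb x = -(K.dsb x * K.ds x) := by
  unfold ds dsb
  refine lin_anti _ _ _ _ fun i j => ?_
  simp only [smul_mul_assoc, mul_smul_comm, add_mul, mul_sub, mul_add, sub_mul, smul_smul]
  rw [K.anti_c (e8 i) 0 (e8 j) 0, K.anti_c (e8 i) 0 (e8 j) 1, K.anti_c (e8 i) 1 (e8 j) 0,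
    K.anti_c (e8 i) 1 (e8 j) 1]
  module

private lemma wel_ph2 (x : X3) : K.ph 2 (act Wel x) = - K.ph 2 x := by
  unfold ph
  rw [wel_2, wel_2]; push_cast; ring

private lemma wel_phb2 (x : X3) : K.phb 2 (act Wel x) = - K.phb 2 x := by
  unfold phb
  rw [wel_2, wel_2]; push_cast; ring

private lemma wel_phb1 (x : X3) : K.phb 1 (act Wel x) = - K.phb 1 x := by
  unfold phb
  rw [wel_1, wel_1]; push_cast; ring

private lemma wel_phb0 (x : X3) : K.phb 0 (act Wel x) = K.phb 0 x := by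
  unfold phb
  rw [wel_0, wel_0]

private lemma wel_tau0 (x : X3) : K.tau0 (act Wel x) * K.S Wel = -(K.S Wel * K.tau0 x) := by
  have h1 : K.ds (act Wel x) * K.dsb (act Wel x) * K.S Wel = -(K.S Wel * (K.ds x * K.dsb x)) := by
    rw [mul_assoc, wel_dsb, ← mul_assoc, wel_ds, mul_assoc, K.ds_dsb x, mul_neg, neg_neg]
  unfold tau0
  rw [sub_mul, mul_sub, smul_mul_assoc, smul_mul_assoc, h1, wel_ph2, mul_smul_comm, mul_smul_comm,
    one_mul, mul_one]
  module

private lemma wel_r3 (x : X3) : r3 (act Wel x) = r3 x := by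
  unfold r3; rw [wel_2, wel_2]; ring

private lemma wel_gg (x : X3) : gg (act Wel x) = gg x := by
  unfold gg; rw [wel_r3]

private lemma wel_qq (x : X3) : K.qq (act Wel x) = - K.qq x := by
  unfold qq; rw [wel_gg, wel_phb2]; ring

private lemma wel_qp (x : X3) : qp (act Wel x) = qp x := by
  unfold qp; rw [wel_gg, wel_r3]

private lemma wel_wsq (x : X3) : wsq (act Wel x) = wsq x := by
  unfold wsq
  refine Finset.sum_congr rfl fun i _ => ?_
  rw [wel_0, wel_1]; ring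

private lemma wel_ss (x : X3) : ss (act Wel x) = conj (ss x) := by
  unfold ss
  rw [map_sum]
  refine Finset.sum_congr rfl fun i _ => ?_
  rw [wel_0, wel_1]
  simp only [map_pow, map_add, map_mul, Complex.conj_ofReal, Complex.conj_I]
  push_cast; ring

private lemma wel_kap (k : Fin 7) (x : X3) : K.kap k (act Wel x) = - K.kap k x := by
  unfold kap
  rw [← Finset.sum_neg_distrib]
  refine Finset.sum_congr rfl fun i _ => ?_
  rw [← Finset.sum_neg_distrib]
  refine Finset.sum_congr rfl fun j _ => ?_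
  rw [wel_0, wel_1]; ring

private lemma wel_bb (k : Fin 7) (x : X3) : K.bb k (act Wel x) = - K.bb k x := by
  unfold bb
  rw [wel_kap, wel_2]; ring

private lemma wel_expo (x : X3) : K.expo (act Wel x) = K.expo x := by
  unfold expo
  rw [wel_ss, wel_gg, wel_r3, wel_wsq, RCLike.norm_conj]
  congr 2
  refine Finset.sum_congr rfl fun k _ => ?_
  rw [wel_bb, neg_sq]

private lemma wel_dkap (k : Fin 7) (x : X3) :
    K.dkap k (act Wel x) * K.S Wel = -(K.S Wel * K.dkap k x) := by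
  unfold dkap
  simp only [Finset.sum_mul, Finset.mul_sum, ← Finset.sum_neg_distrib]
  refine Finset.sum_congr rfl fun i _ => Finset.sum_congr rfl fun j _ => ?_
  rw [wel_0, wel_1]
  simp only [smul_mul_assoc, mul_smul_comm, add_mul, mul_add, K.wc0, K.wc1]
  push_cast
  module

private lemma wel_db (k : Fin 7) (x : X3) :
    K.db k (act Wel x) * K.S Wel = -(K.S Wel * K.db k x) := by
  unfold db
  rw [sub_mul, mul_sub, smul_mul_assoc, mul_smul_comm, wel_dkap, K.wc2]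
  module

private lemma wel_mu (x : X3) : K.mu (act Wel x) * K.S Wel = -(K.S Wel * K.mu x) := by
  unfold mu
  simp only [Finset.sum_mul, Finset.mul_sum, ← Finset.sum_neg_distrib]
  refine Finset.sum_congr rfl fun i _ => ?_
  rw [wel_0, wel_1]
  simp only [smul_mul_assoc, mul_smul_comm, sub_mul, mul_sub, K.wc0, K.wc1]
  push_cast
  module

/-- intertwining of products of lists -/
private lemma list_prod_tw (S : F →L[ℂ] F) {n : ℕ} (f g : Fin n → F →L[ℂ] F)
    (h : ∀ k, f k * S = S * g k) : (List.ofFn f).prod * S = S * (List.ofFn g).prod := by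
  induction n with
  | zero => simp
  | succ n ih =>
    rw [List.ofFn_succ, List.ofFn_succ, List.prod_cons, List.prod_cons, mul_assoc,
      ih (fun k => f k.succ) (fun k => g k.succ) fun k => h _, ← mul_assoc, h, mul_assoc]

private lemma list_prod_anti (S : F →L[ℂ] F) {n : ℕ} (f g : Fin n → F →L[ℂ] F)
    (h : ∀ k, f k * S = -(S * g k)) :
    (List.ofFn f).prod * S = (-1 : ℂ) ^ n • (S * (List.ofFn g).prod) := by
  induction n with
  | zero => simp
  | succ n ih =>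
    rw [List.ofFn_succ, List.ofFn_succ, List.prod_cons, List.prod_cons, mul_assoc,
      ih (fun k => f k.succ) (fun k => g k.succ) fun k => h _, mul_smul_comm, ← mul_assoc, h,
      pow_succ, mul_smul, neg_mul, mul_assoc, smul_comm, neg_one_smul, smul_neg]

private lemma wel_bet (x : X3) : K.bet (act Wel x) * K.S Wel = -(K.S Wel * K.bet x) := by
  unfold bet
  rw [list_prod_anti _ _ _ fun k => K.wel_db k x]
  norm_num

private lemma wel_rho (x : X3) : K.rho (act Wel x) * K.S Wel = K.S Wel * K.rho x := by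
  have h : K.dpb 2 * K.mu (act Wel x) * K.S Wel = K.S Wel * (K.dpb 2 * K.mu x) := by
    unfold dpb
    rw [mul_assoc, wel_mu, smul_mul_assoc, smul_mul_assoc, mul_smul_comm, mul_neg, ← mul_assoc,
      ← mul_assoc, K.wc2, neg_mul]
  unfold rho
  rw [add_mul, mul_add, one_mul, mul_one, smul_mul_assoc, h, mul_smul_comm, wel_qp]

private lemma wel_eeT (x : X3) : K.eeT (act Wel x) * K.S Wel = K.S Wel * K.eeT x := by
  unfold eeT
  refine list_prod_tw _ _ _ fun k => ?_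
  have h : K.c (e8 k) 0 * K.c (e8 k) 1 * K.S Wel = -(K.S Wel * (K.c (e8 k) 0 * K.c (e8 k) 1)) := by
    rw [← mul_assoc, K.wc0, mul_assoc (K.c (e8 k) 0) (K.S Wel), K.wc1, mul_neg, neg_neg, mul_assoc]
  rw [add_mul, mul_add, one_mul, mul_one, smul_mul_assoc, h, mul_smul_comm, wel_qq]
  module

theorem aT_Wel (x : X3) : K.aT (act Wel x) = - K.S Wel (K.aT x) := by
  have h : K.tau0 (act Wel x) * K.bet (act Wel x) * K.rho (act Wel x) * K.eeT (act Wel x) *
      K.S Wel = K.S Wel * (K.tau0 x * K.bet x * K.rho x * K.eeT x) := by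
    rw [mul_assoc, wel_eeT, ← mul_assoc, mul_assoc _ (K.rho (act Wel x)), wel_rho, ← mul_assoc,
      mul_assoc (K.tau0 (act Wel x)), wel_bet, mul_neg, ← mul_assoc, wel_tau0]
    simp only [neg_mul, neg_neg, mul_assoc]
  have h2 := congrArg (fun T : F →L[ℂ] F => T K.vac) h
  simp only [mul_apply_eq_comp, K.S_vac] at h2
  unfold aT
  simp only [mul_apply_eq_comp, wel_expo, wel_ph2, map_smul, h2]
  module

/-! ### torus, algebra -/

private lemma cs_sq (θ : ℝ) : Real.cos (2 * θ) ^ 2 + Real.sin (2 * θ) ^ 2 = 1 := by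
  rw [add_comm]; exact Real.sin_sq_add_cos_sq _

private lemma cs_mul (θ : ℝ) : ((Real.cos (2 * θ) : ℂ) - Complex.I * (Real.sin (2 * θ) : ℂ)) *
    ((Real.cos (2 * θ) : ℂ) + Complex.I * (Real.sin (2 * θ) : ℂ)) = 1 := by
  have h : ((Real.cos (2 * θ) : ℂ)) ^ 2 + (Real.sin (2 * θ) : ℂ) ^ 2 = 1 := by
    exact_mod_cast cs_sq θ
  have h2 := Complex.I_sq
  linear_combination h - (Real.sin (2 * θ) : ℂ) ^ 2 * h2

private lemma tel_w (θ : ℝ) (x : X3) (i : Fin 9) :
    (act (Tel θ) x (i, 0) : ℂ) + Complex.I * (act (Tel θ) x (i, 1) : ℂ) =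
    ((Real.cos (2 * θ) : ℂ) - Complex.I * (Real.sin (2 * θ) : ℂ)) *
      ((x (i, 0) : ℂ) + Complex.I * (x (i, 1) : ℂ)) := by
  rw [tel_0, tel_1]
  push_cast
  have h2 := Complex.I_sq
  linear_combination (Complex.sin (2 * θ) * (x (i, 1) : ℂ)) * h2

private lemma tel_wb (θ : ℝ) (x : X3) (i : Fin 9) :
    (act (Tel θ) x (i, 0) : ℂ) - Complex.I * (act (Tel θ) x (i, 1) : ℂ) =
    ((Real.cos (2 * θ) : ℂ) + Complex.I * (Real.sin (2 * θ) : ℂ)) *
      ((x (i, 0) : ℂ) - Complex.I * (x (i, 1) : ℂ)) := by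
  rw [tel_0, tel_1]
  push_cast
  have h2 := Complex.I_sq
  linear_combination (Complex.sin (2 * θ) * (x (i, 1) : ℂ)) * h2

private lemma tel_ds (θ : ℝ) (x : X3) : K.ds (act (Tel θ) x) =
    ((Real.cos (2 * θ) : ℂ) - Complex.I * (Real.sin (2 * θ) : ℂ)) • K.ds x := by
  unfold ds
  rw [Finset.smul_sum]
  refine Finset.sum_congr rfl fun i _ => ?_
  rw [tel_w, smul_smul]
  congr 1
  ring

private lemma tel_dsb (θ : ℝ) (x : X3) : K.dsb (act (Tel θ) x) =
    ((Real.cos (2 * θ) : ℂ) + Complex.I * (Real.sin (2 * θ) : ℂ)) • K.dsb x := by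
  unfold dsb
  rw [Finset.smul_sum]
  refine Finset.sum_congr rfl fun i _ => ?_
  rw [tel_wb, smul_smul]
  congr 1
  ring

private lemma tel_S_ds (θ : ℝ) (x : X3) : K.S (Tel θ) * K.ds x =
    ((Real.cos (2 * θ) : ℂ) + Complex.I * (Real.sin (2 * θ) : ℂ)) • (K.ds x * K.S (Tel θ)) := by
  have h0 := K.tc0 θ
  have h1 := K.tc1 θ
  generalize Real.cos (2 * θ) = c at *
  generalize Real.sin (2 * θ) = s at *
  unfold ds
  rw [Finset.sum_mul, Finset.mul_sum, Finset.smul_sum]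
  refine Finset.sum_congr rfl fun i _ => ?_
  simp only [smul_mul_assoc, mul_smul_comm, add_mul, mul_add (K.S (Tel θ)), h0, h1]
  match_scalars
  · ring
  · linear_combination (-2 * (s : ℂ) *
      ((x (e9 i, 0) : ℂ) + Complex.I * (x (e9 i, 1) : ℂ))) * Complex.I_sq

private lemma tel_S_dsb (θ : ℝ) (x : X3) : K.S (Tel θ) * K.dsb x =
    ((Real.cos (2 * θ) : ℂ) - Complex.I * (Real.sin (2 * θ) : ℂ)) • (K.dsb x * K.S (Tel θ)) := by
  have h0 := K.tc0 θ
  have h1 := K.tc1 θ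
  generalize Real.cos (2 * θ) = c at *
  generalize Real.sin (2 * θ) = s at *
  unfold dsb
  rw [Finset.sum_mul, Finset.mul_sum, Finset.smul_sum]
  refine Finset.sum_congr rfl fun i _ => ?_
  simp only [smul_mul_assoc, mul_smul_comm, sub_mul, mul_sub (K.S (Tel θ)), h0, h1]
  match_scalars
  · ring
  · linear_combination (-2 * (s : ℂ) *
      ((x (e9 i, 0) : ℂ) - Complex.I * (x (e9 i, 1) : ℂ))) * Complex.I_sq

private lemma tel_dsdsb (θ : ℝ) (x : X3) :
    K.ds (act (Tel θ) x) * K.dsb (act (Tel θ) x) * K.S (Tel θ) =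
      K.S (Tel θ) * (K.ds x * K.dsb x) := by
  have h := cs_mul θ
  rw [← mul_assoc (K.S (Tel θ)), K.tel_S_ds, smul_mul_assoc, mul_assoc (K.ds x), K.tel_S_dsb,
    mul_smul_comm, smul_smul, K.tel_ds, K.tel_dsb, smul_mul_assoc, mul_smul_comm, smul_smul, h,
    mul_comm, h, one_smul, one_smul, mul_assoc]

private lemma tel_ph2 (θ : ℝ) (x : X3) : K.ph 2 (act (Tel θ) x) = K.ph 2 x := by
  unfold ph
  rw [tel_2, tel_2]

private lemma tel_phb2 (θ : ℝ) (x : X3) : K.phb 2 (act (Tel θ) x) = K.phb 2 x := by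
  unfold phb
  rw [tel_2, tel_2]

private lemma tel_tau0 (θ : ℝ) (x : X3) :
    K.tau0 (act (Tel θ) x) * K.S (Tel θ) = K.S (Tel θ) * K.tau0 x := by
  unfold tau0
  rw [sub_mul, mul_sub, smul_mul_assoc, smul_mul_assoc, K.tel_dsdsb, tel_ph2, mul_smul_comm,
    mul_smul_comm, one_mul, mul_one]

private lemma tel_r3 (θ : ℝ) (x : X3) : r3 (act (Tel θ) x) = r3 x := by
  unfold r3; rw [tel_2, tel_2]

private lemma tel_gg (θ : ℝ) (x : X3) : gg (act (Tel θ) x) = gg x := by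
  unfold gg; rw [tel_r3]

private lemma tel_qq (θ : ℝ) (x : X3) : K.qq (act (Tel θ) x) = K.qq x := by
  unfold qq; rw [tel_gg, tel_phb2]

private lemma tel_qp (θ : ℝ) (x : X3) : qp (act (Tel θ) x) = qp x := by
  unfold qp; rw [tel_gg, tel_r3]

private lemma tel_wsq (θ : ℝ) (x : X3) : wsq (act (Tel θ) x) = wsq x := by
  unfold wsq
  refine Finset.sum_congr rfl fun i _ => ?_
  rw [tel_0, tel_1]
  linear_combination (x (e9 i, 0) ^ 2 + x (e9 i, 1) ^ 2) * cs_sq θ

private lemma tel_ss (θ : ℝ) (x : X3) : ‖ss (act (Tel θ) x)‖ = ‖ss x‖ := by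
  have h : ss (act (Tel θ) x) =
      ((Real.cos (2 * θ) : ℂ) - Complex.I * (Real.sin (2 * θ) : ℂ)) ^ 2 * ss x := by
    unfold ss
    rw [Finset.mul_sum]
    refine Finset.sum_congr rfl fun i _ => ?_
    rw [tel_w, mul_pow]
  have h1 : ‖((Real.cos (2 * θ) : ℂ) - Complex.I * (Real.sin (2 * θ) : ℂ))‖ = 1 := by
    have h2 : ((Real.cos (2 * θ) : ℂ) - Complex.I * (Real.sin (2 * θ) : ℂ)) =
        Complex.exp (((-(2 * θ) : ℝ) : ℂ) * Complex.I) := by
      rw [Complex.exp_mul_I, ← Complex.ofReal_cos, ← Complex.ofReal_sin, Real.cos_neg, Real.sin_neg]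
      push_cast; ring
    rw [h2, Complex.norm_exp_ofReal_mul_I]
  rw [h, norm_mul, norm_pow, h1, one_pow, one_mul]

/-- antisymmetry of `t` for sums -/
private lemma t_anti {M : Type*} [AddCommGroup M] [Module ℂ M] (k : Fin 7) (f : Fin 7 → ℂ)
    (P : Fin 7 → M) : ∑ i, ∑ j, (K.t k i j : ℂ) • (f j • P i) =
      -∑ i, ∑ j, (K.t k i j : ℂ) • (f i • P j) := by
  rw [Finset.sum_comm, ← Finset.sum_neg_distrib]
  refine Finset.sum_congr rfl fun i _ => ?_
  rw [← Finset.sum_neg_distrib]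
  refine Finset.sum_congr rfl fun j _ => ?_
  rw [K.t_swap k j i]
  push_cast
  rw [neg_smul]

private lemma t_self (k : Fin 7) (f : Fin 7 → ℝ) : ∑ i, ∑ j, K.t k i j * (f i * f j) = 0 := by
  have h : ∑ i, ∑ j, K.t k i j * (f i * f j) = -∑ i, ∑ j, K.t k i j * (f i * f j) := by
    conv_lhs => rw [Finset.sum_comm]
    rw [← Finset.sum_neg_distrib]
    refine Finset.sum_congr rfl fun i _ => ?_
    rw [← Finset.sum_neg_distrib]
    refine Finset.sum_congr rfl fun j _ => ?_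
    rw [K.t_swap k j i]
    ring
  linarith

private lemma t_cross (k : Fin 7) (f g : Fin 7 → ℝ) : ∑ i, ∑ j, K.t k i j * (g i * f j) =
    -∑ i, ∑ j, K.t k i j * (f i * g j) := by
  rw [Finset.sum_comm, ← Finset.sum_neg_distrib]
  refine Finset.sum_congr rfl fun i _ => ?_
  rw [← Finset.sum_neg_distrib]
  refine Finset.sum_congr rfl fun j _ => ?_
  rw [K.t_swap k j i]
  ring

private lemma tel_kap (θ : ℝ) (k : Fin 7) (x : X3) : K.kap k (act (Tel θ) x) = K.kap k x := by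
  have h1 := K.t_self k fun i => x (e9 i, 0)
  have h2 := K.t_self k fun i => x (e9 i, 1)
  have h3 := K.t_cross k (fun i => x (e9 i, 0)) fun i => x (e9 i, 1)
  have h4 : K.kap k x = ∑ i, ∑ j, K.t k i j * (x (e9 i, 0) * x (e9 j, 1)) := by
    unfold kap
    exact Finset.sum_congr rfl fun i _ => Finset.sum_congr rfl fun j _ => mul_assoc _ _ _
  have h5 : K.kap k (act (Tel θ) x) =
      Real.cos (2 * θ) ^ 2 * ∑ i, ∑ j, K.t k i j * (x (e9 i, 0) * x (e9 j, 1)) -
      Real.sin (2 * θ) ^ 2 * ∑ i, ∑ j, K.t k i j * (x (e9 i, 1) * x (e9 j, 0)) +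
      Real.cos (2 * θ) * Real.sin (2 * θ) * ∑ i, ∑ j, K.t k i j * (x (e9 i, 1) * x (e9 j, 1)) -
      Real.cos (2 * θ) * Real.sin (2 * θ) * ∑ i, ∑ j, K.t k i j * (x (e9 i, 0) * x (e9 j, 0)) := by
    unfold kap
    simp only [Finset.mul_sum, ← Finset.sum_add_distrib, ← Finset.sum_sub_distrib]
    refine Finset.sum_congr rfl fun i _ => Finset.sum_congr rfl fun j _ => ?_
    rw [tel_0, tel_1]
    ring
  rw [h5, h1, h2, h3, ← h4]
  linear_combination (K.kap k x) * cs_sq θ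

private lemma tel_bb (θ : ℝ) (k : Fin 7) (x : X3) : K.bb k (act (Tel θ) x) = K.bb k x := by
  unfold bb
  rw [tel_kap, tel_2]

private lemma tel_expo (θ : ℝ) (x : X3) : K.expo (act (Tel θ) x) = K.expo x := by
  unfold expo
  rw [tel_ss, tel_gg, tel_r3, tel_wsq]
  simp only [tel_bb]

private lemma dkap_eq (k : Fin 7) (x : X3) : K.dkap k x =
    ∑ i, ∑ j, (K.t k i j : ℂ) • ((x (e9 i, 0) : ℂ) • K.c (e8 j) 1 - (x (e9 i, 1) : ℂ) • K.c (e8 j) 0) := by
  have h := K.t_anti k (fun i => (x (e9 i, 1) : ℂ)) fun i => K.c (e8 i) 0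
  unfold dkap
  simp only [smul_add, smul_sub, Finset.sum_add_distrib, Finset.sum_sub_distrib]
  rw [h]
  abel

private lemma tel_dkap (θ : ℝ) (k : Fin 7) (x : X3) :
    K.dkap k (act (Tel θ) x) * K.S (Tel θ) = K.S (Tel θ) * K.dkap k x := by
  have h0 := K.tc0 θ
  have h1 := K.tc1 θ
  have h2 := tel_0 θ x
  have h3 := tel_1 θ x
  rw [K.dkap_eq, K.dkap_eq]
  generalize Real.cos (2 * θ) = c at *
  generalize Real.sin (2 * θ) = s at *
  simp only [Finset.sum_mul, Finset.mul_sum]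
  refine Finset.sum_congr rfl fun i _ => Finset.sum_congr rfl fun j _ => ?_
  rw [h2, h3]
  simp only [smul_mul_assoc, mul_smul_comm, sub_mul, mul_sub (K.S (Tel θ)), h0, h1]
  push_cast
  module

private lemma tel_db (θ : ℝ) (k : Fin 7) (x : X3) :
    K.db k (act (Tel θ) x) * K.S (Tel θ) = K.S (Tel θ) * K.db k x := by
  unfold db
  rw [sub_mul, mul_sub, smul_mul_assoc, mul_smul_comm, tel_dkap, K.tc2]

private lemma tel_mu (θ : ℝ) (x : X3) :
    K.mu (act (Tel θ) x) * K.S (Tel θ) = K.S (Tel θ) * K.mu x := by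
  have h0 := K.tc0 θ
  have h1 := K.tc1 θ
  have h2 := tel_0 θ x
  have h3 := tel_1 θ x
  generalize Real.cos (2 * θ) = c at *
  generalize Real.sin (2 * θ) = s at *
  unfold mu
  simp only [Finset.sum_mul, Finset.mul_sum]
  refine Finset.sum_congr rfl fun i _ => ?_
  rw [h2, h3]
  simp only [smul_mul_assoc, mul_smul_comm, sub_mul, mul_sub (K.S (Tel θ)), h0, h1]
  push_cast
  module

private lemma tel_bet (θ : ℝ) (x : X3) :
    K.bet (act (Tel θ) x) * K.S (Tel θ) = K.S (Tel θ) * K.bet x :=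
  list_prod_tw _ _ _ fun k => K.tel_db θ k x

private lemma tel_rho (θ : ℝ) (x : X3) :
    K.rho (act (Tel θ) x) * K.S (Tel θ) = K.S (Tel θ) * K.rho x := by
  have h : K.dpb 2 * K.mu (act (Tel θ) x) * K.S (Tel θ) = K.S (Tel θ) * (K.dpb 2 * K.mu x) := by
    unfold dpb
    rw [mul_assoc, tel_mu, smul_mul_assoc, smul_mul_assoc, mul_smul_comm, ← mul_assoc,
      ← mul_assoc, K.tc2]
  unfold rho
  rw [add_mul, mul_add, one_mul, mul_one, smul_mul_assoc, h, mul_smul_comm, tel_qp]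

private lemma tel_eeT (θ : ℝ) (x : X3) :
    K.eeT (act (Tel θ) x) * K.S (Tel θ) = K.S (Tel θ) * K.eeT x := by
  unfold eeT
  refine list_prod_tw _ _ _ fun k => ?_
  have h : K.S (Tel θ) * (K.c (e8 k) 0 * K.c (e8 k) 1) =
      K.c (e8 k) 0 * K.c (e8 k) 1 * K.S (Tel θ) := by
    have h0 := K.tc0 θ
    have h1 := K.tc1 θ
    have h2 : K.c (e8 k) 0 * K.c (e8 k) 0 = 0 := by
      have := K.cc (e8 k) 0 (e8 k) 0
      rw [← two_smul ℂ] at this
      exact (smul_eq_zero.mp this).resolve_left two_ne_zero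
    have h3 : K.c (e8 k) 1 * K.c (e8 k) 1 = 0 := by
      have := K.cc (e8 k) 1 (e8 k) 1
      rw [← two_smul ℂ] at this
      exact (smul_eq_zero.mp this).resolve_left two_ne_zero
    have h4 := K.anti_c (e8 k) 1 (e8 k) 0
    have h5 : ((Real.cos (2 * θ) : ℝ) : ℂ) ^ 2 + ((Real.sin (2 * θ) : ℝ) : ℂ) ^ 2 = 1 := by
      exact_mod_cast cs_sq θ
    generalize Real.cos (2 * θ) = c at *
    generalize Real.sin (2 * θ) = s at *
    rw [← mul_assoc, h0, sub_mul, smul_mul_assoc, smul_mul_assoc, mul_assoc, mul_assoc, h1]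
    simp only [mul_add, mul_smul_comm, ← mul_assoc, h2, h3, h4]
    simp only [zero_mul, smul_zero, zero_add, add_zero, neg_mul, smul_neg, sub_neg_eq_add,
      smul_smul, ← add_smul, ← pow_two, h5, one_smul]
  rw [add_mul, mul_add, one_mul, mul_one, smul_mul_assoc, mul_smul_comm, h, tel_qq]

theorem aT_Tel (θ : ℝ) (x : X3) : K.aT (act (Tel θ) x) = K.S (Tel θ) (K.aT x) := by
  have h : K.tau0 (act (Tel θ) x) * K.bet (act (Tel θ) x) * K.rho (act (Tel θ) x) *
      K.eeT (act (Tel θ) x) * K.S (Tel θ) =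
      K.S (Tel θ) * (K.tau0 x * K.bet x * K.rho x * K.eeT x) := by
    rw [mul_assoc, tel_eeT, ← mul_assoc, mul_assoc _ (K.rho (act (Tel θ) x)), tel_rho, ← mul_assoc,
      mul_assoc (K.tau0 (act (Tel θ) x)), tel_bet, ← mul_assoc, tel_tau0]
    simp only [mul_assoc]
  have h2 := congrArg (fun T : F →L[ℂ] F => T K.vac) h
  simp only [mul_apply_eq_comp, K.S_vac] at h2
  unfold aT
  simp only [mul_apply_eq_comp, tel_expo, tel_ph2, map_smul, h2]

/-! ### the induced form -/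

private lemma io0_eq (x : X3) : K.io 0 x = (∑ i : Fin 7, ((x (e9 i, 1) : ℂ) • K.a (e8 i) 2 -
    (x (e9 i, 2) : ℂ) • K.a (e8 i) 1)) +
    (1 / 2 : ℂ) • (K.phb 1 x • K.a 7 2 - K.phb 2 x • K.a 7 1) := by
  simp only [io, Fin.sum_univ_three, eps]
  congr 1
  · refine Finset.sum_congr rfl fun i _ => ?_
    simp
    module
  · simp
    module

private lemma io1_eq (x : X3) : K.io 1 x = (∑ i : Fin 7, ((x (e9 i, 2) : ℂ) • K.a (e8 i) 0 -
    (x (e9 i, 0) : ℂ) • K.a (e8 i) 2)) +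
    (1 / 2 : ℂ) • (K.phb 2 x • K.a 7 0 - K.phb 0 x • K.a 7 2) := by
  simp only [io, Fin.sum_univ_three, eps]
  congr 1
  · refine Finset.sum_congr rfl fun i _ => ?_
    simp
    module
  · simp
    module

private lemma wel_io0 (x : X3) : K.io 0 (act Wel x) * K.S Wel = K.S Wel * K.io 0 x := by
  rw [io0_eq, io0_eq, add_mul, mul_add, Finset.sum_mul, Finset.mul_sum]
  congr 1
  · refine Finset.sum_congr rfl fun i _ => ?_
    rw [wel_1, wel_2]
    simp only [smul_mul_assoc, mul_smul_comm, sub_mul, mul_sub (K.S Wel), K.wa1, K.wa2]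
    push_cast
    module
  · rw [K.wel_phb1, K.wel_phb2]
    simp only [smul_mul_assoc, mul_smul_comm, sub_mul, mul_sub (K.S Wel), K.wa1, K.wa2]
    module

private lemma wel_io1 (x : X3) : K.io 1 (act Wel x) * K.S Wel = -(K.S Wel * K.io 1 x) := by
  rw [io1_eq, io1_eq, add_mul, mul_add, neg_add, Finset.sum_mul, Finset.mul_sum,
    ← Finset.sum_neg_distrib]
  congr 1
  · refine Finset.sum_congr rfl fun i _ => ?_
    rw [wel_0, wel_2]
    simp only [smul_mul_assoc, mul_smul_comm, sub_mul, mul_sub (K.S Wel), K.wa0, K.wa2]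
    push_cast
    module
  · rw [K.wel_phb0, K.wel_phb2]
    simp only [smul_mul_assoc, mul_smul_comm, sub_mul, mul_sub (K.S Wel), K.wa0, K.wa2]
    module

private lemma app_of_mul {P S T : F →L[ℂ] F} (h : P * S = S * T) (v : F) : P (S v) = S (T v) :=
  congrArg (fun R : F →L[ℂ] F => R v) h

private lemma app_of_mul_neg {P S T : F →L[ℂ] F} (h : P * S = -(S * T)) (v : F) :
    P (S v) = -S (T v) :=
  congrArg (fun R : F →L[ℂ] F => R v) h

private lemma wel_pd (i : Fin 9) (x : X3) :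
    pd i 2 K.aT (act Wel x) = K.S Wel (pd i 2 K.aT x) := by
  have hd : Differentiable ℝ K.aT := K.contDiff_aT.differentiable (by simp)
  have h1 : (fun y => K.aT (act Wel y)) = fun y => -K.S Wel (K.aT y) := by
    funext y; exact K.aT_Wel y
  have h2 : fderiv ℝ (fun y => K.aT (act Wel y)) x (EuclideanSpace.single (i, 2) 1) =
      fderiv ℝ K.aT (act Wel x) (act Wel (EuclideanSpace.single (i, 2) 1)) := by
    have h3 := (hd (act Wel x)).hasFDerivAt.comp x
      (f := act Wel) (actL Wel).toContinuousLinearEquiv.hasFDerivAt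
    have h4 := h3.fderiv
    have h5 : (K.aT ∘ act Wel) = fun y => K.aT (act Wel y) := rfl
    rw [h5] at h4
    rw [h4]
    rfl
  have h3 : act Wel (EuclideanSpace.single (i, 2) 1 : X3) = -(EuclideanSpace.single (i, 2) 1) := by
    ext p
    obtain ⟨j, A⟩ := p
    fin_cases A
    · simp only [Fin.zero_eta]; rw [wel_0]; simp
    · simp only [Fin.mk_one]; rw [wel_1]; simp
    · simp only [Fin.reduceFinMk]; rw [wel_2]; simp
  have h4 : fderiv ℝ (fun y => -K.S Wel (K.aT y)) x (EuclideanSpace.single (i, 2) 1) =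
      -K.S Wel (pd i 2 K.aT x) := by
    have h5 := pd_clm (i := i) (A := (2 : Fin 3)) (K.S Wel) (hd x)
    rw [fderiv_fun_neg, ← h5]
    rfl
  unfold pd at *
  rw [h1, h4, h3, map_neg] at h2
  exact (neg_injective h2).symm

private lemma wel_dph (x : X3) : K.dph 2 K.aT (act Wel x) = K.S Wel (K.dph 2 K.aT x) := by
  unfold dph
  rw [wel_pd, wel_pd, map_smul, map_sub, map_smul]

theorem Ps_Wel (t : ℝ) (x : X3) : K.Ps t (act Wel x) = K.S Wel (K.Ps t x) := by
  have e0 : ∀ v, K.dpb 0 (K.S Wel v) = K.S Wel (K.dpb 0 v) := app_of_mul (by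
    unfold dpb; rw [smul_mul_assoc, mul_smul_comm, K.wc0])
  have e1 : ∀ v, K.dpb 1 (K.S Wel v) = -K.S Wel (K.dpb 1 v) := app_of_mul_neg (by
    unfold dpb; rw [smul_mul_assoc, mul_smul_comm, K.wc1, smul_neg, neg_neg])
  have e2 := app_of_mul (K.wel_io0 x)
  have e3 := app_of_mul_neg (K.wel_io1 x)
  have hp : perp2 (act Wel x) = perp2 x := by
    unfold perp2; rw [wel_0, wel_0, wel_1, wel_1]; ring
  have hK : K.KK0 t (act Wel x) = K.S Wel (K.KK0 t x) := by
    unfold KK0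
    rw [wel_dph, K.aT_Wel, wel_phb2]
    simp only [map_neg, map_add, map_sub, map_smul, e0, e1, e2, e3]
    module
  unfold Ps KK
  rw [K.hh_act, hp, hK, map_smul, map_smul]

end Fk

end Vale.Agent.P353.Ex
end

section

/-! Task EX-19: second limit `t → ∞` (localisation of the group average at the torus).

At `pr x` (`φ = z e_2`): `⟨xi, S(U) Ps_t(U⁻¹ pr x)⟩` is the sum of
(1) terms of order `t⁰`, (2) `t · f₂`, `f₂ = -(2/ν) φ̄_2(U⁻¹·) ⟨xi, S(U) e^{-h} aT(U⁻¹·)⟩`,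
(3) `t · f₃` (the `dφ̄ ι` terms), (4) the `t²` term, which is zero: it contains the product of four
operators `c 7 _` between `vacb`-side and `vac`-side (`(a_7^0 a_7^1)* = c_7^1 c_7^0`, and
`S(U) c_7^0 c_7^1` is a combination of products of two `c_7`'s times `S(U)`; among four there are
two equal).  On the torus (`vb v = 0`): `f₃ = 0` (three `c_7^{0,1}`'s) and
`f₂ = -(2/ν) z̄ ⟨xi, e^{-h} aT⟩` (`aT_Tel`); both are invariant under `v ↦ R v` (`Ps_Wel`, `aT_Wel`,
or term by term).  Pointwise limit for `z ≠ 0` by `sph_limit`, `sph_limit0`.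
Outer dominated convergence: with `sph_bound` the integrand is bounded by
`C ze (1+ze) B0 (pr x) · (1+ze)² (1 + 1/ze) e^{-perp2 x} ≤ C (1+ze)⁴ e^{-perp2} B0`. -/

open MeasureTheory Filter Topology
open scoped ContDiff ComplexConjugate

namespace Vale.Agent.P353.Ex

variable {F : Type*} [NormedAddCommGroup F] [InnerProductSpace ℂ F]

/-! ### the projection `pr` -/

private lemma l2_pr_e9 (x : X3) (i : Fin 7) (A : Fin 3) : pr x (e9 i, A) = x (e9 i, A) := by
  have h7 : (e9 i : Fin 9) ≠ 7 := by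
    intro h; have := congrArg Fin.val h; simp at this; omega
  have h8 : (e9 i : Fin 9) ≠ 8 := by
    intro h; have := congrArg Fin.val h; simp at this; omega
  simp [pr, h7, h8]

private lemma l2_pr_2 (x : X3) (i : Fin 9) : pr x (i, 2) = x (i, 2) := by simp [pr]

private lemma l2_perp_pr (x : X3) : Fk.perp2 (pr x) = 0 := by simp [Fk.perp2, pr]

private lemma l2_r3_pr (x : X3) : Fk.r3 (pr x) = Fk.r3 x := by simp [Fk.r3, l2_pr_2]

private lemma l2_ze_pr (x : X3) : Fk.ze (pr x) = Fk.ze x := by simp [Fk.ze, l2_r3_pr]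

private lemma l2_B0_pr (x : X3) : Fk.B0 (pr x) = Fk.B0 x := by
  simp only [Fk.B0, Fk.x3sq, Fk.wsq, Fk.gg, l2_r3_pr, l2_pr_e9]

private lemma l2_phb_pr (K : Fk F) (x : X3) : K.phb 2 (pr x) = K.phb 2 x := by
  simp [Fk.phb, l2_pr_2]

private lemma l2_continuous_pr : Continuous pr := by
  unfold pr
  refine (PiLp.continuous_toLp 2 _).comp (continuous_pi fun p => ?_)
  split_ifs
  · exact continuous_const
  · exact (EuclideanSpace.proj p).continuous

private lemma l2_phsq_pr (x : X3) : phsq (pr x) = Fk.r3 x := by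
  rw [phsq_eq, l2_perp_pr, l2_r3_pr, zero_add]

private lemma l2_r3_nonneg (x : X3) : 0 ≤ Fk.r3 x := by unfold Fk.r3; positivity

private lemma l2_perp_nonneg (x : X3) : 0 ≤ Fk.perp2 x := by unfold Fk.perp2; positivity

private lemma l2_ze_sq (x : X3) : Fk.ze x ^ 2 = Fk.r3 x := Real.sq_sqrt (l2_r3_nonneg x)

private lemma l2_ze_nonneg (x : X3) : 0 ≤ Fk.ze x := Real.sqrt_nonneg _

private lemma l2_ze_le (x : X3) : Fk.ze x ≤ Real.sqrt (phsq x) := by
  refine Real.sqrt_le_sqrt ?_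
  rw [phsq_eq]
  linarith [l2_perp_nonneg x]

private lemma l2_perp_le (x : X3) : Real.sqrt (Fk.perp2 x) ≤ Real.sqrt (phsq x) := by
  refine Real.sqrt_le_sqrt ?_
  rw [phsq_eq]
  linarith [l2_r3_nonneg x]

private lemma l2_B0_nonneg (x : X3) : 0 ≤ Fk.B0 x := (Real.exp_pos _).le

private lemma l2_B0_le (x : X3) : Fk.B0 x ≤ 1 := by
  unfold Fk.B0
  rw [Real.exp_le_one_iff]
  have h1 : 0 ≤ Fk.x3sq x := by unfold Fk.x3sq; positivity
  have h2 : 0 ≤ Fk.wsq x := by unfold Fk.wsq; positivity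
  have h3 : 0 ≤ Fk.gg x := by unfold Fk.gg; positivity
  have h4 := mul_nonneg (mul_nonneg h3 (l2_r3_nonneg x)) h2
  have h5 := sq_nonneg (Fk.wsq x)
  linarith

/-- the radius of the group translate of `pr x` is `|z|` -/
private lemma l2_rad (U : SU2) (x : X3) : Real.sqrt (phsq (act U (pr x))) = Fk.ze x := by
  rw [phsq_act, l2_phsq_pr, Fk.ze]

/-! ### the group -/

private lemma l2_act_inv (U : SU2) (x : X3) : act U⁻¹ x =
    WithLp.toLp 2 fun p => ∑ A, rotm U A p.2 * x (p.1, A) := by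
  unfold act
  congr 1
  funext p
  refine Finset.sum_congr rfl fun A _ => ?_
  rw [rotm_inv]

private lemma l2_continuous_act_inv (x : X3) : Continuous fun U : SU2 => act U⁻¹ x := by
  simp only [l2_act_inv]
  refine (PiLp.continuous_toLp 2 _).comp (continuous_pi fun p => ?_)
  exact continuous_finsetSum _ fun A _ => (continuous_rotm A p.2).mul continuous_const

private lemma l2_perp_Wel (x : X3) : Fk.perp2 (act Wel x) = Fk.perp2 x := by
  simp [Fk.perp2, act, rotm_Wel]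

private lemma l2_act_Tel_inv (θ : ℝ) (x : X3) (i : Fin 9) : act (Tel θ)⁻¹ x (i, 2) = x (i, 2) := by
  rw [act_inv_two]
  simp [rotm_Tel, Fin.sum_univ_three]

namespace Fk

variable (K : Fk F)

private lemma l2_c_sq (i : Fin 8) (A : Fin 3) (v : F) : K.c i A (K.c i A v) = 0 := by
  have h := congrArg (fun T : F →L[ℂ] F => T v) (K.cc i A i A)
  simp only [add_apply, mul_apply_eq_comp,
    zero_apply] at h
  have h2 : (2 : ℂ) • K.c i A (K.c i A v) = 0 := by rw [two_smul]; exact h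
  exact (smul_eq_zero.mp h2).resolve_left two_ne_zero

private lemma l2_c_swap (i j : Fin 8) (A B : Fin 3) (v : F) :
    K.c i A (K.c j B v) = -K.c j B (K.c i A v) := by
  have h := congrArg (fun T : F →L[ℂ] F => T v) (K.cc i A j B)
  simp only [add_apply, mul_apply_eq_comp,
    zero_apply] at h
  exact eq_neg_of_add_eq_zero_left h

/-- three `c_7^0, c_7^1` -/
private lemma l2_c3 (B : Fin 3) (hB : B ≠ 2) (v : F) : K.c 7 1 (K.c 7 0 (K.c 7 B v)) = 0 := by
  fin_cases B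
  · simp [K.l2_c_sq]
  · change K.c 7 1 (K.c 7 0 (K.c 7 1 v)) = 0
    rw [K.l2_c_swap 7 7 0 1, map_neg, K.l2_c_sq, neg_zero]
  · exact absurd rfl hB

/-- four `c_7`'s -/
private lemma l2_c4 (B C : Fin 3) (v : F) : K.c 7 1 (K.c 7 0 (K.c 7 B (K.c 7 C v))) = 0 := by
  by_cases hB : B = 2
  · subst hB
    by_cases hC : C = 2
    · subst hC
      rw [K.l2_c_sq, map_zero, map_zero]
    · rw [K.l2_c_swap 7 7 2 C, map_neg, map_neg, K.l2_c3 C hC, neg_zero]
  · exact K.l2_c3 B hB _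

private lemma l2_S_c (U : SU2) (i : Fin 8) (A : Fin 3) (v : F) :
    K.S U (K.c i A v) = ∑ B, ((rotm U B A : ℝ) : ℂ) • K.c i B (K.S U v) := by
  have h := congrArg (fun T : F →L[ℂ] F => T v) (K.S_c U i A)
  simpa only [mul_apply_eq_comp, sum_apply,
    smul_apply] using h

private lemma l2_inner_a (i : Fin 8) (A : Fin 3) (v w : F) :
    inner ℂ (K.a i A v) w = inner ℂ v (K.c i A w) := K.flip.adj i A v w

/-- the covector `ξ` as a multiple of `a_7^0 a_7^1 α'` -/
private lemma l2_xi_eq (y : X3) : K.flip.xi y =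
    (-(4 * (Real.exp (-K.flip.hh y) : ℂ) / K.nu ^ 2)) • K.a 7 0 (K.a 7 1 (K.flip.aT y)) := by
  have hnu : K.flip.nu = K.nu := rfl
  have hd : ∀ A v, K.flip.dpb A v = (2 : ℂ) • K.a 7 A v := fun A v => rfl
  rw [xi, hd, hd, hnu, map_smul, smul_smul, smul_smul, ← neg_smul, smul_smul]
  congr 1
  ring

private lemma l2_pair (y : X3) (w : F) (hw : K.c 7 1 (K.c 7 0 w) = 0) :
    inner ℂ (K.flip.xi y) w = 0 := by
  rw [l2_xi_eq, inner_smul_left, l2_inner_a, l2_inner_a, hw, inner_zero_right, mul_zero]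

/-! ### decomposition of `Ps t` -/

/-- coefficient of `t⁰` -/
private noncomputable def l2G0 (y : X3) : F :=
  (Real.exp (-K.hh y) : ℂ) • (-((1 / K.nu) • K.dph 2 K.aT y) + K.io 1 y (K.io 0 y (K.aT y)))

/-- coefficient of `t` -/
private noncomputable def l2G1 (y : X3) : F :=
  (Real.exp (-K.hh y) : ℂ) • (-((2 / K.nu * K.phb 2 y) • K.aT y) +
    (1 / K.nu) • (K.dpb 0 (K.io 1 y (K.aT y)) - K.dpb 1 (K.io 0 y (K.aT y))))

/-- coefficient of `-t²` -/
private noncomputable def l2G2 (y : X3) : F :=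
  (Real.exp (-K.hh y) : ℂ) • ((1 / K.nu ^ 2) • K.dpb 0 (K.dpb 1 (K.aT y)))

private lemma l2_Ps (t : ℝ) (y : X3) : K.Ps t y = (Real.exp (-t * perp2 y) : ℂ) •
    (K.l2G0 y + (t : ℂ) • K.l2G1 y - ((t : ℂ) ^ 2) • K.l2G2 y) := by
  unfold Ps KK KK0 l2G0 l2G1 l2G2
  rw [smul_comm]
  congr 1
  simp only [smul_add, smul_sub, smul_neg, smul_smul]
  have e1 : (Real.exp (-K.hh y) : ℂ) * (2 * (t : ℂ) / K.nu * K.phb 2 y) =
    (t : ℂ) * ((Real.exp (-K.hh y) : ℂ) * (2 / K.nu * K.phb 2 y)) := by ring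
  have e2 : (Real.exp (-K.hh y) : ℂ) * ((t : ℂ) ^ 2 / K.nu ^ 2) =
    (t : ℂ) ^ 2 * ((Real.exp (-K.hh y) : ℂ) * (1 / K.nu ^ 2)) := by ring
  have e3 : (Real.exp (-K.hh y) : ℂ) * ((t : ℂ) / K.nu) =
    (t : ℂ) * ((Real.exp (-K.hh y) : ℂ) * (1 / K.nu)) := by ring
  rw [e1, e2, e3]
  abel

private lemma l2_G1_Wel (y : X3) : K.l2G1 (act Wel y) = K.S Wel (K.l2G1 y) := by
  have key : ∀ t : ℝ, K.l2G0 (act Wel y) + (t : ℂ) • K.l2G1 (act Wel y) -
      ((t : ℂ) ^ 2) • K.l2G2 (act Wel y) = K.S Wel (K.l2G0 y) + (t : ℂ) • K.S Wel (K.l2G1 y) -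
      ((t : ℂ) ^ 2) • K.S Wel (K.l2G2 y) := by
    intro t
    have h := K.Ps_Wel t y
    rw [l2_Ps, l2_Ps, l2_perp_Wel, map_smul] at h
    have hne : (Real.exp (-t * perp2 y) : ℂ) ≠ 0 := by
      exact_mod_cast (Real.exp_pos _).ne'
    have h2 := smul_right_injective F hne h
    simpa only [map_sub, map_add, map_smul] using h2
  have k1 := key 1
  have k2 := key (-1)
  have h3 : (2 : ℂ) • K.l2G1 (act Wel y) = (2 : ℂ) • K.S Wel (K.l2G1 y) := by
    have := congrArg₂ (fun a b => a - b) k1 k2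
    simp only [Complex.ofReal_one, Complex.ofReal_neg, one_pow, neg_smul, one_smul,
      neg_sq] at this
    rw [two_smul, two_smul]
    have e1 : ∀ a b c : F, a + b - c - (a + -b - c) = b + b := fun a b c => by abel
    rwa [e1, e1] at this
  exact smul_right_injective F (two_ne_zero : (2 : ℂ) ≠ 0) h3

/-- the pairing of the `t²` term vanishes -/
private lemma l2_pair_G2 (U : SU2) (y y' : X3) :
    inner ℂ (K.flip.xi y') (K.S U (K.l2G2 y)) = 0 := by
  refine K.l2_pair _ _ ?_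
  have hd : ∀ A v, K.dpb A v = (2 : ℂ) • K.c 7 A v := fun A v => rfl
  rw [l2G2, hd, hd]
  simp only [map_smul, l2_S_c, map_sum, Finset.smul_sum, l2_c4, smul_zero, Finset.sum_const_zero]

/-- the pairing with the linear term on the torus -/
private lemma l2_pair_G1 (θ : ℝ) (y : X3) (y' : X3) :
    inner ℂ (K.flip.xi y') (K.S (Tel θ) (K.l2G1 (act (Tel θ)⁻¹ y))) =
      -(2 / K.nu) * K.phb 2 y *
        inner ℂ (K.flip.xi y') ((Real.exp (-K.hh y) : ℂ) • K.aT y) := by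
  have hd : ∀ A v, K.dpb A v = (2 : ℂ) • K.c 7 A v := fun A v => rfl
  set x := act (Tel θ)⁻¹ y with hx
  have hxy : act (Tel θ) x = y := act_act_inv _ _
  have h1 : K.S (Tel θ) (K.aT x) = K.aT y := by rw [← aT_Tel, hxy]
  have h2 : K.hh x = K.hh y := (K.hh_act (Tel θ) x).symm.trans (congrArg K.hh hxy)
  have h3 : K.phb 2 x = K.phb 2 y := by
    simp only [phb, hx, l2_act_Tel_inv]
  have h4 : ∀ A : Fin 3, A ≠ 2 → ∀ w, K.c 7 1 (K.c 7 0 (K.S (Tel θ) (K.dpb A w))) = 0 := by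
    intro A hA w
    rw [hd, map_smul, map_smul, map_smul, l2_S_c, map_sum, map_sum]
    rw [Finset.sum_eq_zero, smul_zero]
    intro B _
    rw [map_smul, map_smul]
    by_cases hB : B = 2
    · have : rotm (Tel θ) B A = 0 := by
        subst hB
        rw [rotm_Tel]
        fin_cases A
        · simp
        · simp
        · exact absurd rfl hA
      rw [this, Complex.ofReal_zero, zero_smul]
    · rw [K.l2_c3 B hB, smul_zero]
  rw [l2G1, map_smul, map_add, map_neg, map_smul, map_smul, map_sub, h1, h2, h3, smul_add,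
    inner_add_right]
  have h5 : inner ℂ (K.flip.xi y') ((Real.exp (-K.hh y) : ℂ) • (1 / K.nu) •
      (K.S (Tel θ) (K.dpb 0 (K.io 1 x (K.aT x))) -
        K.S (Tel θ) (K.dpb 1 (K.io 0 x (K.aT x))))) = 0 := by
    refine K.l2_pair _ _ ?_
    rw [map_smul, map_smul, map_smul, map_smul, map_sub, map_sub, h4 0 (by decide),
      h4 1 (by decide), sub_zero, smul_zero, smul_zero]
  rw [h5, add_zero, smul_neg, inner_neg_right, smul_comm, inner_smul_right]
  ring


/-! ### bounds -/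

private lemma l2_nu_norm : ‖K.nu‖ ^ 2 = 2 := by
  have h := K.f0_sq
  rw [nu, norm_mul, Complex.norm_I, one_mul, Complex.norm_real, Real.norm_eq_abs, sq_abs, sq, h]

private lemma l2_nu_ge : 1 ≤ ‖K.nu‖ := by
  have h := K.l2_nu_norm
  nlinarith [norm_nonneg K.nu]

private lemma l2_nu_ne : K.nu ≠ 0 := by
  intro h
  have := K.l2_nu_ge
  rw [h, norm_zero] at this
  linarith

private lemma l2_phb_norm (y : X3) : ‖K.phb 2 y‖ = ze y := by
  have h : ‖K.phb 2 y‖ ^ 2 = r3 y := by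
    rw [← Complex.normSq_eq_norm_sq, phb, Complex.normSq_apply, r3]
    have hs := K.sg_sq
    simp
    linear_combination y (8, 2) ^ 2 * hs
  rw [ze, ← h, Real.sqrt_sq (norm_nonneg _)]

private lemma l2_real1 {C z ρ p b : ℝ} (hC : 0 ≤ C) (hz0 : 0 ≤ z) (hz : z ≤ ρ) (hp0 : 0 ≤ p)
    (hp : p ≤ ρ) (hb0 : 0 ≤ b) (hb1 : b ≤ 1) :
    C * z * (1 + z) * b ≤ C * (ρ * (1 + ρ)) ∧
    C * (1 + z) ^ 2 * b ≤ C * (1 + ρ) ^ 2 ∧
    C * z * (1 + z) * (1 + p) ^ 2 * b ≤ C * (ρ * (1 + ρ) ^ 3) ∧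
    C * z * (1 + z) * (1 + p) * b ≤ C * (ρ * (1 + ρ) ^ 2) := by
  have hρ : 0 ≤ ρ := hz0.trans hz
  refine ⟨?_, ?_, ?_, ?_⟩
  · calc C * z * (1 + z) * b ≤ C * ρ * (1 + ρ) * 1 := by gcongr
      _ = _ := by ring
  · calc C * (1 + z) ^ 2 * b ≤ C * (1 + ρ) ^ 2 * 1 := by gcongr
      _ = _ := by ring
  · calc C * z * (1 + z) * (1 + p) ^ 2 * b ≤ C * ρ * (1 + ρ) * (1 + ρ) ^ 2 * 1 := by gcongr
      _ = _ := by ring
  · calc C * z * (1 + z) * (1 + p) * b ≤ C * ρ * (1 + ρ) * (1 + ρ) * 1 := by gcongr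
      _ = _ := by ring

private lemma l2_b4 : ∃ C : ℝ, 0 ≤ C ∧ ∀ y : X3,
    Real.exp (-K.hh y) * ‖K.aT y‖ ≤
      C * (Real.sqrt (phsq y) * (1 + Real.sqrt (phsq y))) ∧
    Real.exp (-K.hh y) * ‖K.dph 2 K.aT y‖ ≤ C * (1 + Real.sqrt (phsq y)) ^ 2 ∧
    Real.exp (-K.hh y) * ‖K.io 1 y (K.io 0 y (K.aT y))‖ ≤
      C * (Real.sqrt (phsq y) * (1 + Real.sqrt (phsq y)) ^ 3) ∧
    Real.exp (-K.hh y) * ‖K.dpb 0 (K.io 1 y (K.aT y)) - K.dpb 1 (K.io 0 y (K.aT y))‖ ≤
      C * (Real.sqrt (phsq y) * (1 + Real.sqrt (phsq y)) ^ 2) := by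
  obtain ⟨C, hC, hb⟩ := K.exists_bounds
  refine ⟨C, hC, fun y => ?_⟩
  obtain ⟨b1, b2, b3, b4⟩ := hb y
  obtain ⟨r1, r2, r3', r4⟩ := l2_real1 hC (l2_ze_nonneg y) (l2_ze_le y) (Real.sqrt_nonneg _)
    (l2_perp_le y) (l2_B0_nonneg y) (l2_B0_le y)
  exact ⟨b1.trans r1, b2.trans r2, b3.trans r3', b4.trans r4⟩

private lemma l2_nu_inv : ‖(1 / K.nu : ℂ)‖ ≤ 1 := by
  rw [norm_div, norm_one]
  exact div_le_one_of_le₀ K.l2_nu_ge (norm_nonneg _)

private lemma l2_En (y : X3) (w : F) :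
    ‖(Real.exp (-K.hh y) : ℂ) • w‖ = Real.exp (-K.hh y) * ‖w‖ := by
  rw [norm_smul, Complex.norm_real, Real.norm_of_nonneg (Real.exp_pos _).le]

private lemma l2_abs0 {c : ℂ} (hc : ‖c‖ ≤ 1) (a b : F) : ‖-(c • a) + b‖ ≤ ‖a‖ + ‖b‖ := by
  refine (norm_add_le _ _).trans (add_le_add ?_ le_rfl)
  rw [norm_neg, norm_smul]
  exact mul_le_of_le_one_left (norm_nonneg _) hc

private lemma l2_abs1 {c : ℂ} (hc : ‖c‖ ≤ 1) {p : ℂ} {z : ℝ} (hz : ‖p‖ = z) (a b : F) :
    ‖-((2 * c * p) • a) + c • b‖ ≤ 2 * z * ‖a‖ + ‖b‖ := by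
  have hz0 : 0 ≤ z := hz ▸ norm_nonneg p
  refine (norm_add_le _ _).trans (add_le_add ?_ ?_)
  · rw [norm_neg, norm_smul, norm_mul, hz, norm_mul, Complex.norm_ofNat]
    refine mul_le_mul_of_nonneg_right ?_ (norm_nonneg _)
    refine mul_le_mul_of_nonneg_right ?_ hz0
    linarith only [hc]
  · rw [norm_smul]
    exact mul_le_of_le_one_left (norm_nonneg _) hc

private lemma l2_bG0 (y : X3) : ‖K.l2G0 y‖ ≤ Real.exp (-K.hh y) * ‖K.dph 2 K.aT y‖ +
    Real.exp (-K.hh y) * ‖K.io 1 y (K.io 0 y (K.aT y))‖ := by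
  rw [l2G0, l2_En, ← mul_add]
  refine mul_le_mul_of_nonneg_left ?_ (Real.exp_pos (-K.hh y)).le
  have h := l2_abs0 K.l2_nu_inv (K.dph 2 K.aT y) (K.io 1 y (K.io 0 y (K.aT y)))
  generalize K.dph 2 K.aT y = aa at h ⊢
  generalize K.io 1 y (K.io 0 y (K.aT y)) = bb at h ⊢
  exact h

private lemma l2_bG1 (y : X3) : ‖K.l2G1 y‖ ≤ 2 * ze y * (Real.exp (-K.hh y) * ‖K.aT y‖) +
    Real.exp (-K.hh y) * ‖K.dpb 0 (K.io 1 y (K.aT y)) - K.dpb 1 (K.io 0 y (K.aT y))‖ := by
  rw [l2G1, l2_En, mul_left_comm, ← mul_add]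
  refine mul_le_mul_of_nonneg_left ?_ (Real.exp_pos (-K.hh y)).le
  have h := l2_abs1 K.l2_nu_inv (K.l2_phb_norm y) (K.aT y)
    (K.dpb 0 (K.io 1 y (K.aT y)) - K.dpb 1 (K.io 0 y (K.aT y)))
  have h3 : (2 * (1 / K.nu) * K.phb 2 y : ℂ) = 2 / K.nu * K.phb 2 y := by ring
  rw [h3] at h
  generalize K.dpb 0 (K.io 1 y (K.aT y)) - K.dpb 1 (K.io 0 y (K.aT y)) = bb at h ⊢
  generalize K.aT y = aa at h ⊢
  exact h

private lemma l2_real2 {C ρ : ℝ} (hC : 0 ≤ C) (hρ : 0 ≤ ρ) :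
    C * (1 + ρ) ^ 2 + C * (ρ * (1 + ρ) ^ 3) ≤ 3 * C * (1 + ρ) ^ 4 := by
  have d1 : (1 + ρ) ^ 2 ≤ (1 + ρ) ^ 4 := pow_le_pow_right₀ (by linarith) (by norm_num)
  have d2 : ρ * (1 + ρ) ^ 3 ≤ (1 + ρ) ^ 4 := by
    calc ρ * (1 + ρ) ^ 3 ≤ (1 + ρ) * (1 + ρ) ^ 3 := by gcongr; linarith
      _ = _ := by ring
  have e1 := mul_le_mul_of_nonneg_left d1 hC
  have e2 := mul_le_mul_of_nonneg_left d2 hC
  have e3 : 0 ≤ C * (1 + ρ) ^ 4 := by positivity
  rw [mul_assoc]
  linarith only [e1, e2, e3]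

private lemma l2_real3 {C ρ z : ℝ} (hC : 0 ≤ C) (hz : 0 ≤ z) (hρ : z ≤ ρ) :
    2 * z * (C * (ρ * (1 + ρ))) + C * (ρ * (1 + ρ) ^ 2) ≤ 3 * C * (ρ * (1 + ρ) ^ 2) := by
  have hρ0 : 0 ≤ ρ := hz.trans hρ
  have e1 : 2 * z * (C * (ρ * (1 + ρ))) ≤ 2 * (1 + ρ) * (C * (ρ * (1 + ρ))) := by
    gcongr
    linarith
  have e2 : 2 * (1 + ρ) * (C * (ρ * (1 + ρ))) = 2 * (C * (ρ * (1 + ρ) ^ 2)) := by ring
  rw [e2] at e1
  rw [mul_assoc]
  linarith only [e1]

private lemma l2_bounds : ∃ C : ℝ, 0 ≤ C ∧ ∀ y : X3,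
    ‖K.l2G0 y‖ ≤ C * (1 + Real.sqrt (phsq y)) ^ 4 ∧
    ‖K.l2G1 y‖ ≤ C * (Real.sqrt (phsq y) * (1 + Real.sqrt (phsq y)) ^ 2) := by
  obtain ⟨C, hC, hb⟩ := K.l2_b4
  refine ⟨3 * C, by positivity, fun y => ?_⟩
  obtain ⟨b1, b2, b3, b4⟩ := hb y
  constructor
  · exact (K.l2_bG0 y).trans ((add_le_add b2 b3).trans (l2_real2 hC (Real.sqrt_nonneg _)))
  · refine (K.l2_bG1 y).trans (le_trans (add_le_add (mul_le_mul_of_nonneg_left b1 ?_) b4)
      (l2_real3 hC (l2_ze_nonneg y) (l2_ze_le y)))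
    have := l2_ze_nonneg y
    positivity

private lemma l2_xi_bound : ∃ C : ℝ, 0 ≤ C ∧ ∀ y : X3,
    ‖K.flip.xi y‖ ≤ C * (ze y * (1 + ze y)) * B0 y := by
  obtain ⟨C, hC, hb⟩ := K.flip.exists_bounds
  refine ⟨2 * C, by positivity, fun y => ?_⟩
  obtain ⟨b1, -, -, -⟩ := hb y
  have h1 : ‖K.a 7 0 (K.a 7 1 (K.flip.aT y))‖ ≤ ‖K.flip.aT y‖ :=
    (K.flip.norm_c_le 7 0 _).trans (K.flip.norm_c_le 7 1 _)
  rw [l2_xi_eq, norm_smul, norm_neg, norm_div, norm_mul, Complex.norm_real,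
    Real.norm_of_nonneg (Real.exp_pos _).le, norm_pow, K.l2_nu_norm, Complex.norm_ofNat]
  calc 4 * Real.exp (-K.flip.hh y) / 2 * ‖K.a 7 0 (K.a 7 1 (K.flip.aT y))‖ ≤
      4 * Real.exp (-K.flip.hh y) / 2 * ‖K.flip.aT y‖ := by gcongr
    _ = 2 * (Real.exp (-K.flip.hh y) * ‖K.flip.aT y‖) := by ring
    _ ≤ 2 * (C * ze y * (1 + ze y) * B0 y) := by gcongr
    _ = _ := by ring

/-! ### continuity -/

private lemma l2_S_cont : Continuous fun p : SU2 × F => K.S p.1 p.2 := by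
  rw [continuous_iff_continuousAt]
  rintro ⟨U, w⟩
  have h1 : Tendsto (fun p : SU2 × F => K.S p.1 w) (𝓝 (U, w)) (𝓝 (K.S U w)) :=
    ((K.S_continuous w).comp continuous_fst).continuousAt
  have h2 : Tendsto (fun p : SU2 × F => K.S p.1 (p.2 - w)) (𝓝 (U, w)) (𝓝 0) := by
    rw [tendsto_zero_iff_norm_tendsto_zero]
    simp only [K.S_isometry]
    have : Tendsto (fun p : SU2 × F => ‖p.2 - w‖) (𝓝 (U, w)) (𝓝 ‖w - w‖) :=
      (continuous_snd.sub continuous_const).norm.continuousAt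
    simpa using this
  have h3 := h1.add h2
  rw [add_zero] at h3
  refine h3.congr fun p => ?_
  rw [← map_add, add_sub_cancel]

private lemma l2_cont_io (A : Fin 3) {u : X3 → F} (hu : Continuous u) :
    Continuous fun y => K.io A y (u y) :=
  (K.contDiff_io A).continuous.clm_apply hu

private lemma l2_cont_dph : Continuous (K.dph 2 K.aT) := by
  have h : ∀ i : Fin 9, Continuous (pd i 2 K.aT) := fun i =>
    ((K.contDiff_aT.continuous_fderiv (by simp)).clm_apply continuous_const)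
  unfold dph
  exact ((h 7).sub ((h 8).const_smul _)).const_smul _

private lemma l2_cont_E : Continuous fun y => (Real.exp (-K.hh y) : ℂ) :=
  Complex.continuous_ofReal.comp (Real.continuous_exp.comp K.contDiff_hh.continuous.neg)

private lemma l2_cont_G0 : Continuous K.l2G0 := by
  have ha := K.contDiff_aT.continuous
  unfold l2G0
  exact K.l2_cont_E.smul ((K.l2_cont_dph.const_smul _).neg.add
    (K.l2_cont_io 1 (K.l2_cont_io 0 ha)))

private lemma l2_cont_phb : Continuous (K.phb 2) := by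
  unfold phb
  have h : ∀ p : Fin 9 × Fin 3, Continuous fun x : X3 => (x p : ℂ) := fun p =>
    Complex.continuous_ofReal.comp (EuclideanSpace.proj p).continuous
  exact (h _).sub (continuous_const.mul (h _))

private lemma l2_cont_G1 : Continuous K.l2G1 := by
  have ha := K.contDiff_aT.continuous
  unfold l2G1
  refine K.l2_cont_E.smul ((((continuous_const.mul K.l2_cont_phb).smul ha).neg).add ?_)
  exact (((K.dpb 0).continuous.comp (K.l2_cont_io 1 ha)).sub
    ((K.dpb 1).continuous.comp (K.l2_cont_io 0 ha))).const_smul _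

private lemma l2_cont_xi : Continuous K.flip.xi := by
  have ha := K.flip.contDiff_aT.continuous
  unfold xi
  exact K.flip.l2_cont_E.smul
    ((((K.flip.dpb 0).continuous.comp ((K.flip.dpb 1).continuous.comp ha)).const_smul _).neg)

/-! ### the integral over the group -/

private lemma l2_aesm {E : Type*} [NormedAddCommGroup E] {f : V4 → E}
    (h : ∀ v, v ≠ 0 → ContinuousAt f v) : AEStronglyMeasurable f (volume : Measure V4) := by
  have h1 : ContinuousOn f ({0}ᶜ : Set V4) := fun v hv => (h v hv).continuousWithinAt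
  have h2 := h1.aestronglyMeasurable (μ := (volume : Measure V4))
    (measurableSet_singleton (0 : V4)).compl
  rwa [restrict_compl_singleton] at h2

private lemma l2_int {f : V4 → ℂ} (h : ∀ v, v ≠ 0 → ContinuousAt f v) {M : ℝ}
    (hb : ∀ v, ‖f v‖ ≤ M) {w : V4 → ℝ} (hw : ∀ v, v ≠ 0 → ContinuousAt w v) {W : ℝ}
    (hwb : ∀ v, |w v| ≤ W) :
    Integrable (fun v : V4 => ((Real.exp (-‖v‖ ^ 2) * w v : ℝ) : ℂ) * f v) := by
  have hW : 0 ≤ W := (abs_nonneg _).trans (hwb 0)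
  refine (integrable_gauss4.mul_const (W * M)).mono' ?_ (Filter.Eventually.of_forall fun v => ?_)
  · refine l2_aesm fun v hv => ?_
    refine ContinuousAt.mul ?_ (h v hv)
    refine Complex.continuous_ofReal.continuousAt.comp ?_
    exact (Real.continuous_exp.comp (continuous_norm.pow 2).neg).continuousAt.mul (hw v hv)
  · rw [norm_mul, Complex.norm_real, norm_mul, Real.norm_of_nonneg (Real.exp_pos _).le, mul_assoc]
    refine mul_le_mul_of_nonneg_left ?_ (Real.exp_pos _).le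
    exact mul_le_mul (hwb v) (hb v) (norm_nonneg _) hW

private lemma l2_contAt {G : X3 → F} (hG : Continuous G) (y : X3) (v : V4) (hv : v ≠ 0) :
    ContinuousAt (fun v => K.S (gU v) (G (act (gU v)⁻¹ y))) v := by
  have h1 : Continuous fun U : SU2 => K.S U (G (act U⁻¹ y)) :=
    K.l2_S_cont.comp (continuous_id.prodMk (hG.comp (l2_continuous_act_inv y)))
  exact h1.continuousAt.comp (continuousAt_gU v hv)

private lemma l2_P_contAt (y : X3) (v : V4) (hv : v ≠ 0) :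
    ContinuousAt (fun v => perp2 (act (gU v)⁻¹ y)) v := by
  have hp : Continuous perp2 := by
    unfold perp2
    have h : ∀ p : Fin 9 × Fin 3, Continuous fun x : X3 => x p := fun p =>
      (EuclideanSpace.proj p).continuous
    exact ((((h _).pow 2).add ((h _).pow 2)).add ((h _).pow 2)).add ((h _).pow 2)
  exact (hp.comp (l2_continuous_act_inv y)).continuousAt.comp (continuousAt_gU v hv)

/-- matrix element of a coefficient -/
private noncomputable def l2g (G : X3 → F) (x : X3) (v : V4) : ℂ :=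
  inner ℂ (K.flip.xi (pr x)) (K.S (gU v) (G (act (gU v)⁻¹ (pr x))))

private lemma l2g_contAt {G : X3 → F} (hG : Continuous G) (x : X3) (v : V4) (hv : v ≠ 0) :
    ContinuousAt (K.l2g G x) v :=
  ContinuousAt.inner continuousAt_const (K.l2_contAt hG (pr x) v hv)

private lemma l2g_bound {G : X3 → F} {b : ℝ → ℝ} (hb : ∀ y, ‖G y‖ ≤ b (Real.sqrt (phsq y)))
    (x : X3) (v : V4) : ‖K.l2g G x v‖ ≤ ‖K.flip.xi (pr x)‖ * b (ze x) := by
  refine (norm_inner_le_norm _ _).trans ?_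
  refine mul_le_mul_of_nonneg_left ?_ (norm_nonneg _)
  rw [K.S_isometry]
  refine (hb _).trans (le_of_eq ?_)
  rw [l2_rad]

private lemma l2g1_Wel (x : X3) (R : V4 ≃ₗᵢ[ℝ] V4)
    (hR : ∀ v, v ≠ 0 → gU (R v) = gU v * Wel) (v : V4) (hv : v ≠ 0) :
    K.l2g K.l2G1 x (R v) = K.l2g K.l2G1 x v := by
  unfold l2g
  rw [hR v hv, mul_inv_rev, act_mul, map_mul, mul_apply_eq_comp, ← l2_G1_Wel, act_act_inv]

private lemma l2g1_torus (x : X3) (v : V4) (hv : v ≠ 0) (hb : vb v = 0) :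
    K.l2g K.l2G1 x v = -(2 / K.nu) * K.phb 2 x *
      inner ℂ (K.flip.xi (pr x)) ((Real.exp (-K.hh (pr x)) : ℂ) • K.aT (pr x)) := by
  obtain ⟨θ, hθ⟩ := gU_of_vb v hv hb
  unfold l2g
  rw [hθ, l2_pair_G1, l2_phb_pr]

variable [FiniteDimensional ℂ F]

private lemma l2_split {t : ℝ} (ht : 0 < t) (x : X3) {M0 M1 : ℝ}
    (h0 : ∀ v, ‖K.l2g K.l2G0 x v‖ ≤ M0) (h1 : ∀ v, ‖K.l2g K.l2G1 x v‖ ≤ M1) :
    inner ℂ (K.flip.xi (pr x)) (K.Av (K.Ps t) (pr x)) =
      (∫ v : V4, ((Real.exp (-‖v‖ ^ 2) * Real.exp (-t * perp2 (act (gU v)⁻¹ (pr x))) : ℝ) : ℂ) *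
        K.l2g K.l2G0 x v) +
      ∫ v : V4, ((Real.exp (-‖v‖ ^ 2) *
        (t * Real.exp (-t * perp2 (act (gU v)⁻¹ (pr x)))) : ℝ) : ℂ) * K.l2g K.l2G1 x v := by
  have : CompleteSpace F := FiniteDimensional.complete ℂ F
  have hE : ∀ v : V4, |Real.exp (-t * perp2 (act (gU v)⁻¹ (pr x)))| ≤ 1 := by
    intro v
    rw [abs_of_pos (Real.exp_pos _), Real.exp_le_one_iff, neg_mul]
    exact neg_nonpos.mpr (mul_nonneg ht.le (l2_perp_nonneg _))
  have hEc : ∀ v : V4, v ≠ 0 →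
      ContinuousAt (fun v => Real.exp (-t * perp2 (act (gU v)⁻¹ (pr x)))) v := fun v hv =>
    Real.continuous_exp.continuousAt.comp (continuousAt_const.mul (l2_P_contAt (pr x) v hv))
  have i0 := l2_int (K.l2g_contAt K.l2_cont_G0 x) h0 hEc hE
  have i1 := l2_int (K.l2g_contAt K.l2_cont_G1 x) h1
    (w := fun v => t * Real.exp (-t * perp2 (act (gU v)⁻¹ (pr x))))
    (fun v hv => continuousAt_const.mul (hEc v hv)) (W := t * 1)
    (fun v => by rw [abs_mul, abs_of_pos ht]; exact mul_le_mul_of_nonneg_left (hE v) ht.le)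
  rw [← integral_add i0 i1, Av, ← integral_inner]
  · refine integral_congr_ae (Filter.Eventually.of_forall fun v => ?_)
    simp only
    rw [inner_smul_right, l2_Ps, map_smul, inner_smul_right, map_sub, map_add, map_smul, map_smul,
      inner_sub_right, inner_add_right, inner_smul_right, inner_smul_right, l2_pair_G2, mul_zero,
      sub_zero]
    push_cast
    unfold l2g
    ring
  · obtain ⟨hc, C, s, hs, hb⟩ := K.Ps_adm ht
    refine (integrable_gauss4.mul_const (|C| * (1 + ze x) ^ 3)).mono' ?_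
      (Filter.Eventually.of_forall fun v => ?_)
    · refine l2_aesm fun v hv => ?_
      refine ContinuousAt.smul ?_ (K.l2_contAt hc (pr x) v hv)
      exact (Complex.continuous_ofReal.comp
        (Real.continuous_exp.comp (continuous_norm.pow 2).neg)).continuousAt
    · rw [norm_smul, Complex.norm_real, Real.norm_of_nonneg (Real.exp_pos _).le, K.S_isometry]
      refine mul_le_mul_of_nonneg_left ?_ (Real.exp_pos _).le
      set y := act (gU v)⁻¹ (pr x) with hy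
      have hz : ze y ≤ ze x := by rw [← l2_rad (gU v)⁻¹ x]; exact l2_ze_le y
      have hz0 := l2_ze_nonneg y
      have hp : Real.exp (-s * perp2 y) ≤ 1 := by
        rw [Real.exp_le_one_iff, neg_mul]
        exact neg_nonpos.mpr (mul_nonneg hs.le (l2_perp_nonneg _))
      have hB0 := l2_B0_nonneg y
      have hB1 := l2_B0_le y
      have hpp := (Real.exp_pos (-s * perp2 y)).le
      have hzx := l2_ze_nonneg x
      calc ‖K.Ps t y‖ ≤ C * (1 + ze y) ^ 3 * Real.exp (-s * perp2 y) * B0 y := hb y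
        _ ≤ |C| * (1 + ze y) ^ 3 * Real.exp (-s * perp2 y) * B0 y := by
          gcongr
          exact le_abs_self C
        _ ≤ |C| * (1 + ze x) ^ 3 * 1 * 1 := by gcongr
        _ = _ := by ring

omit [FiniteDimensional ℂ F] in
/-- pointwise limits -/
private lemma l2_tendsto0 {x : X3} (hx : 0 < r3 x) {M0 : ℝ}
    (h0 : ∀ v, ‖K.l2g K.l2G0 x v‖ ≤ M0) :
    Tendsto (fun t : ℝ => ∫ v : V4, ((Real.exp (-‖v‖ ^ 2) *
      Real.exp (-t * perp2 (act (gU v)⁻¹ (pr x))) : ℝ) : ℂ) * K.l2g K.l2G0 x v) atTop (𝓝 0) := by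
  refine (sph_limit0 hx (K.l2g_contAt K.l2_cont_G0 x) ⟨M0, h0⟩).congr fun t => ?_
  refine integral_congr_ae ?_
  filter_upwards [compl_mem_ae_iff.mpr (measure_singleton (0 : V4))] with v hv
  rw [perp2_pr v hv]

omit [FiniteDimensional ℂ F] in
private lemma l2_tendsto1 {x : X3} (hx : 0 < r3 x) {M1 : ℝ}
    (h1 : ∀ v, ‖K.l2g K.l2G1 x v‖ ≤ M1) :
    Tendsto (fun t : ℝ => ∫ v : V4, ((Real.exp (-‖v‖ ^ 2) *
      (t * Real.exp (-t * perp2 (act (gU v)⁻¹ (pr x)))) : ℝ) : ℂ) * K.l2g K.l2G1 x v) atTop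
      (𝓝 (((Real.pi ^ 2 / (2 * r3 x) : ℝ) : ℂ) * (-(2 / K.nu) * K.phb 2 x *
      inner ℂ (K.flip.xi (pr x)) ((Real.exp (-K.hh (pr x)) : ℂ) • K.aT (pr x))))) := by
  refine (sph_limit hx (K.l2g_contAt K.l2_cont_G1 x) ⟨M1, h1⟩ _ (K.l2g1_torus x)
    (fun R hR => K.l2g1_Wel x R hR)).congr fun t => ?_
  refine integral_congr_ae ?_
  filter_upwards [compl_mem_ae_iff.mpr (measure_singleton (0 : V4))] with v hv
  rw [perp2_pr v hv]

omit [FiniteDimensional ℂ F] in
private lemma l2_norm_int {f : V4 → ℂ} {M : ℝ} (hb : ∀ v, ‖f v‖ ≤ M) {w : V4 → ℝ}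
    (hw : ∀ v, 0 ≤ w v) (hi : Integrable fun v : V4 => Real.exp (-‖v‖ ^ 2) * w v) :
    ‖∫ v : V4, ((Real.exp (-‖v‖ ^ 2) * w v : ℝ) : ℂ) * f v‖ ≤
      (∫ v : V4, Real.exp (-‖v‖ ^ 2) * w v) * M := by
  refine (norm_integral_le_of_norm_le (hi.mul_const M) (Filter.Eventually.of_forall
    fun v => ?_)).trans (le_of_eq (integral_mul_const M _))
  rw [norm_mul, Complex.norm_real, Real.norm_of_nonneg (mul_nonneg (Real.exp_pos _).le (hw v))]
  exact mul_le_mul_of_nonneg_left (hb v) (mul_nonneg (Real.exp_pos _).le (hw v))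

private lemma l2_real4 {t z : ℝ} (ht : 1 ≤ t) (hz : 0 < z) :
    z * (1 + z) * ((1 + z) ^ 4) * (1 / (1 + t * z ^ 2)) ≤ 2 * (1 + z) ^ 4 ∧
    z * (1 + z) * (z * (1 + z) ^ 2) * (t * (1 / (1 + t * z ^ 2))) ≤ (1 + z) ^ 4 := by
  have hd : 0 < 1 + t * z ^ 2 := by positivity
  constructor
  · rw [mul_one_div, div_le_iff₀ hd]
    have h1 : z * (1 + z) ≤ 2 * (1 + t * z ^ 2) := by
      have h2 : z ^ 2 ≤ t * z ^ 2 := le_mul_of_one_le_left (sq_nonneg z) ht
      linarith only [h2, sq_nonneg (z - 1), sq_nonneg z]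
    calc z * (1 + z) * (1 + z) ^ 4 ≤ 2 * (1 + t * z ^ 2) * (1 + z) ^ 4 := by gcongr
      _ = _ := by ring
  · rw [mul_one_div, mul_div_assoc', div_le_iff₀ hd]
    calc z * (1 + z) * (z * (1 + z) ^ 2) * t = (1 + z) ^ 3 * (t * z ^ 2) := by ring
      _ ≤ (1 + z) ^ 4 * (1 + t * z ^ 2) := by
        gcongr
        · linarith
        · norm_num
        · linarith

private lemma l2_dom : ∃ C : ℝ, 0 ≤ C ∧ ∀ t : ℝ, 1 ≤ t → ∀ x : X3, 0 < r3 x →
    ‖inner ℂ (K.flip.xi (pr x)) (K.Av (K.Ps t) (pr x))‖ ≤ C * (1 + ze x) ^ 4 * B0 x := by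
  obtain ⟨C0, hC0, hG⟩ := K.l2_bounds
  obtain ⟨C1, hC1, hX⟩ := K.l2_xi_bound
  obtain ⟨C2, hC2, hS⟩ := sph_bound
  refine ⟨3 * (C0 * C1 * C2), by positivity, fun t ht x hx => ?_⟩
  have ht0 : 0 < t := by linarith
  have hz : 0 < ze x := Real.sqrt_pos.mpr hx
  have b0 := K.l2g_bound (G := K.l2G0) (b := fun ρ => C0 * (1 + ρ) ^ 4) (fun y => (hG y).1) x
  have b1 := K.l2g_bound (G := K.l2G1) (b := fun ρ => C0 * (ρ * (1 + ρ) ^ 2))
    (fun y => (hG y).2) x
  rw [K.l2_split ht0 x b0 b1]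
  have hx' := hX (pr x)
  rw [l2_ze_pr, l2_B0_pr] at hx'
  have hS' := hS t ht0 (pr x)
  rw [l2_phsq_pr, ← l2_ze_sq] at hS'
  have hEc : ∀ v : V4, v ≠ 0 →
      ContinuousAt (fun v => Real.exp (-t * perp2 (act (gU v)⁻¹ (pr x)))) v := fun v hv =>
    Real.continuous_exp.continuousAt.comp (continuousAt_const.mul (l2_P_contAt (pr x) v hv))
  have hi : Integrable fun v : V4 =>
      Real.exp (-‖v‖ ^ 2) * Real.exp (-t * perp2 (act (gU v)⁻¹ (pr x))) := by
    refine (integrable_gauss4.mul_const 1).mono' ?_ (Filter.Eventually.of_forall fun v => ?_)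
    · exact l2_aesm fun v hv => (Real.continuous_exp.comp
        (continuous_norm.pow 2).neg).continuousAt.mul (hEc v hv)
    · rw [Real.norm_of_nonneg (by positivity)]
      refine mul_le_mul_of_nonneg_left ?_ (Real.exp_pos _).le
      rw [Real.exp_le_one_iff, neg_mul]
      exact neg_nonpos.mpr (mul_nonneg ht0.le (l2_perp_nonneg _))
  have hi1 : Integrable fun v : V4 =>
      Real.exp (-‖v‖ ^ 2) * (t * Real.exp (-t * perp2 (act (gU v)⁻¹ (pr x)))) := by
    refine (hi.const_mul t).congr (Filter.Eventually.of_forall fun v => ?_)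
    simp only
    ring
  have e0 := l2_norm_int b0 (fun v => (Real.exp_pos _).le) hi
  have e1 := l2_norm_int b1 (w := fun v => t * Real.exp (-t * perp2 (act (gU v)⁻¹ (pr x))))
    (fun v => mul_nonneg ht0.le (Real.exp_pos _).le) hi1
  have e2 : ∫ v : V4, Real.exp (-‖v‖ ^ 2) * (t * Real.exp (-t * perp2 (act (gU v)⁻¹ (pr x)))) =
      t * ∫ v : V4, Real.exp (-‖v‖ ^ 2) * Real.exp (-t * perp2 (act (gU v)⁻¹ (pr x))) := by
    rw [← integral_const_mul]
    refine integral_congr_ae (Filter.Eventually.of_forall fun v => ?_)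
    simp only
    ring
  rw [e2] at e1
  set J := ∫ v : V4, Real.exp (-‖v‖ ^ 2) * Real.exp (-t * perp2 (act (gU v)⁻¹ (pr x))) with hJ
  have hJ0 : 0 ≤ J := integral_nonneg fun v => by positivity
  refine (norm_add_le _ _).trans ((add_le_add e0 e1).trans ?_)
  set X := ‖K.flip.xi (pr x)‖ with hXd
  have hXn : 0 ≤ X := norm_nonneg _
  set z := ze x with hzd
  set B := B0 x with hB
  have hBn : 0 ≤ B := l2_B0_nonneg x
  have hJ1 : J ≤ C2 * (1 / (1 + t * z ^ 2)) := by rw [mul_one_div]; exact hS'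
  obtain ⟨r1, r2⟩ := l2_real4 ht hz
  have hd : 0 ≤ 1 / (1 + t * z ^ 2) := by positivity
  have f0 : J * (X * (C0 * (1 + z) ^ 4)) ≤ C0 * C1 * C2 * B * (2 * (1 + z) ^ 4) := by
    calc J * (X * (C0 * (1 + z) ^ 4)) ≤
        (C2 * (1 / (1 + t * z ^ 2))) * ((C1 * (z * (1 + z)) * B) * (C0 * (1 + z) ^ 4)) := by
          gcongr
      _ = C0 * C1 * C2 * B * (z * (1 + z) * ((1 + z) ^ 4) * (1 / (1 + t * z ^ 2))) := by ring
      _ ≤ _ := mul_le_mul_of_nonneg_left r1 (by positivity)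
  have f1 : t * J * (X * (C0 * (z * (1 + z) ^ 2))) ≤ C0 * C1 * C2 * B * (1 + z) ^ 4 := by
    calc t * J * (X * (C0 * (z * (1 + z) ^ 2))) ≤
        t * (C2 * (1 / (1 + t * z ^ 2))) *
          ((C1 * (z * (1 + z)) * B) * (C0 * (z * (1 + z) ^ 2))) := by
          gcongr
      _ = C0 * C1 * C2 * B *
          (z * (1 + z) * (z * (1 + z) ^ 2) * (t * (1 / (1 + t * z ^ 2)))) := by ring
      _ ≤ _ := mul_le_mul_of_nonneg_left r2 (by positivity)
  calc _ ≤ C0 * C1 * C2 * B * (2 * (1 + z) ^ 4) + C0 * C1 * C2 * B * (1 + z) ^ 4 :=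
        add_le_add f0 f1
    _ = _ := by ring

private lemma l2_ae_r3 : ∀ᵐ x : X3, 0 < r3 x := by
  have h1 : (volume : Measure X3)
      ((LinearMap.ker (EuclideanSpace.proj (𝕜 := ℝ) (7, 2) : X3 →L[ℝ] ℝ).toLinearMap :
        Submodule ℝ X3) : Set X3) = 0 := by
    refine Measure.addHaar_submodule _ _ fun h => ?_
    have h2 : (EuclideanSpace.single ((7, 2) : Fin 9 × Fin 3) (1 : ℝ) : X3) ∈
        (LinearMap.ker (EuclideanSpace.proj (𝕜 := ℝ) (7, 2) : X3 →L[ℝ] ℝ).toLinearMap :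
        Submodule ℝ X3) := by rw [h]; trivial
    simp at h2
  filter_upwards [compl_mem_ae_iff.mpr h1] with x hx
  have hx' : x (7, 2) ≠ 0 := by
    intro h
    exact hx (by simpa using h)
  unfold r3
  positivity

theorem lim2 :
    Tendsto (fun t : ℝ => ∫ x, (Real.exp (-perp2 x) : ℂ) *
      inner ℂ (K.flip.xi (pr x)) (K.Av (K.Ps t) (pr x))) atTop
      (𝓝 (∫ x, (Real.exp (-perp2 x) : ℂ) * (-((Real.pi ^ 2 : ℝ) : ℂ) / K.nu) *
        (K.phb 2 x / (r3 x : ℂ)) *
        inner ℂ (K.flip.xi (pr x)) ((Real.exp (-K.hh (pr x)) : ℂ) • K.aT (pr x)))) := by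
  obtain ⟨C, hC, hd⟩ := K.l2_dom
  have hpc : Continuous fun x : X3 => (Real.exp (-perp2 x) : ℂ) := by
    have h : ∀ p : Fin 9 × Fin 3, Continuous fun x : X3 => x p := fun p =>
      (EuclideanSpace.proj p).continuous
    have hp : Continuous perp2 := by
      unfold perp2
      exact ((((h _).pow 2).add ((h _).pow 2)).add ((h _).pow 2)).add ((h _).pow 2)
    exact Complex.continuous_ofReal.comp (Real.continuous_exp.comp hp.neg)
  refine tendsto_integral_filter_of_dominated_convergence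
    (fun x => C * ((1 + ze x) ^ 4 * Real.exp (-1 * perp2 x) * B0 x)) ?_ ?_
    ((integrable_J one_pos).const_mul C) ?_
  · filter_upwards [Filter.eventually_gt_atTop (0 : ℝ)] with t ht
    exact (hpc.mul ((K.l2_cont_xi.comp l2_continuous_pr).inner
      ((K.Av_continuous (K.Ps_adm ht)).comp l2_continuous_pr))).aestronglyMeasurable
  · filter_upwards [Filter.eventually_ge_atTop (1 : ℝ)] with t ht
    filter_upwards [l2_ae_r3] with x hx
    rw [norm_mul, Complex.norm_real, Real.norm_of_nonneg (Real.exp_pos _).le, neg_one_mul]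
    calc Real.exp (-perp2 x) * ‖inner ℂ (K.flip.xi (pr x)) (K.Av (K.Ps t) (pr x))‖ ≤
        Real.exp (-perp2 x) * (C * (1 + ze x) ^ 4 * B0 x) :=
          mul_le_mul_of_nonneg_left (hd t ht x hx) (Real.exp_pos _).le
      _ = _ := by ring
  · filter_upwards [l2_ae_r3] with x hx
    obtain ⟨C0, -, hG⟩ := K.l2_bounds
    have b0 := K.l2g_bound (G := K.l2G0) (b := fun ρ => C0 * (1 + ρ) ^ 4) (fun y => (hG y).1) x
    have b1 := K.l2g_bound (G := K.l2G1) (b := fun ρ => C0 * (ρ * (1 + ρ) ^ 2))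
      (fun y => (hG y).2) x
    have hl := ((K.l2_tendsto0 hx b0).add (K.l2_tendsto1 hx b1)).const_mul
      (Real.exp (-perp2 x) : ℂ)
    have hr : (r3 x : ℂ) ≠ 0 := by exact_mod_cast hx.ne'
    have hnu := K.l2_nu_ne
    have e : (Real.exp (-perp2 x) : ℂ) * (-((Real.pi ^ 2 : ℝ) : ℂ) / K.nu) *
        (K.phb 2 x / (r3 x : ℂ)) *
        inner ℂ (K.flip.xi (pr x)) ((Real.exp (-K.hh (pr x)) : ℂ) • K.aT (pr x)) =
        (Real.exp (-perp2 x) : ℂ) * (0 + ((Real.pi ^ 2 / (2 * r3 x) : ℝ) : ℂ) *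
          (-(2 / K.nu) * K.phb 2 x *
          inner ℂ (K.flip.xi (pr x)) ((Real.exp (-K.hh (pr x)) : ℂ) • K.aT (pr x)))) := by
      push_cast
      field_simp
      ring
    rw [e]
    refine hl.congr' ?_
    filter_upwards [Filter.eventually_gt_atTop (0 : ℝ)] with t ht
    rw [K.l2_split ht x b0 b1]

end Fk

end Vale.Agent.P353.Ex
end

section

/-! # P353, uniqueness for `N = 2`: the ten dimensional Fierz identity -/

open MeasureTheory Filter Topology
open scoped ContDiff Matrix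

namespace Vale.Agent.P353.U

variable {F : Type*} [NormedAddCommGroup F] [InnerProductSpace ℂ F]

/-- the gamma matrices and the unit matrix -/
noncomputable def f10N (S : Setup F) : Option (Fin 9) → Matrix (Fin 16) (Fin 16) ℂ
  | none => 1
  | some i => S.g i

/-- signs -/
noncomputable def f10w : Option (Fin 9) → ℂ
  | none => -1
  | some _ => 1

/-- the tensor `∑ ± N ⊗ N` -/
noncomputable def f10E (S : Setup F) (a b c d : Fin 16) : ℂ :=
  ∑ μ, f10w μ * (f10N S μ a b * f10N S μ c d)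

theorem f10_symm (S : Setup F) (μ : Option (Fin 9)) : (f10N S μ)ᵀ = f10N S μ := by
  cases μ with
  | none => exact Matrix.transpose_one
  | some i => exact S.g_symm i

theorem f10_real (S : Setup F) (μ : Option (Fin 9)) (a b : Fin 16) : (f10N S μ a b).im = 0 := by
  cases μ with
  | none =>
    change ((1 : Matrix (Fin 16) (Fin 16) ℂ) a b).im = 0
    rw [Matrix.one_apply]
    split_ifs <;> simp
  | some i => exact S.g_real i a b

theorem f10_wreal (μ : Option (Fin 9)) : (f10w μ).im = 0 := by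
  cases μ <;> simp [f10w]

theorem f10_trace_one (S : Setup F) (i : Fin 9) : (S.g i).trace = 0 := by
  obtain ⟨j, hj⟩ : ∃ j : Fin 9, i ≠ j := ⟨i + 1, by
    have : ∀ i : Fin 9, i ≠ i + 1 := by decide
    exact this i⟩
  have h1 : S.g i = S.g j * S.g j * S.g i := by rw [S.g_sq' j, one_mul]
  have h2 : (S.g j * S.g j * S.g i).trace = -(S.g j * S.g j * S.g i).trace := by
    conv_lhs => rw [mul_assoc, S.g_ac hj.symm, mul_neg, Matrix.trace_neg, ← mul_assoc,
      Matrix.trace_mul_comm, ← mul_assoc]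
  rw [h1]
  have h3 : (2 : ℂ) * (S.g j * S.g j * S.g i).trace = 0 := by linear_combination h2
  simpa using h3

theorem f10_trace (S : Setup F) (μ ν : Option (Fin 9)) :
    (f10N S μ * f10N S ν).trace = if μ = ν then 16 else 0 := by
  rcases μ with _ | i <;> rcases ν with _ | j
  · simp only [f10N, mul_one, if_true, CS.trace_one16]
  · simp only [f10N, one_mul, f10_trace_one, reduceCtorEq, if_false]
  · simp only [f10N, mul_one, f10_trace_one, reduceCtorEq, if_false]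
  · simp only [f10N, Option.some.injEq]
    exact S.trace_g_g i j

theorem f10_trace4 (S : Setup F) (μ ν : Option (Fin 9)) :
    (f10N S μ * f10N S ν * (f10N S μ * f10N S ν)).trace =
      if μ = none ∨ ν = none ∨ μ = ν then 16 else -16 := by
  rcases μ with _ | i <;> rcases ν with _ | j
  · simp only [f10N, mul_one, true_or, if_true, CS.trace_one16]
  · simp only [f10N, one_mul, true_or, if_true, S.g_sq', CS.trace_one16]
  · simp only [f10N, mul_one, true_or, or_true, if_true, S.g_sq', CS.trace_one16]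
  · simp only [f10N, reduceCtorEq, false_or, Option.some.injEq]
    by_cases h : i = j
    · subst h
      rw [if_pos rfl, S.g_sq', mul_one, CS.trace_one16]
    · rw [if_neg h]
      have h1 : S.g i * S.g j * (S.g i * S.g j) = -1 := by
        calc S.g i * S.g j * (S.g i * S.g j) = -(S.g j * S.g i) * (S.g i * S.g j) := by
              rw [S.g_ac h]
          _ = -(S.g j * (S.g i * S.g i) * S.g j) := by
              rw [neg_mul]; congr 1; simp only [mul_assoc]
          _ = -1 := by rw [S.g_sq', mul_one, S.g_sq']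
      rw [h1, Matrix.trace_neg, CS.trace_one16]

theorem f10_tr2 (S : Setup F) (μ ν : Option (Fin 9)) :
    ∑ a, ∑ b, f10N S μ a b * f10N S ν a b = (f10N S μ * f10N S ν).trace := by
  rw [Matrix.trace]
  refine Finset.sum_congr rfl fun a _ => ?_
  rw [Matrix.diag_apply, Matrix.mul_apply]
  refine Finset.sum_congr rfl fun b _ => ?_
  conv_lhs => rw [← f10_symm S ν, Matrix.transpose_apply]

theorem f10_tr4 (S : Setup F) (μ ν : Option (Fin 9)) :
    ∑ a, ∑ b, ∑ c, ∑ d, (f10N S μ a b * f10N S μ c d) * (f10N S ν b c * f10N S ν a d) =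
      (f10N S μ * f10N S ν * (f10N S μ * f10N S ν)).trace := by
  rw [Matrix.trace]
  refine Finset.sum_congr rfl fun a _ => ?_
  rw [Matrix.diag_apply, Matrix.mul_apply, Finset.sum_comm]
  refine Finset.sum_congr rfl fun c _ => ?_
  rw [Matrix.mul_apply, Matrix.mul_apply, Finset.sum_mul_sum]
  refine Finset.sum_congr rfl fun b _ => Finset.sum_congr rfl fun d _ => ?_
  have h1 : f10N S ν a d = f10N S ν d a := by
    conv_lhs => rw [← f10_symm S ν, Matrix.transpose_apply]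
  rw [h1]
  ring

theorem f10_comm (f : Fin 16 → Option (Fin 9) → Option (Fin 9) → ℂ) :
    ∑ d, ∑ μ, ∑ ν, f d μ ν = ∑ μ, ∑ ν, ∑ d, f d μ ν := by
  rw [Finset.sum_comm]
  exact Finset.sum_congr rfl fun _ _ => Finset.sum_comm

theorem f10_cyc (G : Fin 16 → Fin 16 → Fin 16 → Fin 16 → ℂ) :
    ∑ a, ∑ b, ∑ c, ∑ d, G b c a d = ∑ a, ∑ b, ∑ c, ∑ d, G a b c d := by
  rw [Finset.sum_comm]
  exact Finset.sum_congr rfl fun a _ => Finset.sum_comm

theorem f10_S1 (S : Setup F) :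
    ∑ a, ∑ b, ∑ c, ∑ d, f10E S a b c d ^ 2 = 2560 := by
  have h1 : ∀ a b c d, f10E S a b c d ^ 2 = ∑ μ, ∑ ν, f10w μ * f10w ν *
      ((f10N S μ a b * f10N S ν a b) * (f10N S μ c d * f10N S ν c d)) := by
    intro a b c d
    rw [f10E, sq, Finset.sum_mul_sum]
    refine Finset.sum_congr rfl fun μ _ => Finset.sum_congr rfl fun ν _ => ?_
    ring
  simp_rw [h1, f10_comm, ← Finset.mul_sum, ← Finset.sum_mul, f10_tr2, f10_trace]
  simp [Fintype.sum_option, f10w, Finset.sum_ite_eq]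
  norm_num

theorem f10_S2 (S : Setup F) :
    ∑ a, ∑ b, ∑ c, ∑ d, f10E S a b c d * f10E S b c a d = -1280 := by
  have h1 : ∀ a b c d, f10E S a b c d * f10E S b c a d = ∑ μ, ∑ ν, f10w μ * f10w ν *
      ((f10N S μ a b * f10N S μ c d) * (f10N S ν b c * f10N S ν a d)) := by
    intro a b c d
    rw [f10E, f10E, Finset.sum_mul_sum]
    refine Finset.sum_congr rfl fun μ _ => Finset.sum_congr rfl fun ν _ => ?_
    ring
  simp_rw [h1, f10_comm, ← Finset.mul_sum, f10_tr4, f10_trace4]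
  have h2 : ∀ i j : Fin 9, (if i = j then (16 : ℂ) else -16) = -16 + if i = j then 32 else 0 := by
    intro i j
    by_cases h : i = j
    · simp [h]; norm_num
    · simp [h]
  simp [Fintype.sum_option, f10w, h2, Finset.sum_add_distrib]
  norm_num

/-- the identity -/
theorem f10_zero (S : Setup F) (a b c d : Fin 16) :
    f10E S a b c d + f10E S b c a d + f10E S c a b d = 0 := by
  have hEre : ∀ a b c d, (f10E S a b c d).im = 0 := by
    intro a b c d
    rw [f10E, Complex.im_sum]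
    refine Finset.sum_eq_zero fun μ _ => ?_
    simp [Complex.mul_im, f10_real, f10_wreal]
  have hsum : ∑ a, ∑ b, ∑ c, ∑ d,
      (f10E S a b c d + f10E S b c a d + f10E S c a b d) ^ 2 = 0 := by
    have e : ∀ a b c d, (f10E S a b c d + f10E S b c a d + f10E S c a b d) ^ 2 =
        f10E S a b c d ^ 2 + f10E S b c a d ^ 2 + f10E S c a b d ^ 2 +
        2 * (f10E S a b c d * f10E S b c a d) + 2 * (f10E S b c a d * f10E S c a b d) +
        2 * (f10E S c a b d * f10E S a b c d) := by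
      intro a b c d
      ring
    simp_rw [e, Finset.sum_add_distrib, ← Finset.mul_sum]
    have c1 := f10_cyc (fun a b c d => f10E S a b c d ^ 2)
    have c2 := f10_cyc (fun a b c d => f10E S b c a d ^ 2)
    have c3 := f10_cyc (fun a b c d => f10E S a b c d * f10E S b c a d)
    have c4 := f10_cyc (fun a b c d => f10E S b c a d * f10E S c a b d)
    rw [c4, c3, c2, c1, f10_S1, f10_S2]
    norm_num
  -- real parts
  have hre : ∑ a, ∑ b, ∑ c, ∑ d,
      ((f10E S a b c d + f10E S b c a d + f10E S c a b d).re) ^ 2 = 0 := by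
    have h1 := congrArg Complex.re hsum
    simp only [Complex.re_sum, Complex.zero_re] at h1
    rw [← h1]
    refine Finset.sum_congr rfl fun a _ => Finset.sum_congr rfl fun b _ =>
      Finset.sum_congr rfl fun c _ => Finset.sum_congr rfl fun d _ => ?_
    have h2 : (f10E S a b c d + f10E S b c a d + f10E S c a b d).im = 0 := by
      simp only [Complex.add_im, hEre, add_zero]
    rw [sq (f10E S a b c d + f10E S b c a d + f10E S c a b d), Complex.mul_re, h2]
    ring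
  have h1 := (Finset.sum_eq_zero_iff_of_nonneg (fun a _ => Finset.sum_nonneg fun b _ =>
    Finset.sum_nonneg fun c _ => Finset.sum_nonneg fun d _ => sq_nonneg _)).1 hre a
      (Finset.mem_univ _)
  have h2 := (Finset.sum_eq_zero_iff_of_nonneg (fun b _ =>
    Finset.sum_nonneg fun c _ => Finset.sum_nonneg fun d _ => sq_nonneg _)).1 h1 b
      (Finset.mem_univ _)
  have h3 := (Finset.sum_eq_zero_iff_of_nonneg (fun c _ =>
    Finset.sum_nonneg fun d _ => sq_nonneg _)).1 h2 c (Finset.mem_univ _)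
  have h4 := (Finset.sum_eq_zero_iff_of_nonneg (fun d _ => sq_nonneg _)).1 h3 d
    (Finset.mem_univ _)
  have h5 := pow_eq_zero_iff (two_ne_zero) |>.1 h4
  refine Complex.ext h5 ?_
  simp only [Complex.add_im, hEre, add_zero, Complex.zero_im]

/-- A-F10 -/
theorem f10 (S : Setup F) : F10Stmt S := by
  intro α β γ δ
  have h := f10_zero S α β γ δ
  have e : ∀ a b c d : Fin 16, f10E S a b c d =
      (∑ i, S.g i a b * S.g i c d) - if a = b ∧ c = d then 1 else 0 := by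
    intro a b c d
    rw [f10E, Fintype.sum_option]
    have h1 : f10w none * (f10N S none a b * f10N S none c d) =
        -(if a = b ∧ c = d then 1 else 0) := by
      change (-1 : ℂ) * ((1 : Matrix (Fin 16) (Fin 16) ℂ) a b *
        (1 : Matrix (Fin 16) (Fin 16) ℂ) c d) = _
      rw [Matrix.one_apply, Matrix.one_apply]
      by_cases h2 : a = b <;> by_cases h3 : c = d <;> simp [h2, h3]
    have h2 : ∀ i : Fin 9, f10w (some i) * (f10N S (some i) a b * f10N S (some i) c d) =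
        S.g i a b * S.g i c d := by
      intro i
      change (1 : ℂ) * (S.g i a b * S.g i c d) = _
      rw [one_mul]
    rw [h1]
    simp_rw [h2]
    ring
  rw [e, e, e] at h
  rw [Finset.sum_add_distrib, Finset.sum_add_distrib]
  linear_combination h

end Vale.Agent.P353.U
end

section

/-! # P353, uniqueness for `N = 2`: local limits -/

open MeasureTheory Filter Topology
open scoped ContDiff

namespace Vale.Agent.P353.U

variable {F : Type*} [NormedAddCommGroup F] [InnerProductSpace ℂ F]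

section final

variable {S : Setup F}

/-- derivative along the gauge directions -/
noncomputable def lmD (ξ : X3) (C : Fin 3) (u : X3 → F) (x : X3) : F :=
  ∑ i, ∑ A, ∑ B, ((eps C A B : ℂ) * (ξ (i, A) : ℂ)) • pd i B u x

lemma lm_Tst_D (ξ : X3) (C : Fin 3) {ζ : X3 → F} (hζ : Setup.Tst ζ) : Setup.Tst (lmD ξ C ζ) := by
  constructor
  · unfold lmD
    refine ContDiff.sum fun i _ => ContDiff.sum fun A _ => ContDiff.sum fun B _ => ?_
    exact (contDiff_pd hζ.1).const_smul _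
  · refine HasCompactSupport.intro' (K := tsupport ζ) hζ.2 (isClosed_tsupport ζ) ?_
    intro x hx
    have h1 : ∀ i A, pd i A ζ x = 0 := by
      intro i A
      have : fderiv ℝ ζ x = 0 := by
        have h := (tsupport_fderiv_subset ℝ (f := ζ))
        by_contra hne
        exact hx (h (subset_tsupport _ hne))
      simp [pd, this]
    simp only [lmD, h1, smul_zero, Finset.sum_const_zero]

lemma lm_D_symm (ξ : X3) (C : Fin 3) {ζ v : X3 → F} (hζ : Setup.Tst ζ) (hv : ContDiff ℝ ∞ v) :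
    ∫ x, inner ℂ (lmD ξ C ζ x) (v x) = -∫ x, inner ℂ (ζ x) (lmD ξ C v x) := by
  have hc : ∀ n : ℤ, (starRingEnd ℂ) (n : ℂ) = n := fun n => by simp
  simp only [lmD, sum_inner, inner_sum, inner_smul_left, inner_smul_right, map_mul,
    Complex.conj_ofReal, hc]
  have i1 : ∀ i B, Integrable (fun x => inner ℂ (pd i B ζ x) (v x)) := fun i B =>
    (hζ.pd i B).inner_int hv.continuous
  have i2 : ∀ i B, Integrable (fun x => inner ℂ (ζ x) (pd i B v x)) := fun i B =>
    hζ.inner_int (contDiff_pd hv).continuous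
  rw [integral_finsetSum _ fun i _ => integrable_finsetSum _ fun A _ => integrable_finsetSum _
      fun B _ => (i1 i B).const_mul _,
    integral_finsetSum _ fun i _ => integrable_finsetSum _ fun A _ => integrable_finsetSum _
      fun B _ => (i2 i B).const_mul _, ← Finset.sum_neg_distrib]
  refine Finset.sum_congr rfl fun i _ => ?_
  rw [integral_finsetSum _ fun A _ => integrable_finsetSum _
      fun B _ => (i1 i B).const_mul _,
    integral_finsetSum _ fun A _ => integrable_finsetSum _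
      fun B _ => (i2 i B).const_mul _, ← Finset.sum_neg_distrib]
  refine Finset.sum_congr rfl fun A _ => ?_
  rw [integral_finsetSum _ fun B _ => (i1 i B).const_mul _,
    integral_finsetSum _ fun B _ => (i2 i B).const_mul _, ← Finset.sum_neg_distrib]
  refine Finset.sum_congr rfl fun B _ => ?_
  rw [integral_const_mul, integral_const_mul, integral_inner_pd ζ v (hζ.1.of_le (by simp))
    (hv.of_le (by simp)) hζ.2 i B]
  ring

/-- the gauge generator in scaled coordinates -/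
lemma lm_G_scl {φ : X3 → F} (hφ : ContDiff ℝ ∞ φ) {m : ℝ} (hm : 0 < m) (ξ : X3) (C : Fin 3)
    (hG : ∀ x, S.G C φ x = 0) (w : X3) :
    lmD ξ C (scl m ξ φ) w =
      (-Complex.I * ((((Real.sqrt m)⁻¹) ^ 3 : ℝ) : ℂ)) • S.G C (scl m ξ φ) w := by
  have ht : 0 < Real.sqrt m := Real.sqrt_pos.2 hm
  have ht2 : Real.sqrt m ^ 2 = m := Real.sq_sqrt hm.le
  have htc : ((Real.sqrt m : ℝ) : ℂ) ≠ 0 := Complex.ofReal_ne_zero.2 ht.ne'
  have hmc : (m : ℂ) = ((Real.sqrt m : ℝ) : ℂ) ^ 2 := by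
    rw [← Complex.ofReal_pow, ht2]
  have h := hG (m • ξ + (Real.sqrt m)⁻¹ • w)
  have e2 : scl m ξ φ w = φ (m • ξ + (Real.sqrt m)⁻¹ • w) := rfl
  have hpd : ∀ i B, pd i B φ (m • ξ + (Real.sqrt m)⁻¹ • w) =
      ((Real.sqrt m : ℝ) : ℂ) • pd i B (scl m ξ φ) w := by
    intro i B
    rw [lm_pd_scl hφ, smul_smul, ← Complex.ofReal_mul, mul_inv_cancel₀ ht.ne', Complex.ofReal_one,
      one_smul]
  have hsum : ∑ i, ∑ A, ∑ B, ((eps C A B : ℂ) *
      ((m • ξ + (Real.sqrt m)⁻¹ • w) (i, A) : ℂ)) • pd i B φ (m • ξ + (Real.sqrt m)⁻¹ • w) =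
      (((Real.sqrt m : ℝ) : ℂ) ^ 3) • lmD ξ C (scl m ξ φ) w +
        ∑ i, ∑ A, ∑ B, ((eps C A B : ℂ) * (w (i, A) : ℂ)) • pd i B (scl m ξ φ) w := by
    simp only [lmD, Finset.smul_sum, ← Finset.sum_add_distrib]
    refine Finset.sum_congr rfl fun i _ => Finset.sum_congr rfl fun A _ =>
      Finset.sum_congr rfl fun B _ => ?_
    rw [hpd, smul_smul, smul_smul, ← add_smul]
    congr 1
    rw [PiLp.add_apply, PiLp.smul_apply, PiLp.smul_apply, smul_eq_mul, smul_eq_mul]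
    push_cast
    rw [hmc]
    field_simp
  rw [Setup.G, hsum, ← e2] at h
  rw [Setup.G]
  generalize (∑ i, ∑ A, ∑ B, ((eps C A B : ℂ) * (w (i, A) : ℂ)) •
    pd i B (scl m ξ φ) w) = a at h ⊢
  generalize S.cS C (scl m ξ φ w) = b at h ⊢
  generalize lmD ξ C (scl m ξ φ) w = d at h ⊢
  have h2 : (-Complex.I) • a + b = (Complex.I * ((Real.sqrt m : ℝ) : ℂ) ^ 3) • d := by
    have h3 : (-Complex.I) • a + b - (Complex.I * ((Real.sqrt m : ℝ) : ℂ) ^ 3) • d =
        (-Complex.I) • ((((Real.sqrt m : ℝ) : ℂ) ^ 3) • d + a) + b := by module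
    exact sub_eq_zero.1 (h3.trans h)
  rw [h2, smul_smul]
  have h4 : -Complex.I * ((((Real.sqrt m)⁻¹) ^ 3 : ℝ) : ℂ) *
      (Complex.I * ((Real.sqrt m : ℝ) : ℂ) ^ 3) = 1 := by
    push_cast
    have hI := Complex.I_mul_I
    field_simp
    rw [← neg_mul_neg] at hI
    linear_combination -hI
  rw [h4, one_smul]

/-- **C-Lim** -/
theorem lim (h8 : A8Stmt S) (hLR : LRStmt F) : LimStmt S := by
  intro ξ hcr m hm1 hmt φ hφ P hP hE
  have hm0 : ∀ k, 0 < m k := fun k => lt_of_lt_of_le one_pos (hm1 k)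
  have hsm : ∀ k, ContDiff ℝ ∞ (scl (m k) ξ (φ k)) := fun k =>
    lm_scl_contDiff (hφ k).1 (m k) ξ
  -- local bounds
  have hbd : ∀ s : ℝ, 0 < s → ∃ K : ℝ, ∀ k,
      (∫ x in Metric.ball (0 : X3) s, ‖scl (m k) ξ (φ k) x‖ ^ 2) +
      ∑ i, ∑ A, (∫ x in Metric.ball (0 : X3) s, ‖pd i A (scl (m k) ξ (φ k)) x‖ ^ 2) ≤ K := by
    intro s hs
    obtain ⟨C, hC, hC'⟩ := lm_grad S h8 ξ hcr hs
    obtain ⟨B, hB⟩ := (hE (3 * s) (by linarith)).bddAbove_range
    refine ⟨P s + C * (B + P (3 * s)), fun k => add_le_add (hP k s hs) ?_⟩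
    refine (hC' (m k) (hm1 k) (φ k) (hφ k).1).trans ?_
    exact mul_le_mul_of_nonneg_left (add_le_add (hB ⟨k, rfl⟩) (hP k (3 * s) (by linarith))) hC
  obtain ⟨ψ, hψ, u, hum, hui, hul⟩ := hLR (fun k => scl (m k) ξ (φ k)) hsm hbd
  refine ⟨ψ, hψ, u, hum, hui, hul, ?_, ?_⟩
  · -- the equation
    intro β ζ hζ
    have h1 := lm_tend (v := fun k => scl (m (ψ k)) ξ (φ (ψ k)))
      (fun k => (hsm (ψ k)).continuous) hum hui hul (lm_Tst_Qlin S ξ β hζ)
    have hWζ : Setup.Tst (fun x => S.W β x (ζ x)) := Setup.Tst.clm (S.contDiff_W β) hζ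
    have h2 := lm_tend (v := fun k => scl (m (ψ k)) ξ (φ (ψ k)))
      (fun k => (hsm (ψ k)).continuous) hum hui hul hWζ
    have hcE : ∀ k, Continuous fun x => ((((Real.sqrt (m k))⁻¹ : ℝ)) : ℂ) •
        scl (m k) ξ (S.Qm (m k) β (φ k)) x := by
      intro k
      have h1 : ContDiff ℝ ∞ (S.Qm (m k) β (φ k)) := by
        have : ContDiff ℝ ∞ (fun x => S.Q β (φ k) x + ((m k : ℝ) : ℂ) • S.MM β x (φ k x)) :=
          (S.contDiff_Q β (hφ k).1).add
            ((Setup.contDiff_clm_apply' (lm_contDiff_MM S β) (hφ k).1).const_smul _)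
        exact this
      exact (lm_scl_contDiff h1 (m k) ξ).continuous.const_smul _
    have h3 : Tendsto (fun k => ∫ x, inner ℂ (ζ x) (((((Real.sqrt (m (ψ k)))⁻¹ : ℝ)) : ℂ) •
        scl (m (ψ k)) ξ (S.Qm (m (ψ k)) β (φ (ψ k))) x)) atTop (𝓝 0) := by
      refine lm_null (fun k => hcE (ψ k)) (fun s hs => ?_) hζ
      have h4 := (hE s hs).comp hψ.tendsto_atTop
      refine squeeze_zero (fun k => integral_nonneg fun x => by positivity) (fun k => ?_) h4
      have h5 : ∀ x, ‖((((Real.sqrt (m (ψ k)))⁻¹ : ℝ)) : ℂ) •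
          scl (m (ψ k)) ξ (S.Qm (m (ψ k)) β (φ (ψ k))) x‖ ^ 2 =
          (m (ψ k))⁻¹ * ‖scl (m (ψ k)) ξ (S.Qm (m (ψ k)) β (φ (ψ k))) x‖ ^ 2 := by
        intro x
        rw [norm_smul, Complex.norm_real, mul_pow, Real.norm_eq_abs, sq_abs, inv_pow,
          Real.sq_sqrt (hm0 _).le]
      simp only [h5, Function.comp]
      exact Finset.single_le_sum (f := fun β => ∫ w in Metric.ball (0 : X3) s,
        (m (ψ k))⁻¹ * ‖scl (m (ψ k)) ξ (S.Qm (m (ψ k)) β (φ (ψ k))) w‖ ^ 2)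
        (fun β _ => integral_nonneg fun x => mul_nonneg (inv_nonneg.2 (hm0 _).le) (by positivity))
        (Finset.mem_univ β)
    have h4 : Tendsto (fun k => ((((Real.sqrt (m (ψ k)))⁻¹) ^ 3 : ℝ) : ℂ)) atTop (𝓝 0) := by
      have a1 : Tendsto (fun k => ((Real.sqrt (m (ψ k)))⁻¹)) atTop (𝓝 0) :=
        tendsto_inv_atTop_zero.comp (Real.tendsto_sqrt_atTop.comp (hmt.comp hψ.tendsto_atTop))
      have a2 := a1.pow 3
      rw [zero_pow (by norm_num)] at a2
      have a3 := (Complex.continuous_ofReal.tendsto 0).comp a2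
      rw [Complex.ofReal_zero] at a3
      exact a3
    have h5 : ∀ k, ∫ x, inner ℂ (S.Qlin ξ β ζ x) (scl (m (ψ k)) ξ (φ (ψ k)) x) =
        (∫ x, inner ℂ (ζ x) (((((Real.sqrt (m (ψ k)))⁻¹ : ℝ)) : ℂ) •
          scl (m (ψ k)) ξ (S.Qm (m (ψ k)) β (φ (ψ k))) x)) -
        ((((Real.sqrt (m (ψ k)))⁻¹) ^ 3 : ℝ) : ℂ) *
          ∫ x, inner ℂ (S.W β x (ζ x)) (scl (m (ψ k)) ξ (φ (ψ k)) x) := by
      intro k
      rw [lm_Qlin_symm S ξ β hζ (hsm (ψ k)), ← integral_const_mul, ← integral_sub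
        (hζ.inner_int (hcE (ψ k))) ((hWζ.inner_int (hsm (ψ k)).continuous).const_mul _)]
      refine integral_congr_ae (Filter.Eventually.of_forall fun x => ?_)
      simp only
      rw [lm_Qm_scl S (hφ (ψ k)).1 (hm0 (ψ k)) (hcr β) x, inner_add_right, inner_smul_right,
        S.W_symm, add_sub_cancel_right]
    have h6 := h3.sub (h4.mul h2)
    rw [zero_mul, sub_zero] at h6
    have h7 := h6.congr fun k => (h5 k).symm
    exact tendsto_nhds_unique h1 h7
  · -- gauge directions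
    intro hG C ζ hζ
    obtain ⟨Z, hZ, hZ'⟩ := (lm_adj_G S C).2 ζ hζ
    have h1 := lm_tend (v := fun k => scl (m (ψ k)) ξ (φ (ψ k)))
      (fun k => (hsm (ψ k)).continuous) hum hui hul (lm_Tst_D ξ C hζ)
    have h2 := lm_tend (v := fun k => scl (m (ψ k)) ξ (φ (ψ k)))
      (fun k => (hsm (ψ k)).continuous) hum hui hul hZ
    have h4 : Tendsto (fun k => ((((Real.sqrt (m (ψ k)))⁻¹) ^ 3 : ℝ) : ℂ)) atTop (𝓝 0) := by
      have a1 : Tendsto (fun k => ((Real.sqrt (m (ψ k)))⁻¹)) atTop (𝓝 0) :=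
        tendsto_inv_atTop_zero.comp (Real.tendsto_sqrt_atTop.comp (hmt.comp hψ.tendsto_atTop))
      have a2 := a1.pow 3
      rw [zero_pow (by norm_num)] at a2
      have a3 := (Complex.continuous_ofReal.tendsto 0).comp a2
      rw [Complex.ofReal_zero] at a3
      exact a3
    have h5 : ∀ k, ∫ x, inner ℂ (lmD ξ C ζ x) (scl (m (ψ k)) ξ (φ (ψ k)) x) =
        Complex.I * (((((Real.sqrt (m (ψ k)))⁻¹) ^ 3 : ℝ) : ℂ) *
          ∫ x, inner ℂ (Z x) (scl (m (ψ k)) ξ (φ (ψ k)) x)) := by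
      intro k
      rw [lm_D_symm ξ C hζ (hsm (ψ k)), ← hZ' _ (hsm (ψ k)), ← integral_const_mul,
        ← integral_const_mul, ← integral_neg]
      refine integral_congr_ae (Filter.Eventually.of_forall fun x => ?_)
      simp only
      rw [lm_G_scl (hφ (ψ k)).1 (hm0 (ψ k)) ξ C (hG (ψ k) C) x, inner_smul_right]
      ring
    have h6 := (h4.mul h2).const_mul Complex.I
    rw [zero_mul, mul_zero] at h6
    have h7 := h6.congr fun k => (h5 k).symm
    exact tendsto_nhds_unique h1 h7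

end final

end Vale.Agent.P353.U
end
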