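import Mathlib
import Vale.Agent.P353.BdU.B8
import Vale.Agent.P353.BdU.B25
import Vale.Agent.P353.BdU.B21
import Vale.Agent.P353.BdU.B17
import Vale.Agent.P353.BdU.B2
import Vale.Agent.P353.BdZ.B6
import Vale.Agent.P353.BdU.B18
import Vale.Agent.P353.BdZ.B14

set_option linter.all false

section

open MeasureTheory Filter Topology
open scoped ContDiff

namespace Vale.Agent.P353

variable {F : Type*} [NormedAddCommGroup F] [InnerProductSpace ℂ F]

namespace Setup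

variable (S : Setup F)

lemma J_congr {u v : X3 → F} {x : X3} (h : u =ᶠ[𝓝 x] v) (k l : Fin 9) :
    S.J k l u x = S.J k l v x := by
  have h1 : ∀ i A, _root_.Vale.Agent.P353.pd i A u x = _root_.Vale.Agent.P353.pd i A v x := by
    intro i A
    rw [_root_.Vale.Agent.P353.pd, _root_.Vale.Agent.P353.pd, h.fderiv_eq]
  simp only [J, h1, h.eq_of_nhds]

variable {S}

/-- a cutoff that is `1` on the support of a radial function -/
lemma exists_cut_rad {g : ℝ → ℝ} (hgc : HasCompactSupport g) :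
    ∃ χ : X3 → ℝ, ContDiff ℝ ∞ χ ∧ HasCompactSupport χ ∧
      ∀ x, rad g x ≠ 0 → (χ =ᶠ[𝓝 x] fun _ => 1) := by
  obtain ⟨r, hr⟩ := (hcs_rad' hgc).isCompact.isBounded.subset_closedBall (0 : X3)
  obtain ⟨K, _, hcut⟩ := exists_cut
  have hR : 0 < max r 0 + 1 := by positivity
  obtain ⟨χ, hsm, hcs, -, -, hin, -, -, -⟩ := hcut (max r 0 + 1) hR
  refine ⟨χ, hsm, hcs, fun x hx => ?_⟩
  have h1 : x ∈ tsupport (rad g) := subset_tsupport _ hx
  have h2 := hr h1
  rw [Metric.mem_closedBall, dist_zero_right] at h2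
  have h3 : ‖x‖ < max r 0 + 1 := by
    have := le_max_left r 0
    linarith
  have h4 : Metric.ball (0 : X3) (max r 0 + 1) ∈ 𝓝 x :=
    Metric.isOpen_ball.mem_nhds (by simpa using h3)
  filter_upwards [h4] with y hy
  exact hin y (le_of_lt (by simpa using hy))

lemma rad_J_cut {g : ℝ → ℝ} {χ : X3 → ℝ} (hχ : ∀ x, rad g x ≠ 0 → (χ =ᶠ[𝓝 x] fun _ => 1))
    (k l : Fin 9) (u : X3 → F) (x : X3) :
    ((rad g x : ℝ) : ℂ) • S.J k l u x =
      ((rad g x : ℝ) : ℂ) • S.J k l (fun y => ((χ y : ℝ) : ℂ) • u y) x := by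
  by_cases h : rad g x = 0
  · simp [h]
  · congr 1
    refine S.J_congr ?_ k l
    filter_upwards [hχ x h] with y hy
    rw [hy]; simp

lemma pair_lim [CompleteSpace F] {Ψ : Lp F 2 (volume : Measure X3)} {u : ℕ → X3 → F}
    (h : S.Apx Ψ u) {g : ℝ → ℝ} (hg : ContDiff ℝ ∞ g) {χ : X3 → ℝ}
    (hsm : ContDiff ℝ ∞ χ) (hχ : ∀ x, rad g x ≠ 0 → (χ =ᶠ[𝓝 x] fun _ => 1))
    (k l : Fin 9) (hkl : k ≠ l) {ζ : X3 → F} (hζ : Tst ζ) :
    Tendsto (fun n => ∫ x, inner ℂ (((rad g x : ℝ) : ℂ) • S.Skl k l (ζ x))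
      (S.J k l (fun y => ((χ y : ℝ) : ℂ) • u n y) x)) atTop (𝓝 0) := by
  have hw0 : Tst (fun x => S.Skl k l (ζ x)) := Tst.clm (T := fun _ => S.Skl k l) contDiff_const hζ
  have hw : Tst (fun x => ((rad g x : ℝ) : ℂ) • S.Skl k l (ζ x)) := Tst.rsmul (contDiff_rad hg) hw0
  have h1 : ∀ n, ∫ x, inner ℂ (((rad g x : ℝ) : ℂ) • S.Skl k l (ζ x))
      (S.J k l (fun y => ((χ y : ℝ) : ℂ) • u n y) x) =
      ∫ x, inner ℂ (S.J k l (fun x => ((rad g x : ℝ) : ℂ) • S.Skl k l (ζ x)) x) (u n x) := by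
    intro n
    rw [← J_symm S k l _ _ hw (Tst.rsmul hsm (h.1 n)).1]
    refine integral_congr_ae (Filter.Eventually.of_forall fun x => ?_)
    simp only
    rw [S.J_rad hg k l _ x (hw0.diff x)]
    by_cases h0 : rad g x = 0
    · simp [h0]
    · have : χ x = 1 := (hχ x h0).eq_of_nhds
      rw [this]; simp
  simp only [h1]
  have h2 := ((hw.J S k l).L2t_const).lim_inner h.L2t
  rw [weak_J S Ψ u h k l hkl _ hw] at h2
  exact h2

/-- the rotation term tends to zero -/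
lemma J_term [CompleteSpace F] {Ψ : Lp F 2 (volume : Measure X3)} {u : ℕ → X3 → F}
    (h : S.Apx Ψ u) {g : ℝ → ℝ} (hg : ContDiff ℝ ∞ g) (hgc : HasCompactSupport g)
    (k l : Fin 9) (hkl : k ≠ l) :
    Tendsto (fun n => ∫ x, inner ℂ (S.Skl k l (u n x))
      (((rad g x : ℝ) : ℂ) • S.J k l (u n) x)) atTop (𝓝 0) := by
  obtain ⟨χ, hsm, hcs, hχ⟩ := exists_cut_rad hgc
  obtain ⟨C1, hC1, hJ⟩ := S.nsq_J_cut hsm hcs k l
  obtain ⟨B, hB0, hB⟩ := h.bdd
  obtain ⟨C2, hC2, hA⟩ := bdd_rsmul_op (φ := rad g) (continuous_rad hg.continuous) (hcs_rad' hgc)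
    (A := fun _ => S.Skl k l) continuous_const
  have hAc : Continuous (fun x => ((rad g x : ℝ) : ℂ) • S.Skl k l) :=
    continuous_rsmul_op (continuous_rad hg.continuous) continuous_const
  -- the functions
  set z : ℕ → X3 → F := fun n => S.J k l (fun y => ((χ y : ℝ) : ℂ) • u n y) with hz
  have hzT : ∀ n, Tst (z n) := fun n => (Tst.rsmul hsm (h.1 n)).J S k l
  have hzb : ∀ n, nsq (z n) ≤ C1 * B := fun n =>
    (hJ _ (h.1 n)).trans (mul_le_mul_of_nonneg_left (hB n) hC1)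
  have hT : ∀ n m, ∫ x, inner ℂ (S.Skl k l (u n x)) (((rad g x : ℝ) : ℂ) • S.J k l (u n) x) =
      (∫ x, inner ℂ ((((rad g x : ℝ) : ℂ) • S.Skl k l) (u n x - u m x)) (z n x)) +
      ∫ x, inner ℂ (((rad g x : ℝ) : ℂ) • S.Skl k l (u m x)) (z n x) := by
    intro n m
    have m1 : MemLp (fun x => (((rad g x : ℝ) : ℂ) • S.Skl k l) (u n x - u m x)) 2
        (volume : Measure X3) := memLp_op hAc hA ((h.1 n).sub (h.1 m)).memLp
    have m2 : MemLp (fun x => ((rad g x : ℝ) : ℂ) • S.Skl k l (u m x)) 2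
        (volume : Measure X3) := memLp_op hAc hA (h.1 m).memLp
    rw [← integral_add (integrable_inner_memLp m1 (hzT n).memLp)
      (integrable_inner_memLp m2 (hzT n).memLp)]
    refine integral_congr_ae (Filter.Eventually.of_forall fun x => ?_)
    simp only
    rw [rad_J_cut hχ, ← inner_add_left]
    have e : (((rad g x : ℝ) : ℂ) • S.Skl k l) (u n x - u m x) +
        ((rad g x : ℝ) : ℂ) • S.Skl k l (u m x) = ((rad g x : ℝ) : ℂ) • S.Skl k l (u n x) := by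
      rw [_root_.smul_apply, map_sub, smul_sub, sub_add_cancel]
    rw [e, inner_smul_left, inner_smul_right, Complex.conj_ofReal]
  rw [Metric.tendsto_atTop]
  intro ε hε
  -- choose η
  set M : ℝ := C2 * Real.sqrt (C1 * B) + 1 with hM
  have hMpos : 0 < M := by positivity
  set η : ℝ := (ε / (8 * M)) ^ 2 with hη
  have hηpos : 0 < η := by positivity
  have hlim := h.L2t.lim
  rw [Metric.tendsto_atTop] at hlim
  obtain ⟨m, hm⟩ := hlim η hηpos
  have hm' : ∀ n ≥ m, nsq (fun x => u n x - Ψ x) < η := by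
    intro n hn
    have := hm n hn
    rwa [Real.dist_eq, sub_zero, abs_of_nonneg (nsq_nonneg _)] at this
  have hP := pair_lim h hg hsm hχ k l hkl (h.1 m)
  rw [Metric.tendsto_atTop] at hP
  obtain ⟨N, hN⟩ := hP (ε / 2) (by positivity)
  refine ⟨max m N, fun n hn => ?_⟩
  have hnm : m ≤ n := (le_max_left _ _).trans hn
  have hnN : N ≤ n := (le_max_right _ _).trans hn
  rw [dist_zero_right, hT n m]
  have h1 : ‖∫ x, inner ℂ (((rad g x : ℝ) : ℂ) • S.Skl k l (u m x)) (z n x)‖ < ε / 2 := by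
    have := hN n hnN
    rwa [dist_zero_right] at this
  have h2 : ‖∫ x, inner ℂ ((((rad g x : ℝ) : ℂ) • S.Skl k l) (u n x - u m x)) (z n x)‖ ≤
      ε / 2 := by
    have hd : Tst (fun x => u n x - u m x) := (h.1 n).sub (h.1 m)
    have m1 : MemLp (fun x => (((rad g x : ℝ) : ℂ) • S.Skl k l) (u n x - u m x)) 2
        (volume : Measure X3) := memLp_op hAc hA hd.memLp
    refine (cs_inner m1 (hzT n).memLp).trans ?_
    have e1 : ∫ x, ‖(((rad g x : ℝ) : ℂ) • S.Skl k l) (u n x - u m x)‖ ^ 2 ≤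
        C2 ^ 2 * nsq (fun x => u n x - u m x) := nsq_op_le hA hd.memLp
    have e2 : nsq (fun x => u n x - u m x) ≤ 4 * η := by
      have e3 : nsq (fun x => u n x - u m x) =
          nsq (fun x => (u n x - Ψ x) + (-(u m x - Ψ x))) := by
        congr 1; funext x; abel
      rw [e3]
      refine (nsq_add_le ((h.1 n).memLp.sub (Lp.memLp Ψ))
        (((h.1 m).memLp.sub (Lp.memLp Ψ))).neg).trans ?_
      have e4 : nsq (-fun x => u m x - Ψ x) = nsq (fun x => u m x - Ψ x) := by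
        rw [nsq, nsq]; simp only [Pi.neg_apply, norm_neg]
      have e5 : nsq (-(u m - ⇑Ψ)) = nsq (fun x => u m x - Ψ x) := e4
      have e6 := hm' n hnm
      have e7 := hm' m le_rfl
      have e8 : nsq (u n - ⇑Ψ) = nsq (fun x => u n x - Ψ x) := rfl
      rw [e5, e8]
      linarith
    have e9 : Real.sqrt (∫ x, ‖(((rad g x : ℝ) : ℂ) • S.Skl k l) (u n x - u m x)‖ ^ 2) ≤
        C2 * (2 * (ε / (8 * M))) := by
      rw [← Real.sqrt_sq (by positivity : 0 ≤ C2 * (2 * (ε / (8 * M))))]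
      refine Real.sqrt_le_sqrt (e1.trans ?_)
      calc C2 ^ 2 * nsq (fun x => u n x - u m x) ≤ C2 ^ 2 * (4 * η) :=
            mul_le_mul_of_nonneg_left e2 (by positivity)
        _ = (C2 * (2 * (ε / (8 * M)))) ^ 2 := by rw [hη]; ring
    have e10 : Real.sqrt (∫ x, ‖z n x‖ ^ 2) ≤ Real.sqrt (C1 * B) := Real.sqrt_le_sqrt (hzb n)
    calc Real.sqrt (∫ x, ‖(((rad g x : ℝ) : ℂ) • S.Skl k l) (u n x - u m x)‖ ^ 2) *
          Real.sqrt (∫ x, ‖z n x‖ ^ 2) ≤ C2 * (2 * (ε / (8 * M))) * Real.sqrt (C1 * B) :=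
          mul_le_mul e9 e10 (Real.sqrt_nonneg _) (by positivity)
      _ = (C2 * Real.sqrt (C1 * B)) * (ε / (4 * M)) := by field_simp; ring
      _ ≤ M * (ε / (4 * M)) := by
          refine mul_le_mul_of_nonneg_right ?_ (by positivity)
          rw [hM]; linarith
      _ = ε / 4 := by field_simp
      _ ≤ ε / 2 := by linarith
  calc ‖(∫ x, inner ℂ ((((rad g x : ℝ) : ℂ) • S.Skl k l) (u n x - u m x)) (z n x)) +
        ∫ x, inner ℂ (((rad g x : ℝ) : ℂ) • S.Skl k l (u m x)) (z n x)‖ ≤ _ := norm_add_le _ _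
    _ < ε := by linarith

end Setup
end Vale.Agent.P353
end

section

open MeasureTheory Filter Topology
open scoped ContDiff

namespace Vale.Agent.P353

variable {F : Type*} [NormedAddCommGroup F] [InnerProductSpace ℂ F]

namespace Setup

variable (S : Setup F)

lemma B_symm (β : Fin 16) (x : X3) (v w : F) : inner ℂ (S.B β x v) w = inner ℂ v (S.B β x w) := by
  simp only [B, _root_.sum_apply, _root_.smul_apply, sum_inner, inner_sum, inner_smul_left,
    inner_smul_right, Complex.conj_ofReal, S.vec_symm _ (S.g_im _)]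

/-- radial coefficient of the gradient -/
noncomputable def dg (g : ℝ → ℝ) (x : X3) : ℝ := 2 * deriv g (‖x‖ ^ 2)

lemma continuous_dg {g : ℝ → ℝ} (hg : ContDiff ℝ ∞ g) : Continuous (dg g) :=
  continuous_const.mul ((hg.continuous_deriv (by simp)).comp (continuous_norm.pow 2))

lemma hcs_dg {g : ℝ → ℝ} (hgc : HasCompactSupport g) : HasCompactSupport (dg g) := by
  have h1 : HasCompactSupport (fun t => 2 * deriv g t) := by
    have := hgc.deriv
    exact this.mul_left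
  have h2 := hcs_rad (f := fun t => 2 * deriv g t) h1
  have h3 : dg g = fun x : X3 => (fun t => 2 * deriv g t) (‖x‖ ^ 2) := by
    funext x
    rfl
  rw [h3]
  exact h2

theorem ident_u {u : X3 → F} (hu : Tst u) (hG : ∀ C x, S.G C u x = 0) {g : ℝ → ℝ}
    (hg : ContDiff ℝ ∞ g) :
    (∫ x, inner ℂ (u x) ((((rad g x : ℝ) : ℂ) • S.O1) (u x)))
    - (∫ x, inner ℂ (u x) ((((dg g x : ℝ) : ℂ) • Bd S x) (u x)))
    - ∑ β, (∫ x, inner ℂ (S.Q β u x) ((((rad g x : ℝ) : ℂ) • S.Mult β x) (u x)))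
    + ∑ β, (∫ x, inner ℂ (u x) ((((rad g x : ℝ) : ℂ) • S.Xop β x) (S.Q β u x)))
    - (70 / 81) * ∑ k, ∑ l, (∫ x, inner ℂ (S.Skl k l (u x))
        (((rad g x : ℝ) : ℂ) • S.J k l u x)) = 0 := by
  have hgu : Tst (fun y => ((rad g y : ℝ) : ℂ) • u y) := Tst.rsmul (contDiff_rad hg) hu
  have hMu : ∀ β, Tst (fun y => S.Mult β y (u y)) := fun β => Tst.clm (S.contDiff_Mult β) hu
  have c1 : Continuous (rad g) := continuous_rad hg.continuous
  have c2 : Continuous (dg g) := continuous_dg hg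
  -- integrability of the pieces
  have opc : ∀ {A : X3 → F →L[ℂ] F} (_ : Continuous A) {w : X3 → F} (_ : Continuous w),
      Continuous (fun x => A x (w x)) := by
    intro A hA w hw
    have hc : Continuous (fun p : (F →L[ℂ] F) × F => p.1 p.2) :=
      (isBoundedBilinearMap_apply (𝕜 := ℂ) (E := F) (F := F)).continuous
    exact hc.comp (hA.prodMk hw)
  have i1 : Integrable (fun x => inner ℂ (u x) ((((rad g x : ℝ) : ℂ) • S.O1) (u x))) :=
    hu.inner_int (opc (continuous_rsmul_op c1 continuous_const) hu.1.continuous)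
  have i2 : Integrable (fun x => inner ℂ (u x) ((((dg g x : ℝ) : ℂ) • Bd S x) (u x))) :=
    hu.inner_int (opc (continuous_rsmul_op c2 S.continuous_Bd) hu.1.continuous)
  have i3 : ∀ β, Integrable (fun x => inner ℂ (S.Q β u x)
      ((((rad g x : ℝ) : ℂ) • S.Mult β x) (u x))) := fun β =>
    (hu.Q S β).inner_int (opc (continuous_rsmul_op c1 (S.contDiff_Mult β).continuous)
      hu.1.continuous)
  have i4 : ∀ β, Integrable (fun x => inner ℂ (u x)
      ((((rad g x : ℝ) : ℂ) • S.Xop β x) (S.Q β u x))) := fun β =>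
    hu.inner_int (opc (continuous_rsmul_op c1 (S.continuous_Xop β)) (hu.Q S β).1.continuous)
  have i5 : ∀ k l, Integrable (fun x => inner ℂ (S.Skl k l (u x))
      (((rad g x : ℝ) : ℂ) • S.J k l u x)) := fun k l =>
    (Tst.clm (T := fun _ => S.Skl k l) contDiff_const hu).inner_int
      (Tst.rsmul (contDiff_rad hg) (hu.J S k l)).1.continuous
  -- symmetry of `Q`
  have hsym : ∑ β, (∫ x, inner ℂ (((rad g x : ℝ) : ℂ) • u x)
      (S.Q β (fun y => S.Mult β y (u y)) x)) =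
      ∑ β, (∫ x, inner ℂ (S.Q β (fun y => ((rad g y : ℝ) : ℂ) • u y) x)
        (S.Mult β x (u x))) := by
    refine Finset.sum_congr rfl fun β _ => ?_
    rw [Q_symm S β _ _ hgu (hMu β).1]
  -- right side
  have hR : ∑ β, (∫ x, inner ℂ (S.Q β (fun y => ((rad g y : ℝ) : ℂ) • u y) x)
        (S.Mult β x (u x))) =
      ∑ β, (∫ x, inner ℂ (S.Q β u x) ((((rad g x : ℝ) : ℂ) • S.Mult β x) (u x))) +
      ∫ x, inner ℂ (u x) ((((dg g x : ℝ) : ℂ) • Bd S x) (u x)) := by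
    have e1 : ∀ β, (∫ x, inner ℂ (S.Q β (fun y => ((rad g y : ℝ) : ℂ) • u y) x)
        (S.Mult β x (u x))) =
        (∫ x, inner ℂ (S.Q β u x) ((((rad g x : ℝ) : ℂ) • S.Mult β x) (u x))) +
        ∫ x, ((dg g x : ℝ) : ℂ) * (Complex.I * inner ℂ (u x) (S.B β x (S.Mult β x (u x)))) := by
      intro β
      have i6 : Integrable (fun x => ((dg g x : ℝ) : ℂ) *
          (Complex.I * inner ℂ (u x) (S.B β x (S.Mult β x (u x))))) := by
        have h1 : Integrable (fun x => inner ℂ (u x) ((((dg g x : ℝ) : ℂ) •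
            (Complex.I • (S.B β x * S.Mult β x))) (u x))) := by
          refine hu.inner_int (opc (continuous_rsmul_op c2 ?_) hu.1.continuous)
          have : Continuous (fun x => S.B β x * S.Mult β x) :=
            (S.contDiff_B β).continuous.mul (S.contDiff_Mult β).continuous
          exact this.const_smul Complex.I
        refine h1.congr (Filter.Eventually.of_forall fun x => ?_)
        simp only [_root_.smul_apply, inner_smul_right, mul_apply_eq_comp]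
      rw [← integral_add (i3 β) i6]
      refine integral_congr_ae (Filter.Eventually.of_forall fun x => ?_)
      simp only
      rw [S.Q_rad hg β u x (hu.diff x), inner_add_left, inner_smul_left, inner_smul_left,
        S.B_symm, Complex.conj_ofReal, _root_.smul_apply, inner_smul_right]
      simp only [map_mul, map_neg, Complex.conj_I, neg_neg, Complex.conj_ofReal, dg]
      ring
    rw [Finset.sum_congr rfl fun β _ => e1 β, Finset.sum_add_distrib]
    congr 1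
    have i6 : ∀ β, Integrable (fun x => ((dg g x : ℝ) : ℂ) *
        (Complex.I * inner ℂ (u x) (S.B β x (S.Mult β x (u x))))) := by
      intro β
      have h1 : Integrable (fun x => inner ℂ (u x) ((((dg g x : ℝ) : ℂ) •
          (Complex.I • (S.B β x * S.Mult β x))) (u x))) := by
        refine hu.inner_int (opc (continuous_rsmul_op c2 ?_) hu.1.continuous)
        have : Continuous (fun x => S.B β x * S.Mult β x) :=
          (S.contDiff_B β).continuous.mul (S.contDiff_Mult β).continuous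
        exact this.const_smul Complex.I
      refine h1.congr (Filter.Eventually.of_forall fun x => ?_)
      simp only [_root_.smul_apply, inner_smul_right, mul_apply_eq_comp]
    rw [← integral_finsetSum _ fun β _ => i6 β]
    refine integral_congr_ae (Filter.Eventually.of_forall fun x => ?_)
    simp only [Bd, _root_.smul_apply, inner_smul_right, _root_.sum_apply, inner_sum,
      mul_apply_eq_comp, Finset.mul_sum]
  -- left side
  have hL : ∑ β, (∫ x, inner ℂ (((rad g x : ℝ) : ℂ) • u x)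
      (S.Q β (fun y => S.Mult β y (u y)) x)) =
      (∫ x, inner ℂ (u x) ((((rad g x : ℝ) : ℂ) • S.O1) (u x)))
      + ∑ β, (∫ x, inner ℂ (u x) ((((rad g x : ℝ) : ℂ) • S.Xop β x) (S.Q β u x)))
      - (70 / 81) * ∑ k, ∑ l, (∫ x, inner ℂ (S.Skl k l (u x))
        (((rad g x : ℝ) : ℂ) • S.J k l u x)) := by
    have i7 : ∀ β, Integrable (fun x => inner ℂ (((rad g x : ℝ) : ℂ) • u x)
        (S.Q β (fun y => S.Mult β y (u y)) x)) := fun β =>
      hgu.inner_int ((hMu β).Q S β).1.continuous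
    rw [← integral_finsetSum _ fun β _ => i7 β, ← integral_finsetSum _ fun β _ => i4 β]
    have e2 : ∑ k, ∑ l, (∫ x, inner ℂ (S.Skl k l (u x)) (((rad g x : ℝ) : ℂ) • S.J k l u x)) =
        ∫ x, ∑ k, ∑ l, inner ℂ (S.Skl k l (u x)) (((rad g x : ℝ) : ℂ) • S.J k l u x) := by
      rw [integral_finsetSum _ fun k _ => integrable_finsetSum _ fun l _ => i5 k l]
      refine Finset.sum_congr rfl fun k _ => ?_
      rw [integral_finsetSum _ fun l _ => i5 k l]
    have i8 : Integrable (fun x => inner ℂ (u x) ((((rad g x : ℝ) : ℂ) • S.O1) (u x)) +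
        ∑ β, inner ℂ (u x) ((((rad g x : ℝ) : ℂ) • S.Xop β x) (S.Q β u x))) :=
      i1.add (integrable_finsetSum _ fun β _ => i4 β)
    have i9 : Integrable (fun x => (70 / 81 : ℂ) * ∑ k, ∑ l,
        inner ℂ (S.Skl k l (u x)) (((rad g x : ℝ) : ℂ) • S.J k l u x)) :=
      (integrable_finsetSum _ fun k _ => integrable_finsetSum _ fun l _ => i5 k l).const_mul _
    rw [e2, ← integral_const_mul, ← integral_add i1 (integrable_finsetSum _ fun β _ => i4 β),
      ← integral_sub i8 i9]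
    refine integral_congr_ae (Filter.Eventually.of_forall fun x => ?_)
    simp only
    rw [← inner_sum, S.key_identity u x (hu.diff x)]
    simp only [hG, map_zero, Finset.sum_const_zero, smul_zero, add_zero]
    simp only [inner_add_right, inner_smul_left, inner_smul_right, inner_sum, Complex.conj_ofReal,
      _root_.smul_apply, S.Skl_symm, Finset.mul_sum]
    rw [sub_eq_add_neg, ← Finset.sum_neg_distrib]
    congr 1
    refine Finset.sum_congr rfl fun k _ => ?_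
    rw [← Finset.sum_neg_distrib]
    refine Finset.sum_congr rfl fun l _ => ?_
    rw [map_smul, inner_smul_right]
    ring
  rw [hL, hR] at hsym
  linear_combination hsym

variable {S}

lemma Apx.lim_uu {Ψ : Lp F 2 (volume : Measure X3)} {u : ℕ → X3 → F} (h : S.Apx Ψ u)
    {A : X3 → F →L[ℂ] F} (hA : Continuous A) {C : ℝ} (hC : ∀ x, ‖A x‖ ≤ C) :
    Tendsto (fun n => ∫ x, inner ℂ (u n x) (A x (u n x))) atTop
      (𝓝 (∫ x, inner ℂ (Ψ x) (A x (Ψ x)))) :=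
  h.L2t.lim_inner (h.L2t.op hA hC)

lemma Apx.lim_Qu {Ψ : Lp F 2 (volume : Measure X3)} {u : ℕ → X3 → F} (h : S.Apx Ψ u)
    (β : Fin 16) {A : X3 → F →L[ℂ] F} (hA : Continuous A) {C : ℝ} (hC : ∀ x, ‖A x‖ ≤ C) :
    Tendsto (fun n => ∫ x, inner ℂ (S.Q β (u n) x) (A x (u n x))) atTop (𝓝 0) := by
  have := (h.Q0 β).lim_inner (h.L2t.op hA hC)
  simpa only [inner_zero_left, integral_zero] using this

lemma Apx.lim_uQ {Ψ : Lp F 2 (volume : Measure X3)} {u : ℕ → X3 → F} (h : S.Apx Ψ u)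
    (β : Fin 16) {A : X3 → F →L[ℂ] F} (hA : Continuous A) {C : ℝ} (hC : ∀ x, ‖A x‖ ≤ C) :
    Tendsto (fun n => ∫ x, inner ℂ (u n x) (A x (S.Q β (u n) x))) atTop (𝓝 0) := by
  have := h.L2t.lim_inner ((h.Q0 β).op hA hC)
  simpa only [map_zero, inner_zero_right, integral_zero] using this

/-- the limit identity -/
theorem ident_lim [CompleteSpace F] {Ψ : Lp F 2 (volume : Measure X3)} (hΨ : S.IsZM Ψ) {g : ℝ → ℝ}
    (hg : ContDiff ℝ ∞ g) (hgc : HasCompactSupport g) :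
    ∫ x, inner ℂ (Ψ x) ((((rad g x : ℝ) : ℂ) • S.O1) (Ψ x)) =
      ∫ x, inner ℂ (Ψ x) ((((dg g x : ℝ) : ℂ) • Bd S x) (Ψ x)) := by
  obtain ⟨u, h⟩ := hΨ
  have c1 : Continuous (rad g) := continuous_rad hg.continuous
  have c2 : Continuous (dg g) := continuous_dg hg
  obtain ⟨C1, -, b1⟩ := bdd_rsmul_op c1 (hcs_rad' hgc) (A := fun _ => S.O1) continuous_const
  obtain ⟨C2, -, b2⟩ := bdd_rsmul_op c2 (hcs_dg hgc) S.continuous_Bd
  have l1 := h.lim_uu (A := fun x => ((rad g x : ℝ) : ℂ) • S.O1)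
    (continuous_rsmul_op c1 continuous_const) b1
  have l2 := h.lim_uu (A := fun x => ((dg g x : ℝ) : ℂ) • Bd S x)
    (continuous_rsmul_op c2 S.continuous_Bd) b2
  have l3 : ∀ β, Tendsto (fun n => ∫ x, inner ℂ (S.Q β (u n) x)
      ((((rad g x : ℝ) : ℂ) • S.Mult β x) (u n x))) atTop (𝓝 0) := by
    intro β
    obtain ⟨C3, -, b3⟩ := bdd_rsmul_op c1 (hcs_rad' hgc) (S.contDiff_Mult β).continuous
    exact h.lim_Qu β (A := fun x => ((rad g x : ℝ) : ℂ) • S.Mult β x)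
      (continuous_rsmul_op c1 (S.contDiff_Mult β).continuous) b3
  have l4 : ∀ β, Tendsto (fun n => ∫ x, inner ℂ (u n x)
      ((((rad g x : ℝ) : ℂ) • S.Xop β x) (S.Q β (u n) x))) atTop (𝓝 0) := by
    intro β
    obtain ⟨C3, -, b3⟩ := bdd_rsmul_op c1 (hcs_rad' hgc) (S.continuous_Xop β)
    exact h.lim_uQ β (A := fun x => ((rad g x : ℝ) : ℂ) • S.Xop β x)
      (continuous_rsmul_op c1 (S.continuous_Xop β)) b3
  have l5 : ∀ k l, Tendsto (fun n => ∫ x, inner ℂ (S.Skl k l (u n x))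
      (((rad g x : ℝ) : ℂ) • S.J k l (u n) x)) atTop (𝓝 0) := by
    intro k l
    by_cases hkl : k = l
    · subst hkl
      have h0 : ∀ v, S.Skl k k v = 0 := by
        intro v
        rw [S.Skl_eq, S.toCS.Sk_self]; rfl
      simp [h0]
    · exact J_term h hg hgc k l hkl
  have l3' := tendsto_finsetSum Finset.univ fun β _ => l3 β
  have l4' := tendsto_finsetSum Finset.univ fun β _ => l4 β
  have l5' := (tendsto_finsetSum Finset.univ fun k _ =>
    tendsto_finsetSum Finset.univ fun l _ => l5 k l).const_mul (70 / 81 : ℂ)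
  have L := (((l1.sub l2).sub l3').add l4').sub l5'
  have hz : ∀ n, (∫ x, inner ℂ (u n x) ((((rad g x : ℝ) : ℂ) • S.O1) (u n x)))
    - (∫ x, inner ℂ (u n x) ((((dg g x : ℝ) : ℂ) • Bd S x) (u n x)))
    - ∑ β, (∫ x, inner ℂ (S.Q β (u n) x) ((((rad g x : ℝ) : ℂ) • S.Mult β x) (u n x)))
    + ∑ β, (∫ x, inner ℂ (u n x) ((((rad g x : ℝ) : ℂ) • S.Xop β x) (S.Q β (u n) x)))
    - (70 / 81) * ∑ k, ∑ l, (∫ x, inner ℂ (S.Skl k l (u n x))
        (((rad g x : ℝ) : ℂ) • S.J k l (u n) x)) = 0 := fun n =>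
    S.ident_u (h.1 n) (h.2.1 n) hg
  simp only [hz] at L
  have h2 := tendsto_nhds_unique L tendsto_const_nhds
  simp only [Finset.sum_const_zero, mul_zero, sub_zero, add_zero] at h2
  exact sub_eq_zero.mp h2

end Setup
end Vale.Agent.P353
end

section

open MeasureTheory Filter Topology
open scoped ContDiff

namespace Vale.Agent.P353

variable {F : Type*} [NormedAddCommGroup F] [InnerProductSpace ℂ F]

omit [InnerProductSpace ℂ F] in
lemma int_weight {φ : X3 → ℝ} (hφ : Continuous φ) (hc : HasCompactSupport φ)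
    (Ψ : Lp F 2 (volume : Measure X3)) : Integrable (fun x => φ x * ‖Ψ x‖ ^ 2) := by
  obtain ⟨C, hC⟩ := hc.exists_bound_of_continuous hφ
  exact (memLp_norm_sq_int (Lp.memLp Ψ)).bdd_mul (c := C) hφ.aestronglyMeasurable
    (Filter.Eventually.of_forall hC)

namespace Setup

variable {S : Setup F}

lemma int_w0 {φ : X3 → ℝ} (hφ : Continuous φ) (hc : HasCompactSupport φ) {A : X3 → F →L[ℂ] F}
    (hA : Continuous A) (Ψ : Lp F 2 (volume : Measure X3)) :
    Integrable (fun x => inner ℂ (Ψ x) ((((φ x : ℝ) : ℂ) • A x) (Ψ x))) := by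
  obtain ⟨C, -, b⟩ := bdd_rsmul_op hφ hc hA
  exact integrable_inner_memLp (Lp.memLp Ψ)
    (memLp_op (A := fun x => ((φ x : ℝ) : ℂ) • A x) (continuous_rsmul_op hφ hA) b (Lp.memLp Ψ))

lemma int_w {φ : X3 → ℝ} (hφ : Continuous φ) (hc : HasCompactSupport φ) {A : X3 → F →L[ℂ] F}
    (hA : Continuous A) (Ψ : Lp F 2 (volume : Measure X3)) :
    Integrable (fun x => φ x * (inner ℂ (Ψ x) (A x (Ψ x))).re) := by
  have h1 : Integrable (fun x => (inner ℂ (Ψ x) ((((φ x : ℝ) : ℂ) • A x) (Ψ x))).re) :=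
    (int_w0 hφ hc hA Ψ).re
  simpa only [re_inner_rsmul] using h1

lemma re_w {φ : X3 → ℝ} (hφ : Continuous φ) (hc : HasCompactSupport φ) {A : X3 → F →L[ℂ] F}
    (hA : Continuous A) (Ψ : Lp F 2 (volume : Measure X3)) :
    (∫ x, inner ℂ (Ψ x) ((((φ x : ℝ) : ℂ) • A x) (Ψ x))).re =
      ∫ x, φ x * (inner ℂ (Ψ x) (A x (Ψ x))).re := by
  have h1 : ∫ x, (inner ℂ (Ψ x) ((((φ x : ℝ) : ℂ) • A x) (Ψ x))).re =
      (∫ x, inner ℂ (Ψ x) ((((φ x : ℝ) : ℂ) • A x) (Ψ x))).re := integral_re (int_w0 hφ hc hA Ψ)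
  rw [← h1]
  simp only [re_inner_rsmul]

lemma Apx.lim_w {Ψ : Lp F 2 (volume : Measure X3)} {u : ℕ → X3 → F} (h : S.Apx Ψ u)
    {φ : X3 → ℝ} (hφ : Continuous φ) (hc : HasCompactSupport φ) {A : X3 → F →L[ℂ] F}
    (hA : Continuous A) :
    Tendsto (fun n => (∫ x, inner ℂ (u n x) ((((φ x : ℝ) : ℂ) • A x) (u n x))).re) atTop
      (𝓝 (∫ x, φ x * (inner ℂ (Ψ x) (A x (Ψ x))).re)) := by
  rw [← re_w hφ hc hA Ψ]
  obtain ⟨C, -, b⟩ := bdd_rsmul_op hφ hc hA
  exact (Complex.continuous_re.tendsto _).comp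
    (h.lim_uu (A := fun x => ((φ x : ℝ) : ℂ) • A x) (continuous_rsmul_op hφ hA) b)

lemma ident_re [CompleteSpace F] {Ψ : Lp F 2 (volume : Measure X3)} (hΨ : S.IsZM Ψ) {g : ℝ → ℝ}
    (hg : ContDiff ℝ ∞ g) (hgc : HasCompactSupport g) :
    ∫ x, rad g x * (inner ℂ (Ψ x) (S.O1 (Ψ x))).re =
      ∫ x, dg g x * (inner ℂ (Ψ x) (Bd S x (Ψ x))).re := by
  rw [← re_w (continuous_rad hg.continuous) (hcs_rad' hgc) (A := fun _ => S.O1)
    continuous_const Ψ, ← re_w (continuous_dg hg) (hcs_dg hgc) S.continuous_Bd Ψ,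
    ident_lim hΨ hg hgc]

/-- limit of the supercharges of the cut-off approximants -/
lemma Apx.lim_Q_cut {Ψ : Lp F 2 (volume : Measure X3)} {u : ℕ → X3 → F} (h : S.Apx Ψ u)
    {H : ℝ → ℝ} (hH : ContDiff ℝ ∞ H) (hc : HasCompactSupport H) (β : Fin 16) :
    Tendsto (fun n => nsq (S.Q β (fun y => ((rad H y : ℝ) : ℂ) • u n y))) atTop
      (𝓝 (nsq (fun x => (((dg H x : ℝ) : ℂ) • ((-Complex.I) • S.B β x)) (Ψ x)))) := by
  have c1 : Continuous (rad H) := continuous_rad hH.continuous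
  have c2 : Continuous (dg H) := continuous_dg hH
  have c3 : Continuous (fun x => (-Complex.I) • S.B β x) :=
    (S.contDiff_B β).continuous.const_smul (-Complex.I)
  obtain ⟨C1, -, b1⟩ := bdd_rsmul_op c1 (hcs_rad' hc) (A := fun _ => (1 : F →L[ℂ] F))
    continuous_const
  obtain ⟨C2, -, b2⟩ := bdd_rsmul_op c2 (hcs_dg hc) c3
  have l1 := (h.Q0 β).op (continuous_rsmul_op c1 continuous_const) b1
  have l2 := h.L2t.op (continuous_rsmul_op c2 c3) b2
  have l3 := (l1.add l2).lim_nsq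
  have e1 : ∀ n, S.Q β (fun y => ((rad H y : ℝ) : ℂ) • u n y) = fun x =>
      (((rad H x : ℝ) : ℂ) • (1 : F →L[ℂ] F)) (S.Q β (u n) x) +
      (((dg H x : ℝ) : ℂ) • ((-Complex.I) • S.B β x)) (u n x) := by
    intro n
    funext x
    rw [S.Q_rad hH β (u n) x ((h.1 n).diff x)]
    simp only [_root_.smul_apply, one_apply_eq_self, smul_smul, dg]
    rw [mul_comm (-Complex.I)]
  simp only [← e1] at l3
  convert l3 using 4 with x
  simp only [map_zero, zero_add]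

/-- the limit inequality -/
lemma lim_ineq [CompleteSpace F] {R ε ε' δ s : ℝ} (hR : 0 < R) (hε : 0 < ε) (hε1 : ε < 1)
    (hε' : 0 < ε')
    (hpt : ∀ x : X3, R ≤ ‖x‖ → ∀ σ : ℝ, 0 ≤ σ → σ ≤ s → ∀ v : F,
        0 ≤ (inner ℂ v (S.Fx x v)).re +
          ((1 - ε) * (8 * S.κ * ‖x‖ - 16 / S.κ * S.V x / ‖x‖ ^ 3) +
            (2 * ε - ε ^ 2) * S.V x) * ‖v‖ ^ 2 +
          ε' * ‖x‖ * ((inner ℂ v (S.O1 v)).re - σ / ‖x‖ ^ 2 * (inner ℂ v (Bd S x v)).re
            - δ * ‖v‖ ^ 2))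
    {H : ℝ → ℝ} (hH : ContDiff ℝ ∞ H) (hHc : HasCompactSupport H) (h0 : ∀ t, t ≤ R ^ 2 → H t = 0)
    {σ : ℝ → ℝ} (hσ : Continuous σ) (hσs : ∀ t, 0 ≤ σ t ∧ σ t ≤ s)
    {Ψ : Lp F 2 (volume : Measure X3)} (hΨ : S.IsZM Ψ) :
    0 ≤ (1 / 16 : ℝ) * ∑ β, nsq (fun x => (((dg H x : ℝ) : ℂ) • ((-Complex.I) • S.B β x)) (Ψ x)) +
      ε' * ((∫ x, dg (gH H) x * (inner ℂ (Ψ x) (Bd S x (Ψ x))).re) -
        (∫ x, rad (tH H σ) x * (inner ℂ (Ψ x) (Bd S x (Ψ x))).re) -
        δ * (∫ x, rad (gH H) x * (inner ℂ (Ψ x) ((1 : F →L[ℂ] F) (Ψ x))).re)) := by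
  have hg := contDiff_gH hH hR h0
  have hgc : HasCompactSupport (gH H) := hcs_gH hHc
  have ht := continuous_tH hH hσ hR h0
  have htc : HasCompactSupport (tH H σ) := hcs_tH hHc
  have cg : Continuous (rad (gH H)) := continuous_rad hg.continuous
  have ct : Continuous (rad (tH H σ)) := continuous_rad ht
  rw [← ident_re hΨ hg hgc]
  obtain ⟨u, h⟩ := hΨ
  have l1 := h.lim_w cg (hcs_rad' hgc) (A := fun _ => S.O1) continuous_const
  have l2 := h.lim_w ct (hcs_rad' htc) S.continuous_Bd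
  have l3 := h.lim_w cg (hcs_rad' hgc) (A := fun _ => (1 : F →L[ℂ] F)) continuous_const
  have lQ := (tendsto_finsetSum Finset.univ fun β _ => h.lim_Q_cut hH hHc β).const_mul
    (1 / 16 : ℝ)
  have L := lQ.add (((l1.sub l2).sub (l3.const_mul δ)).const_mul ε')
  exact ge_of_tendsto' L fun n =>
    S.test_ineq hR hε hε1 hε' hpt hH h0 hσ hσs (h.1 n)

end Setup
end Vale.Agent.P353
end

section

open MeasureTheory Filter Topology
open scoped ContDiff

namespace Vale.Agent.P353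

variable {F : Type*} [NormedAddCommGroup F] [InnerProductSpace ℂ F]

namespace Setup

variable (S : Setup F)

lemma grad_bound {CB : Fin 16 → ℝ} (hCB : ∀ β x, ‖S.B β x‖ ≤ CB β * ‖x‖)
    {H : ℝ → ℝ} {Ψ : Lp F 2 (volume : Measure X3)}
    (I1 : Integrable (fun x => (deriv H (‖x‖ ^ 2) ^ 2 * ‖x‖ ^ 2) * ‖Ψ x‖ ^ 2)) :
    (1 / 16 : ℝ) * ∑ β, nsq (fun x => (((dg H x : ℝ) : ℂ) • ((-Complex.I) • S.B β x)) (Ψ x)) ≤
      (1 / 4 : ℝ) * (∑ β, CB β ^ 2) *
        (∫ x, (deriv H (‖x‖ ^ 2) ^ 2 * ‖x‖ ^ 2) * ‖Ψ x‖ ^ 2) := by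
  have hq : ∀ β, nsq (fun x => (((dg H x : ℝ) : ℂ) • ((-Complex.I) • S.B β x)) (Ψ x)) ≤
      4 * CB β ^ 2 * (∫ x, (deriv H (‖x‖ ^ 2) ^ 2 * ‖x‖ ^ 2) * ‖Ψ x‖ ^ 2) := by
    intro β
    rw [nsq, ← integral_const_mul]
    refine integral_mono_of_nonneg (Filter.Eventually.of_forall fun x => by positivity)
      (I1.const_mul _) (Filter.Eventually.of_forall fun x => ?_)
    simp only [_root_.smul_apply, norm_smul, norm_neg, Complex.norm_I, one_mul,
      Complex.norm_real, Real.norm_eq_abs, dg]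
    have h1 : ‖S.B β x (Ψ x)‖ ≤ CB β * ‖x‖ * ‖Ψ x‖ :=
      ((S.B β x).le_opNorm _).trans (mul_le_mul_of_nonneg_right (hCB β x) (norm_nonneg _))
    have h2 := pow_le_pow_left₀ (norm_nonneg _) h1 2
    rw [mul_pow, sq_abs]
    calc (2 * deriv H (‖x‖ ^ 2)) ^ 2 * ‖S.B β x (Ψ x)‖ ^ 2 ≤
        (2 * deriv H (‖x‖ ^ 2)) ^ 2 * (CB β * ‖x‖ * ‖Ψ x‖) ^ 2 :=
          mul_le_mul_of_nonneg_left h2 (by positivity)
      _ = 4 * CB β ^ 2 * (deriv H (‖x‖ ^ 2) ^ 2 * ‖x‖ ^ 2 * ‖Ψ x‖ ^ 2) := by ring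
  have := Finset.sum_le_sum fun β (_ : β ∈ Finset.univ) => hq β
  rw [← Finset.sum_mul, ← Finset.mul_sum] at this
  linarith

lemma boundary_bound {CD : ℝ} (hCD : ∀ x, ‖Bd S x‖ ≤ CD * ‖x‖ ^ 2)
    {a b : X3 → ℝ} (ha : Continuous a) (hac : HasCompactSupport a) (hb : Continuous b)
    (hbc : HasCompactSupport b) {Ψ : Lp F 2 (volume : Measure X3)}
    (I2 : Integrable (fun x => |a x - b x| * ‖x‖ ^ 2 * ‖Ψ x‖ ^ 2)) :
    (∫ x, a x * (inner ℂ (Ψ x) (Bd S x (Ψ x))).re) -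
      (∫ x, b x * (inner ℂ (Ψ x) (Bd S x (Ψ x))).re) ≤
        CD * ∫ x, |a x - b x| * ‖x‖ ^ 2 * ‖Ψ x‖ ^ 2 := by
  have m4 := int_w ha hac S.continuous_Bd Ψ
  have m2 := int_w hb hbc S.continuous_Bd Ψ
  rw [← integral_sub m4 m2, ← integral_const_mul]
  refine integral_mono (m4.sub m2) (I2.const_mul _) fun x => ?_
  simp only
  rw [← sub_mul]
  have h1 : |(inner ℂ (Ψ x) (Bd S x (Ψ x))).re| ≤ CD * ‖x‖ ^ 2 * ‖Ψ x‖ ^ 2 := by
    refine (Complex.abs_re_le_norm _).trans ((norm_inner_le_norm _ _).trans ?_)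
    have := ((Bd S x).le_opNorm (Ψ x)).trans
      (mul_le_mul_of_nonneg_right (hCD x) (norm_nonneg _))
    calc ‖Ψ x‖ * ‖Bd S x (Ψ x)‖ ≤ ‖Ψ x‖ * (CD * ‖x‖ ^ 2 * ‖Ψ x‖) :=
          mul_le_mul_of_nonneg_left this (norm_nonneg _)
      _ = CD * ‖x‖ ^ 2 * ‖Ψ x‖ ^ 2 := by ring
  calc (a x - b x) * (inner ℂ (Ψ x) (Bd S x (Ψ x))).re ≤
      |(a x - b x) * (inner ℂ (Ψ x) (Bd S x (Ψ x))).re| := le_abs_self _
    _ = |a x - b x| * |(inner ℂ (Ψ x) (Bd S x (Ψ x))).re| := abs_mul _ _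
    _ ≤ |a x - b x| * (CD * ‖x‖ ^ 2 * ‖Ψ x‖ ^ 2) :=
        mul_le_mul_of_nonneg_left h1 (abs_nonneg _)
    _ = CD * (|a x - b x| * ‖x‖ ^ 2 * ‖Ψ x‖ ^ 2) := by ring

lemma weight_eq (H σ : ℝ → ℝ) (x : X3) :
    |2 * deriv (gH H) (‖x‖ ^ 2) * ‖x‖ ^ 2 - ‖x‖ * H (‖x‖ ^ 2) ^ 2 * σ (‖x‖ ^ 2)| =
      |dg (gH H) x - rad (tH H σ) x| * ‖x‖ ^ 2 := by
  have h1 : rad (tH H σ) x * ‖x‖ ^ 2 = ‖x‖ * H (‖x‖ ^ 2) ^ 2 * σ (‖x‖ ^ 2) := by
    rw [rad, tH, gH_norm]
    rcases eq_or_ne x 0 with hx | hx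
    · simp [hx]
    · have hxn : ‖x‖ ≠ 0 := norm_ne_zero_iff.mpr hx
      field_simp
  have h2 : |dg (gH H) x - rad (tH H σ) x| * ‖x‖ ^ 2 =
      |(dg (gH H) x - rad (tH H σ) x) * ‖x‖ ^ 2| := by
    rw [abs_mul, abs_of_nonneg (sq_nonneg ‖x‖)]
  rw [h2, sub_mul, h1, dg]

lemma final_arith {A1 A2 D1 D2 D3 K ε' δ CD P Q : ℝ} (hε' : 0 ≤ ε') (hP : 0 ≤ (1 / 4 : ℝ) * P)
    (hC : 0 ≤ ε' * CD) (hK : K = (1 / 4 : ℝ) * P + ε' * CD + 1)
    (h : 0 ≤ Q + ε' * (D1 - D2 - δ * D3)) (hQ : Q ≤ (1 / 4 : ℝ) * P * A1)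
    (hb : D1 - D2 ≤ CD * A2) (hA1 : 0 ≤ A1) (hA2 : 0 ≤ A2) :
    D3 * (ε' * δ) ≤ K * (A1 + A2) := by
  have hb' : ε' * (D1 - D2) ≤ ε' * (CD * A2) := mul_le_mul_of_nonneg_left hb hε'
  have hfin' : D3 * (ε' * δ) ≤ (1 / 4 : ℝ) * P * A1 + ε' * (CD * A2) := by
    have e1 : ε' * (D1 - D2 - δ * D3) = ε' * (D1 - D2) - D3 * (ε' * δ) := by ring
    rw [e1] at h
    linarith
  have hbound : (1 / 4 : ℝ) * P * A1 + ε' * (CD * A2) ≤ K * (A1 + A2) := by
    have e2 : K * (A1 + A2) = (1 / 4 : ℝ) * P * A1 + ε' * (CD * A2) +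
        ((1 / 4 : ℝ) * P * A2 + ε' * CD * A1 + (A1 + A2)) := by
      rw [hK]; ring
    have h3 := mul_nonneg hP hA2
    have h4 := mul_nonneg hC hA1
    linarith
  exact hfin'.trans hbound

theorem wineq [FiniteDimensional ℂ F] {s : ℝ} (hs : s < 9) : WIneq S s := by
  have : CompleteSpace F := FiniteDimensional.complete ℂ F
  obtain ⟨R, ε, ε', δ, hR, hε, hε1, hε', hδ, hpt⟩ := pointwise_bound_of S S.vacuumStmt s hs
  choose CB hCB0 hCB using S.B_bound
  obtain ⟨CD, hCD0, hCD⟩ := S.Bd_bound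
  have hK1 : 0 ≤ (1 / 4 : ℝ) * ∑ β, CB β ^ 2 := by positivity
  have hK2 : 0 ≤ ε' * CD := by positivity
  obtain ⟨K, hK⟩ : ∃ K, K = (1 / 4 : ℝ) * ∑ β, CB β ^ 2 + ε' * CD + 1 := ⟨_, rfl⟩
  have hK0 : 0 < K := by linarith
  refine ⟨R, K / (ε' * δ), hR, by positivity, ?_⟩
  intro Ψ hΨ H hH hHc h0 σ hσ hσs
  have hg := contDiff_gH hH hR h0
  have hgc : HasCompactSupport (gH H) := hcs_gH hHc
  have ht := continuous_tH hH hσ hR h0
  have htc : HasCompactSupport (tH H σ) := hcs_tH hHc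
  have cd : Continuous (dg (gH H)) := continuous_dg hg
  have ct : Continuous (rad (tH H σ)) := continuous_rad ht
  have hfin := lim_ineq (S := S) hR hε hε1 hε' hpt hH hHc h0 hσ hσs hΨ
  have r3 : (∫ x, rad (gH H) x * (inner ℂ (Ψ x) ((1 : F →L[ℂ] F) (Ψ x))).re) =
      ∫ x, ‖x‖ * H (‖x‖ ^ 2) ^ 2 * ‖Ψ x‖ ^ 2 := by
    refine integral_congr_ae (Filter.Eventually.of_forall fun x => ?_)
    simp only [one_apply_eq_self, re_inner_self, rad, gH_norm]
  rw [r3] at hfin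
  -- the weights on the right side
  have w1c : Continuous (fun x : X3 => deriv H (‖x‖ ^ 2) ^ 2 * ‖x‖ ^ 2) :=
    (((hH.continuous_deriv (by simp)).comp (continuous_norm.pow 2)).pow 2).mul
      (continuous_norm.pow 2)
  have w1s : HasCompactSupport (fun x : X3 => deriv H (‖x‖ ^ 2) ^ 2 * ‖x‖ ^ 2) := by
    refine (hcs_rad (f := deriv H) hHc.deriv).mono ?_
    intro x hx
    simp only [Function.mem_support] at hx ⊢
    intro h0
    exact hx (by simp [h0])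
  have w2c : Continuous (fun x : X3 => |dg (gH H) x - rad (tH H σ) x| * ‖x‖ ^ 2) :=
    (cd.sub ct).abs.mul (continuous_norm.pow 2)
  have w2s : HasCompactSupport (fun x : X3 => |dg (gH H) x - rad (tH H σ) x| * ‖x‖ ^ 2) := by
    have h1 : HasCompactSupport (fun x : X3 => dg (gH H) x - rad (tH H σ) x) :=
      (hcs_dg hgc).sub (hcs_rad' htc)
    refine h1.mono ?_
    intro x hx
    simp only [Function.mem_support] at hx ⊢
    intro h0
    exact hx (by rw [h0]; simp)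
  have I1 := int_weight w1c w1s Ψ
  have I2 := int_weight w2c w2s Ψ
  have hq' := S.grad_bound hCB I1
  have hb := S.boundary_bound hCD cd (hcs_dg hgc) ct (hcs_rad' htc) I2
  have hsplit : (∫ x : X3, (deriv H (‖x‖ ^ 2) ^ 2 * ‖x‖ ^ 2 +
          |2 * deriv (fun t => Real.sqrt t * H t ^ 2) (‖x‖ ^ 2) * ‖x‖ ^ 2 -
            ‖x‖ * H (‖x‖ ^ 2) ^ 2 * σ (‖x‖ ^ 2)|) * ‖Ψ x‖ ^ 2) =
      (∫ x, (deriv H (‖x‖ ^ 2) ^ 2 * ‖x‖ ^ 2) * ‖Ψ x‖ ^ 2) +
      ∫ x, |dg (gH H) x - rad (tH H σ) x| * ‖x‖ ^ 2 * ‖Ψ x‖ ^ 2 := by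
    rw [← integral_add I1 I2]
    refine integral_congr_ae (Filter.Eventually.of_forall fun x => ?_)
    simp only
    rw [← weight_eq, add_mul]
    rfl
  have hA1n : 0 ≤ ∫ x, (deriv H (‖x‖ ^ 2) ^ 2 * ‖x‖ ^ 2) * ‖Ψ x‖ ^ 2 :=
    integral_nonneg fun x => by positivity
  have hA2n : 0 ≤ ∫ x, |dg (gH H) x - rad (tH H σ) x| * ‖x‖ ^ 2 * ‖Ψ x‖ ^ 2 :=
    integral_nonneg fun x => by positivity
  rw [hsplit, div_mul_eq_mul_div, le_div_iff₀ (by positivity)]
  exact final_arith hε'.le hK1 hK2 hK hfin hq' hb hA1n hA2n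

end Setup
end Vale.Agent.P353
end

section

open MeasureTheory Filter Topology
open scoped ContDiff

namespace Vale.Agent.P353
namespace Dec

variable {F : Type*} [NormedAddCommGroup F] [InnerProductSpace ℂ F]

omit [InnerProductSpace ℂ F] in
lemma tendsto_hi {Ψ : X3 → F} (hΨ : Integrable (fun x => ‖Ψ x‖ ^ 2)) :
    Tendsto (fun K : ℝ => ∫ x : X3, hi K (‖x‖ ^ 2) * ‖Ψ x‖ ^ 2) atTop (𝓝 0) := by
  have h := tendsto_integral_filter_of_dominated_convergence (l := atTop)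
    (F := fun (K : ℝ) (x : X3) => hi K (‖x‖ ^ 2) * ‖Ψ x‖ ^ 2) (f := fun _ => (0 : ℝ))
    (μ := (volume : Measure X3)) (fun x => ‖Ψ x‖ ^ 2)
    (Filter.Eventually.of_forall fun K =>
      (integrable_bdd ((measurable_hi K).comp measurable_nsq)
        (fun x => hi_abs _ _) hΨ).aestronglyMeasurable)
    (Filter.Eventually.of_forall fun K => Filter.Eventually.of_forall fun x => ?_)
    hΨ
    (Filter.Eventually.of_forall fun x => ?_)
  · simpa using h
  · rw [norm_mul, Real.norm_eq_abs, Real.norm_of_nonneg (by positivity : 0 ≤ ‖Ψ x‖ ^ 2)]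
    have h1 := hi_abs K (‖x‖ ^ 2)
    nlinarith [sq_nonneg ‖Ψ x‖]
  · refine tendsto_const_nhds.congr' ?_
    filter_upwards [eventually_gt_atTop (‖x‖ ^ 2)] with K hK
    rw [hi, if_neg (by linarith), zero_mul]

/-- **B2**: a zero mode is controlled by its restriction to a fixed ball -/
theorem tail_bound (S : Setup F) (hW : WIneq S 0) :
    ∃ C R : ℝ, 0 < R ∧ ∀ Ψ : Lp F 2 (volume : Measure X3), S.IsZM Ψ →
      ∫ x : X3, ‖Ψ x‖ ^ 2 ≤ C * ∫ x in Metric.ball (0 : X3) R, ‖Ψ x‖ ^ 2 := by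
  obtain ⟨T, E, hT, hE, hM⟩ := main_bound S le_rfl hW
  refine ⟨1 + E, Real.sqrt (2 * T) + 1, by positivity, fun Ψ hΨ => ?_⟩
  have hΨ2 : Integrable (fun x => ‖Ψ x‖ ^ 2) := memLp_norm_sq_int (Lp.memLp Ψ)
  have i2 : Integrable (fun x : X3 => lo (2 * T) (‖x‖ ^ 2) * ‖Ψ x‖ ^ 2) :=
    integrable_bdd ((measurable_lo _).comp measurable_nsq) (fun x => lo_abs _ _) hΨ2
  have hww : ∀ t : ℝ, ww 0 1 t = 1 := by intro t; simp [ww]
  have key : ∀ K : ℝ, 2 * T ≤ K → ∫ x : X3, ‖Ψ x‖ ^ 2 ≤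
      (1 + E) * (∫ x : X3, lo (2 * T) (‖x‖ ^ 2) * ‖Ψ x‖ ^ 2) +
        (1 + E) * ∫ x : X3, hi K (‖x‖ ^ 2) * ‖Ψ x‖ ^ 2 := by
    intro K hK
    have h1 := hM Ψ hΨ 1 one_pos K hK
    simp only [zero_div, Real.rpow_zero, one_mul] at h1
    have i3 : Integrable (fun x : X3 => hi K (‖x‖ ^ 2) * ‖Ψ x‖ ^ 2) :=
      integrable_bdd ((measurable_hi _).comp measurable_nsq) (fun x => hi_abs _ _) hΨ2
    have i1 : Integrable (fun x : X3 => tw 0 1 T K (‖x‖ ^ 2) * ‖Ψ x‖ ^ 2) :=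
      integrable_bdd (C := 1) ((measurable_tw _ _ _ _).comp measurable_nsq)
        (fun x => by
          simp only [Function.comp_apply, tw, hww]
          split_ifs <;> norm_num) hΨ2
    have i4 : Integrable (fun x : X3 => tw 0 1 T K (‖x‖ ^ 2) * ‖Ψ x‖ ^ 2 +
      hi K (‖x‖ ^ 2) * ‖Ψ x‖ ^ 2) := i1.add i3
    have h2 : ∫ x : X3, ‖Ψ x‖ ^ 2 ≤ ∫ x : X3, (lo (2 * T) (‖x‖ ^ 2) * ‖Ψ x‖ ^ 2 +
        (tw 0 1 T K (‖x‖ ^ 2) * ‖Ψ x‖ ^ 2 + hi K (‖x‖ ^ 2) * ‖Ψ x‖ ^ 2)) := by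
      refine integral_mono hΨ2 (i2.add i4) fun x => ?_
      have a1 := lo_nonneg (2 * T) (‖x‖ ^ 2)
      have a2 := hi_nonneg K (‖x‖ ^ 2)
      have a3 : 0 ≤ tw 0 1 T K (‖x‖ ^ 2) := by
        rw [tw, hww]; split_ifs <;> norm_num
      have a4 : 1 ≤ lo (2 * T) (‖x‖ ^ 2) + (tw 0 1 T K (‖x‖ ^ 2) + hi K (‖x‖ ^ 2)) := by
        by_cases c1 : ‖x‖ ^ 2 ≤ 2 * T
        · rw [lo, if_pos c1]; linarith
        · by_cases c2 : K ≤ ‖x‖ ^ 2
          · rw [hi, if_pos c2]; linarith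
          · push Not at c1 c2
            rw [tw, if_pos ⟨c1.le, c2.le⟩, hww]; linarith
      simp only
      nlinarith [sq_nonneg ‖Ψ x‖]
    rw [integral_add i2 i4, integral_add i1 i3] at h2
    linarith
  have hlim : ∫ x : X3, ‖Ψ x‖ ^ 2 ≤
      (1 + E) * (∫ x : X3, lo (2 * T) (‖x‖ ^ 2) * ‖Ψ x‖ ^ 2) + (1 + E) * 0 := by
    refine ge_of_tendsto (tendsto_const_nhds.add ((tendsto_hi hΨ2).const_mul (1 + E))) ?_
    filter_upwards [eventually_ge_atTop (2 * T)] with K hK using key K hK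
  rw [mul_zero, add_zero] at hlim
  refine hlim.trans (mul_le_mul_of_nonneg_left ?_ (by positivity))
  rw [← integral_indicator Metric.isOpen_ball.measurableSet]
  refine integral_mono i2 (hΨ2.indicator Metric.isOpen_ball.measurableSet) fun x => ?_
  simp only [lo]
  split_ifs with h
  · have hx : x ∈ Metric.ball (0 : X3) (Real.sqrt (2 * T) + 1) := by
      rw [Metric.mem_ball, dist_zero_right]
      have : ‖x‖ ≤ Real.sqrt (2 * T) := Real.le_sqrt_of_sq_le h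
      linarith
    rw [Set.indicator_of_mem hx, one_mul]
  · rw [zero_mul]
    exact Set.indicator_nonneg (fun _ _ => by positivity) _

omit [InnerProductSpace ℂ F] in
/-- Fatou's lemma for integrability -/
lemma integrable_of_fatou {f : ℕ → X3 → ℝ} {g : X3 → ℝ} {M : ℝ}
    (hf : ∀ n, Integrable (f n)) (h0 : ∀ n x, 0 ≤ f n x) (hM : ∀ n, ∫ x, f n x ≤ M)
    (hg : ∀ x, Tendsto (fun n => f n x) atTop (𝓝 (g x))) : Integrable g := by
  refine ⟨aestronglyMeasurable_of_tendsto_ae _ (fun n => (hf n).aestronglyMeasurable)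
    (Filter.Eventually.of_forall hg), ?_⟩
  rw [hasFiniteIntegral_iff_enorm]
  have h1 : ∫⁻ x, ‖g x‖ₑ = ∫⁻ x, liminf (fun n => ‖f n x‖ₑ) atTop :=
    lintegral_congr fun x => ((hg x).enorm.liminf_eq).symm
  rw [h1]
  refine (lintegral_liminf_le' fun n => (hf n).aestronglyMeasurable.aemeasurable.enorm).trans_lt ?_
  refine lt_of_le_of_lt ?_ (ENNReal.ofReal_lt_top (r := M))
  refine liminf_le_of_le (by isBoundedDefault) fun b hb => ?_
  obtain ⟨n, hn⟩ := hb.exists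
  refine hn.trans ?_
  have h2 : ∫⁻ x, ‖f n x‖ₑ = ENNReal.ofReal (∫ x, f n x) := by
    rw [ofReal_integral_eq_lintegral_ofReal (hf n) (Filter.Eventually.of_forall (h0 n))]
    refine lintegral_congr fun x => ?_
    rw [Real.enorm_eq_ofReal (h0 n x)]
  rw [h2]
  exact ENNReal.ofReal_le_ofReal (hM n)

lemma tendsto_ww {s t : ℝ} :
    Tendsto (fun n : ℕ => ww s ((n : ℝ) + 1) t) atTop (𝓝 (t ^ (s / 2))) := by
  have h1 : Tendsto (fun n : ℕ => 1 + t / ((n : ℝ) + 1) ^ 2) atTop (𝓝 (1 + 0)) := by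
    refine tendsto_const_nhds.add ?_
    refine tendsto_const_nhds.div_atTop ?_
    exact (tendsto_pow_atTop (by norm_num)).comp
      (tendsto_atTop_add_const_right _ _ tendsto_natCast_atTop_atTop)
  have h2 : Tendsto (fun n : ℕ => (1 + t / ((n : ℝ) + 1) ^ 2) ^ (-s / 2)) atTop (𝓝 (1 ^ (-s / 2))) := by
    refine Tendsto.rpow_const ?_ (Or.inl one_ne_zero)
    simpa using h1
  have h3 := h2.const_mul (t ^ (s / 2))
  rw [Real.one_rpow, mul_one] at h3
  exact h3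

/-- **B1**: decay of zero modes -/
theorem decay (S : Setup F) {s : ℝ} (hs : 0 ≤ s) (hW : WIneq S s)
    (Ψ : Lp F 2 (volume : Measure X3)) (hΨ : S.IsZM Ψ) :
    Integrable (fun x : X3 => ‖x‖ ^ s * ‖Ψ x‖ ^ 2) := by
  obtain ⟨T, E, hT, hE, hM⟩ := main_bound S hs hW
  have hΨ2 : Integrable (fun x => ‖Ψ x‖ ^ 2) := memLp_norm_sq_int (Lp.memLp Ψ)
  have hK : ∀ n : ℕ, ∃ K : ℝ, 2 * T ≤ K ∧ (n : ℝ) ≤ K ∧
      ((n : ℝ) + 1) ^ s * (∫ x : X3, hi K (‖x‖ ^ 2) * ‖Ψ x‖ ^ 2) ≤ 1 := by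
    intro n
    have h1 : Tendsto (fun K : ℝ => ((n : ℝ) + 1) ^ s * ∫ x : X3, hi K (‖x‖ ^ 2) * ‖Ψ x‖ ^ 2)
        atTop (𝓝 (((n : ℝ) + 1) ^ s * 0)) := (tendsto_hi hΨ2).const_mul _
    rw [mul_zero] at h1
    have h2 := h1.eventually (gt_mem_nhds one_pos)
    obtain ⟨K, h3, h4, h5⟩ := (h2.and ((eventually_ge_atTop (2 * T)).and
      (eventually_ge_atTop (n : ℝ)))).exists
    exact ⟨K, h4, h5, h3.le⟩
  choose K hK1 hK2 hK3 using hK
  have hpos : ∀ (n : ℕ) (x : X3), 0 ≤ tw s ((n : ℝ) + 1) T (K n) (‖x‖ ^ 2) * ‖Ψ x‖ ^ 2 := by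
    intro n x
    refine mul_nonneg ?_ (by positivity)
    rw [tw]
    split_ifs with h
    · exact (ww_pos (by linarith [h.1])).le
    · exact le_rfl
  have hint : Integrable (fun x : X3 => (if 2 * T ≤ ‖x‖ ^ 2 then (‖x‖ ^ 2) ^ (s / 2) else 0) *
      ‖Ψ x‖ ^ 2) := by
    refine integrable_of_fatou (f := fun (n : ℕ) x => tw s ((n : ℝ) + 1) T (K n) (‖x‖ ^ 2) * ‖Ψ x‖ ^ 2)
      (M := E * ((2 * T) ^ (s / 2) * (∫ x : X3, lo (2 * T) (‖x‖ ^ 2) * ‖Ψ x‖ ^ 2) + 1))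
      (fun n => ?_) hpos (fun n => ?_) (fun x => ?_)
    · have hn : (0 : ℝ) < (n : ℝ) + 1 := by positivity
      refine integrable_bdd (C := ((n : ℝ) + 1) ^ s) ((measurable_tw _ _ _ _).comp measurable_nsq)
        (fun x => ?_) hΨ2
      simp only [Function.comp_apply, tw]
      split_ifs with h
      · have ht : 0 < ‖x‖ ^ 2 := by linarith [h.1]
        rw [abs_of_pos (ww_pos ht)]
        exact ww_le_L hs hn ht
      · simp; positivity
    · have h1 := hM Ψ hΨ ((n : ℝ) + 1) (by positivity) (K n) (hK1 n)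
      refine h1.trans (mul_le_mul_of_nonneg_left ?_ hE)
      linarith [hK3 n]
    · refine Tendsto.mul_const _ ?_
      split_ifs with h
      · have ht : 0 < ‖x‖ ^ 2 := by linarith
        refine tendsto_ww.congr' ?_
        obtain ⟨N, hN⟩ := exists_nat_ge (‖x‖ ^ 2)
        filter_upwards [eventually_ge_atTop N] with n hn
        have h5 : (N : ℝ) ≤ (n : ℝ) := by exact_mod_cast hn
        have h6 : ‖x‖ ^ 2 ≤ K n := by linarith [hK2 n]
        rw [tw, if_pos ⟨h, h6⟩]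
      · refine tendsto_const_nhds.congr fun n => ?_
        rw [tw, if_neg (fun hh => h hh.1)]
  have hfin : Integrable (fun x : X3 => (if 2 * T ≤ ‖x‖ ^ 2 then (‖x‖ ^ 2) ^ (s / 2) else 0) *
      ‖Ψ x‖ ^ 2 + (2 * T) ^ (s / 2) * ‖Ψ x‖ ^ 2) := hint.add (hΨ2.const_mul _)
  refine hfin.mono' ?_ (Filter.Eventually.of_forall fun x => ?_)
  · exact ((measurable_norm.pow_const s).aestronglyMeasurable).mul hΨ2.aestronglyMeasurable
  · have hsq : (‖x‖ ^ 2) ^ (s / 2) = ‖x‖ ^ s := by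
      rw [← Real.rpow_natCast, ← Real.rpow_mul (norm_nonneg x)]
      congr 1
      push_cast
      ring
    rw [Real.norm_of_nonneg (by positivity)]
    split_ifs with h
    · rw [hsq]
      have : 0 ≤ (2 * T) ^ (s / 2) * ‖Ψ x‖ ^ 2 := by positivity
      linarith
    · push Not at h
      have h1 : ‖x‖ ^ s ≤ (2 * T) ^ (s / 2) := by
        rw [← hsq]
        exact Real.rpow_le_rpow (by positivity) h.le (by positivity)
      have := mul_le_mul_of_nonneg_right h1 (by positivity : 0 ≤ ‖Ψ x‖ ^ 2)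
      linarith

end Dec
end Vale.Agent.P353
end

section

/-! # P353, uniqueness for `N = 2`: zero modes are invariant and have second moments -/

open MeasureTheory Filter Topology
open scoped ContDiff

namespace Vale.Agent.P353

variable {F : Type*} [NormedAddCommGroup F] [InnerProductSpace ℂ F]

namespace U

theorem zmStmt [FiniteDimensional ℂ F] (S : Setup F) : ZmStmt S := by
  have : CompleteSpace F := FiniteDimensional.complete ℂ F
  intro Ψ hΨ
  obtain ⟨u, hu⟩ := hΨ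
  have hT := hu.1
  have hL : L2t u Ψ := Lp_L2t hT hu.2.2.1
  have hc : ∀ {f : X3 → F}, Setup.Tst f → L2t (fun _ : ℕ => f) f := fun {f} hf =>
    ⟨fun _ => hf.memLp, hf.memLp, by simp [nsq]⟩
  refine ⟨⟨Lp.memLp Ψ, ?_, ?_, ?_⟩, ?_⟩
  · intro C ζ hζ
    have l1 := (hc (hζ.G S C)).lim_inner hL
    refine tendsto_nhds_unique l1 (tendsto_const_nhds.congr fun n => ?_)
    rw [G_symm S C ζ (u n) hζ (hT n).1]
    simp only [hu.2.1 n C, inner_zero_right, integral_zero]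
  · intro k l hkl ζ hζ
    exact weak_J S Ψ u hu k l hkl.1 ζ hζ
  · have hS : S.Str 0 Ψ (fun _ _ => 0) := by
      have h0 : ∀ β n, S.Qm 0 β (u n) = S.Q β (u n) := by
        intro β n
        funext x
        simp [Setup.Qm]
      refine ⟨u, hT, hL, fun β => ?_⟩
      simp only [h0]
      exact zero_L2t (fun n => (hT n).Q S β) (hu.2.2.2 β)
    exact fun β => hS.wQ β
  · have h := Dec.decay S (s := 2) (by norm_num) (S.wineq (by norm_num)) Ψ ⟨u, hu⟩
    simpa only [Real.rpow_two] using h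

end U
end Vale.Agent.P353
end

section

open MeasureTheory Filter Topology
open scoped ContDiff

namespace Vale.Agent.P353

variable {F : Type*} [NormedAddCommGroup F] [InnerProductSpace ℂ F]

lemma opNorm_sq_le (L : X3 →L[ℝ] F) :
    ‖L‖ ^ 2 ≤ ∑ i, ∑ A, ‖L (EuclideanSpace.single (i, A) 1)‖ ^ 2 := by
  have h0 : 0 ≤ ∑ i, ∑ A, ‖L (EuclideanSpace.single (i, A) 1)‖ ^ 2 := by positivity
  have h1 : ‖L‖ ≤ Real.sqrt (∑ i, ∑ A, ‖L (EuclideanSpace.single (i, A) 1)‖ ^ 2) := by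
    refine L.opNorm_le_bound (Real.sqrt_nonneg _) fun x => ?_
    have hx : x = ∑ p : Fin 9 × Fin 3, x p • (EuclideanSpace.single p (1 : ℝ) : X3) := by
      ext q
      simp only [WithLp.ofLp_sum, Finset.sum_apply, WithLp.ofLp_smul, Pi.smul_apply,
        PiLp.single_apply, smul_eq_mul, mul_ite, mul_one, mul_zero]
      simp
    have h2 : L x = ∑ p : Fin 9 × Fin 3, x p • L (EuclideanSpace.single p (1 : ℝ) : X3) := by
      conv_lhs => rw [hx]
      rw [map_sum]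
      simp only [map_smul]
    have h3 : ‖L x‖ ≤ ∑ p : Fin 9 × Fin 3, |x p| * ‖L (EuclideanSpace.single p (1 : ℝ) : X3)‖ := by
      rw [h2]
      refine (norm_sum_le _ _).trans (Finset.sum_le_sum fun p _ => ?_)
      rw [norm_smul, Real.norm_eq_abs]
    have h4 := Finset.sum_mul_sq_le_sq_mul_sq (Finset.univ : Finset (Fin 9 × Fin 3))
      (fun p => |x p|) (fun p => ‖L (EuclideanSpace.single p (1 : ℝ) : X3)‖)
    have h5 : ∑ p : Fin 9 × Fin 3, |x p| ^ 2 = ‖x‖ ^ 2 := by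
      rw [EuclideanSpace.norm_sq_eq]
      simp
    have h6 : ∑ p : Fin 9 × Fin 3, ‖L (EuclideanSpace.single p (1 : ℝ) : X3)‖ ^ 2 =
        ∑ i, ∑ A, ‖L (EuclideanSpace.single (i, A) 1)‖ ^ 2 := by
      rw [Fintype.sum_prod_type]
    rw [h5, h6] at h4
    have h7 : 0 ≤ ∑ p : Fin 9 × Fin 3, |x p| * ‖L (EuclideanSpace.single p (1 : ℝ) : X3)‖ := by
      positivity
    refine h3.trans ?_
    rw [← Real.sqrt_sq h7, ← Real.sqrt_sq (norm_nonneg x), ← Real.sqrt_mul h0]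
    refine Real.sqrt_le_sqrt ?_
    linarith
  calc ‖L‖ ^ 2 ≤ (Real.sqrt (∑ i, ∑ A, ‖L (EuclideanSpace.single (i, A) 1)‖ ^ 2)) ^ 2 := by
        gcongr
    _ = _ := Real.sq_sqrt h0

lemma integral_fderiv_sq_le {v : X3 → F} (hv : Setup.Tst v) :
    ∫ x, ‖fderiv ℝ v x‖ ^ 2 ≤ ∑ i, ∑ A, ∫ x, ‖pd i A v x‖ ^ 2 := by
  have hi : ∀ i A, Integrable (fun x => ‖pd i A v x‖ ^ 2) := fun i A => (hv.pd i A).norm_sq_int
  have h1 : ∑ i, ∑ A, ∫ x, ‖pd i A v x‖ ^ 2 = ∫ x, ∑ i, ∑ A, ‖pd i A v x‖ ^ 2 := by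
    rw [integral_finsetSum _ fun i _ => integrable_finsetSum _ fun A _ => hi i A]
    refine Finset.sum_congr rfl fun i _ => ?_
    rw [integral_finsetSum _ fun A _ => hi i A]
  rw [h1]
  refine integral_mono_of_nonneg (Filter.Eventually.of_forall fun x => by
    simp only [Pi.zero_apply]; positivity)
    (integrable_finsetSum _ fun i _ => integrable_finsetSum _ fun A _ => hi i A)
    (Filter.Eventually.of_forall fun x => ?_)
  exact opNorm_sq_le (fderiv ℝ v x)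

namespace Setup

variable (S : Setup F)

/-- the constant of the commutator of `Q` with a cutoff -/
noncomputable def cg (b : Fin 16) : ℝ := ∑ i, ∑ A, ‖S.vec (S.g i) A b‖

lemma norm_Q_cut2 {K R : ℝ} (hR : 0 < R) (hK : 0 ≤ K) {χ : X3 → ℝ} (hχ : IsCut K R χ)
    {u : X3 → F} (hu : Tst u) (b : Fin 16) (x : X3) :
    ‖S.Q b (fun y => ((χ y : ℝ) : ℂ) • u y) x‖ ^ 2 ≤ 2 * ‖S.Q b u x‖ ^ 2 +
      2 * (K / R * S.cg b) ^ 2 * ‖u x‖ ^ 2 := by
  obtain ⟨hsm, hcs, h0, h1, hin, hout, hgrad, hgrad0⟩ := hχ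
  rw [Q_smul S b χ u x (hsm.differentiable (by simp) x) (hu.diff x)]
  have hg : ∀ i A, |pdr i A χ x| ≤ K / R := by
    intro i A
    by_cases hx : R ≤ ‖x‖
    · rw [le_div_iff₀ hR]
      calc |pdr i A χ x| * R ≤ |pdr i A χ x| * ‖x‖ := by gcongr
        _ ≤ K := hgrad i A x
    · push Not at hx
      rw [hgrad0 i A x hx, abs_zero]; positivity
  have e1 : ‖((χ x : ℝ) : ℂ) • S.Q b u x‖ ≤ ‖S.Q b u x‖ := by
    rw [norm_smul, Complex.norm_real, Real.norm_of_nonneg (h0 x)]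
    exact mul_le_of_le_one_left (norm_nonneg _) (h1 x)
  have e2 : ‖Complex.I • ∑ i, ∑ A, ((pdr i A χ x : ℝ) : ℂ) • S.vec (S.g i) A b (u x)‖ ≤
      K / R * S.cg b * ‖u x‖ := by
    rw [norm_smul, Complex.norm_I, one_mul]
    calc ‖∑ i, ∑ A, ((pdr i A χ x : ℝ) : ℂ) • S.vec (S.g i) A b (u x)‖ ≤
        ∑ i, ∑ A, K / R * (‖S.vec (S.g i) A b‖ * ‖u x‖) := by
          refine (norm_sum_le _ _).trans (Finset.sum_le_sum fun i _ => ?_)
          refine (norm_sum_le _ _).trans (Finset.sum_le_sum fun A _ => ?_)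
          rw [norm_smul, Complex.norm_real, Real.norm_eq_abs]
          exact mul_le_mul (hg i A) (ContinuousLinearMap.le_opNorm _ _) (norm_nonneg _)
            (by positivity)
      _ = _ := by
        rw [cg]
        simp only [← Finset.mul_sum, ← Finset.sum_mul]
        ring
  have e3 := norm_sub_le (((χ x : ℝ) : ℂ) • S.Q b u x)
    (Complex.I • ∑ i, ∑ A, ((pdr i A χ x : ℝ) : ℂ) • S.vec (S.g i) A b (u x))
  have e4 : ‖((χ x : ℝ) : ℂ) • S.Q b u x -
      Complex.I • ∑ i, ∑ A, ((pdr i A χ x : ℝ) : ℂ) • S.vec (S.g i) A b (u x)‖ ≤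
      ‖S.Q b u x‖ + K / R * S.cg b * ‖u x‖ := by linarith
  calc ‖((χ x : ℝ) : ℂ) • S.Q b u x -
      Complex.I • ∑ i, ∑ A, ((pdr i A χ x : ℝ) : ℂ) • S.vec (S.g i) A b (u x)‖ ^ 2 ≤
      (‖S.Q b u x‖ + K / R * S.cg b * ‖u x‖) ^ 2 := by gcongr
    _ ≤ _ := by nlinarith [sq_nonneg (‖S.Q b u x‖ - K / R * S.cg b * ‖u x‖)]

variable [FiniteDimensional ℂ F]

/-- gradient bound for a cut off test function -/
lemma grad_cut_bound {K R : ℝ} (hR : 0 < R) (hK : 0 ≤ K) {χ : X3 → ℝ} (hχ : IsCut K R χ) :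
    ∃ C1 : ℝ, 0 ≤ C1 ∧ ∀ u : X3 → F, Tst u →
      ∫ x, ‖fderiv ℝ (fun y => ((χ y : ℝ) : ℂ) • u y) x‖ ^ 2 ≤
        1 / 4 * (∑ b, ∫ x, ‖S.Q b u x‖ ^ 2) + C1 * ∫ x, ‖u x‖ ^ 2 := by
  have : CompleteSpace F := FiniteDimensional.complete ℂ F
  have hcF : Continuous (fun x : X3 => ‖S.Fx x‖) := (contDiff_Fx S).continuous.norm
  obtain ⟨CF, hCF⟩ := (isCompact_closedBall (0 : X3) (2 * R)).exists_bound_of_continuousOn
    hcF.continuousOn
  refine ⟨1 / 4 * ∑ b, (K / R * S.cg b) ^ 2 + 2 * max CF 0, by positivity, fun u hu => ?_⟩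
  set v : X3 → F := fun y => ((χ y : ℝ) : ℂ) • u y with hv
  have hvT : Tst v := hu.rsmul hχ.1
  have hE := energy_formula S v hvT
  have h1 : ∀ b, ∫ x, ‖S.Q b v x‖ ^ 2 ≤ 2 * (∫ x, ‖S.Q b u x‖ ^ 2) +
      2 * (K / R * S.cg b) ^ 2 * ∫ x, ‖u x‖ ^ 2 := by
    intro b
    have i1 := (hu.Q S b).norm_sq_int.const_mul 2
    have i2 := hu.norm_sq_int.const_mul (2 * (K / R * S.cg b) ^ 2)
    rw [← integral_const_mul, ← integral_const_mul, ← integral_add i1 i2]
    exact integral_mono (hvT.Q S b).norm_sq_int (i1.add i2)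
      fun x => S.norm_Q_cut2 hR hK hχ hu b x
  have h2 : 0 ≤ ∫ x, S.V x * ‖v x‖ ^ 2 := integral_nonneg fun x =>
    mul_nonneg (by unfold V; positivity) (by positivity)
  have h3 : -(max CF 0 * ∫ x, ‖u x‖ ^ 2) ≤ ∫ x, (inner ℂ (v x) (S.Fx x (v x))).re := by
    rw [← integral_const_mul, ← integral_neg]
    have i3 : Integrable (fun x => (inner ℂ (v x) (S.Fx x (v x)) : ℂ).re) :=
      (hvT.inner_int (hvT.clm (contDiff_Fx S)).1.continuous).re
    refine integral_mono (hu.norm_sq_int.const_mul _).neg i3 fun x => ?_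
    simp only
    have a1 : |(inner ℂ (v x) (S.Fx x (v x)) : ℂ).re| ≤ ‖v x‖ * (‖S.Fx x‖ * ‖v x‖) := by
      refine (Complex.abs_re_le_norm _).trans ((norm_inner_le_norm _ _).trans ?_)
      exact mul_le_mul_of_nonneg_left (ContinuousLinearMap.le_opNorm _ _) (norm_nonneg _)
    have a2 : ‖v x‖ * (‖S.Fx x‖ * ‖v x‖) ≤ max CF 0 * ‖u x‖ ^ 2 := by
      by_cases hx : 2 * R ≤ ‖x‖
      · have : v x = 0 := by
          simp only [hv]
          rw [hχ.2.2.2.2.2.1 x hx]; simp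
        rw [this, norm_zero, zero_mul]; positivity
      · push Not at hx
        have b1 : ‖S.Fx x‖ ≤ max CF 0 := by
          have := hCF x (by rw [Metric.mem_closedBall, dist_zero_right]; exact hx.le)
          rw [Real.norm_of_nonneg (norm_nonneg _)] at this
          exact this.trans (le_max_left _ _)
        have b2 : ‖v x‖ ≤ ‖u x‖ := by
          simp only [hv]
          rw [norm_smul, Complex.norm_real, Real.norm_of_nonneg (hχ.2.2.1 x)]
          exact mul_le_of_le_one_left (norm_nonneg _) (hχ.2.2.2.1 x)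
        calc ‖v x‖ * (‖S.Fx x‖ * ‖v x‖) = ‖S.Fx x‖ * ‖v x‖ ^ 2 := by ring
          _ ≤ max CF 0 * ‖u x‖ ^ 2 := by gcongr
    have a3 := neg_abs_le (inner ℂ (v x) (S.Fx x (v x)) : ℂ).re
    linarith
  have h4 : ∑ b, ∫ x, ‖S.Q b v x‖ ^ 2 ≤ 2 * (∑ b, ∫ x, ‖S.Q b u x‖ ^ 2) +
      2 * (∑ b, (K / R * S.cg b) ^ 2) * ∫ x, ‖u x‖ ^ 2 := by
    refine (Finset.sum_le_sum fun b _ => h1 b).trans (le_of_eq ?_)
    rw [Finset.sum_add_distrib, ← Finset.mul_sum, ← Finset.sum_mul, ← Finset.mul_sum]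
  have h5 := integral_fderiv_sq_le hvT
  linarith

/-- **finite dimensionality of the space of zero modes** from the weighted inequality -/
theorem finiteDimensional_zm (hW : WIneq S 0) : FiniteDimensional ℂ S.zm := by
  obtain ⟨C0, R, hR, htail⟩ := Dec.tail_bound S hW
  obtain ⟨K, hK, hcut⟩ := exists_cut
  obtain ⟨χ, hχ⟩ := hcut R hR
  obtain ⟨C1, hC1, hgrad⟩ := S.grad_cut_bound hR hK hχ
  have hχ0 := hχ.2.2.1
  have hχ1 := hχ.2.2.2.1
  have hC : 0 ≤ max C0 (2 * C1) := (by positivity : 0 ≤ 2 * C1).trans (le_max_right _ _)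
  refine finiteDimensional_of_tail S.zm (max C0 (2 * C1)) (2 * R) χ hχ.1.continuous hχ0 hχ1
    hχ.2.2.2.2.2.1 (fun Ψ hΨ => ?_) (fun Ψ hΨ => ?_)
  · have hΨ2 : Integrable (fun x => ‖Ψ x‖ ^ 2) := memLp_norm_sq_int (Lp.memLp Ψ)
    have h1 := htail Ψ hΨ
    have h2 : C0 * (∫ x in Metric.ball (0 : X3) R, ‖Ψ x‖ ^ 2) ≤
        max C0 (2 * C1) * (∫ x in Metric.ball (0 : X3) R, ‖Ψ x‖ ^ 2) :=
      mul_le_mul_of_nonneg_right (le_max_left _ _) (integral_nonneg fun x => by positivity)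
    have h3 : ∫ x in Metric.ball (0 : X3) R, ‖Ψ x‖ ^ 2 ≤ ∫ x, ‖((χ x : ℝ) : ℂ) • Ψ x‖ ^ 2 := by
      rw [← integral_indicator Metric.isOpen_ball.measurableSet]
      have i1 : Integrable (fun x => ‖((χ x : ℝ) : ℂ) • Ψ x‖ ^ 2) := by
        have e : (fun x => ‖((χ x : ℝ) : ℂ) • Ψ x‖ ^ 2) = fun x => χ x ^ 2 * ‖Ψ x‖ ^ 2 := by
          funext x
          rw [norm_smul, Complex.norm_real, Real.norm_of_nonneg (hχ0 x), mul_pow]
        rw [e]
        refine Dec.integrable_bdd (C := 1) (hχ.1.continuous.pow 2).measurable (fun x => ?_) hΨ2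
        change |χ x ^ 2| ≤ 1
        rw [abs_of_nonneg (pow_nonneg (hχ0 x) 2)]
        exact pow_le_one₀ (hχ0 x) (hχ1 x)
      refine integral_mono (hΨ2.indicator Metric.isOpen_ball.measurableSet) i1 fun x => ?_
      simp only
      by_cases hx : x ∈ Metric.ball (0 : X3) R
      · rw [Set.indicator_of_mem hx, hχ.2.2.2.2.1 x (by
          rw [Metric.mem_ball, dist_zero_right] at hx; exact hx.le)]
        simp
      · rw [Set.indicator_of_notMem hx]; positivity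
    exact h1.trans (h2.trans (mul_le_mul_of_nonneg_left h3 hC))
  · obtain ⟨u, hu1, hu2, hu3, hu4⟩ := hΨ
    have hΨ2 : Integrable (fun x => ‖Ψ x‖ ^ 2) := memLp_norm_sq_int (Lp.memLp Ψ)
    have hd : ∀ n, Integrable (fun x => ‖u n x - Ψ x‖ ^ 2) := fun n =>
      memLp_norm_sq_int ((hu1 n).memLp.sub (Lp.memLp Ψ))
    refine ⟨fun n y => ((χ y : ℝ) : ℂ) • u n y, fun n => ((hu1 n).rsmul hχ.1).1.of_le (by simp),
      fun n => ((hu1 n).rsmul hχ.1).2, ?_, fun ε hε => ?_⟩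
    · refine squeeze_zero (fun n => integral_nonneg fun x => by positivity) (fun n => ?_) hu3
      refine integral_mono_of_nonneg (Filter.Eventually.of_forall fun x => by
        simp only [Pi.zero_apply]; positivity) (hd n) (Filter.Eventually.of_forall fun x => ?_)
      simp only
      rw [← smul_sub, norm_smul, Complex.norm_real, Real.norm_of_nonneg (hχ0 x)]
      have := mul_le_of_le_one_left (norm_nonneg (u n x - Ψ x)) (hχ1 x)
      have h0 : 0 ≤ χ x * ‖u n x - Ψ x‖ := mul_nonneg (hχ0 x) (norm_nonneg _)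
      gcongr
    · have hlim : Tendsto (fun n => 1 / 4 * (∑ b, ∫ x, ‖S.Q b (u n) x‖ ^ 2) +
          2 * C1 * ∫ x, ‖u n x - Ψ x‖ ^ 2) atTop (𝓝 0) := by
        have h1 : Tendsto (fun n => ∑ b, ∫ x, ‖S.Q b (u n) x‖ ^ 2) atTop
            (𝓝 (∑ _b : Fin 16, (0 : ℝ))) := tendsto_finsetSum _ fun b _ => hu4 b
        have h2 := (h1.const_mul (1 / 4)).add (hu3.const_mul (2 * C1))
        simpa using h2
      filter_upwards [hlim.eventually (gt_mem_nhds hε)] with n hn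
      have h1 := hgrad (u n) (hu1 n)
      have h2 : ∫ x, ‖u n x‖ ^ 2 ≤ 2 * (∫ x, ‖Ψ x‖ ^ 2) + 2 * ∫ x, ‖u n x - Ψ x‖ ^ 2 := by
        rw [← integral_const_mul, ← integral_const_mul, ← integral_add (hΨ2.const_mul 2)
          ((hd n).const_mul 2)]
        exact integral_mono (hu1 n).norm_sq_int ((hΨ2.const_mul 2).add ((hd n).const_mul 2))
          fun x => norm_sq_le_two (u n x) (Ψ x)
      have h3 : 2 * C1 * (∫ x, ‖Ψ x‖ ^ 2) ≤ max C0 (2 * C1) * (∫ x, ‖Ψ x‖ ^ 2) :=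
        mul_le_mul_of_nonneg_right (le_max_right _ _) (integral_nonneg fun x => by positivity)
      have h4 := mul_le_mul_of_nonneg_left h2 hC1
      linarith

end Setup

end Vale.Agent.P353
end

section

open MeasureTheory Filter Topology
open scoped ContDiff

namespace Vale.Agent.P353

variable {F : Type*} [NormedAddCommGroup F] [InnerProductSpace ℂ F]

/-- the final theorem from the weighted inequality -/
theorem final_of (M : Model 2 3 F) (hW : ∀ s : ℝ, 0 ≤ s → s < 9 → WIneq M.toSetup s) :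
    FiniteDimensional ℂ (Submodule.span ℂ
      {Ψ : Lp F 2 (volume : Measure (Cfg 3)) | M.IsZeroEnergyState Ψ}) ∧
    ∀ Ψ : Lp F 2 (volume : Measure (Cfg 3)), M.IsZeroEnergyState Ψ →
      ∀ s : ℝ, 0 ≤ s → s < 9 → Integrable (fun x => ‖x‖ ^ s * ‖Ψ x‖ ^ 2) := by
  have hF : FiniteDimensional ℂ F := M.finiteDimensional
  refine ⟨?_, fun Ψ hΨ s hs0 hs => Dec.decay M.toSetup hs0 (hW s hs0 hs) Ψ
    (isZM_of_zeroEnergy M hΨ)⟩
  have h1 : FiniteDimensional ℂ (M.toSetup).zm :=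
    (M.toSetup).finiteDimensional_zm (hW 0 le_rfl (by norm_num))
  have h2 : Submodule.span ℂ {Ψ : Lp F 2 (volume : Measure (Cfg 3)) | M.IsZeroEnergyState Ψ} ≤
      (M.toSetup).zm := Submodule.span_le.mpr fun Ψ hΨ => isZM_of_zeroEnergy M hΨ
  exact Submodule.finiteDimensional_of_le h2

end Vale.Agent.P353
end

section

open MeasureTheory Filter Topology
open scoped ContDiff

namespace Vale.Agent.P353.BFSS

variable {N d : ℕ} {F : Type*} [NormedAddCommGroup F] [InnerProductSpace ℂ F]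

lemma ae_sum {ι : Type*} (t : Finset ι) (c : ι → ℂ)
    (f : ι → Lp F 2 (volume : Measure (Cfg 3))) :
    ∀ᵐ x ∂(volume : Measure (Cfg 3)), (∑ i ∈ t, c i • f i : Lp F 2 (volume : Measure (Cfg 3))) x =
      ∑ i ∈ t, c i • f i x := by
  classical
  induction t using Finset.induction_on with
  | empty =>
    simp only [Finset.sum_empty]
    exact Lp.coeFn_zero F 2 (volume : Measure (Cfg 3))
  | insert a t ha ih =>
    rw [Finset.sum_insert ha]
    filter_upwards [ih, Lp.coeFn_add (c a • f a) (∑ i ∈ t, c i • f i),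
      Lp.coeFn_smul (c a) (f a)] with x h1 h2 h3
    rw [h2, Pi.add_apply, h1, h3, Pi.smul_apply, Finset.sum_insert ha]

/-- main theorem -/
theorem main (M : Model 2 3 F) :
    (∃ (n : ℕ) (Φ : Fin n → Conf 3 → F),
      (∀ i, M.IsZeroEnergyState (Φ i)) ∧ ∀ Ψ, M.IsZeroEnergyState Ψ →
        ∃ c : Fin n → ℂ, ∀ᵐ x ∂leb 3, Ψ x = ∑ i, c i • Φ i x) ∧
    (∀ Ψ, M.IsZeroEnergyState Ψ → ∀ s : ℝ, 0 ≤ s → s < 9 →
      Integrable (fun x => ‖x‖ ^ s * ‖Ψ x‖ ^ 2) (leb 3)) := by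
  have hF : FiniteDimensional ℂ F := M.toOld.finiteDimensional
  obtain ⟨h1, h2⟩ := final_of M.toOld fun s _ hs => M.toOld.toSetup.wineq hs
  constructor
  · have h3 : (Submodule.span ℂ {Ψ : Lp F 2 (volume : Measure (Cfg 3)) |
        M.toOld.IsZeroEnergyState Ψ}).FG := Module.Finite.iff_fg.mp h1
    rw [Submodule.fg_span_iff_fg_span_finset_subset] at h3
    obtain ⟨s, hs, hspan⟩ := h3
    let e := s.equivFin
    refine ⟨s.card, fun i => ((e.symm i : Lp F 2 (volume : Measure (Cfg 3))) : Conf 3 → F),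
      fun i => ?_, fun Ψ hΨ => ?_⟩
    · have h4 : M.toOld.IsZeroEnergyState (e.symm i : Lp F 2 (volume : Measure (Cfg 3))) :=
        hs (e.symm i).2
      refine (M.zes_iff _ (Lp.memLp _)).mpr ?_
      rw [Lp.toLp_coeFn]
      exact h4
    · have hL : MemLp Ψ 2 (volume : Measure (Conf 3)) := hΨ.1
      have h5 := (M.zes_iff Ψ hL).mp hΨ
      have h6 : hL.toLp Ψ ∈ Submodule.span ℂ (s : Set (Lp F 2 (volume : Measure (Cfg 3)))) := by
        rw [← hspan]
        exact Submodule.subset_span h5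
      rw [Submodule.mem_span_finset] at h6
      obtain ⟨c, -, hc⟩ := h6
      refine ⟨fun i => c (e.symm i), ?_⟩
      have h7 : hL.toLp Ψ = ∑ i, c (e.symm i) • (e.symm i : Lp F 2 (volume : Measure (Cfg 3))) := by
        rw [← hc, ← Finset.sum_coe_sort s]
        exact (Equiv.sum_comp e.symm fun a : s =>
          c (a : Lp F 2 (volume : Measure (Cfg 3))) • (a : Lp F 2 (volume : Measure (Cfg 3)))).symm
      have h8 : ∀ᵐ x ∂(volume : Measure (Cfg 3)), (hL.toLp Ψ) x =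
          ∑ i, c (e.symm i) • (e.symm i : Lp F 2 (volume : Measure (Cfg 3))) x := by
        rw [h7]
        exact ae_sum Finset.univ (fun i => c (e.symm i))
          fun i => (e.symm i : Lp F 2 (volume : Measure (Cfg 3)))
      rw [leb]
      filter_upwards [hL.coeFn_toLp, h8] with x hx hx'
      rw [← hx, hx']
  · intro Ψ hΨ s hs0 hs
    have hL : MemLp Ψ 2 (volume : Measure (Conf 3)) := hΨ.1
    have h5 := (M.zes_iff Ψ hL).mp hΨ
    have h6 := h2 _ h5 s hs0 hs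
    rw [leb]
    refine h6.congr ?_
    filter_upwards [hL.coeFn_toLp] with x hx
    rw [hx]

end Vale.Agent.P353.BFSS
end
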