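import Mathlib
import Vale.Agent.P353.BdU.B3
import Vale.Agent.P353.BdU.B2
import Vale.Agent.P353.BdU.B10

set_option linter.all false

section

/-! # P353, uniqueness for `N = 2`: A1, A6, A7, A8 -/

open MeasureTheory Filter Topology
open scoped ContDiff Matrix

namespace Vale.Agent.P353

variable {F : Type*} [NormedAddCommGroup F] [InnerProductSpace ℂ F]

namespace Setup

variable (S : Setup F)

lemma contDiff_MM_a1 (β : Fin 16) : ContDiff ℝ ∞ (S.MM β) := by
  unfold MM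
  refine ContDiff.sum fun i _ => ContDiff.sum fun A _ => ?_
  exact (contDiff_ofReal (contDiff_const.mul (contDiff_coord _))).smul contDiff_const

lemma Q_add_a1 (β : Fin 16) {u v : X3 → F} {x : X3} (hu : DifferentiableAt ℝ u x)
    (hv : DifferentiableAt ℝ v x) :
    S.Q β (fun y => u y + v y) x = S.Q β u x + S.Q β v x := by
  simp only [Q, pd_add hu hv, map_add, Finset.sum_add_distrib, smul_add]
  abel

lemma Q_csmul_a1 (β : Fin 16) (c : ℂ) {v : X3 → F} {x : X3} (hv : DifferentiableAt ℝ v x) :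
    S.Q β (fun y => c • v y) x = c • S.Q β v x := by
  have h : ∀ i A, pd i A (fun y => c • v y) x = c • pd i A v x := by
    intro i A
    unfold pd
    rw [fderiv_fun_const_smul hv]
    rfl
  simp only [Q, h, map_smul, ← Finset.smul_sum, smul_add]
  rw [smul_comm]

/-- the matrix `∑_i a_i x_i^A γ^i` -/
noncomputable def PA_a1 (A : Fin 3) (x : X3) : Matrix (Fin 16) (Fin 16) ℂ :=
  ∑ i, ((aw i * x (i, A) : ℝ) : ℂ) • S.g i

lemma PA_transpose_a1 (A : Fin 3) (x : X3) : (S.PA_a1 A x)ᵀ = S.PA_a1 A x := by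
  simp only [PA_a1, Matrix.transpose_sum, Matrix.transpose_smul, S.g_symm]

lemma PA_sq_a1 (A : Fin 3) (x : X3) :
    S.PA_a1 A x * S.PA_a1 A x = ((∑ i, (aw i * x (i, A)) ^ 2 : ℝ) : ℂ) • 1 := by
  set c : Fin 9 → ℂ := fun i => ((aw i * x (i, A) : ℝ) : ℂ) with hc
  have e1 : S.PA_a1 A x * S.PA_a1 A x = ∑ i, ∑ j, (c i * c j) • (S.g i * S.g j) := by
    simp only [PA_a1, Finset.sum_mul_sum, smul_mul_smul_comm]
    rfl
  have e2 : S.PA_a1 A x * S.PA_a1 A x = ∑ i, ∑ j, (c i * c j) • (S.g j * S.g i) := by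
    rw [e1, Finset.sum_comm]
    refine Finset.sum_congr rfl fun i _ => Finset.sum_congr rfl fun j _ => ?_
    rw [mul_comm (c j)]
  have e3 : (2 : ℂ) • (S.PA_a1 A x * S.PA_a1 A x) =
      (2 : ℂ) • (((∑ i, (aw i * x (i, A)) ^ 2 : ℝ) : ℂ) • (1 : Matrix (Fin 16) (Fin 16) ℂ)) := by
    rw [two_smul]
    nth_rewrite 1 [e1]
    rw [e2, ← Finset.sum_add_distrib]
    simp only [← Finset.sum_add_distrib, ← smul_add, S.g_anti]
    have : ∀ i, ∑ j, (c i * c j) • (if i = j then (2 : Matrix (Fin 16) (Fin 16) ℂ) else 0) =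
        (c i * c i) • (2 : Matrix (Fin 16) (Fin 16) ℂ) := by
      intro i
      rw [Finset.sum_eq_single i]
      · rw [if_pos rfl]
      · intro j _ hj
        rw [if_neg (Ne.symm hj), smul_zero]
      · intro h
        exact absurd (Finset.mem_univ _) h
    simp only [this, ← Finset.sum_smul]
    have h2 : (2 : Matrix (Fin 16) (Fin 16) ℂ) = (2 : ℂ) • 1 := by
      rw [two_smul, one_add_one_eq_two]
    rw [h2, smul_comm]
    congr 2
    rw [Complex.ofReal_sum]
    refine Finset.sum_congr rfl fun i _ => ?_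
    rw [hc, Complex.ofReal_pow, sq]
  have h2 : (2 : ℂ) ≠ 0 := two_ne_zero
  exact smul_right_injective _ h2 e3

lemma MM_eq_a1 (β : Fin 16) (x : X3) : S.MM β x = ∑ A, S.vec (S.PA_a1 A x * S.Gam) A β := by
  simp only [MM, PA_a1, Finset.sum_mul, Matrix.smul_mul, S.vec_sum, S.vec_smul]
  rw [Finset.sum_comm]

lemma PAG_mul_a1 (A : Fin 3) (x : X3) : S.PA_a1 A x * S.Gam * (S.PA_a1 A x * S.Gam)ᵀ =
    ((∑ i, (aw i * x (i, A)) ^ 2 : ℝ) : ℂ) • 1 := by
  rw [Matrix.transpose_mul, S.PA_transpose_a1, S.Gam_transpose]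
  calc S.PA_a1 A x * S.Gam * (-S.Gam * S.PA_a1 A x)
      = -(S.PA_a1 A x * (S.Gam * S.Gam) * S.PA_a1 A x) := by
        simp only [Matrix.neg_mul, Matrix.mul_neg, mul_assoc]
    _ = S.PA_a1 A x * S.PA_a1 A x := by
        rw [S.Gam_sq, Matrix.mul_neg, Matrix.neg_mul, neg_neg, mul_one]
    _ = _ := S.PA_sq_a1 A x

lemma MM_anti_a1 (α β : Fin 16) (x : X3) : S.MM α x * S.MM β x + S.MM β x * S.MM α x =
    if α = β then ((∑ i, ∑ A, (aw i * x (i, A)) ^ 2 : ℝ) : ℂ) • (1 : F →L[ℂ] F) else 0 := by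
  have e1 : S.MM α x * S.MM β x + S.MM β x * S.MM α x =
      ∑ A, ∑ B, (if A = B then ((S.PA_a1 A x * S.Gam * (S.PA_a1 B x * S.Gam)ᵀ) α β) •
        (1 : F →L[ℂ] F) else 0) := by
    rw [S.MM_eq_a1 α, S.MM_eq_a1 β, Finset.sum_mul_sum, Finset.sum_mul_sum]
    rw [Finset.sum_comm (f := fun B A => S.vec (S.PA_a1 B x * S.Gam) B β *
      S.vec (S.PA_a1 A x * S.Gam) A α), ← Finset.sum_add_distrib]
    simp only [← Finset.sum_add_distrib, S.vec_anti]
  have e2 : ∀ A : Fin 3, ∑ B, (if A = B then ((S.PA_a1 A x * S.Gam * (S.PA_a1 B x * S.Gam)ᵀ) α β) •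
        (1 : F →L[ℂ] F) else 0) =
      if α = β then ((∑ i, (aw i * x (i, A)) ^ 2 : ℝ) : ℂ) • (1 : F →L[ℂ] F) else 0 := by
    intro A
    rw [Finset.sum_ite_eq, if_pos (Finset.mem_univ _), S.PAG_mul_a1, Matrix.smul_apply,
      Matrix.one_apply]
    by_cases h : α = β
    · rw [if_pos h, if_pos h, smul_eq_mul, mul_one]
    · rw [if_neg h, if_neg h, smul_zero, zero_smul]
  rw [e1, Finset.sum_congr rfl fun A _ => e2 A]
  by_cases h : α = β
  · simp only [if_pos h, ← Finset.sum_smul]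
    congr 1
    rw [← Complex.ofReal_sum, Finset.sum_comm]
  · simp only [if_neg h, Finset.sum_const_zero]

/-- `tr (Γ γ^{ij}) = 0` -/
lemma trace_Gam_g2_a1 (i j : Fin 9) : (S.Gam * S.g2 i j).trace = 0 := by
  obtain ⟨k, hk, hki, hkj⟩ : ∃ k : Fin 9, 3 ≤ k.val ∧ k ≠ i ∧ k ≠ j := by
    revert i j
    decide
  have h1 : S.g k * S.Gam = -(S.Gam * S.g k) := S.g_Gam_anti hk
  have hi : S.g k * S.g i = -(S.g i * S.g k) := S.g_ac hki
  have hj : S.g k * S.g j = -(S.g j * S.g k) := S.g_ac hkj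
  have hij : ∀ p q : Fin 9, S.g k * S.g p = -(S.g p * S.g k) → S.g k * S.g q = -(S.g q * S.g k) →
      S.g k * (S.g p * S.g q) = S.g p * S.g q * S.g k := by
    intro p q hp hq
    rw [← mul_assoc, hp, neg_mul, mul_assoc, hq, mul_neg, neg_neg, mul_assoc]
  have h2 : S.g k * S.g2 i j = S.g2 i j * S.g k := by
    unfold CS.g2
    rw [Matrix.mul_smul, Matrix.smul_mul, mul_sub, sub_mul, hij i j hi hj, hij j i hj hi]
  have h3 : S.g k * (S.Gam * S.g2 i j) = -(S.Gam * S.g2 i j * S.g k) := by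
    rw [← mul_assoc, h1, neg_mul, mul_assoc, h2, mul_assoc]
  have h4 : (S.Gam * S.g2 i j).trace = -(S.Gam * S.g2 i j).trace := by
    calc (S.Gam * S.g2 i j).trace = (S.g k * S.g k * (S.Gam * S.g2 i j)).trace := by
          rw [S.g_sq', one_mul]
      _ = (S.g k * (S.g k * (S.Gam * S.g2 i j))).trace := by rw [mul_assoc]
      _ = (S.g k * (S.Gam * S.g2 i j) * S.g k).trace := by rw [Matrix.trace_mul_comm]
      _ = -(S.Gam * S.g2 i j * S.g k * S.g k).trace := by
          rw [h3, Matrix.neg_mul, Matrix.trace_neg]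
      _ = -(S.Gam * S.g2 i j).trace := by rw [mul_assoc, S.g_sq', mul_one]
  exact self_eq_neg.1 h4

/-- `tr γ^j = 0` -/
lemma trace_g_a1 (j : Fin 9) : (S.g j).trace = 0 := by
  obtain ⟨k, hkj⟩ : ∃ k : Fin 9, k ≠ j := by
    revert j
    decide
  have h1 : S.g k * S.g j = -(S.g j * S.g k) := S.g_ac hkj
  have h4 : (S.g j).trace = -(S.g j).trace := by
    calc (S.g j).trace = (S.g k * S.g k * S.g j).trace := by rw [S.g_sq', one_mul]
      _ = (S.g k * (S.g k * S.g j)).trace := by rw [mul_assoc]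
      _ = (S.g k * S.g j * S.g k).trace := by rw [Matrix.trace_mul_comm]
      _ = -(S.g j * S.g k * S.g k).trace := by rw [h1, Matrix.neg_mul, Matrix.trace_neg]
      _ = -(S.g j).trace := by rw [mul_assoc, S.g_sq', mul_one]
  exact self_eq_neg.1 h4

lemma gGam_im_a1 (i : Fin 9) (α β : Fin 16) : ((S.g i * S.Gam) α β).im = 0 :=
  mul_im_zero (S.g_im i) S.Gam_real α β

lemma MM_symm_a1 (β : Fin 16) (x : X3) (v w : F) :
    inner ℂ (S.MM β x v) w = inner ℂ v (S.MM β x w) := by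
  simp only [MM, _root_.sum_apply, _root_.smul_apply, sum_inner,
    inner_sum, inner_smul_left, inner_smul_right, S.vec_symm _ (S.gGam_im_a1 _), Complex.conj_ofReal]

lemma Tst.MM_a1 {u : X3 → F} (hu : Tst u) (β : Fin 16) : Tst (fun x => S.MM β x (u x)) :=
  hu.clm (S.contDiff_MM_a1 β)

lemma Tst.csmul_a1 {u : X3 → F} (hu : Tst u) (c : ℂ) : Tst (fun x => c • u x) := by
  refine ⟨contDiff_const.smul hu.1, hu.2.mono ?_⟩
  intro x hx
  simp only [Function.mem_support] at hx ⊢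
  intro h0
  exact hx (by rw [h0, smul_zero])

lemma Tst.Qm_a1 {u : X3 → F} (hu : Tst u) (m : ℝ) (β : Fin 16) : Tst (S.Qm m β u) :=
  (hu.Q S β).add ((Tst.MM_a1 S hu β).csmul_a1 m)

lemma Tst.W_a1 {u : X3 → F} (hu : Tst u) (β : Fin 16) : Tst (fun x => S.W β x (u x)) :=
  hu.clm (S.contDiff_W β)

lemma Q0_eq_a1 (β : Fin 16) (u : X3 → F) (x : X3) :
    S.Q0 β u x = S.Q β u x - S.W β x (u x) := by
  simp only [Q0, Q, add_sub_cancel_right]

lemma Tst.Q0_a1 {u : X3 → F} (hu : Tst u) (β : Fin 16) : Tst (S.Q0 β u) := by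
  have h := (hu.Q S β).sub (Tst.W_a1 S hu β)
  have e : S.Q0 β u = fun x => S.Q β u x - S.W β x (u x) := funext fun x => S.Q0_eq_a1 β u x
  rw [e]
  exact h

lemma Qm_symm_a1 (m : ℝ) (β : Fin 16) {u v : X3 → F} (hu : Tst u) (hv : Tst v) :
    ∫ x, inner ℂ (S.Qm m β u x) (v x) = ∫ x, inner ℂ (u x) (S.Qm m β v x) := by
  have h1 : ∀ x, inner ℂ (S.Qm m β u x) (v x) =
      inner ℂ (S.Q β u x) (v x) + (m : ℂ) * inner ℂ (S.MM β x (u x)) (v x) := by
    intro x
    simp only [Qm, inner_add_left, inner_smul_left, Complex.conj_ofReal]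
  have h2 : ∀ x, inner ℂ (u x) (S.Qm m β v x) =
      inner ℂ (u x) (S.Q β v x) + (m : ℂ) * inner ℂ (S.MM β x (u x)) (v x) := by
    intro x
    simp only [Qm, inner_add_right, inner_smul_right, S.MM_symm_a1]
  have i1 : Integrable (fun x => (m : ℂ) * inner ℂ (S.MM β x (u x)) (v x)) :=
    ((Tst.MM_a1 S hu β).inner_int hv.1.continuous).const_mul _
  simp only [h1, h2]
  rw [integral_add ((hu.Q S β).inner_int hv.1.continuous) i1,
    integral_add (hu.inner_int (hv.Q S β).1.continuous) i1, Q_symm S β u v hu hv.1]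

lemma Q0_symm_a1 (β : Fin 16) {u v : X3 → F} (hu : Tst u) (hv : Tst v) :
    ∫ x, inner ℂ (S.Q0 β u x) (v x) = ∫ x, inner ℂ (u x) (S.Q0 β v x) := by
  have h1 : ∀ x, inner ℂ (S.Q0 β u x) (v x) =
      inner ℂ (S.Q β u x) (v x) - inner ℂ (S.W β x (u x)) (v x) := by
    intro x
    rw [S.Q0_eq_a1, inner_sub_left]
  have h2 : ∀ x, inner ℂ (u x) (S.Q0 β v x) =
      inner ℂ (u x) (S.Q β v x) - inner ℂ (S.W β x (u x)) (v x) := by
    intro x
    rw [S.Q0_eq_a1, inner_sub_right, S.W_symm]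
  have i1 : Integrable (fun x => inner ℂ (S.W β x (u x)) (v x)) :=
    (Tst.W_a1 S hu β).inner_int hv.1.continuous
  simp only [h1, h2]
  rw [integral_sub ((hu.Q S β).inner_int hv.1.continuous) i1,
    integral_sub (hu.inner_int (hv.Q S β).1.continuous) i1, Q_symm S β u v hu hv.1]

end Setup

lemma ofReal_nsq_a1 (f : X3 → F) : ((nsq f : ℝ) : ℂ) = ∫ x, inner ℂ (f x) (f x) := by
  rw [nsq, ← integral_complex_ofReal]
  refine integral_congr_ae (Filter.Eventually.of_forall fun x => ?_)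
  simp only [inner_self_eq_norm_sq_to_K]
  norm_cast

/-- `-∫⟨u, Δu⟩ = ∑ ‖∂_i^A u‖²` -/
lemma lap_parts_a1 {u : X3 → F} (hu : Setup.Tst u) :
    ∫ x, inner ℂ (u x) (∑ i, ∑ A, pd i A (pd i A u) x) =
      -((∑ i, ∑ A, nsq (pd i A u) : ℝ) : ℂ) := by
  have i1 : ∀ i A, Integrable (fun x => inner ℂ (u x) (pd i A (pd i A u) x)) := fun i A =>
    hu.inner_int (contDiff_pd (contDiff_pd hu.1)).continuous
  simp only [inner_sum]
  rw [integral_finsetSum _ fun i _ => integrable_finsetSum _ fun A _ => i1 i A,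
    Complex.ofReal_sum, ← Finset.sum_neg_distrib]
  refine Finset.sum_congr rfl fun i _ => ?_
  rw [integral_finsetSum _ fun A _ => i1 i A, Complex.ofReal_sum, ← Finset.sum_neg_distrib]
  refine Finset.sum_congr rfl fun A _ => ?_
  rw [ofReal_nsq_a1, integral_inner_pd u (pd i A u) (hu.1.of_le (by simp))
    ((contDiff_pd hu.1).of_le (by simp)) hu.2 i A, neg_neg]

namespace U

theorem a1 (S : Setup F) (h : A1aStmt S) (h'' : A1bStmt S) : A1Stmt S := by
  intro m α β u hu x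
  have hQ : ∀ γ, ContDiff ℝ ∞ (S.Q γ u) := fun γ => S.contDiff_Q γ hu
  have hM : ∀ γ, ContDiff ℝ ∞ (fun y => S.MM γ y (u y)) := fun γ =>
    Setup.contDiff_clm_apply' (S.contDiff_MM_a1 γ) hu
  have e : ∀ γ δ, S.Qm m γ (S.Qm m δ u) x = S.Q γ (S.Q δ u) x +
      (m : ℂ) • (S.Q γ (fun y => S.MM δ y (u y)) x + S.MM γ x (S.Q δ u x)) +
      ((m : ℂ) * m) • S.MM γ x (S.MM δ x (u x)) := by
    intro γ δ
    have d1 : DifferentiableAt ℝ (S.Q δ u) x := (hQ δ).differentiable (by simp) x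
    have d2 : DifferentiableAt ℝ (fun y => S.MM δ y (u y)) x :=
      (hM δ).differentiable (by simp) x
    have e1 : S.Q γ (S.Qm m δ u) x = S.Q γ (S.Q δ u) x +
        (m : ℂ) • S.Q γ (fun y => S.MM δ y (u y)) x := by
      have e2 : S.Qm m δ u = fun y => S.Q δ u y + (m : ℂ) • S.MM δ y (u y) := rfl
      have d3 : DifferentiableAt ℝ (fun y => (m : ℂ) • S.MM δ y (u y)) x := d2.const_smul (m : ℂ)
      rw [e2, S.Q_add_a1 γ d1 d3, S.Q_csmul_a1 γ (m : ℂ) d2]
    have e3 : S.Qm m γ (S.Qm m δ u) x =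
        S.Q γ (S.Qm m δ u) x + (m : ℂ) • S.MM γ x (S.Q δ u x + (m : ℂ) • S.MM δ x (u x)) := rfl
    rw [e3, e1, map_add, map_smul]
    module
  have ha := h α β u hu x
  have hb := h'' α β u hu x
  have hc : S.MM α x (S.MM β x (u x)) + S.MM β x (S.MM α x (u x)) =
      (if α = β then ((∑ i, ∑ A, (aw i * x (i, A)) ^ 2 : ℝ) : ℂ) • (u x) else 0) := by
    have h1 := congrArg (fun T : F →L[ℂ] F => T (u x)) (S.MM_anti_a1 α β x)
    have h2 : (S.MM α x * S.MM β x + S.MM β x * S.MM α x) (u x) =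
      S.MM α x (S.MM β x (u x)) + S.MM β x (S.MM α x (u x)) := rfl
    rw [← h2]
    refine h1.trans ?_
    by_cases hab : α = β
    · simp only [if_pos hab]
      rfl
    · simp only [if_neg hab]
      rfl
  have hs : S.Qm m α (S.Qm m β u) x + S.Qm m β (S.Qm m α u) x =
      (S.Q α (S.Q β u) x + S.Q β (S.Q α u) x) +
      (m : ℂ) • (S.Q α (fun y => S.MM β y (u y)) x + S.MM α x (S.Q β u x) +
        S.Q β (fun y => S.MM α y (u y)) x + S.MM β x (S.Q α u x)) +
      ((m : ℂ) * m) • (S.MM α x (S.MM β x (u x)) + S.MM β x (S.MM α x (u x))) := by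
    rw [e α β, e β α]
    module
  rw [hs, ha, hb, hc]
  by_cases hab : α = β
  · simp only [if_pos hab, Setup.Hm, Setup.Vm]
    push_cast
    module
  · simp only [if_neg hab]
    module

theorem a7 (S : Setup F) (h : A1Stmt S) : A7Stmt S := by
  intro m u hu x
  have e : ∀ β, (2 : ℂ) • S.Qm m β (S.Qm m β u) x = (2 : ℂ) • S.Hm m u x +
      (m : ℂ) • (∑ i, ∑ j, ((rc i j : ℂ) * (S.Gam * S.g2 i j) β β) • S.J i j u x) +
      (2 * S.κ : ℂ) • ∑ j, ∑ C, (S.g j β β * (x (j, C) : ℂ)) • S.G C u x := by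
    intro β
    have := h m β β u hu x
    rw [if_pos rfl, ← two_smul ℂ] at this
    exact this
  have t1 : ∑ β, ∑ i, ∑ j, ((rc i j : ℂ) * (S.Gam * S.g2 i j) β β) • S.J i j u x = 0 := by
    rw [Finset.sum_comm]
    refine Finset.sum_eq_zero fun i _ => ?_
    rw [Finset.sum_comm]
    refine Finset.sum_eq_zero fun j _ => ?_
    rw [← Finset.sum_smul, ← Finset.mul_sum]
    have : ∑ β, (S.Gam * S.g2 i j) β β = (S.Gam * S.g2 i j).trace := rfl
    rw [this, S.trace_Gam_g2_a1, mul_zero, zero_smul]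
  have t2 : ∑ β, ∑ j, ∑ C, (S.g j β β * (x (j, C) : ℂ)) • S.G C u x = 0 := by
    rw [Finset.sum_comm]
    refine Finset.sum_eq_zero fun j _ => ?_
    rw [Finset.sum_comm]
    refine Finset.sum_eq_zero fun C _ => ?_
    rw [← Finset.sum_smul, ← Finset.sum_mul]
    have : ∑ β, (S.g j) β β = (S.g j).trace := rfl
    rw [this, S.trace_g_a1, zero_mul, zero_smul]
  have hsum : (2 : ℂ) • ∑ β, S.Qm m β (S.Qm m β u) x = (2 : ℂ) • ((16 : ℂ) • S.Hm m u x) := by
    have t3 : ∑ β : Fin 16, (2 * S.κ : ℂ) • ∑ j, ∑ C,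
        (S.g j β β * (x (j, C) : ℂ)) • S.G C u x = 0 := by
      rw [← Finset.smul_sum, t2, smul_zero]
    rw [Finset.smul_sum, Finset.sum_congr rfl fun β _ => e β, Finset.sum_add_distrib,
      Finset.sum_add_distrib, t3, ← Finset.smul_sum, ← Finset.smul_sum, t1, smul_zero,
      add_zero, add_zero, Finset.sum_const, Finset.card_univ, Fintype.card_fin,
      ← Nat.cast_smul_eq_nsmul ℂ, smul_smul, smul_smul]
    norm_num
  exact smul_right_injective F (two_ne_zero : (2 : ℂ) ≠ 0) hsum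

theorem a8 (S : Setup F) : A8Stmt S := by
  intro u hu
  have h0 : ∀ x, ∑ β, S.Q0 β (S.Q0 β u) x = -((8 : ℂ) • ∑ i, ∑ A, pd i A (pd i A u) x) := by
    intro x
    have hpd : ∀ (β : Fin 16) (j : Fin 9) (B : Fin 3), pd j B (S.Q0 β u) x =
        (-Complex.I) • ∑ i, ∑ A, S.vec (S.g i) A β (pd j B (pd i A u) x) := by
      intro β j B
      have hd : ∀ i A, DifferentiableAt ℝ (pd i A u) x := fun i A =>
        (contDiff_pd hu.1).differentiable (by simp) x
      have hdv : ∀ i A, DifferentiableAt ℝ (fun y => S.vec (S.g i) A β (pd i A u y)) x :=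
        fun i A => ((S.vec (S.g i) A β).restrictScalars ℝ).differentiableAt.comp x (hd i A)
      have e : S.Q0 β u = fun y => (-Complex.I) • ∑ i, ∑ A, S.vec (S.g i) A β (pd i A u y) := rfl
      have h3 : pd j B (fun y => (-Complex.I) • ∑ i, ∑ A, S.vec (S.g i) A β (pd i A u y)) x =
          (-Complex.I) • pd j B (fun y => ∑ i, ∑ A, S.vec (S.g i) A β (pd i A u y)) x := by
        unfold pd
        rw [fderiv_fun_const_smul]
        · rfl
        · exact DifferentiableAt.fun_sum fun i _ => DifferentiableAt.fun_sum fun A _ => hdv i A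
      rw [e, h3]
      congr 1
      rw [pd_sum _ (fun i _ => DifferentiableAt.fun_sum fun A _ => hdv i A)]
      refine Finset.sum_congr rfl fun i _ => ?_
      rw [pd_sum _ (fun A _ => hdv i A)]
      refine Finset.sum_congr rfl fun A _ => ?_
      rw [pd_clm _ (hd i A)]
    have h1 : ∀ β, S.Q0 β (S.Q0 β u) x =
        -(∑ j, ∑ B, ∑ i, ∑ A, S.vec (S.g j) B β (S.vec (S.g i) A β (pd j B (pd i A u) x))) := by
      intro β
      conv_lhs => rw [Setup.Q0]
      simp only [hpd, map_smul, map_sum, ← Finset.smul_sum, smul_smul]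
      rw [neg_mul_neg, Complex.I_mul_I, neg_one_smul]
    rw [Finset.sum_congr rfl fun β _ => h1 β, Finset.sum_neg_distrib,
      S.second_order (fun j B i A => pd j B (pd i A u) x) (fun i A j B => pd_comm hu.1 i j A B x)]
  have h1 : ((∑ β, nsq (S.Q0 β u) : ℝ) : ℂ) =
      ∫ x, inner ℂ (u x) (∑ β, S.Q0 β (S.Q0 β u) x) := by
    simp only [inner_sum]
    rw [integral_finsetSum]
    · rw [Complex.ofReal_sum]
      refine Finset.sum_congr rfl fun β _ => ?_
      rw [ofReal_nsq_a1, S.Q0_symm_a1 β hu (Setup.Tst.Q0_a1 S hu β)]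
    · intro β _
      exact hu.inner_int (Setup.Tst.Q0_a1 S (Setup.Tst.Q0_a1 S hu β) β).1.continuous
  have h2 : ((∑ β, nsq (S.Q0 β u) : ℝ) : ℂ) = ((8 * ∑ i, ∑ A, nsq (pd i A u) : ℝ) : ℂ) := by
    rw [h1]
    simp only [h0, inner_neg_right, inner_smul_right]
    rw [integral_neg, integral_const_mul, lap_parts_a1 hu]
    push_cast
    ring
  exact Complex.ofReal_injective h2

theorem a6 (S : Setup F) (h : A7Stmt S) : A6Stmt S := by
  intro m u hu
  have h1 : ((∑ β, nsq (S.Qm m β u) : ℝ) : ℂ) =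
      ∫ x, inner ℂ (u x) (∑ β, S.Qm m β (S.Qm m β u) x) := by
    simp only [inner_sum]
    rw [integral_finsetSum]
    · rw [Complex.ofReal_sum]
      refine Finset.sum_congr rfl fun β _ => ?_
      rw [ofReal_nsq_a1, S.Qm_symm_a1 m β hu (Setup.Tst.Qm_a1 S hu m β)]
    · intro β _
      exact hu.inner_int (Setup.Tst.Qm_a1 S (Setup.Tst.Qm_a1 S hu m β) m β).1.continuous
  have hVc : Continuous (fun x => S.Vm m x) := by
    have h1 : ContDiff ℝ ∞ (fun x => S.Vm m x) := by
      unfold Setup.Vm det3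
      refine (((contDiff_V S).add (contDiff_const.mul ?_)).add (contDiff_const.mul ?_))
      · refine ContDiff.sum fun A _ => ContDiff.sum fun B _ => ContDiff.sum fun C _ => ?_
        exact ((contDiff_const.mul (Setup.contDiff_coord _)).mul (Setup.contDiff_coord _)).mul
          (Setup.contDiff_coord _)
      · refine ContDiff.sum fun i _ => ContDiff.sum fun A _ => ?_
        exact (contDiff_const.mul (Setup.contDiff_coord _)).pow 2
    exact h1.continuous
  have hF : Setup.Tst (fun x => S.Fx x (u x)) := hu.clm (contDiff_Fx S)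
  have hG : Setup.Tst (fun x => S.FG (u x)) := hu.clm (T := fun _ => S.FG) contDiff_const
  have h2 : ∀ x, inner ℂ (u x) (∑ β, S.Qm m β (S.Qm m β u) x) =
      -(8 : ℂ) * inner ℂ (u x) (∑ i, ∑ A, pd i A (pd i A u) x) +
      (16 : ℂ) * ((S.Vm m x * ‖u x‖ ^ 2 : ℝ) : ℂ) + (16 : ℂ) * inner ℂ (u x) (S.Fx x (u x))
        - ((12 * m : ℝ) : ℂ) * inner ℂ (u x) (S.FG (u x)) := by
    intro x
    rw [h m u hu.1 x, Setup.Hm]
    simp only [inner_smul_right, inner_add_right, inner_sub_right, inner_self_eq_norm_sq_to_K]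
    push_cast
    simp only [Complex.coe_algebraMap]
    ring
  have i1 : Integrable (fun x => -(8 : ℂ) * inner ℂ (u x) (∑ i, ∑ A, pd i A (pd i A u) x)) := by
    refine (hu.inner_int ?_).const_mul _
    exact continuous_finsetSum _ fun i _ => continuous_finsetSum _ fun A _ =>
      (contDiff_pd (contDiff_pd hu.1)).continuous
  have i2 : Integrable (fun x => (16 : ℂ) * ((S.Vm m x * ‖u x‖ ^ 2 : ℝ) : ℂ)) :=
    (hu.mul_norm_sq_int hVc).ofReal.const_mul _
  have i3 : Integrable (fun x => (16 : ℂ) * inner ℂ (u x) (S.Fx x (u x))) :=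
    (hu.inner_int hF.1.continuous).const_mul _
  have i4 : Integrable (fun x => ((12 * m : ℝ) : ℂ) * inner ℂ (u x) (S.FG (u x))) :=
    (hu.inner_int hG.1.continuous).const_mul _
  have h3 : ((∑ β, nsq (S.Qm m β u) : ℝ) : ℂ) =
      (8 : ℂ) * ((∑ i, ∑ A, nsq (pd i A u) : ℝ) : ℂ) +
      (16 : ℂ) * ((∫ x, S.Vm m x * ‖u x‖ ^ 2 : ℝ) : ℂ) +
      (16 : ℂ) * (∫ x, inner ℂ (u x) (S.Fx x (u x)))
      - ((12 * m : ℝ) : ℂ) * ∫ x, inner ℂ (u x) (S.FG (u x)) := by
    rw [h1]
    simp only [h2]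
    have i12 : Integrable (fun x => -(8 : ℂ) * inner ℂ (u x) (∑ i, ∑ A, pd i A (pd i A u) x) +
        (16 : ℂ) * ((S.Vm m x * ‖u x‖ ^ 2 : ℝ) : ℂ)) := i1.add i2
    have i123 : Integrable (fun x => -(8 : ℂ) * inner ℂ (u x) (∑ i, ∑ A, pd i A (pd i A u) x) +
        (16 : ℂ) * ((S.Vm m x * ‖u x‖ ^ 2 : ℝ) : ℂ) +
        (16 : ℂ) * inner ℂ (u x) (S.Fx x (u x))) := i12.add i3
    rw [integral_sub i123 i4, integral_add i12 i3, integral_add i1 i2,
      integral_const_mul, integral_const_mul, integral_const_mul, integral_const_mul,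
      integral_complex_ofReal, lap_parts_a1 hu]
    ring
  have h5 := congrArg Complex.re h3
  rw [Complex.ofReal_re] at h5
  rw [h5]
  simp only [Complex.sub_re, Complex.add_re, Complex.mul_re, Complex.ofReal_re,
    Complex.ofReal_im, zero_mul, sub_zero, mul_zero]
  norm_num

end U
end Vale.Agent.P353
end

section

/-! # Energy identities at the two critical points, and the critical point equation -/

open MeasureTheory Filter Topology
open scoped ContDiff Matrix

namespace Vale.Agent.P353.U.En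

variable {F : Type*} [NormedAddCommGroup F] [InnerProductSpace ℂ F]

/-! ### the Levi-Civita symbol -/

lemma eps_all : eps 0 0 0 = 0 ∧ eps 0 0 1 = 0 ∧ eps 0 0 2 = 0 ∧ eps 0 1 0 = 0 ∧ eps 0 1 1 = 0 ∧
    eps 0 1 2 = 1 ∧ eps 0 2 0 = 0 ∧ eps 0 2 1 = -1 ∧ eps 0 2 2 = 0 ∧
    eps 1 0 0 = 0 ∧ eps 1 0 1 = 0 ∧ eps 1 0 2 = -1 ∧ eps 1 1 0 = 0 ∧ eps 1 1 1 = 0 ∧
    eps 1 1 2 = 0 ∧ eps 1 2 0 = 1 ∧ eps 1 2 1 = 0 ∧ eps 1 2 2 = 0 ∧
    eps 2 0 0 = 0 ∧ eps 2 0 1 = 1 ∧ eps 2 0 2 = 0 ∧ eps 2 1 0 = -1 ∧ eps 2 1 1 = 0 ∧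
    eps 2 1 2 = 0 ∧ eps 2 2 0 = 0 ∧ eps 2 2 1 = 0 ∧ eps 2 2 2 = 0 := by decide

/-- `a' = 3 + a` -/
def cj (a : Fin 6) : Fin 9 := ⟨3 + a.val, by omega⟩

lemma sum9 {M : Type*} [AddCommMonoid M] (f : Fin 9 → M) :
    ∑ i, f i = ∑ l : Fin 3, f (ci l) + ∑ a : Fin 6, f (cj a) :=
  Fin.sum_univ_add (a := 3) (b := 6) f

lemma ci_ne_cj (l : Fin 3) (a : Fin 6) : ci l ≠ cj a := by
  intro h
  have := congrArg Fin.val h
  simp only [ci, cj] at this
  omega

lemma ci_inj {l k : Fin 3} : ci l = ci k ↔ l = k := by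
  constructor
  · intro h
    have := congrArg Fin.val h
    simp only [ci] at this
    exact Fin.ext this
  · rintro rfl; rfl

lemma cj_inj {l k : Fin 6} : cj l = cj k ↔ l = k := by
  constructor
  · intro h
    have := congrArg Fin.val h
    simp only [cj] at this
    exact Fin.ext (by omega)
  · rintro rfl; rfl

/-- the norm of a combination of orthogonal matrices -/
lemma trace_family {ι : Type*} [Fintype ι] [DecidableEq ι] (E : ι → Matrix (Fin 16) (Fin 16) ℂ)
    (hE : ∀ i j, (E i * (E j)ᵀ).trace = if i = j then 16 else 0) (c : ι → ℝ) :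
    ((∑ i, ((c i : ℝ) : ℂ) • E i) * (∑ i, ((c i : ℝ) : ℂ) • E i)ᵀ).trace =
      ((16 * ∑ i, c i ^ 2 : ℝ) : ℂ) := by
  simp only [Matrix.transpose_sum, Matrix.transpose_smul, Matrix.sum_mul, Matrix.mul_sum,
    Matrix.smul_mul, Matrix.mul_smul, Matrix.trace_sum, Matrix.trace_smul, hE,
    smul_eq_mul, mul_ite, mul_zero]
  push_cast
  rw [Finset.mul_sum]
  refine Finset.sum_congr rfl fun i _ => ?_
  simp
  ring

/-! ### gamma matrices -/

section gam

variable (S : Setup F)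

lemma Gam_mul_transpose : S.Gam * S.Gamᵀ = 1 := by
  rw [S.Gam_transpose, Matrix.mul_neg, S.Gam_sq, neg_neg]

lemma trace_gGgG (i k : Fin 9) :
    ((S.g i * S.Gam) * (S.g k * S.Gam)ᵀ).trace = if i = k then 16 else 0 := by
  have h : (S.g i * S.Gam) * (S.g k * S.Gam)ᵀ = S.g i * S.g k := by
    rw [Matrix.transpose_mul, S.g_symm]
    calc S.g i * S.Gam * (S.Gamᵀ * S.g k) = S.g i * (S.Gam * S.Gamᵀ) * S.g k := by
          simp only [Matrix.mul_assoc]
      _ = S.g i * S.g k := by rw [Gam_mul_transpose, Matrix.mul_one]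
  rw [h, S.trace_g_g]

lemma exists_third (j k : Fin 9) : ∃ i : Fin 9, 3 ≤ i.val ∧ i ≠ j ∧ i ≠ k := by
  revert j k; decide

lemma trace_gGg (j k : Fin 9) : (S.g j * (S.g k * S.Gam)ᵀ).trace = 0 := by
  obtain ⟨i, hi, hij, hik⟩ := exists_third j k
  have e : S.g j * (S.g k * S.Gam)ᵀ = -(S.g j * S.Gam * S.g k) := by
    rw [Matrix.transpose_mul, S.g_symm, S.Gam_transpose]
    simp only [Matrix.neg_mul, Matrix.mul_neg, Matrix.mul_assoc]
  have h1 : S.g i * S.g j = -(S.g j * S.g i) := S.g_ac hij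
  have h2 : S.g i * S.Gam = -(S.Gam * S.g i) := S.g_Gam_anti hi
  have h3 : S.g i * S.g k = -(S.g k * S.g i) := S.g_ac hik
  have h4 : S.g i * (S.g j * S.Gam * S.g k) = -((S.g j * S.Gam * S.g k) * S.g i) := by
    calc S.g i * (S.g j * S.Gam * S.g k) = (S.g i * S.g j) * (S.Gam * S.g k) := by
          simp only [Matrix.mul_assoc]
      _ = -(S.g j * (S.g i * S.Gam) * S.g k) := by
          rw [h1]; simp only [Matrix.mul_assoc, Matrix.neg_mul]
      _ = S.g j * S.Gam * (S.g i * S.g k) := by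
          rw [h2]; simp only [Matrix.mul_assoc, Matrix.neg_mul, Matrix.mul_neg, neg_neg]
      _ = -((S.g j * S.Gam * S.g k) * S.g i) := by
          rw [h3]; simp only [Matrix.mul_assoc, Matrix.mul_neg]
  have h5 : (S.g j * S.Gam * S.g k).trace = 0 := by
    have a1 : (S.g i * (S.g i * (S.g j * S.Gam * S.g k))).trace =
        (S.g j * S.Gam * S.g k).trace := by
      rw [← Matrix.mul_assoc, S.g_sq', Matrix.one_mul]
    have a2 : (S.g i * (S.g i * (S.g j * S.Gam * S.g k))).trace =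
        -(S.g j * S.Gam * S.g k).trace := by
      rw [h4, Matrix.mul_neg, Matrix.trace_neg, ← Matrix.mul_assoc, Matrix.trace_mul_comm,
        ← Matrix.mul_assoc, S.g_sq', Matrix.one_mul]
    have a3 : (S.g j * S.Gam * S.g k).trace = -(S.g j * S.Gam * S.g k).trace := a1.symm.trans a2
    have : (2 : ℂ) * (S.g j * S.Gam * S.g k).trace = 0 := by linear_combination a3
    simpa using this
  rw [e, Matrix.trace_neg, h5, neg_zero]

lemma trace_g_g2T (j k l : Fin 9) : (S.g j * (S.g2 k l)ᵀ).trace = 0 := by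
  rw [S.g2_transpose', Matrix.mul_neg, Matrix.trace_neg, S.trace_g_g2E, neg_zero]

/-- orthogonality of `γ^iΓ` and `γ^{Da}` -/
lemma trace_gG_g2 (i : Fin 9) (D : Fin 3) (a : Fin 6) :
    (S.g i * S.Gam * (S.g2 (ci D) (cj a))ᵀ).trace = 0 := by
  have ha : 3 ≤ (cj a).val := by simp [cj]
  have hD : (ci D).val < 3 := by simp [ci]
  have hne : ci D ≠ cj a := ci_ne_cj D a
  have e2 : S.g2 (ci D) (cj a) = S.g (ci D) * S.g (cj a) := by
    have h : S.g (cj a) * S.g (ci D) = -(S.g (ci D) * S.g (cj a)) := S.g_ac hne.symm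
    unfold CS.g2
    rw [h, sub_neg_eq_add, ← two_smul ℂ, smul_smul]
    norm_num
  rw [S.g2_transpose', Matrix.mul_neg, Matrix.trace_neg, neg_eq_zero, e2]
  have h2 : S.g (cj a) * S.Gam = -(S.Gam * S.g (cj a)) := S.g_Gam_anti ha
  have h3 : S.g (cj a) * S.g (ci D) = -(S.g (ci D) * S.g (cj a)) := S.g_ac hne.symm
  have hcyc : (S.g i * S.Gam * (S.g (ci D) * S.g (cj a))).trace =
      (S.g (cj a) * (S.g i * S.Gam * S.g (ci D))).trace := by
    rw [← Matrix.mul_assoc, Matrix.trace_mul_comm]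
  by_cases hi : cj a = i
  · subst hi
    have e3 : S.g (cj a) * (S.g (cj a) * S.Gam * S.g (ci D)) = S.Gam * S.g (ci D) := by
      rw [← Matrix.mul_assoc, ← Matrix.mul_assoc, S.g_sq', Matrix.one_mul]
    rw [hcyc, e3]
    have h5 : (S.Gam * S.g (ci D)).trace = -(S.Gam * S.g (ci D)).trace := by
      conv_lhs => rw [← Matrix.trace_transpose]
      rw [Matrix.transpose_mul, S.g_symm, S.Gam_transpose, Matrix.mul_neg, Matrix.trace_neg,
        Matrix.trace_mul_comm]
    have : (2 : ℂ) * (S.Gam * S.g (ci D)).trace = 0 := by linear_combination h5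
    simpa using this
  · have h1 : S.g (cj a) * S.g i = -(S.g i * S.g (cj a)) := S.g_ac hi
    have h4 : S.g (cj a) * (S.g i * S.Gam * S.g (ci D)) =
        -(S.g i * S.Gam * (S.g (ci D) * S.g (cj a))) := by
      calc S.g (cj a) * (S.g i * S.Gam * S.g (ci D)) =
          (S.g (cj a) * S.g i) * (S.Gam * S.g (ci D)) := by simp only [Matrix.mul_assoc]
        _ = -(S.g i * (S.g (cj a) * S.Gam) * S.g (ci D)) := by
            rw [h1]; simp only [Matrix.mul_assoc, Matrix.neg_mul]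
        _ = S.g i * S.Gam * (S.g (cj a) * S.g (ci D)) := by
            rw [h2]; simp only [Matrix.mul_assoc, Matrix.neg_mul, Matrix.mul_neg, neg_neg]
        _ = -(S.g i * S.Gam * (S.g (ci D) * S.g (cj a))) := by
            rw [h3]; simp only [Matrix.mul_neg]
    rw [h4, Matrix.trace_neg] at hcyc
    have : (2 : ℂ) * (S.g i * S.Gam * (S.g (ci D) * S.g (cj a))).trace = 0 := by
      linear_combination hcyc
    simpa using this

lemma trace_g2_g2T (D D' : Fin 3) (a b : Fin 6) :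
    (S.g2 (ci D) (cj a) * (S.g2 (ci D') (cj b))ᵀ).trace = if D = D' ∧ a = b then 16 else 0 := by
  rw [S.g2_transpose', Matrix.mul_neg, Matrix.trace_neg, S.trace_g2_g2,
    if_neg (ci_ne_cj D b)]
  simp only [ci_inj, cj_inj]
  by_cases h1 : D = D' <;> by_cases h2 : a = b <;> simp [h1, h2]

lemma gG0 : S.g (ci 0) * S.Gam = S.g (ci 1) * S.g (ci 2) := by
  change S.g 0 * (S.g 0 * S.g 1 * S.g 2) = S.g 1 * S.g 2
  calc S.g 0 * (S.g 0 * S.g 1 * S.g 2) = (S.g 0 * S.g 0) * (S.g 1 * S.g 2) := by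
        simp only [Matrix.mul_assoc]
    _ = S.g 1 * S.g 2 := by rw [S.g_sq', Matrix.one_mul]

lemma gG1 : S.g (ci 1) * S.Gam = S.g (ci 2) * S.g (ci 0) := by
  change S.g 1 * (S.g 0 * S.g 1 * S.g 2) = S.g 2 * S.g 0
  have h10 : S.g 1 * S.g 0 = -(S.g 0 * S.g 1) := S.g_ac (by decide)
  have h02 : S.g 0 * S.g 2 = -(S.g 2 * S.g 0) := S.g_ac (by decide)
  calc S.g 1 * (S.g 0 * S.g 1 * S.g 2) = (S.g 1 * S.g 0) * (S.g 1 * S.g 2) := by
        simp only [Matrix.mul_assoc]
    _ = -(S.g 0 * (S.g 1 * S.g 1) * S.g 2) := by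
        rw [h10]; simp only [Matrix.mul_assoc, Matrix.neg_mul]
    _ = S.g 2 * S.g 0 := by rw [S.g_sq', Matrix.mul_one, h02, neg_neg]

lemma gG2 : S.g (ci 2) * S.Gam = S.g (ci 0) * S.g (ci 1) := by
  change S.g 2 * (S.g 0 * S.g 1 * S.g 2) = S.g 0 * S.g 1
  have h20 : S.g 2 * S.g 0 = -(S.g 0 * S.g 2) := S.g_ac (by decide)
  have h21 : S.g 2 * S.g 1 = -(S.g 1 * S.g 2) := S.g_ac (by decide)
  calc S.g 2 * (S.g 0 * S.g 1 * S.g 2) = (S.g 2 * S.g 0) * (S.g 1 * S.g 2) := by
        simp only [Matrix.mul_assoc]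
    _ = -(S.g 0 * (S.g 2 * S.g 1) * S.g 2) := by
        rw [h20]; simp only [Matrix.mul_assoc, Matrix.neg_mul]
    _ = S.g 0 * S.g 1 * (S.g 2 * S.g 2) := by
        rw [h21]; simp only [Matrix.mul_assoc, Matrix.neg_mul, Matrix.mul_neg, neg_neg]
    _ = S.g 0 * S.g 1 := by rw [S.g_sq', Matrix.mul_one]

lemma g2_ne {k l : Fin 9} (h : k ≠ l) : S.g2 k l = S.g k * S.g l := by
  have h1 : S.g l * S.g k = -(S.g k * S.g l) := S.g_ac h.symm
  unfold CS.g2
  rw [h1, sub_neg_eq_add, ← two_smul ℂ, smul_smul]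
  norm_num

lemma g2_self (k : Fin 9) : S.g2 k k = 0 := by
  unfold CS.g2
  rw [sub_self, smul_zero]

/-- `γ^{DJ} = ∑_l ε_{lDJ} γ^lΓ` -/
lemma g2_ci (D J : Fin 3) : S.g2 (ci D) (ci J) = ∑ l, (eps l D J : ℂ) • (S.g (ci l) * S.Gam) := by
  obtain ⟨e000, e001, e002, e010, e011, e012, e020, e021, e022, e100, e101, e102, e110, e111,
    e112, e120, e121, e122, e200, e201, e202, e210, e211, e212, e220, e221, e222⟩ := eps_all
  have h01 : S.g2 (ci 0) (ci 1) = S.g (ci 2) * S.Gam := by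
    rw [gG2, g2_ne S (by decide)]
  have h12 : S.g2 (ci 1) (ci 2) = S.g (ci 0) * S.Gam := by
    rw [gG0, g2_ne S (by decide)]
  have h20 : S.g2 (ci 2) (ci 0) = S.g (ci 1) * S.Gam := by
    rw [gG1, g2_ne S (by decide)]
  have h10 : S.g2 (ci 1) (ci 0) = -(S.g (ci 2) * S.Gam) := by rw [S.g2_swap, h01]
  have h21 : S.g2 (ci 2) (ci 1) = -(S.g (ci 0) * S.Gam) := by rw [S.g2_swap, h12]
  have h02 : S.g2 (ci 0) (ci 2) = -(S.g (ci 1) * S.Gam) := by rw [S.g2_swap, h20]
  fin_cases D <;> fin_cases J <;>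
    simp [Fin.sum_univ_three, g2_self, h01, h12, h20, h10, h21, h02, e000, e001, e002, e010, e011,
      e012, e020, e021, e022, e100, e101, e102, e110, e111, e112, e120, e121, e122, e200, e201,
      e202, e210, e211, e212, e220, e221, e222]

/-- `γ^AΓγ^B = δ_{AB}Γ - ε_{ABC}γ^C` -/
lemma gGg_ci (A B : Fin 3) : S.g (ci A) * (S.Gam * S.g (ci B)) =
    (if A = B then S.Gam else 0) - ∑ C, (eps A B C : ℂ) • S.g (ci C) := by
  obtain ⟨e000, e001, e002, e010, e011, e012, e020, e021, e022, e100, e101, e102, e110, e111,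
    e112, e120, e121, e122, e200, e201, e202, e210, e211, e212, e220, e221, e222⟩ := eps_all
  have hc : ∀ C : Fin 3, S.Gam * S.g (ci C) = S.g (ci C) * S.Gam := fun C =>
    (S.g_Gam_comm (by simp [ci])).symm
  have hA : ∀ A : Fin 3, S.g (ci A) * (S.Gam * S.g (ci A)) = S.Gam := by
    intro A
    rw [hc, ← Matrix.mul_assoc, S.g_sq', Matrix.one_mul]
  have hs : ∀ {A B : Fin 3}, A ≠ B → S.g (ci A) * (S.Gam * S.g (ci B)) =
      -(S.g (ci B) * (S.Gam * S.g (ci A))) := by
    intro A B h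
    have h1 : S.g (ci A) * S.g (ci B) = -(S.g (ci B) * S.g (ci A)) :=
      S.g_ac (fun hh => h (ci_inj.mp hh))
    rw [hc, hc, ← Matrix.mul_assoc, ← Matrix.mul_assoc, h1, Matrix.neg_mul]
  have h01 : S.g (ci 0) * (S.Gam * S.g (ci 1)) = -S.g (ci 2) := by
    rw [← Matrix.mul_assoc, gG0, Matrix.mul_assoc]
    have : S.g (ci 2) * S.g (ci 1) = -(S.g (ci 1) * S.g (ci 2)) := S.g_ac (by decide)
    rw [this, Matrix.mul_neg, ← Matrix.mul_assoc, S.g_sq', Matrix.one_mul]
  have h12 : S.g (ci 1) * (S.Gam * S.g (ci 2)) = -S.g (ci 0) := by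
    rw [← Matrix.mul_assoc, gG1, Matrix.mul_assoc]
    have : S.g (ci 0) * S.g (ci 2) = -(S.g (ci 2) * S.g (ci 0)) := S.g_ac (by decide)
    rw [this, Matrix.mul_neg, ← Matrix.mul_assoc, S.g_sq', Matrix.one_mul]
  have h20 : S.g (ci 2) * (S.Gam * S.g (ci 0)) = -S.g (ci 1) := by
    rw [← Matrix.mul_assoc, gG2, Matrix.mul_assoc]
    have : S.g (ci 1) * S.g (ci 0) = -(S.g (ci 0) * S.g (ci 1)) := S.g_ac (by decide)
    rw [this, Matrix.mul_neg, ← Matrix.mul_assoc, S.g_sq', Matrix.one_mul]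
  have h10 : S.g (ci 1) * (S.Gam * S.g (ci 0)) = S.g (ci 2) := by
    rw [hs (by decide), h01, neg_neg]
  have h21 : S.g (ci 2) * (S.Gam * S.g (ci 1)) = S.g (ci 0) := by
    rw [hs (by decide), h12, neg_neg]
  have h02 : S.g (ci 0) * (S.Gam * S.g (ci 2)) = S.g (ci 1) := by
    rw [hs (by decide), h20, neg_neg]
  fin_cases A <;> fin_cases B <;>
    simp [Fin.sum_univ_three, hA, h01, h12, h20, h10, h21, h02, e000, e001, e002, e010, e011,
      e012, e020, e021, e022, e100, e101, e102, e110, e111, e112, e120, e121, e122, e200, e201,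
      e202, e210, e211, e212, e220, e221, e222]

end gam

/-! ### the supercharge at `0` -/

section zero

variable (S : Setup F)

/-- coefficient matrices of `M_β` -/
noncomputable def N0c (j : Fin 9) (B A : Fin 3) : Matrix (Fin 16) (Fin 16) ℂ :=
  if A = B then (aw j : ℂ) • (S.g j * S.Gam) else 0

lemma TT_N0c (β : Fin 16) (x : X3) : TT S (N0c S) β x = S.MM β x := by
  unfold TT Setup.MM
  refine Finset.sum_congr rfl fun j _ => Finset.sum_congr rfl fun B _ => ?_
  rw [Finset.sum_eq_single B]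
  · rw [N0c, if_pos rfl, S.vec_smul, smul_smul]
    congr 1
    push_cast
    ring
  · intro A _ hA
    rw [N0c, if_neg hA, S.vec_zero]
  · intro h; exact absurd (Finset.mem_univ _) h

lemma N0c_im (j : Fin 9) (B A : Fin 3) (α β : Fin 16) : (N0c S j B A α β).im = 0 := by
  unfold N0c
  split_ifs
  · rw [Matrix.smul_apply, smul_eq_mul, Complex.mul_im, Complex.ofReal_im,
      Setup.mul_im_zero (S.g_im j) S.Gam_real]
    ring
  · simp

lemma N0c_trace (j k : Fin 9) (C B : Fin 3) : (S.g j * (N0c S k C B)ᵀ).trace = 0 := by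
  unfold N0c
  split_ifs
  · rw [Matrix.transpose_smul, Matrix.mul_smul, Matrix.trace_smul, trace_gGg, smul_zero]
  · simp

lemma NX_N0c (x : X3) (A : Fin 3) :
    NX (N0c S) x A = ∑ i, ((aw i * x (i, A) : ℝ) : ℂ) • (S.g i * S.Gam) := by
  unfold NX
  refine Finset.sum_congr rfl fun j _ => ?_
  rw [Finset.sum_eq_single A]
  · rw [N0c, if_pos rfl, smul_smul]
    congr 1
    push_cast
    ring
  · intro B _ hB
    rw [N0c, if_neg (Ne.symm hB), smul_zero]
  · intro h; exact absurd (Finset.mem_univ _) h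

lemma N0c_sq (x : X3) : (1 / 2 : ℂ) * ∑ A, (NX (N0c S) x A * (NX (N0c S) x A)ᵀ).trace =
    ((8 * ∑ i, ∑ A, (A0 x i A) ^ 2 : ℝ) : ℂ) := by
  have h : ∀ A, (NX (N0c S) x A * (NX (N0c S) x A)ᵀ).trace =
      ((16 * ∑ i, (A0 x i A) ^ 2 : ℝ) : ℂ) := by
    intro A
    rw [NX_N0c, trace_family (fun i => S.g i * S.Gam) (trace_gGgG S)]
    rfl
  simp only [h]
  rw [Finset.sum_comm (γ := Fin 9)]
  push_cast
  rw [← Finset.mul_sum]
  ring

lemma sum_aw : ∑ i, aw i = 12 := by
  rw [sum9]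
  have h1 : ∀ l : Fin 3, aw (ci l) = 2 := by
    intro l
    unfold aw
    rw [if_pos (by simp [ci])]
  have h2 : ∀ a : Fin 6, aw (cj a) = 1 := by
    intro a
    unfold aw
    rw [if_neg (by simp [cj])]
  simp only [h1, h2, Finset.sum_const, Finset.card_univ, Fintype.card_fin]
  norm_num

lemma KT_N0c : KT S (N0c S) = -((12 : ℂ) • S.FG) := by
  have h : ∀ j : Fin 9, ∑ B, ∑ A, S.bil (S.g j * N0c S j B A) B A = (aw j : ℂ) • S.tot S.Gam := by
    intro j
    rw [CS.tot, Finset.smul_sum]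
    refine Finset.sum_congr rfl fun B _ => ?_
    rw [Finset.sum_eq_single B]
    · rw [N0c, if_pos rfl, Matrix.mul_smul, S.bil_smul, ← Matrix.mul_assoc, S.g_sq',
        Matrix.one_mul]
    · intro A _ hA
      rw [N0c, if_neg hA, Matrix.mul_zero, S.bil_zero]
    · intro h; exact absurd (Finset.mem_univ _) h
  unfold KT
  simp only [h]
  rw [← Finset.sum_smul, ← Complex.ofReal_sum, sum_aw, smul_smul]
  unfold Setup.FG
  rw [smul_smul, ← neg_smul]
  congr 1
  push_cast
  ring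

lemma DW_zero (β : Fin 16) (x : X3) : S.DW 0 β x = 0 := by
  unfold Setup.DW
  simp

lemma Qlin_zero (β : Fin 16) (v : X3 → F) (x : X3) : S.Qlin 0 β v x = QT S (N0c S) β v x := by
  unfold Setup.Qlin QT
  rw [DW_zero, TT_N0c]
  simp

/-- **C-En0** -/
theorem en0 (S : Setup F) : En0Stmt S := by
  intro v hv
  have hq : Continuous fun x : X3 => 8 * ∑ i, ∑ A, (A0 x i A) ^ 2 := by
    unfold A0
    fun_prop
  have hE := energy_QT S (N0c S) (N0c_im S) (N0c_trace S) _ hq (N0c_sq S) v hv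
  have hQ : ∀ β, S.Qlin 0 β v = QT S (N0c S) β v := fun β => funext (Qlin_zero S β v)
  simp only [hQ]
  rw [hE]
  have hsq : ∀ i A, nsq (fun x => pd i A v x + (A0 x i A : ℂ) • v x) =
      nsq (pd i A v) + (∫ x, (A0 x i A) ^ 2 * ‖v x‖ ^ 2) - aw i * nsq v := by
    intro i A
    have hL : ContDiff ℝ ∞ (fun x : X3 => A0 x i A) :=
      contDiff_const.mul (Setup.contDiff_coord (i, A))
    refine nsq_pd_add (fun x => A0 x i A) hL i A (aw i) ?_ v hv
    intro x
    have h := (Setup.hasFDerivAt_coord (i, A) x).const_mul (aw i)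
    have h' : fderiv ℝ (fun x : X3 => A0 x i A) x = _ := h.fderiv
    rw [h']
    simp
  have hint : ∀ i A, Integrable (fun x : X3 => (A0 x i A) ^ 2 * ‖v x‖ ^ 2) := by
    intro i A
    refine hv.mul_norm_sq_int ?_
    unfold A0
    fun_prop
  simp only [hsq, Finset.sum_sub_distrib, Finset.sum_add_distrib]
  have i1 : ∫ x, (8 * ∑ i, ∑ A, (A0 x i A) ^ 2) * ‖v x‖ ^ 2 =
      8 * ∑ i, ∑ A, ∫ x, (A0 x i A) ^ 2 * ‖v x‖ ^ 2 := by
    have e : ∀ x : X3, (8 * ∑ i, ∑ A, (A0 x i A) ^ 2) * ‖v x‖ ^ 2 =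
        8 * ∑ i, ∑ A, (A0 x i A) ^ 2 * ‖v x‖ ^ 2 := by
      intro x
      simp only [Finset.sum_mul, mul_assoc]
    simp only [e]
    rw [integral_const_mul, integral_finsetSum _ fun i _ => integrable_finsetSum _ fun A _ =>
      hint i A]
    congr 1
    refine Finset.sum_congr rfl fun i _ => ?_
    rw [integral_finsetSum _ fun A _ => hint i A]
  have i2 : ∑ i : Fin 9, ∑ _A : Fin 3, aw i * nsq v = 36 * nsq v := by
    simp only [Finset.sum_const, Finset.card_univ, Fintype.card_fin]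
    rw [← Finset.smul_sum, ← Finset.sum_mul, sum_aw]
    simp only [nsmul_eq_mul]
    push_cast
    ring
  have i3 : (∫ x, inner ℂ (v x) (S.N0 (v x))).re =
      18 * nsq v - 3 / 4 * (∫ x, inner ℂ (v x) (S.FG (v x))).re := by
    have e : ∀ x, inner ℂ (v x) (S.N0 (v x)) =
        (18 : ℂ) * inner ℂ (v x) (v x) - (3 / 4 : ℂ) * inner ℂ (v x) (S.FG (v x)) := by
      intro x
      unfold Setup.N0
      rw [_root_.sub_apply, _root_.smul_apply, _root_.smul_apply, inner_sub_right,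
        inner_smul_right, inner_smul_right]
      rfl
    have hF : Setup.Tst (fun x => S.FG (v x)) := hv.clm contDiff_const
    simp only [e]
    rw [integral_sub ((hv.inner_int hv.1.continuous).const_mul _)
      ((hv.inner_int hF.1.continuous).const_mul _), integral_const_mul, integral_const_mul]
    have : ∫ x, inner ℂ (v x) (v x) = ((nsq v : ℝ) : ℂ) := by
      rw [nsq, ← integral_complex_ofReal]
      congr 1
      ext x
      rw [inner_self_eq_norm_sq_to_K]
      norm_cast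
    rw [this]
    simp only [Complex.sub_re, Complex.mul_re, Complex.ofReal_re, Complex.ofReal_im]
    norm_num
  have i4 : (∫ x, inner ℂ (v x) (KT S (N0c S) (v x))).re =
      -12 * (∫ x, inner ℂ (v x) (S.FG (v x))).re := by
    have e : ∀ x, inner ℂ (v x) (KT S (N0c S) (v x)) =
        (-12 : ℂ) * inner ℂ (v x) (S.FG (v x)) := by
      intro x
      rw [KT_N0c, _root_.neg_apply, _root_.smul_apply, inner_neg_right, inner_smul_right]
      ring
    simp only [e]
    rw [integral_const_mul]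
    simp only [Complex.mul_re]
    norm_num
  rw [i1, i2, i3, i4]
  ring

end zero

/-! ### the supercharge at `ξ₀` -/

section one

variable (S : Setup F)

lemma sum4 {M : Type*} [AddCommMonoid M] (f : Fin 3 → Fin 3 → Fin 3 → Fin 9 → M) :
    ∑ A, ∑ B, ∑ C, ∑ j, f A B C j = ∑ j, ∑ C, ∑ A, ∑ B, f A B C j := by
  calc ∑ A, ∑ B, ∑ C, ∑ j, f A B C j = ∑ A, ∑ B, ∑ j, ∑ C, f A B C j :=
        Finset.sum_congr rfl fun A _ => Finset.sum_congr rfl fun B _ => Finset.sum_comm
    _ = ∑ A, ∑ j, ∑ B, ∑ C, f A B C j := Finset.sum_congr rfl fun A _ => Finset.sum_comm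
    _ = ∑ j, ∑ A, ∑ B, ∑ C, f A B C j := Finset.sum_comm
    _ = ∑ j, ∑ A, ∑ C, ∑ B, f A B C j :=
        Finset.sum_congr rfl fun j _ => Finset.sum_congr rfl fun A _ => Finset.sum_comm
    _ = ∑ j, ∑ C, ∑ A, ∑ B, f A B C j := Finset.sum_congr rfl fun j _ => Finset.sum_comm

/-- the part coming from the derivative of `W_β` at `ξ₀` -/
noncomputable def D1c (j : Fin 9) (B A : Fin 3) : Matrix (Fin 16) (Fin 16) ℂ :=
  ∑ D, (eps A D B : ℂ) • S.g2 (ci D) j

/-- coefficient matrices of `M_β + DW_β` -/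
noncomputable def N1c (j : Fin 9) (B A : Fin 3) : Matrix (Fin 16) (Fin 16) ℂ :=
  N0c S j B A - (2 : ℂ) • D1c S j B A

lemma xi0_apply (i : Fin 9) (B : Fin 3) : S.xi0 (i, B) = if i = ci B then -(2 / S.κ) else 0 := rfl

lemma kappa_xi0 (B : Fin 3) : (S.κ : ℂ) * ((S.xi0 (ci B, B) : ℝ) : ℂ) = -2 := by
  rw [xi0_apply, if_pos rfl]
  have : (S.κ : ℂ) ≠ 0 := by exact_mod_cast S.κ_pos.ne'
  push_cast
  field_simp

lemma DW_xi0 (β : Fin 16) (x : X3) : S.DW S.xi0 β x =
    ∑ A, ∑ B, ∑ C, ∑ j, ((-2 : ℂ) * (eps A B C : ℂ) * ((x (j, C) : ℝ) : ℂ)) •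
      S.vec (S.g2 (ci B) j) A β := by
  unfold Setup.DW
  rw [Finset.smul_sum]
  refine Finset.sum_congr rfl fun A _ => ?_
  rw [Finset.smul_sum]
  refine Finset.sum_congr rfl fun B _ => ?_
  rw [Finset.smul_sum]
  refine Finset.sum_congr rfl fun C _ => ?_
  rw [Finset.sum_eq_single (ci B), Finset.smul_sum]
  · refine Finset.sum_congr rfl fun j _ => ?_
    rw [smul_smul]
    congr 1
    rw [← kappa_xi0 S B]
    ring
  · intro i _ hi
    refine Finset.sum_eq_zero fun j _ => ?_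
    rw [xi0_apply, if_neg hi]
    simp
  · intro h; exact absurd (Finset.mem_univ _) h

lemma TT_N1c (β : Fin 16) (x : X3) : TT S (N1c S) β x = S.MM β x + S.DW S.xi0 β x := by
  have h1 : TT S (N1c S) β x = TT S (N0c S) β x +
      ∑ j, ∑ C, ∑ A, ∑ B, ((-2 : ℂ) * (eps A B C : ℂ) * ((x (j, C) : ℝ) : ℂ)) •
        S.vec (S.g2 (ci B) j) A β := by
    unfold TT
    rw [← Finset.sum_add_distrib]
    refine Finset.sum_congr rfl fun j _ => ?_
    rw [← Finset.sum_add_distrib]
    refine Finset.sum_congr rfl fun C _ => ?_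
    rw [Finset.smul_sum, Finset.smul_sum, ← Finset.sum_add_distrib]
    refine Finset.sum_congr rfl fun A _ => ?_
    rw [N1c, S.vec_sub, smul_sub, sub_eq_add_neg]
    congr 1
    rw [S.vec_smul, D1c, S.vec_sum, ← smul_neg, Finset.smul_sum, ← Finset.sum_neg_distrib,
      Finset.smul_sum]
    refine Finset.sum_congr rfl fun B _ => ?_
    rw [S.vec_smul]
    module
  rw [h1, TT_N0c, DW_xi0, sum4]

lemma N1c_im (j : Fin 9) (B A : Fin 3) (α β : Fin 16) : (N1c S j B A α β).im = 0 := by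
  have h2 : (D1c S j B A α β).im = 0 := by
    simp only [D1c, Matrix.sum_apply, Matrix.smul_apply, smul_eq_mul, Complex.im_sum]
    refine Finset.sum_eq_zero fun D _ => ?_
    rw [Complex.mul_im, S.g2_im]
    simp
  rw [N1c, Matrix.sub_apply, Matrix.smul_apply, smul_eq_mul, Complex.sub_im, N0c_im,
    Complex.mul_im, h2]
  simp

lemma N1c_trace (j k : Fin 9) (C B : Fin 3) : (S.g j * (N1c S k C B)ᵀ).trace = 0 := by
  have h2 : (S.g j * (D1c S k C B)ᵀ).trace = 0 := by
    simp only [D1c, Matrix.transpose_sum, Matrix.transpose_smul, Matrix.mul_sum, Matrix.mul_smul,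
      Matrix.trace_sum, Matrix.trace_smul, trace_g_g2T, smul_zero, Finset.sum_const_zero]
  rw [N1c, Matrix.transpose_sub, Matrix.mul_sub, Matrix.trace_sub, N0c_trace,
    Matrix.transpose_smul, Matrix.mul_smul, Matrix.trace_smul, h2, smul_zero, sub_zero]

/-- the orthogonal family -/
noncomputable def Efam : (Fin 3 ⊕ Fin 6) ⊕ (Fin 3 × Fin 6) → Matrix (Fin 16) (Fin 16) ℂ
  | Sum.inl (Sum.inl l) => S.g (ci l) * S.Gam
  | Sum.inl (Sum.inr a) => S.g (cj a) * S.Gam
  | Sum.inr p => S.g2 (ci p.1) (cj p.2)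

lemma Efam_trace (i j : (Fin 3 ⊕ Fin 6) ⊕ (Fin 3 × Fin 6)) :
    (Efam S i * (Efam S j)ᵀ).trace = if i = j then 16 else 0 := by
  have hsw : ∀ (P Q : Matrix (Fin 16) (Fin 16) ℂ), (P * Qᵀ).trace = (Q * Pᵀ).trace := by
    intro P Q
    rw [← Matrix.trace_transpose, Matrix.transpose_mul, Matrix.transpose_transpose]
  rcases i with (i | i) | i <;> rcases j with (j | j) | j
  · simp only [Efam, trace_gGgG, ci_inj, Sum.inl.injEq]
  · simp only [Efam, trace_gGgG, ci_ne_cj, if_false, Sum.inl.injEq, reduceCtorEq]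
  · simp only [Efam, trace_gG_g2, if_false, reduceCtorEq]
  · simp only [Efam, trace_gGgG, (ci_ne_cj _ _).symm, if_false, Sum.inl.injEq, reduceCtorEq]
  · simp only [Efam, trace_gGgG, cj_inj, Sum.inl.injEq, Sum.inr.injEq]
  · simp only [Efam, trace_gG_g2, if_false, reduceCtorEq]
  · simp only [Efam, hsw (S.g2 _ _), trace_gG_g2, if_false, reduceCtorEq]
  · simp only [Efam, hsw (S.g2 _ _), trace_gG_g2, if_false, reduceCtorEq]
  · simp only [Efam, trace_g2_g2T, Sum.inr.injEq]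
    congr 1
    simp only [Prod.ext_iff]

/-- the coefficients in the `3 × 3` block -/
noncomputable def Tc (x : X3) (A l : Fin 3) : ℝ :=
  2 * x (ci l, A) - 2 * ∑ J, ∑ B, ∑ D, x (ci J, B) * (eps A D B : ℝ) * (eps l D J : ℝ)

/-- the coefficients of `NX` in the orthogonal family -/
noncomputable def cfam (x : X3) (A : Fin 3) : (Fin 3 ⊕ Fin 6) ⊕ (Fin 3 × Fin 6) → ℝ
  | Sum.inl (Sum.inl l) => Tc x A l
  | Sum.inl (Sum.inr a) => x (cj a, A)
  | Sum.inr p => -2 * ∑ B, (eps A p.1 B : ℝ) * x (cj p.2, B)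

lemma NX_N1c (x : X3) (A : Fin 3) :
    NX (N1c S) x A = ∑ i, ((cfam x A i : ℝ) : ℂ) • Efam S i := by
  have h0 : NX (N1c S) x A = NX (N0c S) x A -
      (2 : ℂ) • ∑ j, ∑ B, ((x (j, B) : ℝ) : ℂ) • D1c S j B A := by
    unfold NX N1c
    simp only [smul_sub, Finset.sum_sub_distrib, Finset.smul_sum]
    congr 1
    refine Finset.sum_congr rfl fun j _ => Finset.sum_congr rfl fun B _ => ?_
    rw [smul_comm]
  have h1 : NX (N0c S) x A = ∑ l : Fin 3, ((2 * x (ci l, A) : ℝ) : ℂ) • (S.g (ci l) * S.Gam) +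
      ∑ a : Fin 6, ((x (cj a, A) : ℝ) : ℂ) • (S.g (cj a) * S.Gam) := by
    rw [NX_N0c, sum9]
    refine congrArg₂ (· + ·) ?_ ?_
    · refine Finset.sum_congr rfl fun l _ => ?_
      rw [show aw (ci l) = 2 from if_pos (by simp [ci])]
    · refine Finset.sum_congr rfl fun a _ => ?_
      rw [show aw (cj a) = 1 from if_neg (by simp [cj]), one_mul]
  have h2 : ∑ J : Fin 3, ∑ B, ((x (ci J, B) : ℝ) : ℂ) • D1c S (ci J) B A =
      ∑ l : Fin 3, ((∑ J, ∑ B, ∑ D, x (ci J, B) * (eps A D B : ℝ) * (eps l D J : ℝ) : ℝ) : ℂ) •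
        (S.g (ci l) * S.Gam) := by
    have e : ∀ J B : Fin 3, ((x (ci J, B) : ℝ) : ℂ) • D1c S (ci J) B A =
        ∑ l : Fin 3, ∑ D, (((x (ci J, B) * (eps A D B : ℝ) * (eps l D J : ℝ) : ℝ)) : ℂ) •
          (S.g (ci l) * S.Gam) := by
      intro J B
      unfold D1c
      simp only [g2_ci, Finset.smul_sum, smul_smul]
      rw [Finset.sum_comm]
      refine Finset.sum_congr rfl fun l _ => Finset.sum_congr rfl fun D _ => ?_
      congr 1
      push_cast
      ring
    simp only [e]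
    calc ∑ J : Fin 3, ∑ B : Fin 3, ∑ l : Fin 3, ∑ D : Fin 3,
          (((x (ci J, B) * (eps A D B : ℝ) * (eps l D J : ℝ) : ℝ)) : ℂ) • (S.g (ci l) * S.Gam)
        = ∑ J : Fin 3, ∑ l : Fin 3, ∑ B : Fin 3, ∑ D : Fin 3,
          (((x (ci J, B) * (eps A D B : ℝ) * (eps l D J : ℝ) : ℝ)) : ℂ) • (S.g (ci l) * S.Gam) :=
          Finset.sum_congr rfl fun J _ => Finset.sum_comm
      _ = ∑ l : Fin 3, ∑ J : Fin 3, ∑ B : Fin 3, ∑ D : Fin 3,
          (((x (ci J, B) * (eps A D B : ℝ) * (eps l D J : ℝ) : ℝ)) : ℂ) • (S.g (ci l) * S.Gam) :=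
          Finset.sum_comm
      _ = _ := by
          refine Finset.sum_congr rfl fun l _ => ?_
          push_cast
          simp only [Finset.sum_smul]
  have h3 : ∑ a : Fin 6, ∑ B, ((x (cj a, B) : ℝ) : ℂ) • D1c S (cj a) B A =
      ∑ p : Fin 3 × Fin 6, ((∑ B, (eps A p.1 B : ℝ) * x (cj p.2, B) : ℝ) : ℂ) •
        S.g2 (ci p.1) (cj p.2) := by
    rw [Fintype.sum_prod_type, Finset.sum_comm (γ := Fin 3)]
    refine Finset.sum_congr rfl fun a _ => ?_
    unfold D1c
    simp only [Finset.smul_sum, smul_smul]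
    rw [Finset.sum_comm]
    refine Finset.sum_congr rfl fun D _ => ?_
    push_cast
    rw [Finset.sum_smul]
    refine Finset.sum_congr rfl fun B _ => ?_
    rw [mul_comm]
  rw [h0, h1, sum9 (fun j => ∑ B, ((x (j, B) : ℝ) : ℂ) • D1c S j B A), h2, h3]
  rw [Fintype.sum_sum_type, Fintype.sum_sum_type]
  simp only [cfam, Efam, Tc]
  push_cast
  simp only [sub_smul, Finset.sum_sub_distrib, smul_add, Finset.smul_sum, smul_smul, neg_mul,
    neg_smul, Finset.sum_neg_distrib]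
  abel

/-- the quadratic form -/
lemma N1c_quad (x : X3) : ∑ A, ∑ i, cfam x A i ^ 2 = ∑ i, ∑ A, (A1 x i A) ^ 2 := by
  obtain ⟨e000, e001, e002, e010, e011, e012, e020, e021, e022, e100, e101, e102, e110, e111,
    e112, e120, e121, e122, e200, e201, e202, e210, e211, e212, e220, e221, e222⟩ := eps_all
  have a1 : ∀ (l A : Fin 3), A1 x (ci l) A = 2 * (x (ci l, A) + x (ci A, l)) -
      (if l = A then 2 / 3 * ∑ k, x (ci k, k) else 0) := by
    intro l A
    have h : (ci l).val < 3 := by simp [ci]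
    unfold A1
    rw [dif_pos h]
    simp only [ci_inj]
    rfl
  have a2 : ∀ (a : Fin 6) (A : Fin 3), A1 x (cj a) A = 3 * x (cj a, A) := by
    intro a A
    have h : ¬ (cj a).val < 3 := by simp [cj]
    unfold A1
    rw [dif_neg h]
  have b1 : ∑ A, ∑ l, Tc x A l ^ 2 = ∑ l : Fin 3, ∑ A, (A1 x (ci l) A) ^ 2 := by
    simp only [a1, Tc, Fin.sum_univ_three, e000, e001, e002, e010, e011, e012, e020, e021, e022,
      e100, e101, e102, e110, e111, e112, e120, e121, e122, e200, e201, e202, e210, e211, e212,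
      e220, e221, e222]
    simp
    ring
  have b2 : ∀ a : Fin 6, ∑ A, (x (cj a, A) ^ 2 +
      ∑ D, (-2 * ∑ B, (eps A D B : ℝ) * x (cj a, B)) ^ 2) = ∑ A, (A1 x (cj a) A) ^ 2 := by
    intro a
    simp only [a2, Fin.sum_univ_three, e000, e001, e002, e010, e011, e012, e020, e021, e022,
      e100, e101, e102, e110, e111, e112, e120, e121, e122, e200, e201, e202, e210, e211, e212,
      e220, e221, e222]
    simp
    ring
  rw [sum9, ← b1]
  simp only [← b2]
  simp only [Fintype.sum_sum_type, Fintype.sum_prod_type, cfam, Finset.sum_add_distrib]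
  rw [add_assoc]
  congr 1
  congr 1
  · rw [Finset.sum_comm]
  · rw [Finset.sum_comm (γ := Fin 6)]
    refine Finset.sum_congr rfl fun A _ => ?_
    rw [Finset.sum_comm]

lemma N1c_sq (x : X3) : (1 / 2 : ℂ) * ∑ A, (NX (N1c S) x A * (NX (N1c S) x A)ᵀ).trace =
    ((8 * ∑ i, ∑ A, (A1 x i A) ^ 2 : ℝ) : ℂ) := by
  have h : ∀ A, (NX (N1c S) x A * (NX (N1c S) x A)ᵀ).trace =
      ((16 * ∑ i, cfam x A i ^ 2 : ℝ) : ℂ) := by
    intro A
    rw [NX_N1c, trace_family (Efam S) (Efam_trace S)]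
  simp only [h]
  rw [← N1c_quad]
  push_cast
  rw [← Finset.mul_sum]
  ring

/-- `∑ ε_{ABC} θ^A γ^C θ^B` -/
noncomputable def Eg : F →L[ℂ] F := ∑ A, ∑ B, ∑ C, (eps A B C : ℂ) • S.bil (S.g (ci C)) A B

lemma sum_g_g2' (D : Fin 9) : ∑ j, S.g j * S.g2 D j = -((8 : ℂ) • S.g D) := by
  rw [← S.sum_g_g2, ← Finset.sum_neg_distrib]
  refine Finset.sum_congr rfl fun j _ => ?_
  rw [S.g2_swap, Matrix.mul_neg]

lemma KT_N1c : KT S (N1c S) = -((12 : ℂ) • S.FG) - (16 * Complex.I) • Eg S := by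
  have h0 : KT S (N1c S) = KT S (N0c S) +
      (2 * Complex.I) • ∑ j, ∑ B, ∑ A, S.bil (S.g j * D1c S j B A) B A := by
    unfold KT N1c
    simp only [Matrix.mul_sub, Matrix.mul_smul, S.bil_sub, S.bil_smul, Finset.sum_sub_distrib,
      ← Finset.smul_sum]
    module
  have h1 : ∑ j, ∑ B, ∑ A, S.bil (S.g j * D1c S j B A) B A = -((8 : ℂ) • Eg S) := by
    calc ∑ j, ∑ B, ∑ A, S.bil (S.g j * D1c S j B A) B A =
        ∑ j, ∑ B, ∑ A, ∑ D, (eps A D B : ℂ) • S.bil (S.g j * S.g2 (ci D) j) B A := by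
          refine Finset.sum_congr rfl fun j _ => Finset.sum_congr rfl fun B _ =>
            Finset.sum_congr rfl fun A _ => ?_
          simp only [D1c, Matrix.mul_sum, Matrix.mul_smul, S.bil_sum, S.bil_smul]
      _ = ∑ B, ∑ j, ∑ A, ∑ D, (eps A D B : ℂ) • S.bil (S.g j * S.g2 (ci D) j) B A :=
          Finset.sum_comm
      _ = ∑ B, ∑ A, ∑ j, ∑ D, (eps A D B : ℂ) • S.bil (S.g j * S.g2 (ci D) j) B A :=
          Finset.sum_congr rfl fun B _ => Finset.sum_comm
      _ = ∑ B, ∑ A, ∑ D, ∑ j, (eps A D B : ℂ) • S.bil (S.g j * S.g2 (ci D) j) B A :=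
          Finset.sum_congr rfl fun B _ => Finset.sum_congr rfl fun A _ => Finset.sum_comm
      _ = -((8 : ℂ) • Eg S) := by
          unfold Eg
          rw [Finset.smul_sum, ← Finset.sum_neg_distrib]
          refine Finset.sum_congr rfl fun B _ => ?_
          rw [Finset.smul_sum, ← Finset.sum_neg_distrib]
          refine Finset.sum_congr rfl fun A _ => ?_
          rw [Finset.smul_sum, ← Finset.sum_neg_distrib]
          refine Finset.sum_congr rfl fun D _ => ?_
          have he : eps A D B = eps B A D := by revert A B D; decide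
          rw [← Finset.smul_sum, ← S.bil_sum, sum_g_g2', S.bil_neg, S.bil_smul, he]
          module
  rw [h0, h1, KT_N0c]
  module

lemma chi_eq : ∑ α, ∑ β, S.Gam α β • (S.chi α * S.chi β) = S.tot S.Gam - Eg S := by
  have h0 : ∑ α, ∑ β, S.Gam α β • (S.chi α * S.chi β) =
      ∑ A, ∑ B, S.bil (S.g (ci A) * (S.Gam * S.g (ci B))) A B := by
    calc ∑ α, ∑ β, S.Gam α β • (S.chi α * S.chi β) =
        ∑ α, ∑ β, ∑ A, ∑ B, S.Gam α β • (S.vec (S.g (ci A)) A α * S.vec (S.g (ci B)) B β) := by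
          refine Finset.sum_congr rfl fun α _ => Finset.sum_congr rfl fun β _ => ?_
          unfold Setup.chi
          rw [Finset.sum_mul_sum, Finset.smul_sum]
          refine Finset.sum_congr rfl fun A _ => ?_
          rw [Finset.smul_sum]
      _ = ∑ α, ∑ A, ∑ β, ∑ B, S.Gam α β • (S.vec (S.g (ci A)) A α * S.vec (S.g (ci B)) B β) :=
          Finset.sum_congr rfl fun α _ => Finset.sum_comm
      _ = ∑ A, ∑ α, ∑ β, ∑ B, S.Gam α β • (S.vec (S.g (ci A)) A α * S.vec (S.g (ci B)) B β) :=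
          Finset.sum_comm
      _ = ∑ A, ∑ α, ∑ B, ∑ β, S.Gam α β • (S.vec (S.g (ci A)) A α * S.vec (S.g (ci B)) B β) :=
          Finset.sum_congr rfl fun A _ => Finset.sum_congr rfl fun α _ => Finset.sum_comm
      _ = ∑ A, ∑ B, ∑ α, ∑ β, S.Gam α β • (S.vec (S.g (ci A)) A α * S.vec (S.g (ci B)) B β) :=
          Finset.sum_congr rfl fun A _ => Finset.sum_comm
      _ = _ := by
          refine Finset.sum_congr rfl fun A _ => Finset.sum_congr rfl fun B _ => ?_
          have h := S.sum_vec_mul_vec (S.g (ci A)) (S.Gam * S.g (ci B)) A B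
          rw [S.g_symm] at h
          rw [← h]
          refine Finset.sum_congr rfl fun α _ => ?_
          rw [S.vec_mul, Finset.mul_sum]
          refine Finset.sum_congr rfl fun β _ => ?_
          rw [mul_smul_comm]
  rw [h0]
  simp only [gGg_ci, S.bil_sub, S.bil_sum, S.bil_smul, Finset.sum_sub_distrib]
  congr 1
  · rw [CS.tot]
    refine Finset.sum_congr rfl fun A _ => ?_
    rw [Finset.sum_eq_single A]
    · rw [if_pos rfl]
    · intro B _ hB
      rw [if_neg (Ne.symm hB), S.bil_zero]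
    · intro h; exact absurd (Finset.mem_univ _) h

lemma KT_N1c' : KT S (N1c S) = (16 : ℂ) • S.N1 - (608 : ℂ) • 1 := by
  rw [KT_N1c]
  unfold Setup.N1
  rw [chi_eq]
  unfold Setup.FG
  module

lemma Qlin_xi0 (β : Fin 16) (v : X3 → F) (x : X3) :
    S.Qlin S.xi0 β v x = QT S (N1c S) β v x := by
  unfold Setup.Qlin QT
  rw [TT_N1c, _root_.add_apply, add_assoc]

/-- `A_1` as a continuous linear map -/
noncomputable def A1L (i : Fin 9) (A : Fin 3) : X3 →L[ℝ] ℝ :=
  LinearMap.toContinuousLinearMap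
    { toFun := fun x => A1 x i A
      map_add' := by
        intro x y
        unfold A1
        split_ifs
        · simp only [PiLp.add_apply, Finset.sum_add_distrib]
          ring
        · simp only [PiLp.add_apply]
          ring
        · simp only [PiLp.add_apply]
          ring
      map_smul' := by
        intro c x
        unfold A1
        split_ifs
        · simp only [PiLp.smul_apply, smul_eq_mul, ← Finset.mul_sum, RingHom.id_apply]
          ring
        · simp only [PiLp.smul_apply, smul_eq_mul, RingHom.id_apply]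
          ring
        · simp only [PiLp.smul_apply, smul_eq_mul, RingHom.id_apply]
          ring }

lemma A1L_apply (i : Fin 9) (A : Fin 3) (x : X3) : A1L i A x = A1 x i A := rfl

lemma A1_div : ∑ i, ∑ A, A1 (EuclideanSpace.single (i, A) (1 : ℝ)) i A = 76 := by
  have a1 : ∀ (x : X3) (l A : Fin 3), A1 x (ci l) A = 2 * (x (ci l, A) + x (ci A, l)) -
      (if l = A then 2 / 3 * ∑ k, x (ci k, k) else 0) := by
    intro x l A
    have h : (ci l).val < 3 := by simp [ci]
    unfold A1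
    rw [dif_pos h]
    simp only [ci_inj]
    rfl
  have a2 : ∀ (x : X3) (a : Fin 6) (A : Fin 3), A1 x (cj a) A = 3 * x (cj a, A) := by
    intro x a A
    have h : ¬ (cj a).val < 3 := by simp [cj]
    unfold A1
    rw [dif_neg h]
  rw [sum9]
  simp only [a1, a2, PiLp.single_apply, Prod.mk.injEq, ci_inj]
  have b1 : ∀ l A : Fin 3, (2 * ((1 : ℝ) + (if A = l ∧ l = A then 1 else 0)) -
      (if l = A then 2 / 3 * ∑ k : Fin 3, (if k = l ∧ k = A then 1 else 0) else 0)) =
      if l = A then 10 / 3 else 2 := by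
    intro l A
    by_cases h : l = A
    · subst h
      simp
      norm_num
    · have h' : ¬ A = l := fun hh => h hh.symm
      simp [h, h']
  simp only [if_true]
  simp only [b1]
  simp [Fin.sum_univ_three]
  norm_num

/-- **C-En1** -/
theorem en1 (S : Setup F) : En1Stmt S := by
  intro v hv
  have hAc : ∀ i A, ContDiff ℝ ∞ (fun x : X3 => A1 x i A) := fun i A => (A1L i A).contDiff
  have hq : Continuous fun x : X3 => 8 * ∑ i, ∑ A, (A1 x i A) ^ 2 :=
    continuous_const.mul (continuous_finsetSum _ fun i _ => continuous_finsetSum _ fun A _ =>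
      ((hAc i A).continuous.pow 2))
  have hE := energy_QT S (N1c S) (N1c_im S) (N1c_trace S) _ hq (N1c_sq S) v hv
  have hQ : ∀ β, S.Qlin S.xi0 β v = QT S (N1c S) β v := fun β => funext (Qlin_xi0 S β v)
  simp only [hQ]
  rw [hE]
  have hsq : ∀ i A, nsq (fun x => pd i A v x + (A1 x i A : ℂ) • v x) =
      nsq (pd i A v) + (∫ x, (A1 x i A) ^ 2 * ‖v x‖ ^ 2) -
        A1 (EuclideanSpace.single (i, A) (1 : ℝ)) i A * nsq v := by
    intro i A
    refine nsq_pd_add (fun x => A1 x i A) (hAc i A) i A _ ?_ v hv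
    intro x
    have h' : fderiv ℝ (fun x : X3 => A1 x i A) x = A1L i A :=
      (A1L i A).hasFDerivAt.fderiv
    rw [h', A1L_apply]
  have hint : ∀ i A, Integrable (fun x : X3 => (A1 x i A) ^ 2 * ‖v x‖ ^ 2) := by
    intro i A
    exact hv.mul_norm_sq_int ((hAc i A).continuous.pow 2)
  simp only [hsq, Finset.sum_sub_distrib, Finset.sum_add_distrib]
  have i1 : ∫ x, (8 * ∑ i, ∑ A, (A1 x i A) ^ 2) * ‖v x‖ ^ 2 =
      8 * ∑ i, ∑ A, ∫ x, (A1 x i A) ^ 2 * ‖v x‖ ^ 2 := by
    have e : ∀ x : X3, (8 * ∑ i, ∑ A, (A1 x i A) ^ 2) * ‖v x‖ ^ 2 =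
        8 * ∑ i, ∑ A, (A1 x i A) ^ 2 * ‖v x‖ ^ 2 := by
      intro x
      simp only [Finset.sum_mul, mul_assoc]
    simp only [e]
    rw [integral_const_mul, integral_finsetSum _ fun i _ => integrable_finsetSum _ fun A _ =>
      hint i A]
    congr 1
    refine Finset.sum_congr rfl fun i _ => ?_
    rw [integral_finsetSum _ fun A _ => hint i A]
  have i2 : ∑ i : Fin 9, ∑ A : Fin 3, A1 (EuclideanSpace.single (i, A) (1 : ℝ)) i A * nsq v =
      76 * nsq v := by
    simp only [← Finset.sum_mul]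
    rw [A1_div]
  have i4 : (∫ x, inner ℂ (v x) (KT S (N1c S) (v x))).re =
      16 * (∫ x, inner ℂ (v x) (S.N1 (v x))).re - 608 * nsq v := by
    have e : ∀ x, inner ℂ (v x) (KT S (N1c S) (v x)) =
        (16 : ℂ) * inner ℂ (v x) (S.N1 (v x)) - (608 : ℂ) * inner ℂ (v x) (v x) := by
      intro x
      rw [KT_N1c', _root_.sub_apply, _root_.smul_apply, _root_.smul_apply, inner_sub_right,
        inner_smul_right, inner_smul_right]
      rfl
    have hF : Setup.Tst (fun x => S.N1 (v x)) := hv.clm contDiff_const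
    simp only [e]
    rw [integral_sub ((hv.inner_int hF.1.continuous).const_mul _)
      ((hv.inner_int hv.1.continuous).const_mul _), integral_const_mul, integral_const_mul]
    have : ∫ x, inner ℂ (v x) (v x) = ((nsq v : ℝ) : ℂ) := by
      rw [nsq, ← integral_complex_ofReal]
      congr 1
      ext x
      rw [inner_self_eq_norm_sq_to_K]
      norm_cast
    rw [this]
    simp only [Complex.sub_re, Complex.mul_re, Complex.ofReal_re, Complex.ofReal_im]
    norm_num
  rw [i1, i2, i4]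
  ring

/-- **C-Crit** -/
theorem crit (S : Setup F) : CritStmt S := by
  intro β
  have hk : (S.κ : ℂ) ≠ 0 := by exact_mod_cast S.κ_pos.ne'
  have hFF : ∀ (A : Fin 3) (i j : Fin 9), ((S.FF A i j S.xi0 : ℝ) : ℂ) =
      ∑ B, ∑ C, (eps A B C : ℂ) * ((if i = ci B then (1 : ℂ) else 0) *
        (if j = ci C then (1 : ℂ) else 0)) * (4 / (S.κ : ℂ)) := by
    intro A i j
    unfold Setup.FF
    push_cast
    rw [Finset.mul_sum]
    refine Finset.sum_congr rfl fun B _ => ?_
    rw [Finset.mul_sum]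
    refine Finset.sum_congr rfl fun C _ => ?_
    rw [xi0_apply, xi0_apply]
    by_cases h1 : i = ci B <;> by_cases h2 : j = ci C <;> simp [h1, h2]
    field_simp
    norm_num
  have hW : S.W β S.xi0 = ((4 / (S.κ : ℂ))) • ∑ A, S.vec (S.g (ci A) * S.Gam) A β := by
    unfold Setup.W
    have h1 : ∀ A, ∑ i, ∑ j, ((S.FF A i j S.xi0 : ℝ) : ℂ) • S.vec (S.g2 i j) A β =
        (2 * (4 / (S.κ : ℂ))) • S.vec (S.g (ci A) * S.Gam) A β := by
      intro A
      have h2 : ∀ i j, ((S.FF A i j S.xi0 : ℝ) : ℂ) • S.vec (S.g2 i j) A β =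
          ∑ B, ∑ C, (if i = ci B then (if j = ci C then
            ((eps A B C : ℂ) * (4 / (S.κ : ℂ))) • S.vec (S.g2 (ci B) (ci C)) A β else 0) else 0)
            := by
        intro i j
        rw [hFF, Finset.sum_smul]
        refine Finset.sum_congr rfl fun B _ => ?_
        rw [Finset.sum_smul]
        refine Finset.sum_congr rfl fun C _ => ?_
        by_cases h1 : i = ci B
        · by_cases h2 : j = ci C
          · simp [h1, h2]
          · simp [h1, h2]
        · simp [h1]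
      have h3 : ∑ i, ∑ j, ((S.FF A i j S.xi0 : ℝ) : ℂ) • S.vec (S.g2 i j) A β =
          ∑ B, ∑ C, ((eps A B C : ℂ) * (4 / (S.κ : ℂ))) • S.vec (S.g2 (ci B) (ci C)) A β := by
        simp only [h2]
        calc ∑ i : Fin 9, ∑ j : Fin 9, ∑ B : Fin 3, ∑ C : Fin 3, (if i = ci B then
              (if j = ci C then ((eps A B C : ℂ) * (4 / (S.κ : ℂ))) •
                S.vec (S.g2 (ci B) (ci C)) A β else 0) else 0)
            = ∑ i : Fin 9, ∑ B : Fin 3, ∑ j : Fin 9, ∑ C : Fin 3, (if i = ci B then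
              (if j = ci C then ((eps A B C : ℂ) * (4 / (S.κ : ℂ))) •
                S.vec (S.g2 (ci B) (ci C)) A β else 0) else 0) :=
              Finset.sum_congr rfl fun i _ => Finset.sum_comm
          _ = ∑ B : Fin 3, ∑ i : Fin 9, ∑ j : Fin 9, ∑ C : Fin 3, (if i = ci B then
              (if j = ci C then ((eps A B C : ℂ) * (4 / (S.κ : ℂ))) •
                S.vec (S.g2 (ci B) (ci C)) A β else 0) else 0) := Finset.sum_comm
          _ = ∑ B : Fin 3, ∑ i : Fin 9, ∑ C : Fin 3, ∑ j : Fin 9, (if i = ci B then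
              (if j = ci C then ((eps A B C : ℂ) * (4 / (S.κ : ℂ))) •
                S.vec (S.g2 (ci B) (ci C)) A β else 0) else 0) :=
              Finset.sum_congr rfl fun B _ => Finset.sum_congr rfl fun i _ => Finset.sum_comm
          _ = ∑ B : Fin 3, ∑ C : Fin 3, ∑ i : Fin 9, ∑ j : Fin 9, (if i = ci B then
              (if j = ci C then ((eps A B C : ℂ) * (4 / (S.κ : ℂ))) •
                S.vec (S.g2 (ci B) (ci C)) A β else 0) else 0) :=
              Finset.sum_congr rfl fun B _ => Finset.sum_comm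
          _ = _ := by
              refine Finset.sum_congr rfl fun B _ => Finset.sum_congr rfl fun C _ => ?_
              rw [Finset.sum_eq_single (ci B)]
              · simp
              · intro i _ hi
                simp [hi]
              · intro h; exact absurd (Finset.mem_univ _) h
      rw [h3]
      obtain ⟨e000, e001, e002, e010, e011, e012, e020, e021, e022, e100, e101, e102, e110, e111,
        e112, e120, e121, e122, e200, e201, e202, e210, e211, e212, e220, e221, e222⟩ := eps_all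
      simp only [g2_ci, S.vec_sum, S.vec_smul]
      fin_cases A <;>
        simp [Fin.sum_univ_three, e000, e001, e002, e010, e011, e012, e020, e021, e022,
          e100, e101, e102, e110, e111, e112, e120, e121, e122, e200, e201, e202, e210, e211,
          e212, e220, e221, e222] <;> module
    simp only [h1, ← Finset.smul_sum, smul_smul]
    congr 1
    ring
  have hM : S.MM β S.xi0 = (-(4 / (S.κ : ℂ))) • ∑ A, S.vec (S.g (ci A) * S.Gam) A β := by
    unfold Setup.MM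
    rw [Finset.sum_comm, Finset.smul_sum]
    refine Finset.sum_congr rfl fun A _ => ?_
    rw [Finset.sum_eq_single (ci A)]
    · rw [xi0_apply, if_pos rfl]
      congr 1
      rw [show aw (ci A) = 2 from if_pos (by simp [ci])]
      push_cast
      ring
    · intro i _ hi
      rw [xi0_apply, if_neg hi]
      simp
    · intro h; exact absurd (Finset.mem_univ _) h
  rw [hW, hM]
  module

end one

end Vale.Agent.P353.U.En

namespace Vale.Agent.P353.U

variable {F : Type*} [NormedAddCommGroup F] [InnerProductSpace ℂ F]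

/-- **C-En0** -/
theorem en0 (S : Setup F) : En0Stmt S := En.en0 S

/-- **C-En1** -/
theorem en1 (S : Setup F) : En1Stmt S := En.en1 S

/-- **C-Crit** -/
theorem crit (S : Setup F) : CritStmt S := En.crit S

end Vale.Agent.P353.U
end
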