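import Mathlib
import Vale.Agent.P353.BdU.B2
import Vale.Agent.P353.BdU.B7
import Vale.Agent.P353.BdU.B3
import Vale.Agent.P353.BdU.B8
import Vale.Agent.P353.BdU.B22

set_option linter.all false

section

/-! # P353, C-L1: the concrete data -/

open MeasureTheory Filter Topology
open scoped ContDiff ComplexConjugate

namespace Vale.Agent.P353.U

/-- `A_1` as a linear map -/
noncomputable def l1Alin : X3 →ₗ[ℝ] X3 where
  toFun x := WithLp.toLp 2 fun p => A1 x p.1 p.2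
  map_add' x y := by
    ext p
    simp only [A1, PiLp.add_apply, Finset.sum_add_distrib]
    split_ifs <;> ring
  map_smul' c x := by
    ext p
    simp only [A1, PiLp.smul_apply, smul_eq_mul, RingHom.id_apply, ← Finset.mul_sum]
    split_ifs <;> ring

/-- the gauge directions -/
noncomputable def l1tau (C : Fin 3) : X3 := ∑ A, ∑ B, (eps C A B : ℝ) • l1e (ci A, B)

theorem l1Alin_apply (x : X3) (i : Fin 9) (A : Fin 3) : l1Alin x (i, A) = A1 x i A := rfl

theorem l1_sum27 (f : Fin 9 × Fin 3 → ℝ) : ∑ p, f p =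
    (∑ k : Fin 3, ∑ A, f (ci k, A)) + ∑ k : Fin 6, ∑ A, f (⟨k.val + 3, by omega⟩, A) := by
  rw [Fintype.sum_prod_type]
  simp [Fin.sum_univ_succ, ci]
  ring

theorem A1_block (x : X3) (k A : Fin 3) : A1 x (ci k) A =
    2 * (x (ci k, A) + x (ci A, k)) - (if k = A then 2 / 3 * ∑ k, x (ci k, k) else 0) := by
  have h : (ci k).val < 3 := k.2
  have h2 : (ci k = ci A) ↔ k = A := by
    constructor
    · intro h; have := congrArg Fin.val h; exact Fin.ext this
    · rintro rfl; rfl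
  simp only [A1, h, dif_pos, h2]
  rfl

theorem A1_six (x : X3) (k : Fin 6) (A : Fin 3) :
    A1 x ⟨k.val + 3, by omega⟩ A = 3 * x (⟨k.val + 3, by omega⟩, A) := by
  have h : ¬ ((⟨k.val + 3, by omega⟩ : Fin 9).val < 3) := by simp
  rw [A1, dif_neg h]

theorem l1_symm (x y : X3) : inner ℝ (l1Alin x) y = inner ℝ x (l1Alin y) := by
  rw [l1_inner_sum, l1_inner_sum, l1_sum27, l1_sum27]
  simp only [l1Alin_apply, A1_block, A1_six]
  congr 1
  · simp [Fin.sum_univ_three]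
    ring
  · exact Finset.sum_congr rfl fun k _ => Finset.sum_congr rfl fun A _ => by ring

theorem l1_inner_tau (C : Fin 3) (x : X3) : inner ℝ (l1tau C) x =
    ∑ A, ∑ B, (eps C A B : ℝ) * x (ci A, B) := by
  unfold l1tau
  simp only [sum_inner, real_inner_smul_left]
  refine Finset.sum_congr rfl fun A _ => Finset.sum_congr rfl fun B _ => ?_
  rw [real_inner_comm, l1_inner_e]

theorem l1_tau_block (C k A : Fin 3) : l1tau C (ci k, A) = (eps C k A : ℝ) := by
  rw [← l1_inner_e (l1tau C), l1_inner_tau]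
  simp only [l1e, PiLp.single_apply]
  fin_cases C <;> fin_cases k <;> fin_cases A <;>
    simp [Fin.sum_univ_three, ci, eps] <;> norm_num

theorem l1_tau_six (C : Fin 3) (k : Fin 6) (A : Fin 3) :
    l1tau C (⟨k.val + 3, by omega⟩, A) = 0 := by
  rw [← l1_inner_e (l1tau C), l1_inner_tau]
  simp only [l1e, PiLp.single_apply]
  refine Finset.sum_eq_zero fun A' _ => Finset.sum_eq_zero fun B' _ => ?_
  rw [if_neg, mul_zero]
  intro h
  have h1 := congrArg (fun q : Fin 9 × Fin 3 => q.1.val) h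
  simp only [ci] at h1
  have h2 := A'.2
  omega

theorem l1_A_tau (C : Fin 3) : l1Alin (l1tau C) = 0 := by
  have h6 : ∀ (k : Fin 6) (A : Fin 3), l1Alin (l1tau C) (⟨k.val + 3, by omega⟩, A) = 0 := by
    intro k A
    rw [l1Alin_apply, A1_six, l1_tau_six, mul_zero]
  have h3 : ∀ (k A : Fin 3), l1Alin (l1tau C) (ci k, A) = 0 := by
    intro k A
    rw [l1Alin_apply, A1_block]
    simp only [l1_tau_block]
    fin_cases C <;> fin_cases k <;> fin_cases A <;> simp [eps]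
  have hz : inner ℝ (l1Alin (l1tau C)) (l1Alin (l1tau C)) = 0 := by
    rw [l1_inner_sum, l1_sum27]
    simp only [h6, h3]
    simp
  exact inner_self_eq_zero.mp hz

theorem l1_tau_tau (C C' : Fin 3) : inner ℝ (l1tau C) (l1tau C') = if C = C' then 2 else 0 := by
  rw [l1_inner_tau]
  simp only [l1_tau_block]
  fin_cases C <;> fin_cases C' <;> simp [Fin.sum_univ_three, eps] <;> norm_num

theorem l1_inner_A (x : X3) : inner ℝ x (l1Alin x) =
    (4 * (x (ci 0, 0) ^ 2 + x (ci 1, 1) ^ 2 + x (ci 2, 2) ^ 2) -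
      2 / 3 * (x (ci 0, 0) + x (ci 1, 1) + x (ci 2, 2)) ^ 2 +
      2 * ((x (ci 0, 1) + x (ci 1, 0)) ^ 2 + (x (ci 0, 2) + x (ci 2, 0)) ^ 2 +
        (x (ci 1, 2) + x (ci 2, 1)) ^ 2)) +
      3 * ∑ k : Fin 6, ∑ A, x (⟨k.val + 3, by omega⟩, A) ^ 2 := by
  rw [l1_inner_sum, l1_sum27]
  simp only [l1Alin_apply, A1_block, A1_six]
  congr 1
  · simp [Fin.sum_univ_three]
    ring
  · simp only [Finset.mul_sum]
    exact Finset.sum_congr rfl fun k _ => Finset.sum_congr rfl fun A _ => by ring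

theorem l1_norm_sq (x : X3) : ‖x‖ ^ 2 =
    (x (ci 0, 0) ^ 2 + x (ci 1, 1) ^ 2 + x (ci 2, 2) ^ 2 + x (ci 0, 1) ^ 2 + x (ci 1, 0) ^ 2 +
      x (ci 0, 2) ^ 2 + x (ci 2, 0) ^ 2 + x (ci 1, 2) ^ 2 + x (ci 2, 1) ^ 2) +
      ∑ k : Fin 6, ∑ A, x (⟨k.val + 3, by omega⟩, A) ^ 2 := by
  rw [← real_inner_self_eq_norm_sq, l1_inner_sum, l1_sum27]
  congr 1
  · simp [Fin.sum_univ_three]
    ring
  · exact Finset.sum_congr rfl fun k _ => Finset.sum_congr rfl fun A _ => by ring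

theorem l1_sum_tau (x : X3) : ∑ C, inner ℝ (l1tau C) x ^ 2 =
    (x (ci 1, 2) - x (ci 2, 1)) ^ 2 + (x (ci 2, 0) - x (ci 0, 2)) ^ 2 +
      (x (ci 0, 1) - x (ci 1, 0)) ^ 2 := by
  simp only [l1_inner_tau]
  simp [Fin.sum_univ_three, eps]
  ring

/-- the concrete data -/
noncomputable def l1D : L1D (Fin 3) where
  A := l1Alin.toContinuousLinearMap
  τ := l1tau
  symm := l1_symm
  Aτ := l1_A_tau
  ττ := l1_tau_tau
  low x := by
    rw [LinearMap.coe_toContinuousLinearMap', l1_inner_A, l1_sum_tau, l1_norm_sq]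
    have h6 : 0 ≤ ∑ k : Fin 6, ∑ A, x (⟨k.val + 3, by omega⟩, A) ^ 2 :=
      Finset.sum_nonneg fun k _ => Finset.sum_nonneg fun A _ => sq_nonneg _
    nlinarith [sq_nonneg (x (ci 0, 1) + x (ci 1, 0)), sq_nonneg (x (ci 0, 2) + x (ci 2, 0)),
      sq_nonneg (x (ci 1, 2) + x (ci 2, 1)), sq_nonneg (x (ci 0, 0) - x (ci 1, 1)),
      sq_nonneg (x (ci 0, 0) - x (ci 2, 2)), sq_nonneg (x (ci 1, 1) - x (ci 2, 2)),
      sq_nonneg (x (ci 0, 0)), sq_nonneg (x (ci 1, 1)), sq_nonneg (x (ci 2, 2))]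
  pos x := by
    rw [LinearMap.coe_toContinuousLinearMap', l1_inner_A]
    have h6 : 0 ≤ ∑ k : Fin 6, ∑ A, x (⟨k.val + 3, by omega⟩, A) ^ 2 :=
      Finset.sum_nonneg fun k _ => Finset.sum_nonneg fun A _ => sq_nonneg _
    nlinarith [sq_nonneg (x (ci 0, 1) + x (ci 1, 0)), sq_nonneg (x (ci 0, 2) + x (ci 2, 0)),
      sq_nonneg (x (ci 1, 2) + x (ci 2, 1)), sq_nonneg (x (ci 0, 0) - x (ci 1, 1)),
      sq_nonneg (x (ci 0, 0) - x (ci 2, 2)), sq_nonneg (x (ci 1, 1) - x (ci 2, 2)),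
      sq_nonneg (x (ci 0, 0)), sq_nonneg (x (ci 1, 1)), sq_nonneg (x (ci 2, 2))]

theorem l1D_A (x : X3) (i : Fin 9) (A : Fin 3) : l1D.A x (i, A) = A1 x i A := rfl

theorem l1D_GG (x : X3) : l1D.GG x =
    (Real.exp (-(∑ i, ∑ A, x (i, A) * A1 x i A) / 2) : ℂ) := by
  rw [L1D.GG_eq]
  congr 2
  rw [l1_inner_sum, Fintype.sum_prod_type]
  simp only [l1D_A]
  rw [neg_div, neg_mul, neg_inj, one_div, div_eq_inv_mul]
  congr 1
  exact Finset.sum_congr rfl fun i _ => Finset.sum_congr rfl fun A _ => mul_comm _ _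

end Vale.Agent.P353.U
end

section

/-! # P353, C-L1: the second order identity on test functions -/

open MeasureTheory Filter Topology
open scoped ContDiff ComplexConjugate

namespace Vale.Agent.P353.U

variable {F : Type*} [NormedAddCommGroup F] [InnerProductSpace ℂ F]

/-! ### general facts on test functions -/

theorem l1_tst_sum {κ : Type*} (s : Finset κ) {f : κ → X3 → F} (h : ∀ k ∈ s, Setup.Tst (f k)) :
    Setup.Tst (fun x => ∑ k ∈ s, f k x) := by
  classical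
  refine ⟨ContDiff.sum fun k hk => (h k hk).1, ?_⟩
  induction s using Finset.induction_on with
  | empty => simp only [Finset.sum_empty]; exact HasCompactSupport.zero
  | insert a s ha ih =>
    simp only [Finset.sum_insert ha]
    exact (h a (Finset.mem_insert_self _ _)).2.add
      (ih fun k hk => h k (Finset.mem_insert_of_mem hk))

theorem l1_tst_csmul (c : ℂ) {f : X3 → F} (h : Setup.Tst f) : Setup.Tst (fun x => c • f x) := by
  refine ⟨h.1.const_smul c, h.2.mono ?_⟩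
  intro x hx
  simp only [Function.mem_support] at hx ⊢
  intro h0
  exact hx (by rw [h0, smul_zero])

theorem l1_nsq_add {f g : X3 → F} (hf : Setup.Tst f) (hg : Setup.Tst g) :
    nsq (fun x => f x + g x) = nsq f + nsq g + 2 * (∫ x, inner ℂ (f x) (g x)).re := by
  unfold nsq
  have hi := hf.inner_int hg.1.continuous
  have h1 : ∀ x, ‖f x + g x‖ ^ 2 = ‖f x‖ ^ 2 + ‖g x‖ ^ 2 + 2 * (inner ℂ (f x) (g x)).re := by
    intro x
    rw [norm_add_sq (𝕜 := ℂ)]
    simp only [RCLike.re_to_complex]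
    ring
  simp only [h1]
  have i1 : Integrable (fun x => ‖f x‖ ^ 2 + ‖g x‖ ^ 2) := hf.norm_sq_int.add hg.norm_sq_int
  have i2 : Integrable (fun x => 2 * (inner ℂ (f x) (g x)).re) := hi.re.const_mul 2
  rw [integral_add i1 i2, integral_add hf.norm_sq_int hg.norm_sq_int, integral_const_mul]
  congr 2
  exact integral_re hi

theorem l1_self {f : X3 → F} (hf : Setup.Tst f) (h : (∫ x, inner ℂ (f x) (f x)).re ≤ 0) :
    ∀ x, f x = 0 := by
  have hi := hf.inner_int hf.1.continuous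
  have h1 : ∫ x, ‖f x‖ ^ 2 = (∫ x, inner ℂ (f x) (f x)).re := by
    have := integral_re hi
    rw [RCLike.re_to_complex] at this
    rw [← this]
    refine integral_congr_ae (Eventually.of_forall fun x => ?_)
    simp only [RCLike.re_to_complex]
    exact (re_inner_self (f x)).symm
  have h2 : ∫ x, ‖f x‖ ^ 2 = 0 := le_antisymm (h1 ▸ h) (integral_nonneg fun x => by positivity)
  rw [integral_eq_zero_iff_of_nonneg (fun x => by positivity) hf.norm_sq_int] at h2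
  have h3 : (fun x => ‖f x‖ ^ 2) = fun _ => (0 : ℝ) :=
    (hf.1.continuous.norm.pow 2).ae_eq_iff_eq volume continuous_const |>.mp h2
  intro x
  have h4 := congrFun h3 x
  simpa using h4

/-- integrability against a locally `L²` function -/
theorem l1_int_cs {u : X3 → F} (h : L1Gr u) {g : X3 → F} (hg : Setup.Tst g) :
    Integrable (fun x => inner ℂ (g x) (u x)) := by
  have hn : HasCompactSupport (fun x => ((‖g x‖ : ℝ) : ℂ)) :=
    hg.2.comp_left (g := fun v : F => ((‖v‖ : ℝ) : ℂ)) (by simp)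
  obtain ⟨C, hC⟩ := l1_cs_bound (Complex.continuous_ofReal.comp hg.1.continuous.norm) hn
  refine ((h.int_dom one_pos).const_mul C).mono'
    (hg.1.continuous.aestronglyMeasurable.inner h.meas) (Eventually.of_forall fun x => ?_)
  have h1 : ‖g x‖ ≤ C * Real.exp (-(1 * ‖x‖ ^ 2)) := by
    have := hC x
    simpa using this
  have h0 : 0 ≤ C * Real.exp (-(1 * ‖x‖ ^ 2)) := (norm_nonneg _).trans h1
  calc ‖inner ℂ (g x) (u x)‖ ≤ ‖g x‖ * ‖u x‖ := norm_inner_le_norm _ _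
    _ ≤ (C * Real.exp (-(1 * ‖x‖ ^ 2))) * (1 + ‖u x‖ ^ 2) := by
        refine mul_le_mul h1 ?_ (norm_nonneg _) h0
        nlinarith [sq_nonneg (‖u x‖ - 1), norm_nonneg (u x)]
    _ = _ := by ring

/-! ### the operator `Qlin` -/

variable (S : Setup F)

/-- the multiplication part of `Qlin ξ₀` -/
noncomputable def l1Op (β : Fin 16) (x : X3) : F →L[ℂ] F := S.MM β x + S.DW S.xi0 β x

theorem l1_Qlin_eq (β : Fin 16) (u : X3 → F) (x : X3) :
    S.Qlin S.xi0 β u x = S.Q β u x - S.W β x (u x) + l1Op S β x (u x) := by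
  simp only [Setup.Qlin, Setup.Q0, Setup.Q, l1Op, _root_.add_apply]
  abel

theorem l1_contDiff_Op (β : Fin 16) : ContDiff ℝ ∞ (l1Op S β) := by
  unfold l1Op Setup.MM Setup.DW
  refine ContDiff.add ?_ ?_
  · refine ContDiff.sum fun i _ => ContDiff.sum fun A _ => ?_
    exact (Setup.contDiff_ofReal (contDiff_const.mul (Setup.contDiff_coord _))).smul contDiff_const
  · refine ContDiff.const_smul _ (ContDiff.sum fun A _ => ContDiff.sum fun B _ =>
      ContDiff.sum fun C _ => ContDiff.sum fun i _ => ContDiff.sum fun j _ => ?_)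
    exact (contDiff_const.mul (Setup.contDiff_ofReal (Setup.contDiff_coord _))).smul contDiff_const

theorem l1_MM_symm (β : Fin 16) (x : X3) (v w : F) :
    inner ℂ (S.MM β x v) w = inner ℂ v (S.MM β x w) := by
  simp only [Setup.MM, _root_.sum_apply, _root_.smul_apply, sum_inner, inner_sum,
    inner_smul_left, inner_smul_right,
    S.vec_symm _ (Setup.mul_im_zero (S.g_im _) S.Gam_real), Complex.conj_ofReal]

theorem l1_DW_symm (ξ : X3) (β : Fin 16) (x : X3) (v w : F) :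
    inner ℂ (S.DW ξ β x v) w = inner ℂ v (S.DW ξ β x w) := by
  simp only [Setup.DW, _root_.sum_apply, _root_.smul_apply, sum_inner, inner_sum,
    inner_smul_left, inner_smul_right, S.vec_symm _ (S.g2_im _ _), Complex.conj_ofReal, map_mul,
    map_intCast]

theorem l1_Op_symm (β : Fin 16) (x : X3) (v w : F) :
    inner ℂ (l1Op S β x v) w = inner ℂ v (l1Op S β x w) := by
  simp only [l1Op, _root_.add_apply, inner_add_left, inner_add_right, l1_MM_symm, l1_DW_symm]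

theorem l1_tst_Qlin {u : X3 → F} (hu : Setup.Tst u) (β : Fin 16) :
    Setup.Tst (S.Qlin S.xi0 β u) := by
  have h : S.Qlin S.xi0 β u = fun x => S.Q β u x - S.W β x (u x) + l1Op S β x (u x) := by
    funext x; exact l1_Qlin_eq S β u x
  rw [h]
  exact ((hu.Q S β).sub (hu.clm (S.contDiff_W β))).add (hu.clm (l1_contDiff_Op S β))

theorem l1_Qlin_symm {u v : X3 → F} (hu : Setup.Tst u) (hv : Setup.Tst v) (β : Fin 16) :
    ∫ x, inner ℂ (S.Qlin S.xi0 β u x) (v x) = ∫ x, inner ℂ (u x) (S.Qlin S.xi0 β v x) := by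
  have h1 := Q_symm S β u v hu hv.1
  have h2 : ∀ x, inner ℂ (S.Qlin S.xi0 β u x) (v x) - inner ℂ (S.Q β u x) (v x) =
      inner ℂ (u x) (S.Qlin S.xi0 β v x) - inner ℂ (u x) (S.Q β v x) := by
    intro x
    rw [l1_Qlin_eq, l1_Qlin_eq]
    simp only [inner_add_left, inner_add_right, inner_sub_left, inner_sub_right, S.W_symm,
      l1_Op_symm]
    ring
  have h3 := integral_congr_ae (μ := (volume : Measure X3)) (Eventually.of_forall h2)
  rw [integral_sub ((l1_tst_Qlin S hu β).inner_int hv.1.continuous)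
    ((hu.Q S β).inner_int hv.1.continuous),
    integral_sub (hu.inner_int (l1_tst_Qlin S hv β).1.continuous)
    (hu.inner_int (hv.Q S β).1.continuous), h1] at h3
  exact sub_left_inj.mp h3

theorem l1_Qlin_add {u v : X3 → F} (hu : Setup.Tst u) (hv : Setup.Tst v) (β : Fin 16) :
    S.Qlin S.xi0 β (fun x => u x + v x) = fun x => S.Qlin S.xi0 β u x + S.Qlin S.xi0 β v x := by
  funext x
  simp only [Setup.Qlin, Setup.Q0, pd_add (hu.diff x) (hv.diff x), map_add,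
    Finset.sum_add_distrib, smul_add]
  abel

/-! ### the lowering operators -/

/-- `∂_i^A + (A_1 x)_i^A` -/
noncomputable def l1a (i : Fin 9) (A : Fin 3) (u : X3 → F) (x : X3) : F :=
  pd i A u x + (A1 x i A : ℂ) • u x

/-- `-∂_i^A + (A_1 x)_i^A` -/
noncomputable def l1b (i : Fin 9) (A : Fin 3) (u : X3 → F) (x : X3) : F :=
  -pd i A u x + (A1 x i A : ℂ) • u x

theorem l1_contDiff_A1 (i : Fin 9) (A : Fin 3) : ContDiff ℝ ∞ (fun x : X3 => A1 x i A) := by
  have h : (fun x : X3 => A1 x i A) = fun x => l1D.A x (i, A) := rfl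
  rw [h]
  exact (Setup.contDiff_coord (i, A)).comp l1D.A.contDiff

theorem l1_tst_a {u : X3 → F} (hu : Setup.Tst u) (i : Fin 9) (A : Fin 3) :
    Setup.Tst (l1a i A u) := by
  exact (hu.pd i A).add (hu.rsmul (l1_contDiff_A1 i A))

theorem l1_tst_b {u : X3 → F} (hu : Setup.Tst u) (i : Fin 9) (A : Fin 3) :
    Setup.Tst (l1b i A u) := by
  exact ((hu.pd i A).neg).add (hu.rsmul (l1_contDiff_A1 i A))

theorem l1_a_add {u v : X3 → F} (hu : Setup.Tst u) (hv : Setup.Tst v) (i : Fin 9) (A : Fin 3) :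
    l1a i A (fun x => u x + v x) = fun x => l1a i A u x + l1a i A v x := by
  funext x
  simp only [l1a, pd_add (hu.diff x) (hv.diff x), smul_add]
  abel

theorem l1_ab {u v : X3 → F} (hu : Setup.Tst u) (hv : Setup.Tst v) (i : Fin 9) (A : Fin 3) :
    ∫ x, inner ℂ (l1b i A u x) (v x) = ∫ x, inner ℂ (u x) (l1a i A v x) := by
  have h1 := integral_inner_pd u v (hu.1.of_le (by simp)) (hv.1.of_le (by simp)) hu.2 i A
  have hm := hu.rsmul (l1_contDiff_A1 i A)
  have hm' := hv.rsmul (l1_contDiff_A1 i A)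
  have e1 : ∫ x, inner ℂ (l1b i A u x) (v x) = -(∫ x, inner ℂ (pd i A u x) (v x)) +
      ∫ x, inner ℂ ((A1 x i A : ℂ) • u x) (v x) := by
    have hn : Integrable (fun x => -inner ℂ (pd i A u x) (v x)) :=
      ((hu.pd i A).inner_int hv.1.continuous).neg
    rw [← integral_neg, ← integral_add hn (hm.inner_int hv.1.continuous)]
    refine integral_congr_ae (Eventually.of_forall fun x => ?_)
    simp only [l1b, inner_add_left, inner_neg_left]
  have e2 : ∫ x, inner ℂ (u x) (l1a i A v x) = (∫ x, inner ℂ (u x) (pd i A v x)) +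
      ∫ x, inner ℂ (u x) ((A1 x i A : ℂ) • v x) := by
    rw [← integral_add (hu.inner_int (hv.pd i A).1.continuous) (hu.inner_int hm'.1.continuous)]
    refine integral_congr_ae (Eventually.of_forall fun x => ?_)
    simp only [l1a, inner_add_right]
  rw [e1, e2, h1, neg_neg]
  congr 1
  refine integral_congr_ae (Eventually.of_forall fun x => ?_)
  simp only [inner_smul_left, inner_smul_right, Complex.conj_ofReal]

end Vale.Agent.P353.U
end

section

/-! # P353, C-L1: the second order identity on test functions, II -/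

open MeasureTheory Filter Topology
open scoped ContDiff ComplexConjugate

namespace Vale.Agent.P353.U

variable {F : Type*} [NormedAddCommGroup F] [InnerProductSpace ℂ F]

variable (S : Setup F)

/-- the second-order operator -/
noncomputable def l1H (N N' : F →L[ℂ] F) (ζ : X3 → F) (x : X3) : F :=
  (8 : ℂ) • (∑ i, ∑ A, l1b i A (l1a i A ζ) x) + (8 : ℂ) • (N (ζ x) + N' (ζ x))

theorem l1_tst_H (N N' : F →L[ℂ] F) {ζ : X3 → F} (hζ : Setup.Tst ζ) :
    Setup.Tst (l1H N N' ζ) := by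
  have h1 : Setup.Tst (fun x => ∑ i, ∑ A, l1b i A (l1a i A ζ) x) :=
    l1_tst_sum _ fun i _ => l1_tst_sum _ fun A _ => l1_tst_b (l1_tst_a hζ i A) i A
  have h2 : Setup.Tst (fun x => N (ζ x)) := hζ.clm (T := fun _ => N) contDiff_const
  have h3 : Setup.Tst (fun x => N' (ζ x)) := hζ.clm (T := fun _ => N') contDiff_const
  exact (l1_tst_csmul 8 h1).add (l1_tst_csmul 8 (h2.add h3))

theorem l1_inner_H (N N' : F →L[ℂ] F) (hN : ∀ v w, inner ℂ (N' v) w = inner ℂ v (N w))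
    {ζ v : X3 → F} (hζ : Setup.Tst ζ) (hv : Setup.Tst v) :
    ∫ x, inner ℂ (l1H N N' ζ x) (v x) =
      8 * (∑ i, ∑ A, ∫ x, inner ℂ (l1a i A ζ x) (l1a i A v x)) +
        8 * ((∫ x, inner ℂ (N (ζ x)) (v x)) + ∫ x, inner ℂ (ζ x) (N (v x))) := by
  have hba : ∀ i A, Setup.Tst (l1b i A (l1a i A ζ)) := fun i A => l1_tst_b (l1_tst_a hζ i A) i A
  have hs : Setup.Tst (fun x => ∑ i, ∑ A, l1b i A (l1a i A ζ) x) :=
    l1_tst_sum _ fun i _ => l1_tst_sum _ fun A _ => hba i A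
  have h2 : Setup.Tst (fun x => N (ζ x)) := hζ.clm (T := fun _ => N) contDiff_const
  have h3 : Setup.Tst (fun x => N' (ζ x)) := hζ.clm (T := fun _ => N') contDiff_const
  have hc := hv.1.continuous
  have hNc : Continuous fun x => N (v x) := N.continuous.comp hc
  have e0 : ∀ x, inner ℂ (l1H N N' ζ x) (v x) =
      8 * (∑ i, ∑ A, inner ℂ (l1b i A (l1a i A ζ) x) (v x)) +
        8 * (inner ℂ (N (ζ x)) (v x) + inner ℂ (ζ x) (N (v x))) := by
    intro x
    simp only [l1H, inner_add_left, inner_smul_left, sum_inner, hN, map_ofNat]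
  have i1 : Integrable (fun x => ∑ i, ∑ A, inner ℂ (l1b i A (l1a i A ζ) x) (v x)) :=
    integrable_finsetSum _ fun i _ => integrable_finsetSum _ fun A _ => (hba i A).inner_int hc
  have i2 : Integrable (fun x => inner ℂ (N (ζ x)) (v x)) := h2.inner_int hc
  have i3 : Integrable (fun x => inner ℂ (ζ x) (N (v x))) := hζ.inner_int hNc
  have i4 : Integrable (fun x => inner ℂ (N (ζ x)) (v x) + inner ℂ (ζ x) (N (v x))) := i2.add i3
  simp only [e0]
  rw [integral_add (i1.const_mul 8) (i4.const_mul 8), integral_const_mul, integral_const_mul,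
    integral_add i2 i3,
    integral_finsetSum _ fun i _ => integrable_finsetSum _ fun A _ => (hba i A).inner_int hc]
  congr 2
  refine Finset.sum_congr rfl fun i _ => ?_
  rw [integral_finsetSum _ fun A _ => (hba i A).inner_int hc]
  exact Finset.sum_congr rfl fun A _ => l1_ab (l1_tst_a hζ i A) hv i A

theorem l1_QQ {ζ v : X3 → F} (hζ : Setup.Tst ζ) (hv : Setup.Tst v) :
    ∫ x, inner ℂ (∑ β, S.Qlin S.xi0 β (S.Qlin S.xi0 β ζ) x) (v x) =
      ∑ β, ∫ x, inner ℂ (S.Qlin S.xi0 β ζ x) (S.Qlin S.xi0 β v x) := by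
  have hQ : ∀ β, Setup.Tst (S.Qlin S.xi0 β (S.Qlin S.xi0 β ζ)) := fun β =>
    l1_tst_Qlin S (l1_tst_Qlin S hζ β) β
  simp only [sum_inner]
  rw [integral_finsetSum _ fun β _ => (hQ β).inner_int hv.1.continuous]
  exact Finset.sum_congr rfl fun β _ => l1_Qlin_symm S (l1_tst_Qlin S hζ β) hv β

theorem l1_polar (hE : En1Stmt S) {ζ v : X3 → F} (hζ : Setup.Tst ζ) (hv : Setup.Tst v) :
    (∑ β, ∫ x, inner ℂ (S.Qlin S.xi0 β ζ x) (S.Qlin S.xi0 β v x)).re =
      8 * (∑ i, ∑ A, ∫ x, inner ℂ (l1a i A ζ x) (l1a i A v x)).re +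
        8 * ((∫ x, inner ℂ (v x) (S.N1 (ζ x))).re + (∫ x, inner ℂ (ζ x) (S.N1 (v x))).re) := by
  have h0 := hE (fun x => ζ x + v x) (hζ.add hv)
  have h1 := hE ζ hζ
  have h2 := hE v hv
  have eQ : ∀ β, nsq (S.Qlin S.xi0 β (fun x => ζ x + v x)) =
      nsq (S.Qlin S.xi0 β ζ) + nsq (S.Qlin S.xi0 β v) +
        2 * (∫ x, inner ℂ (S.Qlin S.xi0 β ζ x) (S.Qlin S.xi0 β v x)).re := fun β => by
    rw [l1_Qlin_add S hζ hv β]
    exact l1_nsq_add (l1_tst_Qlin S hζ β) (l1_tst_Qlin S hv β)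
  have ea : ∀ i A, nsq (l1a i A (fun x => ζ x + v x)) = nsq (l1a i A ζ) + nsq (l1a i A v) +
      2 * (∫ x, inner ℂ (l1a i A ζ x) (l1a i A v x)).re := fun i A => by
    rw [l1_a_add hζ hv i A]
    exact l1_nsq_add (l1_tst_a hζ i A) (l1_tst_a hv i A)
  have hNc : ∀ {w : X3 → F}, Setup.Tst w → Continuous fun x => S.N1 (w x) := fun hw =>
    S.N1.continuous.comp hw.1.continuous
  have eN : (∫ x, inner ℂ (ζ x + v x) (S.N1 (ζ x + v x))).re =
      (∫ x, inner ℂ (ζ x) (S.N1 (ζ x))).re + (∫ x, inner ℂ (v x) (S.N1 (v x))).re +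
        ((∫ x, inner ℂ (v x) (S.N1 (ζ x))).re + (∫ x, inner ℂ (ζ x) (S.N1 (v x))).re) := by
    have e : ∀ x, inner ℂ (ζ x + v x) (S.N1 (ζ x + v x)) =
        (inner ℂ (ζ x) (S.N1 (ζ x)) + inner ℂ (v x) (S.N1 (v x))) +
        (inner ℂ (v x) (S.N1 (ζ x)) + inner ℂ (ζ x) (S.N1 (v x))) := fun x => by
      rw [map_add, inner_add_left, inner_add_right, inner_add_right]; ring
    have i1 : Integrable (fun x => inner ℂ (ζ x) (S.N1 (ζ x))) := hζ.inner_int (hNc hζ)
    have i2 : Integrable (fun x => inner ℂ (v x) (S.N1 (v x))) := hv.inner_int (hNc hv)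
    have i3 : Integrable (fun x => inner ℂ (v x) (S.N1 (ζ x))) := hv.inner_int (hNc hζ)
    have i4 : Integrable (fun x => inner ℂ (ζ x) (S.N1 (v x))) := hζ.inner_int (hNc hv)
    have i5 : Integrable (fun x => inner ℂ (ζ x) (S.N1 (ζ x)) + inner ℂ (v x) (S.N1 (v x))) :=
      i1.add i2
    have i6 : Integrable (fun x => inner ℂ (v x) (S.N1 (ζ x)) + inner ℂ (ζ x) (S.N1 (v x))) :=
      i3.add i4
    simp only [e]
    rw [integral_add i5 i6, integral_add i1 i2, integral_add i3 i4]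
    simp only [Complex.add_re]
  have ha : ∀ (w : X3 → F) i A, (fun x => pd i A w x + (A1 x i A : ℂ) • w x) = l1a i A w :=
    fun w i A => rfl
  simp only [ha] at h0 h1 h2
  rw [eN] at h0
  simp only [eQ, ea, Finset.sum_add_distrib, ← Finset.mul_sum] at h0
  simp only [Complex.re_sum]
  linarith

theorem l1_second (hE : En1Stmt S) (N' : F →L[ℂ] F)
    (hN : ∀ v w, inner ℂ (N' v) w = inner ℂ v (S.N1 w)) {ζ : X3 → F} (hζ : Setup.Tst ζ) (x : X3) :
    ∑ β, S.Qlin S.xi0 β (S.Qlin S.xi0 β ζ) x = l1H S.N1 N' ζ x := by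
  have hQ : Setup.Tst (fun x => ∑ β, S.Qlin S.xi0 β (S.Qlin S.xi0 β ζ) x) :=
    l1_tst_sum _ fun β _ => l1_tst_Qlin S (l1_tst_Qlin S hζ β) β
  have hH := l1_tst_H S.N1 N' hζ
  have hD := hQ.sub hH
  refine sub_eq_zero.mp (l1_self hD ?_ x)
  have e1 : ∀ y, inner ℂ ((∑ β, S.Qlin S.xi0 β (S.Qlin S.xi0 β ζ) y) - l1H S.N1 N' ζ y)
      ((∑ β, S.Qlin S.xi0 β (S.Qlin S.xi0 β ζ) y) - l1H S.N1 N' ζ y) =
      inner ℂ (∑ β, S.Qlin S.xi0 β (S.Qlin S.xi0 β ζ) y)
        ((∑ β, S.Qlin S.xi0 β (S.Qlin S.xi0 β ζ) y) - l1H S.N1 N' ζ y) -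
      inner ℂ (l1H S.N1 N' ζ y)
        ((∑ β, S.Qlin S.xi0 β (S.Qlin S.xi0 β ζ) y) - l1H S.N1 N' ζ y) := fun y => by
    rw [inner_sub_left]
  simp only [e1]
  rw [integral_sub (hQ.inner_int hD.1.continuous) (hH.inner_int hD.1.continuous),
    l1_QQ S hζ hD, l1_inner_H S.N1 N' hN hζ hD, Complex.sub_re, l1_polar S hE hζ hD]
  have hc : (∫ x, inner ℂ ((∑ β, S.Qlin S.xi0 β (S.Qlin S.xi0 β ζ) x) - l1H S.N1 N' ζ x)
      (S.N1 (ζ x))).re = (∫ x, inner ℂ (S.N1 (ζ x))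
        ((∑ β, S.Qlin S.xi0 β (S.Qlin S.xi0 β ζ) x) - l1H S.N1 N' ζ x)).re := by
    have : ∀ x, inner ℂ ((∑ β, S.Qlin S.xi0 β (S.Qlin S.xi0 β ζ) x) - l1H S.N1 N' ζ x)
      (S.N1 (ζ x)) = conj (inner ℂ (S.N1 (ζ x))
        ((∑ β, S.Qlin S.xi0 β (S.Qlin S.xi0 β ζ) x) - l1H S.N1 N' ζ x)) := fun x =>
      (inner_conj_symm _ _).symm
    simp only [this]
    rw [integral_conj, Complex.conj_re]
  rw [hc]
  simp only [Complex.add_re, Complex.mul_re, Complex.re_ofNat, Complex.im_ofNat, zero_mul, sub_zero]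
  linarith

end Vale.Agent.P353.U
end

section

/-! # P353, C-L1: Liouville theorem at `ξ₀` -/

open MeasureTheory Filter Topology
open scoped ContDiff ComplexConjugate

namespace Vale.Agent.P353.U

variable {F : Type*} [NormedAddCommGroup F] [InnerProductSpace ℂ F]

variable (S : Setup F)

theorem l1_tst_eta {η : X3 → ℂ} (hη : ContDiff ℝ ∞ η) (hs : HasCompactSupport η) (b : F) :
    Setup.Tst (fun x => η x • b) := by
  refine ⟨hη.smul contDiff_const, hs.mono ?_⟩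
  intro x hx
  simp only [Function.mem_support] at hx ⊢
  intro h0
  exact hx (by rw [h0, zero_smul])

theorem l1_pd_eta {η : X3 → ℂ} (hη : ContDiff ℝ ∞ η) (b : F) (i : Fin 9) (A : Fin 3) (x : X3) :
    pd i A (fun y => η y • b) x = fderiv ℝ η x (l1e (i, A)) • b := by
  rw [pd_csmul (u := fun _ => b) (l1_diff hη x) (differentiableAt_const b)]
  have : pd i A (fun _ : X3 => b) x = 0 := by simp [pd]
  rw [this, smul_zero, add_zero]
  rfl

theorem l1_fderiv_A1 (i : Fin 9) (A : Fin 3) (x : X3) :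
    fderiv ℝ (fun y : X3 => (A1 y i A : ℂ)) x (l1e (i, A)) =
      ((inner ℝ (l1D.A (l1e (i, A))) (l1e (i, A)) : ℝ) : ℂ) := by
  have h1 : (fun y : X3 => (A1 y i A : ℂ)) =
      fun y => -(-((inner ℝ (l1D.A y) (l1e (i, A)) : ℝ) : ℂ)) := by
    funext y
    rw [neg_neg, l1_inner_e]
    rfl
  rw [h1, fderiv_fun_neg, neg_apply, L1D.fderiv_A, neg_neg]

theorem l1_H_eta (N N' : F →L[ℂ] F) {η : X3 → ℂ} (hη : ContDiff ℝ ∞ η) {b : F} {μ : ℝ}
    (hb : N b + N' b = (μ : ℂ) • b) (x : X3) :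
    l1H N N' (fun y => η y • b) x = (8 * l1D.L0 (μ / 2) η x) • b := by
  have hA1 : ∀ i A, ContDiff ℝ ∞ (fun y : X3 => (A1 y i A : ℂ)) := fun i A =>
    Setup.contDiff_ofReal (l1_contDiff_A1 i A)
  have ha : ∀ i A, l1a i A (fun y => η y • b) =
      fun y => (fderiv ℝ η y (l1e (i, A)) + (A1 y i A : ℂ) * η y) • b := by
    intro i A; funext y
    rw [l1a, l1_pd_eta hη b i A y, smul_smul, ← add_smul]
  have hη1 : ∀ i A, ContDiff ℝ ∞ (fun y => fderiv ℝ η y (l1e (i, A)) + (A1 y i A : ℂ) * η y) :=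
    fun i A => (l1_contDiff_dir hη _).add ((hA1 i A).mul hη)
  have hb2 : ∀ i A, l1b i A (l1a i A (fun y => η y • b)) x =
      (-fderiv ℝ (fun y => fderiv ℝ η y (l1e (i, A))) x (l1e (i, A)) +
        ((A1 x i A : ℂ) ^ 2 - ((inner ℝ (l1D.A (l1e (i, A))) (l1e (i, A)) : ℝ) : ℂ)) * η x) • b := by
    intro i A
    rw [ha i A, l1b, l1_pd_eta (hη1 i A) b i A x, smul_smul, ← neg_smul, ← add_smul]
    congr 1
    have d1 : DifferentiableAt ℝ (fun y => fderiv ℝ η y (l1e (i, A))) x :=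
      l1_diff (l1_contDiff_dir hη _) x
    have d2 : DifferentiableAt ℝ (fun y => (A1 y i A : ℂ) * η y) x :=
      l1_diff ((hA1 i A).mul hη) x
    rw [fderiv_fun_add d1 d2, add_apply, l1_fderiv_mul (l1_diff (hA1 i A) x) (l1_diff hη x),
      l1_fderiv_A1]
    ring
  unfold l1H
  simp only [hb2, map_smul, ← smul_add, hb, ← Finset.sum_smul]
  simp only [smul_smul, ← add_smul]
  congr 1
  unfold L1D.L0
  have e1 : ‖l1D.A x‖ ^ 2 = ∑ i, ∑ A, A1 x i A ^ 2 := by
    rw [← real_inner_self_eq_norm_sq, l1_inner_sum, Fintype.sum_prod_type]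
    simp only [l1D_A]
    exact Finset.sum_congr rfl fun i _ => Finset.sum_congr rfl fun A _ => by ring
  have e2 : l1D.tr = ∑ i, ∑ A, inner ℝ (l1D.A (l1e (i, A))) (l1e (i, A)) := by
    rw [L1D.tr, Fintype.sum_prod_type]
  rw [e1, e2, Fintype.sum_prod_type]
  simp only [Finset.sum_add_distrib, Finset.sum_neg_distrib, ← Finset.sum_mul,
    Finset.sum_sub_distrib]
  push_cast
  ring

/-- scalar components of a growing function -/
theorem l1_gr_inner {u : X3 → F} (h : L1Gr u) (b : F) : L1Gr (fun x => inner ℂ b (u x)) := by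
  have hm : AEStronglyMeasurable (fun x => inner ℂ b (u x)) (volume : Measure X3) :=
    aestronglyMeasurable_const.inner h.meas
  have hle : ∀ x, ‖inner ℂ b (u x)‖ ^ 2 ≤ ‖b‖ ^ 2 * ‖u x‖ ^ 2 := fun x => by
    rw [← mul_pow]
    exact pow_le_pow_left₀ (norm_nonneg _) (norm_inner_le_norm _ _) 2
  have hloc : ∀ s : ℝ, 0 < s →
      IntegrableOn (fun x => ‖inner ℂ b (u x)‖ ^ 2) (Metric.ball (0 : X3) s) := fun s hs => by
    refine ((h.loc s hs).const_mul (‖b‖ ^ 2)).mono' (hm.norm.pow 2).restrict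
      (Eventually.of_forall fun x => ?_)
    rw [Real.norm_of_nonneg (by positivity)]
    exact hle x
  obtain ⟨K, p, hK⟩ := h.gr
  refine ⟨hm, hloc, ‖b‖ ^ 2 * K, p, fun s hs => ?_⟩
  have hs0 : 0 < s := by linarith
  calc ∫ x in Metric.ball (0 : X3) s, ‖inner ℂ b (u x)‖ ^ 2
      ≤ ∫ x in Metric.ball (0 : X3) s, ‖b‖ ^ 2 * ‖u x‖ ^ 2 :=
        setIntegral_mono (hloc s hs0) ((h.loc s hs0).const_mul _) hle
    _ = ‖b‖ ^ 2 * ∫ x in Metric.ball (0 : X3) s, ‖u x‖ ^ 2 := integral_const_mul _ _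
    _ ≤ ‖b‖ ^ 2 * (K * s ^ p) := mul_le_mul_of_nonneg_left (hK s hs) (by positivity)
    _ = _ := by ring

theorem l1_xi0 {η : X3 → ℂ} (hη : ContDiff ℝ ∞ η) (b : F) (C : Fin 3) (x : X3) :
    (∑ i, ∑ A, ∑ B, ((eps C A B : ℂ) * (S.xi0 (i, A) : ℂ)) • pd i B (fun y => η y • b) x) =
      ((-(2 / S.κ) : ℝ) : ℂ) • (fderiv ℝ η x (l1tau C) • b) := by
  have h1 : ∀ i A, (S.xi0 (i, A) : ℂ) = if i = ci A then ((-(2 / S.κ) : ℝ) : ℂ) else 0 := by
    intro i A
    have : S.xi0 (i, A) = if i = ci A then -(2 / S.κ) else 0 := rfl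
    rw [this]
    split_ifs <;> simp
  simp only [l1_pd_eta hη, h1]
  rw [Finset.sum_comm]
  have h2 : ∀ A : Fin 3, (∑ i, ∑ B, ((eps C A B : ℂ) * (if i = ci A then
      ((-(2 / S.κ) : ℝ) : ℂ) else 0)) • (fderiv ℝ η x (l1e (i, B)) • b)) =
      ∑ B, ((eps C A B : ℂ) * ((-(2 / S.κ) : ℝ) : ℂ)) • (fderiv ℝ η x (l1e (ci A, B)) • b) := by
    intro A
    rw [Finset.sum_eq_single (ci A)]
    · simp
    · intro i _ hi
      simp [hi]
    · intro h; exact absurd (Finset.mem_univ _) h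
  simp only [h2]
  have h3 : fderiv ℝ η x (l1tau C) = ∑ A, ∑ B, (eps C A B : ℂ) * fderiv ℝ η x (l1e (ci A, B)) := by
    unfold l1tau
    simp only [map_sum, map_smul]
    refine Finset.sum_congr rfl fun A _ => Finset.sum_congr rfl fun B _ => ?_
    rw [Complex.real_smul]
    push_cast
    rfl
  rw [h3]
  simp only [Finset.sum_smul, Finset.smul_sum, smul_smul]
  refine Finset.sum_congr rfl fun A _ => Finset.sum_congr rfl fun B _ => ?_
  congr 1
  ring

theorem l1_scalar (hE : En1Stmt S) (N' : F →L[ℂ] F)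
    (hN : ∀ v w, inner ℂ (N' v) w = inner ℂ v (S.N1 w)) {u : X3 → F} (hu : L1Gr u)
    (h1 : ∀ β ζ, Setup.Tst ζ → ∫ x, inner ℂ (S.Qlin S.xi0 β ζ x) (u x) = 0)
    (h2 : ∀ (C : Fin 3) ζ, Setup.Tst ζ → ∫ x, inner ℂ
      (∑ i, ∑ A, ∑ B, ((eps C A B : ℂ) * (S.xi0 (i, A) : ℂ)) • pd i B ζ x) (u x) = 0)
    {b : F} {μ : ℝ} (hb : S.N1 b + N' b = (μ : ℂ) • b) :
    L1Sol l1D (μ / 2) (fun x => inner ℂ b (u x)) := by
  refine ⟨l1_gr_inner hu b, fun η hη hs => ?_, fun C η hη hs => ?_⟩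
  · have hζ := l1_tst_eta hη hs b
    have e1 : ∫ x, inner ℂ (l1H S.N1 N' (fun y => η y • b) x) (u x) = 0 := by
      have e2 : ∀ x, inner ℂ (l1H S.N1 N' (fun y => η y • b) x) (u x) =
          ∑ β, inner ℂ (S.Qlin S.xi0 β (S.Qlin S.xi0 β (fun y => η y • b)) x) (u x) := fun x => by
        rw [← l1_second S hE N' hN hζ x, sum_inner]
      simp only [e2]
      rw [integral_finsetSum _ fun β _ => l1_int_cs hu (l1_tst_Qlin S (l1_tst_Qlin S hζ β) β)]
      exact Finset.sum_eq_zero fun β _ => h1 β _ (l1_tst_Qlin S hζ β)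
    have e3 : ∀ x, inner ℂ (l1H S.N1 N' (fun y => η y • b) x) (u x) =
        8 * inner ℂ (l1D.L0 (μ / 2) η x) (inner ℂ b (u x)) := fun x => by
      rw [l1_H_eta S.N1 N' hη hb x, inner_smul_left, RCLike.inner_apply, map_mul, map_ofNat]
      ring
    simp only [e3] at e1
    rw [integral_const_mul] at e1
    rcases mul_eq_zero.mp e1 with h | h
    · norm_num at h
    · exact h
  · have hζ := l1_tst_eta hη hs b
    have e1 := h2 C _ hζ
    have e3 : ∀ x, inner ℂ (∑ i, ∑ A, ∑ B, ((eps C A B : ℂ) * (S.xi0 (i, A) : ℂ)) •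
        pd i B (fun y => η y • b) x) (u x) =
        ((-(2 / S.κ) : ℝ) : ℂ) * inner ℂ (fderiv ℝ η x (l1D.τ C)) (inner ℂ b (u x)) := fun x => by
      rw [l1_xi0 S hη b C x, inner_smul_left, inner_smul_left, Complex.conj_ofReal,
        RCLike.inner_apply]
      have : l1D.τ C = l1tau C := rfl
      rw [this]
      ring
    simp only [e3] at e1
    rw [integral_const_mul] at e1
    rcases mul_eq_zero.mp e1 with h | h
    · have hκ := S.κ_pos
      have h' : -(2 / S.κ) = 0 := Complex.ofReal_eq_zero.mp h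
      have : 0 < 2 / S.κ := by positivity
      linarith
    · exact h

omit S in
theorem l1_eig [FiniteDimensional ℂ F] (T : F →ₗ[ℂ] F) (hT : T.IsSymmetric) :
    ∃ (n : ℕ) (b : OrthonormalBasis (Fin n) ℂ F) (μ : Fin n → ℝ),
      ∀ j, T (b j) = ((μ j : ℝ) : ℂ) • b j := by
  refine ⟨Module.finrank ℂ F, hT.eigenvectorBasis rfl, hT.eigenvalues rfl, fun j => ?_⟩
  have h := hT.apply_eigenvectorBasis rfl j
  rw [h]
  rfl

/-- **C-L1** -/
theorem l1 [FiniteDimensional ℂ F] (hE : En1Stmt S) (hN : N1Stmt S) : L1Stmt S := by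
  intro hIrr hne
  obtain ⟨hpos, Ω, hΩ, hΩ0, hker⟩ := hN hIrr hne
  refine ⟨Ω, hΩ, fun u hum hloc hgr hQ hG => ?_⟩
  have hcomp : CompleteSpace F := FiniteDimensional.complete ℂ F
  have hu : L1Gr u := ⟨hum.aestronglyMeasurable, hloc, hgr⟩
  let N' : F →L[ℂ] F := ContinuousLinearMap.adjoint S.N1
  have hN' : ∀ v w, inner ℂ (N' v) w = inner ℂ v (S.N1 w) := fun v w =>
    ContinuousLinearMap.adjoint_inner_left S.N1 w v
  have hN'' : ∀ v w, inner ℂ (S.N1 v) w = inner ℂ v (N' w) := fun v w => by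
    rw [← inner_conj_symm, ← hN' w v, inner_conj_symm]
  let T : F →ₗ[ℂ] F := ((S.N1 + N' : F →L[ℂ] F) : F →ₗ[ℂ] F)
  have hTa : ∀ v, T v = S.N1 v + N' v := fun v => rfl
  have hT : T.IsSymmetric := by
    intro v w
    rw [hTa, hTa, inner_add_left, inner_add_right, hN', hN'', add_comm]
  obtain ⟨n, b, μ, hTb⟩ := l1_eig T hT
  have hb : ∀ j, S.N1 (b j) + N' (b j) = ((μ j : ℝ) : ℂ) • b j := fun j => by
    rw [← hTa, hTb]
  have hμ : ∀ j, μ j = 2 * (inner ℂ (b j) (S.N1 (b j))).re := fun j => by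
    have e1 : inner ℂ (b j) (S.N1 (b j) + N' (b j)) = ((μ j : ℝ) : ℂ) := by
      rw [hb j, inner_smul_right, inner_self_eq_norm_sq_to_K, b.norm_eq_one]
      simp
    have e2 : inner ℂ (b j) (N' (b j)) = conj (inner ℂ (b j) (S.N1 (b j))) := by
      rw [← hN'', inner_conj_symm]
    rw [inner_add_right, e2] at e1
    have e3 := congrArg Complex.re e1
    rw [Complex.add_re, Complex.conj_re, Complex.ofReal_re] at e3
    linarith
  have hμ0 : ∀ j, 0 ≤ μ j := fun j => by rw [hμ j]; have := hpos (b j); linarith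
  have hd : ∀ j, ∃ d : ℂ, μ j = 0 → b j = d • Ω := fun j => by
    by_cases h0 : μ j = 0
    · have h1 : (inner ℂ (b j) (S.N1 (b j))).re = 0 := by
        have := hμ j; linarith
      obtain ⟨d, hd⟩ := hker _ h1
      exact ⟨d, fun _ => hd⟩
    · exact ⟨0, fun h => absurd h h0⟩
  choose d hd using hd
  have hc : ∀ j, ∃ c : ℂ, (0 < μ j / 2 → c = 0) ∧
      ∀ᵐ x ∂(volume : Measure X3), inner ℂ (b j) (u x) = c * l1D.GG x := fun j =>
    (l1_scalar S hE N' hN' hu hQ hG (hb j)).liouville (by have := hμ0 j; linarith)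
  choose c hc0 hc1 using hc
  refine ⟨∑ j, c j * d j, ?_⟩
  have hall : ∀ᵐ x ∂(volume : Measure X3), ∀ j, inner ℂ (b j) (u x) = c j * l1D.GG x :=
    ae_all_iff.mpr hc1
  filter_upwards [hall] with x hx
  have h1 : u x = ∑ j, inner ℂ (b j) (u x) • b j := (b.sum_repr' (u x)).symm
  rw [h1]
  have h2 : ∀ j, inner ℂ (b j) (u x) • b j = (c j * d j * l1D.GG x) • Ω := fun j => by
    rw [hx j]
    rcases (hμ0 j).eq_or_lt with h0 | h0
    · have h3 : (c j * l1D.GG x) • b j = (c j * l1D.GG x) • (d j • Ω) :=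
        congrArg (fun v => (c j * l1D.GG x) • v) (hd j h0.symm)
      rw [h3, smul_smul]
      congr 1
      ring
    · rw [hc0 j (by linarith)]
      simp
  simp only [h2]
  rw [← Finset.sum_smul, ← Finset.sum_mul, l1D_GG]

end Vale.Agent.P353.U
end

section

/-! # Invariance of radial mollifications -/

open MeasureTheory Filter Topology
open scoped ContDiff

namespace Vale.Agent.P353.Moll

variable {F : Type*} [NormedAddCommGroup F] [InnerProductSpace ℂ F] {ε : ℝ} {g : ℝ → ℝ}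

lemma pd_mo {ρ : X3 → ℝ} (hρ : ContDiff ℝ ∞ ρ) (hc : HasCompactSupport ρ) {f : X3 → F}
    (hf : LocallyIntegrable f volume) (i : Fin 9) (A : Fin 3) (x : X3) :
    pd i A (mo ρ f) x = mo (pdr i A ρ) f x := by
  rw [pd, fderiv_mo hρ hc hf]
  rfl

/-- the test function `y ↦ ρ(x - y) v` -/
noncomputable def tz (ρ : X3 → ℝ) (x : X3) (v : F) (y : X3) : F := ((ρ (x - y) : ℝ) : ℂ) • v

lemma Tst_tz {ρ : X3 → ℝ} (hρ : ContDiff ℝ ∞ ρ) (hc : HasCompactSupport ρ) (x : X3) (v : F) :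
    Setup.Tst (tz ρ x v) := by
  have h1 : ContDiff ℝ ∞ (fun y : X3 => ρ (x - y)) := hρ.comp (contDiff_const.sub contDiff_id)
  have h2 : HasCompactSupport (fun y : X3 => ρ (x - y)) :=
    hc.comp_homeomorph (Homeomorph.subLeft x)
  refine ⟨(Setup.contDiff_ofReal h1).smul contDiff_const, h2.mono ?_⟩
  intro y hy
  simp only [Function.mem_support, tz] at hy ⊢
  intro h0
  exact hy (by rw [h0]; simp)

lemma pd_tz {ρ : X3 → ℝ} (hρ : ContDiff ℝ ∞ ρ) (x : X3) (v : F) (i : Fin 9) (A : Fin 3)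
    (y : X3) : pd i A (tz ρ x v) y = -((((pdr i A ρ (x - y)) : ℝ) : ℂ) • v) := by
  have h1 : ContDiff ℝ ∞ (fun y : X3 => ρ (x - y)) := hρ.comp (contDiff_const.sub contDiff_id)
  have h2 : fderiv ℝ (fun y : X3 => ρ (x - y)) y (EuclideanSpace.single (i, A) (1 : ℝ)) =
      - pdr i A ρ (x - y) := by
    have h3 : HasFDerivAt (fun y : X3 => x - y) (-(ContinuousLinearMap.id ℝ X3)) y :=
      (hasFDerivAt_id y).const_sub x
    have h4 := ((hρ.differentiable (by simp)) (x - y)).hasFDerivAt.comp y h3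
    have h5 : fderiv ℝ (fun y : X3 => ρ (x - y)) y = _ := h4.fderiv
    rw [h5]
    simp [pdr]
  have h6 := pd_rsmul (i := i) (A := A) (φ := fun y : X3 => ρ (x - y)) (u := fun _ => v) (x := y)
    ((h1.differentiable (by simp)) y) (differentiableAt_const v)
  have h7 : pd i A (fun _ : X3 => v) y = 0 := by simp [pd]
  rw [h7, smul_zero, add_zero] at h6
  have h8 : pd i A (tz ρ x v) y = _ := h6
  rw [h8, h2]
  push_cast
  rw [neg_smul]

/-- first order operator with real linear coefficients -/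
noncomputable def Dop (c : X3 → Fin 9 → Fin 3 → ℝ) (T : F →L[ℂ] F) (u : X3 → F) (x : X3) : F :=
  (-Complex.I) • ∑ i, ∑ B, ((c x i B : ℝ) : ℂ) • pd i B u x + T (u x)

lemma Dop_mo [CompleteSpace F] {ρ : X3 → ℝ} (hρ : ContDiff ℝ ∞ ρ) (hc : HasCompactSupport ρ)
    (c : X3 → Fin 9 → Fin 3 → ℝ) (T : F →L[ℂ] F) {f : X3 → F}
    (hf : LocallyIntegrable f volume) (x : X3) :
    Dop c T (mo ρ f) x = ∫ y, ((-Complex.I) • ∑ i, ∑ B, ((c x i B : ℝ) : ℂ) •
      pdr i B ρ (x - y) • f y + T (ρ (x - y) • f y)) := by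
  have i1 : ∀ i B, Integrable (fun y => pdr i B ρ (x - y) • f y) := fun i B =>
    integrable_mo (contDiff_pdr hρ i B).continuous
      (hc.fderiv_apply (𝕜 := ℝ) (EuclideanSpace.single (i, B) (1 : ℝ) : X3)) hf x
  have i2 : Integrable (fun y => ρ (x - y) • f y) := integrable_mo hρ.continuous hc hf x
  have j1 : ∀ i B, Integrable (fun y => ((c x i B : ℝ) : ℂ) • pdr i B ρ (x - y) • f y) :=
    fun i B => (i1 i B).smul _
  have j2 : ∀ i, Integrable (fun y => ∑ B, ((c x i B : ℝ) : ℂ) • pdr i B ρ (x - y) • f y) :=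
    fun i => integrable_finsetSum _ fun B _ => j1 i B
  have j3 : Integrable (fun y => (-Complex.I) • ∑ i, ∑ B, ((c x i B : ℝ) : ℂ) •
      pdr i B ρ (x - y) • f y) := (integrable_finsetSum _ fun i _ => j2 i).smul (-Complex.I)
  have j4 : Integrable (fun y => T (ρ (x - y) • f y)) := T.integrable_comp i2
  rw [integral_add j3 j4, integral_smul, integral_finsetSum _ fun i _ => j2 i, Dop]
  have e1 : ∀ i, ∫ y, ∑ B, ((c x i B : ℝ) : ℂ) • pdr i B ρ (x - y) • f y =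
      ∑ B, ((c x i B : ℝ) : ℂ) • pd i B (mo ρ f) x := by
    intro i
    rw [integral_finsetSum _ fun B _ => j1 i B]
    refine Finset.sum_congr rfl fun B _ => ?_
    rw [integral_smul, pd_mo hρ hc hf]
    rfl
  have e2 : ∫ y, T (ρ (x - y) • f y) = T (mo ρ f x) := T.integral_comp_comm i2
  simp only [e1, e2]

/-- invariance of the mollification -/
lemma Dop_mo_eq_zero [CompleteSpace F] {g : ℝ → ℝ} (hg : ContDiff ℝ ∞ g)
    (hc : HasCompactSupport (rad g)) {c : X3 → Fin 9 → Fin 3 → ℝ} {T : F →L[ℂ] F}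
    (hT : ∀ v w, inner ℂ (T v) w = inner ℂ v (T w))
    (hlin : ∀ x y i B, c x i B - c y i B = c (x - y) i B)
    (hrot : ∀ z : X3, ∑ i, ∑ B, c z i B * z (i, B) = 0)
    {Ψ : X3 → F} (hΨ : LocallyIntegrable Ψ volume)
    (hw : ∀ ζ, Setup.Tst ζ → ∫ x, inner ℂ (Dop c T ζ x) (Ψ x) = 0) (x : X3) :
    Dop c T (mo (rad g) Ψ) x = 0 := by
  have hρ := contDiff_rad hg
  have i1 : ∀ i B, Integrable (fun y => pdr i B (rad g) (x - y) • Ψ y) := fun i B =>
    integrable_mo (contDiff_pdr hρ i B).continuous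
      (hc.fderiv_apply (𝕜 := ℝ) (EuclideanSpace.single (i, B) (1 : ℝ) : X3)) hΨ x
  have i2 : Integrable (fun y => rad g (x - y) • Ψ y) := integrable_mo hρ.continuous hc hΨ x
  have i3 : Integrable (fun y => (-Complex.I) • ∑ i, ∑ B, ((c x i B : ℝ) : ℂ) •
      pdr i B (rad g) (x - y) • Ψ y + T (rad g (x - y) • Ψ y)) := by
    refine Integrable.add ?_ (T.integrable_comp i2)
    exact (integrable_finsetSum _ fun i _ => integrable_finsetSum _ fun B _ =>
      (i1 i B).smul _).smul (-Complex.I)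
  refine ext_inner_left ℂ fun v => ?_
  rw [inner_zero_right, Dop_mo hρ hc c T hΨ x, ← integral_inner i3,
    ← hw (tz (rad g) x v) (Tst_tz hρ hc x v)]
  refine integral_congr_ae (Eventually.of_forall fun y => ?_)
  have hrad : ∀ i B, pdr i B (rad g) (x - y) = 2 * deriv g (‖x - y‖ ^ 2) * (x - y) (i, B) :=
    fun i B => pdr_rad hg i B (x - y)
  have hkey : ∑ i, ∑ B, c x i B * pdr i B (rad g) (x - y) =
      ∑ i, ∑ B, c y i B * pdr i B (rad g) (x - y) := by
    rw [← sub_eq_zero, ← Finset.sum_sub_distrib]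
    have h1 : ∀ i, (∑ B, c x i B * pdr i B (rad g) (x - y)) -
        ∑ B, c y i B * pdr i B (rad g) (x - y) =
        2 * deriv g (‖x - y‖ ^ 2) * ∑ B, c (x - y) i B * (x - y) (i, B) := by
      intro i
      rw [← Finset.sum_sub_distrib, Finset.mul_sum]
      refine Finset.sum_congr rfl fun B _ => ?_
      rw [← sub_mul, hlin, hrad]
      ring
    simp only [h1, ← Finset.mul_sum, hrot, mul_zero]
  have hkeyC : ∑ i, ∑ B, ((c x i B : ℝ) : ℂ) * ((pdr i B (rad g) (x - y) : ℝ) : ℂ) =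
      ∑ i, ∑ B, ((c y i B : ℝ) : ℂ) * ((pdr i B (rad g) (x - y) : ℝ) : ℂ) := by
    exact_mod_cast congrArg (fun r : ℝ => (r : ℂ)) hkey
  have hL : inner ℂ v ((-Complex.I) • ∑ i, ∑ B, ((c x i B : ℝ) : ℂ) •
      pdr i B (rad g) (x - y) • Ψ y + T (rad g (x - y) • Ψ y)) =
      (-Complex.I) * ((∑ i, ∑ B, ((c x i B : ℝ) : ℂ) * ((pdr i B (rad g) (x - y) : ℝ) : ℂ)) *
        inner ℂ v (Ψ y)) + ((rad g (x - y) : ℝ) : ℂ) * inner ℂ (T v) (Ψ y) := by
    simp only [← Complex.coe_smul (E := F), map_smul, inner_add_right, inner_smul_right, inner_sum,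
      ← hT, Finset.sum_mul]
    congr 2
    refine Finset.sum_congr rfl fun i _ => Finset.sum_congr rfl fun B _ => ?_
    ring
  have hR : inner ℂ (Dop c T (tz (rad g) x v) y) (Ψ y) =
      (-Complex.I) * ((∑ i, ∑ B, ((c y i B : ℝ) : ℂ) * ((pdr i B (rad g) (x - y) : ℝ) : ℂ)) *
        inner ℂ v (Ψ y)) + ((rad g (x - y) : ℝ) : ℂ) * inner ℂ (T v) (Ψ y) := by
    have e1 : ∀ i B, pd i B (tz (rad g) x v) y = -((((pdr i B (rad g) (x - y)) : ℝ) : ℂ) • v) :=
      fun i B => pd_tz hρ x v i B y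
    simp only [Dop, e1, tz, map_smul, inner_add_left, inner_smul_left, sum_inner, inner_neg_left,
      Complex.conj_ofReal, map_neg, Complex.conj_I, smul_neg, Finset.sum_mul]
    rw [add_left_inj]
    simp only [neg_neg, neg_mul, Finset.mul_sum]
    refine Finset.sum_congr rfl fun i _ => Finset.sum_congr rfl fun B _ => ?_
    ring
  simp only
  rw [hL, hR, hkeyC]

/-- radial multipliers commute -/
lemma Dop_rad {h : ℝ → ℝ} (hh : ContDiff ℝ ∞ h) {c : X3 → Fin 9 → Fin 3 → ℝ} {T : F →L[ℂ] F}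
    (hrot : ∀ z : X3, ∑ i, ∑ B, c z i B * z (i, B) = 0) {u : X3 → F} {x : X3}
    (hu : DifferentiableAt ℝ u x) :
    Dop c T (fun y => ((rad h y : ℝ) : ℂ) • u y) x = ((rad h x : ℝ) : ℂ) • Dop c T u x := by
  have e : ∀ i B, pd i B (fun y => ((rad h y : ℝ) : ℂ) • u y) x =
      ((2 * deriv h (‖x‖ ^ 2) * x (i, B) : ℝ) : ℂ) • u x + ((rad h x : ℝ) : ℂ) • pd i B u x := by
    intro i B
    rw [pd_rsmul ((contDiff_rad hh).differentiable (by simp) x) hu]
    have := pdr_rad hh i B x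
    rw [pdr] at this
    rw [this]
  have h2 : ∑ i, ∑ B, (((c x i B : ℝ) : ℂ) • ((2 * deriv h (‖x‖ ^ 2) * x (i, B) : ℝ) : ℂ) • u x) =
      0 := by
    have h3 : ∑ i, ∑ B, (((c x i B : ℝ) : ℂ) * ((2 * deriv h (‖x‖ ^ 2) * x (i, B) : ℝ) : ℂ)) =
        0 := by
      have h4 : ∑ i, ∑ B, (c x i B * (2 * deriv h (‖x‖ ^ 2) * x (i, B))) = 0 := by
        have h5 : ∀ i, ∑ B, (c x i B * (2 * deriv h (‖x‖ ^ 2) * x (i, B))) =
            2 * deriv h (‖x‖ ^ 2) * ∑ B, c x i B * x (i, B) := by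
          intro i
          rw [Finset.mul_sum]
          exact Finset.sum_congr rfl fun B _ => by ring
        simp only [h5, ← Finset.mul_sum, hrot, mul_zero]
      exact_mod_cast congrArg (fun r : ℝ => (r : ℂ)) h4
    simp only [smul_smul, ← Finset.sum_smul, h3, zero_smul]
  simp only [Dop, e, smul_add, Finset.sum_add_distrib, h2, zero_add, map_smul]
  congr 1
  simp only [Finset.smul_sum, smul_smul]
  refine Finset.sum_congr rfl fun i _ => Finset.sum_congr rfl fun B _ => ?_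
  congr 1
  ring

/-- coefficients of `G_C` -/
noncomputable def gco (C : Fin 3) (x : X3) (i : Fin 9) (B : Fin 3) : ℝ :=
  ∑ A, (eps C A B : ℝ) * x (i, A)

/-- coefficients of `J_{kl}` -/
noncomputable def jco (k l : Fin 9) (x : X3) (i : Fin 9) (B : Fin 3) : ℝ :=
  (if i = l then x (k, B) else 0) - (if i = k then x (l, B) else 0)

lemma G_eq_Dop (S : Setup F) (C : Fin 3) (u : X3 → F) (x : X3) :
    S.G C u x = Dop (gco C) (S.cS C) u x := by
  rw [Setup.G, Dop]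
  congr 2
  refine Finset.sum_congr rfl fun i _ => ?_
  rw [Finset.sum_comm]
  refine Finset.sum_congr rfl fun B _ => ?_
  rw [gco, Complex.ofReal_sum, Finset.sum_smul]
  refine Finset.sum_congr rfl fun A _ => ?_
  push_cast
  rfl

lemma J_eq_Dop (S : Setup F) (k l : Fin 9) (u : X3 → F) (x : X3) :
    S.J k l u x = Dop (jco k l) (S.Skl k l) u x := by
  rw [Setup.J, Dop]
  congr 2
  rw [Finset.sum_comm]
  refine Finset.sum_congr rfl fun B _ => ?_
  simp only [jco, Complex.ofReal_sub, sub_smul, Finset.sum_sub_distrib]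
  congr 1
  · rw [Finset.sum_eq_single l]
    · simp
    · intro i _ hi; simp [hi]
    · intro h; exact absurd (Finset.mem_univ _) h
  · rw [Finset.sum_eq_single k]
    · simp
    · intro i _ hi; simp [hi]
    · intro h; exact absurd (Finset.mem_univ _) h

lemma gco_lin (C : Fin 3) (x y : X3) (i : Fin 9) (B : Fin 3) :
    gco C x i B - gco C y i B = gco C (x - y) i B := by
  simp only [gco, ← Finset.sum_sub_distrib, PiLp.sub_apply]
  exact Finset.sum_congr rfl fun A _ => by ring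

lemma gco_rot (C : Fin 3) (z : X3) : ∑ i, ∑ B, gco C z i B * z (i, B) = 0 := by
  refine Finset.sum_eq_zero fun i _ => ?_
  fin_cases C <;> simp [gco, Fin.sum_univ_three, eps] <;> ring

lemma jco_lin (k l : Fin 9) (x y : X3) (i : Fin 9) (B : Fin 3) :
    jco k l x i B - jco k l y i B = jco k l (x - y) i B := by
  simp only [jco, PiLp.sub_apply]
  split_ifs <;> ring

lemma jco_rot (k l : Fin 9) (z : X3) : ∑ i, ∑ B, jco k l z i B * z (i, B) = 0 := by
  rw [Finset.sum_comm]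
  refine Finset.sum_eq_zero fun B _ => ?_
  simp only [jco, sub_mul, ite_mul, zero_mul, Finset.sum_sub_distrib, Finset.sum_ite_eq',
    Finset.mem_univ, if_true]
  ring

variable {ε : ℝ} (S : Setup F)

/-- gauge invariance of the cut off mollification -/
lemma G_mo [CompleteSpace F] {g h : ℝ → ℝ} (hg : ContDiff ℝ ∞ g) (hh : ContDiff ℝ ∞ h)
    (hc : HasCompactSupport (rad g)) {Ψ : X3 → F} (hΨ : LocallyIntegrable Ψ volume)
    (hw : S.wG Ψ) (C : Fin 3) (x : X3) :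
    S.G C (fun y => ((rad h y : ℝ) : ℂ) • mo (rad g) Ψ y) x = 0 := by
  rw [G_eq_Dop, Dop_rad hh (gco_rot C)
    (((contDiff_mo (contDiff_rad hg) hc hΨ).differentiable (by simp)) x),
    Dop_mo_eq_zero hg hc (S.cS_symm C) (gco_lin C) (gco_rot C) hΨ ?_ x, smul_zero]
  intro ζ hζ
  have := hw C ζ hζ
  simpa only [G_eq_Dop] using this

/-- rotation invariance of the cut off mollification -/
lemma J_mo [CompleteSpace F] {g h : ℝ → ℝ} (hg : ContDiff ℝ ∞ g) (hh : ContDiff ℝ ∞ h)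
    (hc : HasCompactSupport (rad g)) {Ψ : X3 → F} (hΨ : LocallyIntegrable Ψ volume)
    {k l : Fin 9} (hw : ∀ ζ, Setup.Tst ζ → ∫ x, inner ℂ (S.J k l ζ x) (Ψ x) = 0) (x : X3) :
    S.J k l (fun y => ((rad h y : ℝ) : ℂ) • mo (rad g) Ψ y) x = 0 := by
  rw [J_eq_Dop, Dop_rad hh (jco_rot k l)
    (((contDiff_mo (contDiff_rad hg) hc hΨ).differentiable (by simp)) x),
    Dop_mo_eq_zero hg hc (S.Skl_symm k l) (jco_lin k l) (jco_rot k l) hΨ ?_ x, smul_zero]
  intro ζ hζ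
  have := hw ζ hζ
  simpa only [J_eq_Dop] using this

end Vale.Agent.P353.Moll
end

section

/-! # P353, uniqueness for `N = 2`: D-Inv (`InvMomStmt`) -/

open MeasureTheory Filter Topology
open scoped ContDiff

namespace Vale.Agent.P353.U

open Vale.Agent.P353.Moll

variable {F : Type*} [NormedAddCommGroup F] [InnerProductSpace ℂ F]

namespace InvMom

variable (S : Setup F)

/-- `W_β` is quadratic: Lipschitz with linear growth -/
lemma W_lip (β : Fin 16) : ∃ C : ℝ, 0 ≤ C ∧ ∀ x y : X3, ‖x - y‖ ≤ 1 →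
    ‖S.W β x - S.W β y‖ ≤ C * ‖x - y‖ * (1 + ‖y‖) := by
  -- scalar estimate
  have hFF : ∀ A i j, ∀ x y : X3, ‖x - y‖ ≤ 1 → |S.FF A i j x - S.FF A i j y| ≤
      (S.κ * ∑ B, ∑ C, |(eps A B C : ℝ)| * 2) * (‖x - y‖ * (1 + ‖y‖)) := by
    intro A i j x y hxy
    have h1 : S.FF A i j x - S.FF A i j y = S.κ * ∑ B, ∑ C, (eps A B C : ℝ) *
        (x (i, B) * x (j, C) - y (i, B) * y (j, C)) := by
      simp only [Setup.FF, ← mul_sub, ← Finset.sum_sub_distrib]
      congr 1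
      refine Finset.sum_congr rfl fun B _ => Finset.sum_congr rfl fun C _ => ?_
      ring
    rw [h1, abs_mul, abs_of_pos S.κ_pos, mul_assoc, Finset.sum_mul]
    refine mul_le_mul_of_nonneg_left ?_ S.κ_pos.le
    refine (Finset.abs_sum_le_sum_abs _ _).trans (Finset.sum_le_sum fun B _ => ?_)
    rw [Finset.sum_mul]
    refine (Finset.abs_sum_le_sum_abs _ _).trans (Finset.sum_le_sum fun C _ => ?_)
    rw [abs_mul, mul_assoc]
    refine mul_le_mul_of_nonneg_left ?_ (abs_nonneg _)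
    have a1 : |x (i, B) - y (i, B)| ≤ ‖x - y‖ := by
      have := PiLp.norm_apply_le (x - y) (i, B)
      rwa [Real.norm_eq_abs, PiLp.sub_apply] at this
    have a2 : |x (j, C) - y (j, C)| ≤ ‖x - y‖ := by
      have := PiLp.norm_apply_le (x - y) (j, C)
      rwa [Real.norm_eq_abs, PiLp.sub_apply] at this
    have a3 : |x (j, C)| ≤ ‖x‖ := by
      have := PiLp.norm_apply_le x (j, C)
      rwa [Real.norm_eq_abs] at this
    have a4 : |y (i, B)| ≤ ‖y‖ := by
      have := PiLp.norm_apply_le y (i, B)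
      rwa [Real.norm_eq_abs] at this
    have a5 : ‖x‖ ≤ 1 + ‖y‖ := by
      have := norm_sub_norm_le x y
      linarith
    have e : x (i, B) * x (j, C) - y (i, B) * y (j, C) =
        (x (i, B) - y (i, B)) * x (j, C) + y (i, B) * (x (j, C) - y (j, C)) := by ring
    rw [e]
    calc |(x (i, B) - y (i, B)) * x (j, C) + y (i, B) * (x (j, C) - y (j, C))|
        ≤ |x (i, B) - y (i, B)| * |x (j, C)| + |y (i, B)| * |x (j, C) - y (j, C)| := by
          rw [← abs_mul, ← abs_mul]; exact abs_add_le _ _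
      _ ≤ ‖x - y‖ * (1 + ‖y‖) + (1 + ‖y‖) * ‖x - y‖ := by
          have n1 := norm_nonneg (x - y)
          have n2 := norm_nonneg y
          refine add_le_add (mul_le_mul a1 (a3.trans a5) (abs_nonneg _) n1)
            (mul_le_mul (a4.trans (by linarith)) a2 (abs_nonneg _) (by linarith))
      _ = 2 * (‖x - y‖ * (1 + ‖y‖)) := by ring
  refine ⟨‖(1 / 2 : ℂ)‖ * ∑ A, ∑ i, ∑ j, (S.κ * ∑ B, ∑ C, |(eps A B C : ℝ)| * 2) *
    ‖S.vec (S.g2 i j) A β‖, ?_, fun x y hxy => ?_⟩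
  · have := S.κ_pos
    positivity
  · have h1 : S.W β x - S.W β y = (1 / 2 : ℂ) • ∑ A, ∑ i, ∑ j,
        ((S.FF A i j x - S.FF A i j y : ℝ) : ℂ) • S.vec (S.g2 i j) A β := by
      simp only [Setup.W, ← smul_sub, ← Finset.sum_sub_distrib, ← sub_smul, Complex.ofReal_sub]
    rw [h1, norm_smul, mul_assoc, mul_assoc]
    refine mul_le_mul_of_nonneg_left ?_ (norm_nonneg _)
    rw [Finset.sum_mul]
    refine (norm_sum_le _ _).trans (Finset.sum_le_sum fun A _ => ?_)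
    rw [Finset.sum_mul]
    refine (norm_sum_le _ _).trans (Finset.sum_le_sum fun i _ => ?_)
    rw [Finset.sum_mul]
    refine (norm_sum_le _ _).trans (Finset.sum_le_sum fun j _ => ?_)
    rw [norm_smul, Complex.norm_real, Real.norm_eq_abs]
    calc |S.FF A i j x - S.FF A i j y| * ‖S.vec (S.g2 i j) A β‖
        ≤ ((S.κ * ∑ B, ∑ C, |(eps A B C : ℝ)| * 2) * (‖x - y‖ * (1 + ‖y‖))) *
          ‖S.vec (S.g2 i j) A β‖ := mul_le_mul_of_nonneg_right (hFF A i j x y hxy) (norm_nonneg _)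
      _ = _ := by ring

lemma Q_mo [CompleteSpace F] {ρ : X3 → ℝ} (hρ : ContDiff ℝ ∞ ρ) (hc : HasCompactSupport ρ)
    (β : Fin 16) {f : X3 → F} (hf : LocallyIntegrable f volume) (x : X3) :
    Integrable (fun y => (-Complex.I) • ∑ i, ∑ A, S.vec (S.g i) A β (pdr i A ρ (x - y) • f y) +
      S.W β x (ρ (x - y) • f y)) ∧
    S.Q β (mo ρ f) x = ∫ y, ((-Complex.I) • ∑ i, ∑ A,
      S.vec (S.g i) A β (pdr i A ρ (x - y) • f y) + S.W β x (ρ (x - y) • f y)) := by
  have i1 : ∀ i A, Integrable (fun y => pdr i A ρ (x - y) • f y) := fun i A =>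
    integrable_mo (contDiff_pdr hρ i A).continuous
      (hc.fderiv_apply (𝕜 := ℝ) (EuclideanSpace.single (i, A) (1 : ℝ) : X3)) hf x
  have i2 : Integrable (fun y => ρ (x - y) • f y) := integrable_mo hρ.continuous hc hf x
  have j1 : ∀ i A, Integrable (fun y => S.vec (S.g i) A β (pdr i A ρ (x - y) • f y)) :=
    fun i A => (S.vec (S.g i) A β).integrable_comp (i1 i A)
  have j2 : ∀ i, Integrable (fun y => ∑ A, S.vec (S.g i) A β (pdr i A ρ (x - y) • f y)) :=
    fun i => integrable_finsetSum _ fun A _ => j1 i A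
  have j3 : Integrable (fun y => (-Complex.I) • ∑ i, ∑ A,
      S.vec (S.g i) A β (pdr i A ρ (x - y) • f y)) :=
    (integrable_finsetSum _ fun i _ => j2 i).smul (-Complex.I)
  have j4 : Integrable (fun y => S.W β x (ρ (x - y) • f y)) := (S.W β x).integrable_comp i2
  refine ⟨j3.add j4, ?_⟩
  rw [integral_add j3 j4, integral_smul, integral_finsetSum _ fun i _ => j2 i, Setup.Q]
  have e1 : ∀ i, ∫ y, ∑ A, S.vec (S.g i) A β (pdr i A ρ (x - y) • f y) =
      ∑ A, S.vec (S.g i) A β (pd i A (mo ρ f) x) := by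
    intro i
    rw [integral_finsetSum _ fun A _ => j1 i A]
    refine Finset.sum_congr rfl fun A _ => ?_
    rw [(S.vec (S.g i) A β).integral_comp_comm (i1 i A), pd_mo hρ hc hf]
    rfl
  have e2 : ∫ y, S.W β x (ρ (x - y) • f y) = S.W β x (mo ρ f x) := by
    rw [(S.W β x).integral_comp_comm i2, mo]
  simp only [e1, e2]

/-- commutator of `Q_β` with the mollification, weak form -/
lemma inner_Q_mo [CompleteSpace F] {ρ : X3 → ℝ} (hρ : ContDiff ℝ ∞ ρ) (hc : HasCompactSupport ρ)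
    (β : Fin 16) {Ψ : X3 → F} (hΨ : MemLp Ψ 2 (volume : Measure X3))
    (hw : ∀ ζ, Setup.Tst ζ → ∫ x, inner ℂ (S.Q β ζ x) (Ψ x) = 0) (x : X3) (v : F) :
    inner ℂ v (S.Q β (mo ρ Ψ) x) =
      ∫ y, ((ρ (x - y) : ℝ) : ℂ) * inner ℂ v ((S.W β x - S.W β y) (Ψ y)) := by
  obtain ⟨i1, e1⟩ := Q_mo S hρ hc β (locInt hΨ) x
  have hT := Tst_tz hρ hc x v
  have i2 : Integrable (fun y => inner ℂ (S.Q β (tz ρ x v) y) (Ψ y)) :=
    integrable_inner_memLp (hT.Q S β).memLp hΨ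
  have i3 : Integrable (fun y => inner ℂ v ((-Complex.I) • ∑ i, ∑ A,
      S.vec (S.g i) A β (pdr i A ρ (x - y) • Ψ y) + S.W β x (ρ (x - y) • Ψ y))) :=
    i1.const_inner v
  rw [e1, ← integral_inner i1]
  have h0 := hw _ hT
  rw [← sub_zero (∫ y, inner ℂ v _), ← h0, ← integral_sub i3 i2]
  refine integral_congr_ae (Eventually.of_forall fun y => ?_)
  have hv : ∀ i A (a b : F), inner ℂ (S.vec (S.g i) A β a) b = inner ℂ a (S.vec (S.g i) A β b) :=
    fun i A => S.vec_symm _ (S.g_im i) A β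
  have e2 : ∀ i A, pd i A (tz ρ x v) y = -((((pdr i A ρ (x - y)) : ℝ) : ℂ) • v) :=
    fun i A => pd_tz hρ x v i A y
  simp only [Setup.Q, e2, tz, map_smul, map_neg, inner_add_left, inner_smul_left, sum_inner,
    inner_neg_left, Complex.conj_ofReal, Complex.conj_I, ← Complex.coe_smul (E := F),
    inner_add_right, inner_smul_right, inner_sum, hv, _root_.sub_apply, inner_sub_right,
    S.W_symm]
  simp only [Finset.sum_neg_distrib]
  ring

lemma norm_Q_mo_le [CompleteSpace F] {ε C : ℝ} {ρ : X3 → ℝ} (h : IsMol ε ρ) (hε : ε ≤ 1)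
    (hε0 : 0 ≤ ε)
    (β : Fin 16) (hC : 0 ≤ C) (hL : ∀ x y : X3, ‖x - y‖ ≤ 1 →
      ‖S.W β x - S.W β y‖ ≤ C * ‖x - y‖ * (1 + ‖y‖))
    {Ψ : X3 → F} (hΨ : MemLp Ψ 2 (volume : Measure X3))
    (hm : Integrable (fun x => ‖x‖ ^ 2 * ‖Ψ x‖ ^ 2))
    (hw : ∀ ζ, Setup.Tst ζ → ∫ x, inner ℂ (S.Q β ζ x) (Ψ x) = 0) (x : X3) :
    ‖S.Q β (mo ρ Ψ) x‖ ≤ (C * ε) * mo ρ (fun y => ‖((1 + ‖y‖ : ℝ) : ℂ) • Ψ y‖) x := by
  obtain ⟨q, hq⟩ : ∃ q, q = S.Q β (mo ρ Ψ) x := ⟨_, rfl⟩
  have m1 := (memLp_one_add hΨ hm).1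
  have i1 : Integrable (fun y => ρ (x - y) • ‖((1 + ‖y‖ : ℝ) : ℂ) • Ψ y‖) :=
    integrable_mo h.contDiff.continuous h.hcs (fun z => (locInt m1 z).norm) x
  have h1 := inner_Q_mo S h.contDiff h.hcs β hΨ hw x q
  rw [← hq] at h1
  have h2 : ‖q‖ ^ 2 ≤ ‖q‖ * ((C * ε) * mo ρ (fun y => ‖((1 + ‖y‖ : ℝ) : ℂ) • Ψ y‖) x) := by
    have h3 : ‖q‖ ^ 2 = ‖(inner ℂ q q : ℂ)‖ := by
      rw [inner_self_eq_norm_sq_to_K, norm_pow]
      simp
    rw [h3, h1]
    unfold mo
    rw [← integral_const_mul, ← integral_const_mul]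
    refine (norm_integral_le_integral_norm _).trans ?_
    refine integral_mono_of_nonneg (Eventually.of_forall fun y => norm_nonneg _)
      ((i1.const_mul _).const_mul _) (Eventually.of_forall fun y => ?_)
    simp only [smul_eq_mul]
    rw [norm_mul, Complex.norm_real, Real.norm_of_nonneg (h.nonneg _), norm_smul,
      Complex.norm_real, Real.norm_of_nonneg (by positivity : (0 : ℝ) ≤ 1 + ‖y‖)]
    rcases le_or_gt ε ‖x - y‖ with hxy | hxy
    · rw [h.supp _ hxy]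
      simp
    · have h4 : ‖(inner ℂ q ((S.W β x - S.W β y) (Ψ y)) : ℂ)‖ ≤
          ‖q‖ * (C * ε * (1 + ‖y‖) * ‖Ψ y‖) := by
        refine (norm_inner_le_norm _ _).trans (mul_le_mul_of_nonneg_left ?_ (norm_nonneg _))
        refine ((S.W β x - S.W β y).le_opNorm _).trans
          (mul_le_mul_of_nonneg_right ?_ (norm_nonneg _))
        refine (hL x y (hxy.le.trans hε)).trans ?_
        gcongr
      calc ρ (x - y) * ‖(inner ℂ q ((S.W β x - S.W β y) (Ψ y)) : ℂ)‖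
          ≤ ρ (x - y) * (‖q‖ * (C * ε * (1 + ‖y‖) * ‖Ψ y‖)) :=
            mul_le_mul_of_nonneg_left h4 (h.nonneg _)
        _ = _ := by ring
  rw [← hq]
  rcases eq_or_ne q 0 with h0 | h0
  · rw [h0, norm_zero]
    refine mul_nonneg (mul_nonneg hC hε0) ?_
    exact integral_nonneg fun y => smul_nonneg (h.nonneg _) (norm_nonneg _)
  · have h5 : 0 < ‖q‖ := norm_pos_iff.2 h0
    rw [sq] at h2
    exact le_of_mul_le_mul_left h2 h5

lemma gradOp_le {K R : ℝ} {h : ℝ → ℝ} (hh : IsRC K R h) (β : Fin 16) (x : X3) :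
    ‖S.gradOp (rad h) β x‖ ≤ K / R * ∑ i, ∑ A, ‖S.vec (S.g i) A β‖ := by
  rw [Setup.gradOp, norm_smul, norm_neg, Complex.norm_I, one_mul, Finset.mul_sum]
  refine (norm_sum_le _ _).trans (Finset.sum_le_sum fun i _ => ?_)
  rw [Finset.mul_sum]
  refine (norm_sum_le _ _).trans (Finset.sum_le_sum fun A _ => ?_)
  rw [norm_smul, Complex.norm_real, Real.norm_eq_abs]
  exact mul_le_mul_of_nonneg_right (hh.grad i A x) (norm_nonneg _)

lemma gradOp_zero {K R : ℝ} {h : ℝ → ℝ} (hh : IsRC K R h) (β : Fin 16) (x : X3)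
    (hx : ‖x‖ < R / 2) : S.gradOp (rad h) β x = 0 := by
  rw [Setup.gradOp]
  have : ∀ i A, pdr i A (rad h) x = 0 := fun i A => hh.grad0 i A x hx
  simp [this]

lemma continuous_gradOp {K R : ℝ} {h : ℝ → ℝ} (hh : IsRC K R h) (β : Fin 16) :
    Continuous (S.gradOp (rad h) β) := by
  have h1 : Continuous (fun x => ∑ i, ∑ A, ((pdr i A (rad h) x : ℝ) : ℂ) •
      S.vec (S.g i) A β) :=
    continuous_finsetSum _ fun i _ => continuous_finsetSum _ fun A _ =>
      (Complex.continuous_ofReal.comp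
        (contDiff_pdr (contDiff_rad hh.contDiff) i A).continuous).smul continuous_const
  exact h1.const_smul (-Complex.I)

lemma rad_norm_le {K R : ℝ} {h : ℝ → ℝ} (hh : IsRC K R h) (x : X3) :
    ‖((rad h x : ℝ) : ℂ)‖ ≤ 1 := by
  rw [Complex.norm_real, Real.norm_of_nonneg (hh.nonneg x)]
  exact hh.le_one x

lemma memLp_rad {K R : ℝ} {h : ℝ → ℝ} (hh : IsRC K R h) {f : X3 → F}
    (hf : MemLp f 2 (volume : Measure X3)) :
    MemLp (fun x => ((rad h x : ℝ) : ℂ) • f x) 2 (volume : Measure X3) ∧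
      nsq (fun x => ((rad h x : ℝ) : ℂ) • f x) ≤ nsq f := by
  constructor
  · refine MemLp.of_le hf ?_ (Eventually.of_forall fun x => ?_)
    · exact (Complex.continuous_ofReal.comp
        (contDiff_rad hh.contDiff).continuous).aestronglyMeasurable.smul hf.1
    · rw [norm_smul]
      exact mul_le_of_le_one_left (norm_nonneg _) (rad_norm_le hh x)
  · have := nsq_le_of (c := 1) hf (f := fun x => ((rad h x : ℝ) : ℂ) • f x)
      (fun x => by
        rw [norm_smul]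
        exact mul_le_mul_of_nonneg_right (rad_norm_le hh x) (norm_nonneg _))
    linarith

/-- tail integral -/
noncomputable def tl (R : ℝ) (Ψ : X3 → F) : ℝ := ∫ x, (if R / 4 ≤ ‖x‖ then ‖Ψ x‖ ^ 2 else 0)

omit [InnerProductSpace ℂ F] in
lemma tl_int (R : ℝ) {Ψ : X3 → F} (hΨ : MemLp Ψ 2 (volume : Measure X3)) :
    Integrable (fun x => if R / 4 ≤ ‖x‖ then ‖Ψ x‖ ^ 2 else 0) := by
  have h1 : (fun x : X3 => if R / 4 ≤ ‖x‖ then ‖Ψ x‖ ^ 2 else 0) =
      {x : X3 | R / 4 ≤ ‖x‖}.indicator (fun x => ‖Ψ x‖ ^ 2) := by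
    funext x
    simp [Set.indicator_apply]
  rw [h1]
  exact (memLp_norm_sq_int hΨ).indicator
    (isClosed_le continuous_const continuous_norm).measurableSet

omit [InnerProductSpace ℂ F] in
lemma tl_nonneg (R : ℝ) (Ψ : X3 → F) : 0 ≤ tl R Ψ := by
  refine integral_nonneg fun x => ?_
  simp only [Pi.zero_apply]
  split_ifs <;> positivity

/-- distance of the cut off function -/
lemma nsq_dist {K R : ℝ} {h : ℝ → ℝ} (hR : 0 < R) (hh : IsRC K R h) {w Ψ : X3 → F}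
    (hΨ : MemLp Ψ 2 (volume : Measure X3)) (hw : MemLp w 2 (volume : Measure X3)) :
    nsq (fun x => ((rad h x : ℝ) : ℂ) • w x - Ψ x) ≤
      2 * nsq (fun x => w x - Ψ x) + 2 * tl R Ψ := by
  have hdm : MemLp (fun x => w x - Ψ x) 2 (volume : Measure X3) := hw.sub hΨ
  have hr1 : ∀ x : X3, ‖(((rad h x : ℝ) : ℂ) - 1)‖ ≤ 1 := by
    intro x
    rw [← Complex.ofReal_one, ← Complex.ofReal_sub, Complex.norm_real, Real.norm_eq_abs, abs_le]
    constructor
    · linarith [hh.nonneg x]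
    · linarith [hh.le_one x]
  obtain ⟨m1, b1⟩ := memLp_rad hh hdm
  have m2 : MemLp (fun x => (((rad h x : ℝ) : ℂ) - 1) • Ψ x) 2 (volume : Measure X3) := by
    refine MemLp.of_le hΨ ?_ (Eventually.of_forall fun x => ?_)
    · exact ((Complex.continuous_ofReal.comp (contDiff_rad hh.contDiff).continuous).sub
        continuous_const).aestronglyMeasurable.smul hΨ.1
    · rw [norm_smul]
      exact mul_le_of_le_one_left (norm_nonneg _) (hr1 x)
  have e : (fun x => ((rad h x : ℝ) : ℂ) • w x - Ψ x) = fun x =>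
      ((rad h x : ℝ) : ℂ) • (w x - Ψ x) + (((rad h x : ℝ) : ℂ) - 1) • Ψ x := by
    funext x
    module
  rw [e]
  refine (nsq_add_le m1 m2).trans ?_
  have b2 : nsq (fun x => (((rad h x : ℝ) : ℂ) - 1) • Ψ x) ≤ tl R Ψ := by
    rw [tl, nsq]
    refine integral_mono_of_nonneg (Eventually.of_forall fun x => by positivity) (tl_int R hΨ)
      (Eventually.of_forall fun x => ?_)
    simp only
    split_ifs with hx
    · rw [norm_smul]
      refine pow_le_pow_left₀ (by positivity) ?_ 2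
      exact mul_le_of_le_one_left (norm_nonneg _) (hr1 x)
    · rw [not_le] at hx
      rw [hh.one x (by linarith)]
      simp
  linarith

/-- energy of the cut off function -/
lemma nsq_energy {K R Cg : ℝ} {h : ℝ → ℝ} (hR : 0 < R) (hh : IsRC K R h) (hK : 0 ≤ K) (β : Fin 16)
    (hCg : ∑ i, ∑ A, ‖S.vec (S.g i) A β‖ ≤ Cg) {w Ψ : X3 → F} (hwc : ContDiff ℝ ∞ w)
    (hΨ : MemLp Ψ 2 (volume : Measure X3)) (hw : MemLp w 2 (volume : Measure X3))
    (hq : MemLp (S.Q β w) 2 (volume : Measure X3)) :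
    nsq (S.Qm 0 β (fun y => ((rad h y : ℝ) : ℂ) • w y)) ≤ 2 * nsq (S.Q β w) +
      4 * ((Cg * K / R) ^ 2 * nsq (fun x => w x - Ψ x)) + 4 * ((Cg * K / R) ^ 2 * tl R Ψ) := by
  have hdm : MemLp (fun x => w x - Ψ x) 2 (volume : Measure X3) := hw.sub hΨ
  have hrc : ContDiff ℝ ∞ (rad h) := contDiff_rad hh.contDiff
  have e : S.Qm 0 β (fun y => ((rad h y : ℝ) : ℂ) • w y) = fun x =>
      ((rad h x : ℝ) : ℂ) • S.Q β w x + (S.gradOp (rad h) β x (w x - Ψ x) +
        S.gradOp (rad h) β x (Ψ x)) := by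
    funext x
    rw [Setup.Qm, S.Q_cut (rad h) β w x (hrc.differentiable (by simp) x)
      (hwc.differentiable (by simp) x), ← map_add, sub_add_cancel]
    simp
  have hgc := continuous_gradOp S hh β
  have hgb : ∀ x, ‖S.gradOp (rad h) β x‖ ≤ Cg * K / R := by
    intro x
    refine (gradOp_le S hh β x).trans ?_
    calc K / R * ∑ i, ∑ A, ‖S.vec (S.g i) A β‖ ≤ K / R * Cg :=
          mul_le_mul_of_nonneg_left hCg (by positivity)
      _ = Cg * K / R := by ring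
  obtain ⟨m1, b1⟩ := memLp_rad hh hq
  have m2 := memLp_op hgc hgb hdm
  have m3 := memLp_op hgc hgb hΨ
  have b2 := nsq_op_le hgb hdm
  have b3 : nsq (fun x => S.gradOp (rad h) β x (Ψ x)) ≤ (Cg * K / R) ^ 2 * tl R Ψ := by
    rw [tl, nsq, ← integral_const_mul]
    refine integral_mono_of_nonneg (Eventually.of_forall fun x => by positivity)
      ((tl_int R hΨ).const_mul _) (Eventually.of_forall fun x => ?_)
    simp only
    split_ifs with hx
    · rw [← mul_pow]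
      refine pow_le_pow_left₀ (norm_nonneg _) ?_ 2
      exact ((S.gradOp (rad h) β x).le_opNorm _).trans
        (mul_le_mul_of_nonneg_right (hgb x) (norm_nonneg _))
    · rw [not_le] at hx
      rw [gradOp_zero S hh β x (by linarith)]
      simp
  rw [e]
  have c1 : nsq (fun x => ((rad h x : ℝ) : ℂ) • S.Q β w x +
      (S.gradOp (rad h) β x (w x - Ψ x) + S.gradOp (rad h) β x (Ψ x))) ≤
      2 * nsq (fun x => ((rad h x : ℝ) : ℂ) • S.Q β w x) +
      2 * nsq (fun x => S.gradOp (rad h) β x (w x - Ψ x) + S.gradOp (rad h) β x (Ψ x)) :=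
    nsq_add_le m1 (m2.add m3)
  have c2 := nsq_add_le m2 m3
  linarith

/-- second moment of the cut off function -/
lemma moment_cut {K R M : ℝ} {h : ℝ → ℝ} (hh : IsRC K R h) {w : X3 → F}
    (n1 : Integrable (fun x => ‖x‖ ^ 2 * ‖w x‖ ^ 2)) (n2 : ∫ x, ‖x‖ ^ 2 * ‖w x‖ ^ 2 ≤ M) :
    ∫ x, ‖x‖ ^ 2 * ‖((rad h x : ℝ) : ℂ) • w x‖ ^ 2 ≤ M := by
  refine le_trans ?_ n2
  refine integral_mono_of_nonneg (Eventually.of_forall fun x => by positivity) n1
    (Eventually.of_forall fun x => ?_)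
  refine mul_le_mul_of_nonneg_left (pow_le_pow_left₀ (norm_nonneg _) ?_ 2) (by positivity)
  rw [norm_smul]
  exact mul_le_of_le_one_left (norm_nonneg _) (rad_norm_le hh x)

/-- uniform constants -/
lemma exists_consts : ∃ CW Cg : ℝ, 0 ≤ CW ∧ 0 ≤ Cg ∧
    (∀ β (x y : X3), ‖x - y‖ ≤ 1 → ‖S.W β x - S.W β y‖ ≤ CW * ‖x - y‖ * (1 + ‖y‖)) ∧
    ∀ β, ∑ i, ∑ A, ‖S.vec (S.g i) A β‖ ≤ Cg := by
  choose CW₀ hCW₀ hW₀ using W_lip S
  refine ⟨∑ β, CW₀ β, ∑ β : Fin 16, ∑ i, ∑ A, ‖S.vec (S.g i) A β‖,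
    Finset.sum_nonneg fun β _ => hCW₀ β, by positivity, fun β x y hxy => ?_, fun β => ?_⟩
  · refine (hW₀ β x y hxy).trans ?_
    have : CW₀ β ≤ ∑ β, CW₀ β := Finset.single_le_sum (fun b _ => hCW₀ b) (Finset.mem_univ β)
    gcongr
  · exact Finset.single_le_sum (f := fun β : Fin 16 => ∑ i, ∑ A, ‖S.vec (S.g i) A β‖)
      (fun b _ => by positivity) (Finset.mem_univ β)

/-- choice of the parameters -/
lemma exists_params {δ a b : ℝ} (hδ : 0 < δ) (ha : 0 ≤ a) (hb : 0 ≤ b) :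
    ∃ δ₁ ε₁ : ℝ, 0 < δ₁ ∧ 0 < ε₁ ∧ 2 * δ₁ ≤ δ ∧ 128 * (a * δ₁) ≤ δ ∧
      ∀ ε, 0 < ε → ε ≤ 1 → ε ≤ ε₁ → 64 * (b * ε ^ 2) ≤ δ := by
  refine ⟨δ / (2 + 128 * a), δ / (64 * b + 1), by positivity, by positivity, ?_, ?_, ?_⟩
  · rw [mul_div_assoc', div_le_iff₀ (by positivity)]
    nlinarith
  · rw [mul_div_assoc', mul_div_assoc', div_le_iff₀ (by positivity)]
    nlinarith
  · intro ε h0 h1 h2
    rw [le_div_iff₀ (by positivity)] at h2
    have h3 : ε ^ 2 ≤ ε := by nlinarith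
    have h4 : b * ε ^ 2 ≤ b * ε := mul_le_mul_of_nonneg_left h3 hb
    nlinarith

/-- properties of `u = rad h • w`, `w = mo (rad g) Ψ` -/
lemma inv_cut [CompleteSpace F] {K R : ℝ} {g h : ℝ → ℝ} (hg : ContDiff ℝ ∞ g)
    (hgc : HasCompactSupport (rad g)) (hh : IsRC K R h) {Ψ : X3 → F}
    (hΨ : MemLp Ψ 2 (volume : Measure X3)) (hG : S.wG Ψ) (hJ : S.wJ Ψ) :
    S.Inv (fun y => ((rad h y : ℝ) : ℂ) • mo (rad g) Ψ y) := by
  have hcut : HasCompactSupport (rad h) := by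
    refine HasCompactSupport.intro (isCompact_closedBall (0 : X3) R) fun x hx => ?_
    rw [Metric.mem_closedBall, dist_zero_right, not_le] at hx
    exact hh.zero x hx.le
  have htst : Setup.Tst (fun y => ((rad h y : ℝ) : ℂ) • mo (rad g) Ψ y) := by
    refine ⟨(Setup.contDiff_ofReal (contDiff_rad hh.contDiff)).smul
      (contDiff_mo (contDiff_rad hg) hgc (locInt hΨ)), hcut.mono ?_⟩
    intro y hy
    simp only [Function.mem_support] at hy ⊢
    intro h0
    exact hy (by rw [h0]; simp)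
  exact ⟨htst, fun C x => G_mo S hg hh.contDiff hgc (locInt hΨ) hG C x,
    fun k l hkl x => J_mo S hg hh.contDiff hgc (locInt hΨ) (hJ k l hkl) x⟩

end InvMom

open InvMom in
theorem invMom [FiniteDimensional ℂ F] (S : Setup F) : InvMomStmt S := by
  intro Ψ hΨ hG hJ hQ hm
  have : CompleteSpace F := FiniteDimensional.complete ℂ F
  have hQ' : ∀ β ζ, Setup.Tst ζ → ∫ x, inner ℂ (S.Q β ζ x) (Ψ x) = 0 := by
    intro β ζ hζ
    have := hQ β ζ hζ
    simpa [Setup.Qm] using this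
  obtain ⟨hf2, -⟩ := memLp_one_add hΨ hm
  obtain ⟨N, hN⟩ : ∃ N, N = nsq (fun x => ((1 + ‖x‖ : ℝ) : ℂ) • Ψ x) := ⟨_, rfl⟩
  have hN0 : 0 ≤ N := hN ▸ nsq_nonneg _
  obtain ⟨CW, Cg, hCW0, hCg0, hW, hCg⟩ := exists_consts S
  obtain ⟨K, hK0, hK⟩ := exists_rc
  obtain ⟨M, hM⟩ : ∃ M, M = 2 * nsq Ψ + 2 * ∫ x, ‖x‖ ^ 2 * ‖Ψ x‖ ^ 2 := ⟨_, rfl⟩
  have hM0 : 0 ≤ M := by
    rw [hM]
    have h1 := nsq_nonneg Ψ
    have h2 : 0 ≤ ∫ x, ‖x‖ ^ 2 * ‖Ψ x‖ ^ 2 := integral_nonneg fun x => by positivity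
    positivity
  refine ⟨2 + 64 * (Cg * K) ^ 2 + M, fun R hR δ hδ => ?_⟩
  have hR0 : 0 < R := by linarith
  have hT0 := tl_nonneg R Ψ
  obtain ⟨δ₁, ε₁, hδ₁, hε₁, p1, p2, p3⟩ := exists_params (a := (Cg * K) ^ 2) (b := CW ^ 2 * N)
    hδ (sq_nonneg _) (by positivity)
  obtain ⟨ε₀, hε₀, hmo⟩ := mo_approx hΨ hδ₁
  obtain ⟨ε, hεd⟩ : ∃ ε, ε = min ε₀ (min 1 ε₁) := ⟨_, rfl⟩
  have hε0 : 0 < ε := by rw [hεd]; exact lt_min hε₀ (lt_min one_pos hε₁)
  have hεa : ε ≤ ε₀ := by rw [hεd]; exact min_le_left _ _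
  have hεb : ε ≤ 1 := by rw [hεd]; exact (min_le_right _ _).trans (min_le_left _ _)
  have hεc : ε ≤ ε₁ := by rw [hεd]; exact (min_le_right _ _).trans (min_le_right _ _)
  obtain ⟨g, hg, hρ⟩ := exists_mol hε0
  obtain ⟨h, hh⟩ := hK R hR0
  have hd := hmo ε hεa (rad g) hρ
  have hwc : ContDiff ℝ ∞ (mo (rad g) Ψ) := contDiff_mo hρ.contDiff hρ.hcs (locInt hΨ)
  have hwm : MemLp (mo (rad g) Ψ) 2 (volume : Measure X3) := (nsq_mo_le hρ hΨ).1
  refine ⟨fun y => ((rad h y : ℝ) : ℂ) • mo (rad g) Ψ y, inv_cut S hg hρ.hcs hh hΨ hG hJ,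
    fun x hx => ?_, ?_, ?_, ?_⟩
  · simp only
    rw [hh.zero x hx]
    simp
  · -- distance
    refine (nsq_dist hR0 hh hΨ hwm).trans ?_
    have b4 : 0 ≤ (64 * (Cg * K) ^ 2 + M) * tl R Ψ := by positivity
    have b5 : (2 + 64 * (Cg * K) ^ 2 + M) * (∫ x, (if R / 4 ≤ ‖x‖ then ‖Ψ x‖ ^ 2 else 0)) =
        2 * tl R Ψ + (64 * (Cg * K) ^ 2 + M) * tl R Ψ := by
      rw [tl]; ring
    rw [b5]
    linarith
  · -- energy
    have hβ : ∀ β, nsq (S.Qm 0 β (fun y => ((rad h y : ℝ) : ℂ) • mo (rad g) Ψ y)) ≤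
        δ / 16 + 4 * ((Cg * K) ^ 2 / R ^ 2 * tl R Ψ) := by
      intro β
      have hQw := norm_Q_mo_le S hρ hεb hε0.le β hCW0 (hW β) hΨ hm (hQ' β)
      obtain ⟨q1, q2⟩ := nsq_le_mo hρ hf2
        (S.contDiff_Q β hwc).continuous.aestronglyMeasurable hQw
      rw [← hN] at q2
      refine (nsq_energy S hR0 hh hK0 β (hCg β) hwc hΨ hwm q1).trans ?_
      have c4 : (Cg * K / R) ^ 2 ≤ (Cg * K) ^ 2 := by
        rw [div_pow]
        refine div_le_self (sq_nonneg _) (one_le_pow₀ hR)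
      have c5 : (Cg * K / R) ^ 2 * nsq (fun x => mo (rad g) Ψ x - Ψ x) ≤ (Cg * K) ^ 2 * δ₁ :=
        mul_le_mul c4 hd (nsq_nonneg _) (sq_nonneg _)
      have c6 := p3 ε hε0 hεb hεc
      have c6' : (CW * ε) ^ 2 * N = CW ^ 2 * N * ε ^ 2 := by ring
      have c7 : (Cg * K / R) ^ 2 * tl R Ψ = (Cg * K) ^ 2 / R ^ 2 * tl R Ψ := by
        rw [div_pow]
      rw [c7]
      rw [c6'] at q2
      linarith
    calc ∑ β, nsq (S.Qm 0 β (fun y => ((rad h y : ℝ) : ℂ) • mo (rad g) Ψ y))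
        ≤ ∑ β : Fin 16, (δ / 16 + 4 * ((Cg * K) ^ 2 / R ^ 2 * tl R Ψ)) :=
          Finset.sum_le_sum fun β _ => hβ β
      _ = δ + 64 * (Cg * K) ^ 2 / R ^ 2 * tl R Ψ := by
          rw [Finset.sum_const, Finset.card_univ, Fintype.card_fin, nsmul_eq_mul]
          push_cast
          ring
      _ ≤ δ + (2 + 64 * (Cg * K) ^ 2 + M) / R ^ 2 * tl R Ψ := by
          have : 64 * (Cg * K) ^ 2 ≤ 2 + 64 * (Cg * K) ^ 2 + M := by linarith
          gcongr
  · -- second moment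
    obtain ⟨n1, n2⟩ := moment_mo hρ hεb hΨ hm
    rw [← hM] at n2
    have h1 := moment_cut hh n1 n2
    have h64 : 0 ≤ 64 * (Cg * K) ^ 2 := by positivity
    linarith

end Vale.Agent.P353.U
end
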