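import Mathlib
import Vale.Agent.P353.BdU.B4
import Vale.Agent.P353.BdU.B11
import Vale.Agent.P353.BdU.B23
import Vale.Agent.P353.BdU.B3
import Vale.Agent.P353.BdU.B2
import Vale.Agent.P353.BdU.B12

set_option linter.all false

section

/-! Task EX-08: the induction identity `D K_t = L_1 u_0 - L_0 u_1` (indices `A = 0, 1, 2`).

Let `a` be smooth with `D0 a = ν (φ_0 ι_0 a + φ_1 ι_1 a)` and `∂_{φ_0} a = ∂_{φ_1} a = 0`
(`dph`).  Write `L'_A = {d, ι_A}` (so `L'_A = L_A - R_A`, `R_A = (e_A × φ)·∂_φ`,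
`{D0, ι_A} = L'_A`), `e = e^{-t|φ_⊥|²}`, `d e = -t (φ_0 dφ̄_0 + φ_1 dφ̄_1) e`,
`{D0, dφ̄_A} = ν (φ × φ̄)_A`, `[L'_0, ι_1] = -ι_2`, `[∂_{φ_2}, D0] = ν ι_2`,
`L_1 dφ̄_0 = dφ̄_0 L_1 + dφ̄_2`, `L_0 dφ̄_1 = dφ̄_1 L_0 - dφ̄_2`,
`L_1 |φ_⊥|² = φ_0 φ̄_2 + φ_2 φ̄_0`, `L_0 |φ_⊥|² = -φ_1 φ̄_2 - φ_2 φ̄_1`.
Check order by order in `t` (full computation in the team note on P353, section induction).
This has been verified numerically. -/

open MeasureTheory Filter Topology
open scoped ContDiff ComplexConjugate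

namespace Vale.Agent.P353.Ex

variable {F : Type*} [NormedAddCommGroup F] [InnerProductSpace ℂ F]

section dc

variable {G : Type*} [NormedAddCommGroup G] [NormedSpace ℂ G]

/-- complex directional derivative -/
private noncomputable def dcv (v w : X3) (u : X3 → G) (x : X3) : G :=
  fderiv ℝ u x v + Complex.I • fderiv ℝ u x w

private lemma dcv_add (v w : X3) {u u' : X3 → G} {x : X3} (hu : DifferentiableAt ℝ u x)
    (hu' : DifferentiableAt ℝ u' x) :
    dcv v w (fun y => u y + u' y) x = dcv v w u x + dcv v w u' x := by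
  rw [dcv, dcv, dcv, fderiv_fun_add hu hu']
  simp only [_root_.add_apply, smul_add]
  abel

private lemma dcv_clm (v w : X3) (T : F →L[ℂ] F) {u : X3 → F} {x : X3} (hu : DifferentiableAt ℝ u x) :
    dcv v w (fun y => T (u y)) x = T (dcv v w u x) := by
  have h := ((T.restrictScalars ℝ).hasFDerivAt (x := u x)).comp x hu.hasFDerivAt
  have h2 : fderiv ℝ (fun y => T (u y)) x = _ := h.fderiv
  rw [dcv, dcv, h2]
  simp

private lemma dcv_sum {ι : Type*} (s : Finset ι) (v w : X3) {u : ι → X3 → G} {x : X3}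
    (hu : ∀ k ∈ s, DifferentiableAt ℝ (u k) x) :
    dcv v w (fun y => ∑ k ∈ s, u k y) x = ∑ k ∈ s, dcv v w (u k) x := by
  simp only [dcv]
  rw [fderiv_fun_sum hu, Finset.sum_add_distrib]
  simp only [_root_.sum_apply, Finset.smul_sum]

private lemma dcv_smul (v w : X3) {f : X3 → ℂ} {u : X3 → G} {x : X3} (hf : DifferentiableAt ℝ f x)
    (hu : DifferentiableAt ℝ u x) :
    dcv v w (fun y => f y • u y) x = dcv v w f x • u x + f x • dcv v w u x := by
  rw [dcv, dcv, dcv, fderiv_fun_smul hf hu]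
  simp only [_root_.add_apply, _root_.smul_apply, ContinuousLinearMap.smulRight_apply, smul_add,
    smul_eq_mul, add_smul, mul_smul]
  rw [smul_comm (f x) Complex.I]
  abel

private lemma dcv_contDiff (v w : X3) {u : X3 → G} (hu : ContDiff ℝ ∞ u) : ContDiff ℝ ∞ (dcv v w u) := by
  unfold dcv
  have h := (hu.fderiv_right (m := ∞) (by simp))
  exact (h.clm_apply contDiff_const).add ((h.clm_apply contDiff_const).const_smul Complex.I)

private lemma dcv_comm (v w v' w' : X3) {u : X3 → G} (hu : ContDiff ℝ ∞ u) (x : X3) :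
    dcv v w (dcv v' w' u) x = dcv v' w' (dcv v w u) x := by
  have hs : IsSymmSndFDerivAt ℝ u x := by
    refine (hu.contDiffAt).isSymmSndFDerivAt ?_
    simp only [minSmoothness_of_isRCLikeNormedField]
    exact WithTop.coe_le_coe.mpr le_top
  have hd : Differentiable ℝ (fderiv ℝ u) := (hu.fderiv_right (m := ∞) (by simp)).differentiable
    (by simp)
  have hda : ∀ a, DifferentiableAt ℝ (fun y => fderiv ℝ u y a) x := fun a =>
    (hd x).clm_apply (differentiableAt_const a)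
  have h : ∀ (a b : X3), fderiv ℝ (fun y => fderiv ℝ u y a) x b = fderiv ℝ (fderiv ℝ u) x b a := by
    intro a b
    rw [fderiv_clm_apply (hd x) (differentiableAt_const a)]
    simp
  have key : ∀ v w v' w' : X3, dcv v w (dcv v' w' u) x =
      (fderiv ℝ (fderiv ℝ u) x v v' + Complex.I • fderiv ℝ (fderiv ℝ u) x v w') +
      Complex.I • (fderiv ℝ (fderiv ℝ u) x w v' + Complex.I • fderiv ℝ (fderiv ℝ u) x w w') := by
    intro v w v' w'
    have e : dcv v' w' u = fun y => fderiv ℝ u y v' + Complex.I • fderiv ℝ u y w' := rfl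
    rw [e, dcv, fderiv_fun_add (hda v') ((hda w').fun_const_smul Complex.I),
      fderiv_fun_const_smul (hda w') Complex.I]
    simp only [_root_.add_apply, _root_.smul_apply, h]
  rw [key, key, hs v v', hs v w', hs w v', hs w w']
  simp only [smul_add]
  abel

end dc

namespace Fk

variable (K : Fk F)

/-- the derivations of `d`, `i < 8` -/
private noncomputable def dl (i : Fin 8) (A : Fin 3) {G : Type*} [NormedAddCommGroup G] [NormedSpace ℂ G]
    (u : X3 → G) (x : X3) : G :=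
  dcv (EuclideanSpace.single (f9 i, A) 1)
    (if i = 7 then K.sg • EuclideanSpace.single (8, A) 1 else 0) u x

/-- the derivations `∂/∂φ_A` -/
private noncomputable def dpp (A : Fin 3) {G : Type*} [NormedAddCommGroup G] [NormedSpace ℂ G]
    (u : X3 → G) (x : X3) : G :=
  dcv ((1 / 2 : ℝ) • EuclideanSpace.single (7, A) 1)
    ((-(K.sg / 2)) • EuclideanSpace.single (8, A) 1) u x

/-- the coordinates of `d` -/
private noncomputable def Xc (i : Fin 8) (A : Fin 3) (x : X3) : ℂ :=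
  if i = 7 then (1 / 2) * K.phb A x else (x (f9 i, A) : ℂ)

private lemma dph_eq (A : Fin 3) (u : X3 → F) (x : X3) : K.dph A u x = K.dpp A u x := by
  rw [dph, dpp, dcv, pd, pd, map_smul, map_smul]
  module

private lemma dl_e8 (i : Fin 7) (A : Fin 3) (u : X3 → F) (x : X3) : K.dl (e8 i) A u x = pd (e9 i) A u x := by
  have h : e8 i ≠ 7 := by
    intro h
    have := congrArg Fin.val h
    simp at this
    omega
  rw [dl, dcv, if_neg h, pd, map_zero, smul_zero, add_zero]

private lemma dl_7 (A : Fin 3) (u : X3 → F) (x : X3) :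
    K.dl 7 A u x = pd 7 A u x + (Complex.I * (K.sg : ℂ)) • pd 8 A u x := by
  rw [dl, dcv, if_pos rfl, pd, pd, map_smul]
  have : f9 7 = (7 : Fin 9) := rfl
  rw [this]
  module

private lemma dd_eqI (u : X3 → F) (x : X3) : K.dd u x = ∑ i : Fin 8, ∑ A, K.c i A (K.dl i A u x) := by
  rw [dd, Fin.sum_univ_castSucc (n := 7)]
  congr 1
  · refine Finset.sum_congr rfl fun i _ => Finset.sum_congr rfl fun A _ => ?_
    rw [← K.dl_e8]
  · refine Finset.sum_congr rfl fun A _ => ?_
    have : Fin.last 7 = 7 := rfl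
    rw [this, dl_7]

private lemma Xc_e8 (i : Fin 7) (A : Fin 3) (x : X3) : K.Xc (e8 i) A x = (x (e9 i, A) : ℂ) := by
  have h : e8 i ≠ 7 := by
    intro h
    have := congrArg Fin.val h
    simp at this
    omega
  rw [Xc, if_neg h]

private lemma io_eqI (A : Fin 3) (x : X3) :
    K.io A x = ∑ i : Fin 8, ∑ B, ∑ C, ((eps B A C : ℂ) * K.Xc i C x) • K.a i B := by
  rw [io, Fin.sum_univ_castSucc (n := 7)]
  refine congrArg₂ (· + ·) ?_ ?_
  · refine Finset.sum_congr rfl fun i _ => Finset.sum_congr rfl fun B _ =>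
      Finset.sum_congr rfl fun C _ => ?_
    rw [← K.Xc_e8]
  · rw [Finset.smul_sum]
    refine Finset.sum_congr rfl fun B _ => ?_
    rw [Finset.smul_sum]
    refine Finset.sum_congr rfl fun C _ => ?_
    have : Fin.last 7 = 7 := rfl
    rw [this, Xc, if_pos rfl]
    module


/-! ### derivatives of coordinates -/

private lemma diff_coord (p : Fin 9 × Fin 3) (x : X3) :
    DifferentiableAt ℝ (fun y : X3 => ((y p : ℝ) : ℂ)) x :=
  Complex.ofRealCLM.differentiableAt.comp x
    (EuclideanSpace.proj (𝕜 := ℝ) p : X3 →L[ℝ] ℝ).differentiableAt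

private lemma fderiv_coord (p : Fin 9 × Fin 3) (x v : X3) :
    fderiv ℝ (fun y : X3 => ((y p : ℝ) : ℂ)) x v = ((v p : ℝ) : ℂ) := by
  have h := (Complex.ofRealCLM.hasFDerivAt (x := x p)).comp x
    (EuclideanSpace.proj (𝕜 := ℝ) p : X3 →L[ℝ] ℝ).hasFDerivAt
  have h2 : fderiv ℝ (fun y : X3 => ((y p : ℝ) : ℂ)) x = _ := h.fderiv
  rw [h2]
  simp

private lemma dcv_coord (p : Fin 9 × Fin 3) (v w x : X3) :
    dcv v w (fun y : X3 => ((y p : ℝ) : ℂ)) x = (v p : ℂ) + Complex.I * (w p : ℂ) := by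
  rw [dcv, fderiv_coord, fderiv_coord, smul_eq_mul]

private lemma diff_ph (A : Fin 3) (x : X3) : DifferentiableAt ℝ (K.ph A) x := by
  unfold ph
  exact (diff_coord (7, A) x).add ((diff_coord (8, A) x).const_mul _)

private lemma diff_phb (A : Fin 3) (x : X3) : DifferentiableAt ℝ (K.phb A) x := by
  unfold phb
  exact (diff_coord (7, A) x).sub ((diff_coord (8, A) x).const_mul _)

private lemma dcv_ph (A : Fin 3) (v w x : X3) :
    dcv v w (K.ph A) x = ((v (7, A) : ℂ) + Complex.I * (w (7, A) : ℂ)) +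
      Complex.I * (K.sg : ℂ) * ((v (8, A) : ℂ) + Complex.I * (w (8, A) : ℂ)) := by
  have h : ∀ v : X3, fderiv ℝ (K.ph A) x v = (v (7, A) : ℂ) +
      Complex.I * (K.sg : ℂ) * (v (8, A) : ℂ) := by
    intro v
    unfold ph
    rw [fderiv_fun_add (diff_coord (7, A) x) ((diff_coord (8, A) x).const_mul _),
      fderiv_const_mul (diff_coord (8, A) x)]
    simp only [_root_.add_apply, _root_.smul_apply, fderiv_coord, smul_eq_mul]
  rw [dcv, h, h, smul_eq_mul]
  ring

private lemma dcv_phb (A : Fin 3) (v w x : X3) :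
    dcv v w (K.phb A) x = ((v (7, A) : ℂ) + Complex.I * (w (7, A) : ℂ)) -
      Complex.I * (K.sg : ℂ) * ((v (8, A) : ℂ) + Complex.I * (w (8, A) : ℂ)) := by
  have h : ∀ v : X3, fderiv ℝ (K.phb A) x v = (v (7, A) : ℂ) -
      Complex.I * (K.sg : ℂ) * (v (8, A) : ℂ) := by
    intro v
    unfold phb
    rw [fderiv_fun_sub (diff_coord (7, A) x) ((diff_coord (8, A) x).const_mul _),
      fderiv_const_mul (diff_coord (8, A) x)]
    simp only [_root_.sub_apply, _root_.smul_apply, fderiv_coord, smul_eq_mul]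
  rw [dcv, h, h, smul_eq_mul]
  ring

private lemma sgc : (K.sg : ℂ) * (K.sg : ℂ) = 1 := by
  rw [← Complex.ofReal_mul, K.sg_sq, Complex.ofReal_one]

private lemma single_ap (p q : Fin 9 × Fin 3) :
    ((EuclideanSpace.single p (1 : ℝ) : X3) q) = if q = p then 1 else 0 := by
  exact PiLp.single_apply ..

private lemma f9_ne7 {i : Fin 8} (hi : i ≠ 7) : (7 : Fin 9) ≠ f9 i :=
  fun h => hi (Fin.castSucc_injective 8 h.symm)

private lemma f9_ne8 (i : Fin 8) : (8 : Fin 9) ≠ f9 i := by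
  intro h
  have := congrArg Fin.val h
  have h2 := i.isLt
  simp at this
  omega

private lemma diff_Xc (i : Fin 8) (A : Fin 3) (x : X3) : DifferentiableAt ℝ (K.Xc i A) x := by
  unfold Xc
  by_cases hi : i = 7
  · simp only [if_pos hi]
    exact (K.diff_phb A x).const_mul _
  · simp only [if_neg hi]
    exact diff_coord (f9 i, A) x

private lemma dl_phb (i : Fin 8) (A B : Fin 3) (x : X3) :
    K.dl i A (K.phb B) x = if i = 7 ∧ A = B then 2 else 0 := by
  rw [dl, dcv_phb]
  have hI := Complex.I_mul_I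
  have hs := K.sgc
  by_cases hi : i = 7
  · subst hi
    rw [if_pos rfl]
    have h1 : f9 7 = (7 : Fin 9) := rfl
    rw [h1]
    simp only [PiLp.smul_apply, single_ap, Prod.mk.injEq, smul_eq_mul, Complex.ofReal_mul]
    by_cases h : A = B
    · subst h
      simp
      linear_combination hs - (K.sg : ℂ) * (K.sg : ℂ) * hI
    · have h' : ¬ B = A := fun hh => h hh.symm
      simp [h, h']
  · rw [if_neg hi]
    simp [f9_ne7 hi, f9_ne8, hi]

private lemma dl_Xc (i : Fin 8) (A : Fin 3) (j : Fin 8) (B : Fin 3) (x : X3) :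
    K.dl i A (K.Xc j B) x = if i = j ∧ A = B then 1 else 0 := by
  by_cases hj : j = 7
  · subst hj
    have h : K.Xc 7 B = fun y => (1 / 2 : ℂ) • K.phb B y := by
      funext y; rw [Xc, if_pos rfl, smul_eq_mul]
    have h2 : K.dl i A (K.Xc 7 B) x = (1 / 2 : ℂ) * K.dl i A (K.phb B) x := by
      rw [h, dl, dcv_smul _ _ (differentiableAt_const _) (K.diff_phb B x), dl, dcv]
      simp
    rw [h2, dl_phb]
    split_ifs <;> norm_num
  · have h : K.Xc j B = fun y : X3 => ((y (f9 j, B) : ℝ) : ℂ) := by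
      funext y; rw [Xc, if_neg hj]
    rw [h, dl, dcv_coord]
    have h8 := f9_ne8 j
    by_cases hi : i = 7
    · subst hi
      have h1 : f9 7 = (7 : Fin 9) := rfl
      have h7 := f9_ne7 hj
      have h7' : ¬ (7 : Fin 8) = j := fun h => hj h.symm
      simp [h1, h7.symm, h8.symm, h7']
    · have hinj : (f9 j = f9 i) ↔ (i = j) :=
        ⟨fun h => (Fin.castSucc_injective 8 h).symm, fun h => by rw [h]⟩
      simp only [if_neg hi, single_ap, Prod.mk.injEq, hinj]
      by_cases h1 : i = j <;> by_cases h2 : A = B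
      · simp [h1, h2]
      · have h2' : ¬ B = A := fun h => h2 h.symm
        simp [h2, h2']
      · simp [h1]
      · simp [h1]

private lemma dpp_ph (A B : Fin 3) (x : X3) : K.dpp A (K.ph B) x = if A = B then 1 else 0 := by
  rw [dpp, dcv_ph]
  have hI := Complex.I_mul_I
  have hs := K.sgc
  simp only [PiLp.smul_apply, single_ap, Prod.mk.injEq, smul_eq_mul, Complex.ofReal_mul]
  by_cases h : A = B
  · subst h
    simp
    linear_combination (1 / 2 : ℂ) * hs - (K.sg : ℂ) * (K.sg : ℂ) / 2 * hI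
  · have h' : ¬ B = A := fun hh => h hh.symm
    simp [h, h']

private lemma dpp_phb (A B : Fin 3) (x : X3) : K.dpp A (K.phb B) x = 0 := by
  rw [dpp, dcv_phb]
  have hI := Complex.I_mul_I
  have hs := K.sgc
  simp only [PiLp.smul_apply, single_ap, Prod.mk.injEq, smul_eq_mul, Complex.ofReal_mul]
  by_cases h : B = A
  · subst h
    simp
    linear_combination (-1 / 2 : ℂ) * hs + (K.sg : ℂ) * (K.sg : ℂ) / 2 * hI
  · simp [h]

private lemma dpp_Xc (A : Fin 3) (j : Fin 8) (B : Fin 3) (x : X3) : K.dpp A (K.Xc j B) x = 0 := by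
  by_cases hj : j = 7
  · subst hj
    have h : K.Xc 7 B = fun y => (1 / 2 : ℂ) • K.phb B y := by
      funext y; rw [Xc, if_pos rfl, smul_eq_mul]
    have h2 : K.dpp A (K.Xc 7 B) x = (1 / 2 : ℂ) * K.dpp A (K.phb B) x := by
      rw [h, dpp, dcv_smul _ _ (differentiableAt_const _) (K.diff_phb B x), dpp, dcv]
      simp
    rw [h2, dpp_phb, mul_zero]
  · have h : K.Xc j B = fun y : X3 => ((y (f9 j, B) : ℝ) : ℂ) := by
      funext y; rw [Xc, if_neg hj]
    rw [h, dpp, dcv_coord]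
    have h7 := f9_ne7 hj
    have h8 := f9_ne8 j
    simp [h7.symm, h8.symm]


/-! ### derivatives of the contractions -/

private lemma io_apply (B : Fin 3) (x : X3) (v : F) :
    K.io B x v = ∑ j : Fin 8, ∑ E, ∑ C, ((eps E B C : ℂ) * K.Xc j C x) • K.a j E v := by
  rw [io_eqI]
  simp only [_root_.sum_apply, _root_.smul_apply]

private lemma diff_io_term (B : Fin 3) {u : X3 → F} {x : X3} (hu : DifferentiableAt ℝ u x) (j : Fin 8)
    (E C : Fin 3) :
    DifferentiableAt ℝ (fun y => ((eps E B C : ℂ) * K.Xc j C y) • K.a j E (u y)) x :=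
  ((K.diff_Xc j C x).const_mul _).smul
    (((K.a j E).restrictScalars ℝ).differentiableAt.comp x hu)

private lemma dcv_io (v w : X3) (B : Fin 3) {u : X3 → F} {x : X3} (hu : DifferentiableAt ℝ u x) :
    dcv v w (fun y => K.io B y (u y)) x =
      (∑ j : Fin 8, ∑ E, ∑ C, ((eps E B C : ℂ) * dcv v w (K.Xc j C) x) • K.a j E (u x)) +
        K.io B x (dcv v w u x) := by
  have h := K.diff_io_term B hu
  have ha : ∀ j E, DifferentiableAt ℝ (fun y => K.a j E (u y)) x := fun j E =>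
    ((K.a j E).restrictScalars ℝ).differentiableAt.comp x hu
  simp only [io_apply]
  rw [dcv_sum _ v w fun j _ => DifferentiableAt.fun_sum fun E _ => DifferentiableAt.fun_sum
    fun C _ => h j E C, ← Finset.sum_add_distrib]
  refine Finset.sum_congr rfl fun j _ => ?_
  rw [dcv_sum _ v w fun E _ => DifferentiableAt.fun_sum fun C _ => h j E C,
    ← Finset.sum_add_distrib]
  refine Finset.sum_congr rfl fun E _ => ?_
  rw [dcv_sum _ v w fun C _ => h j E C, ← Finset.sum_add_distrib]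
  refine Finset.sum_congr rfl fun C _ => ?_
  have e : dcv v w (fun y => (eps E B C : ℂ) * K.Xc j C y) x =
      (eps E B C : ℂ) * dcv v w (K.Xc j C) x := by
    have := dcv_smul v w (f := fun _ => (eps E B C : ℂ)) (u := K.Xc j C)
      (differentiableAt_const _) (K.diff_Xc j C x)
    simp only [smul_eq_mul] at this
    rw [this, dcv]
    simp
  rw [dcv_smul v w ((K.diff_Xc j C x).const_mul _) (ha j E), dcv_clm v w _ hu, e]

private lemma dl_io (i : Fin 8) (A B : Fin 3) {u : X3 → F} {x : X3} (hu : DifferentiableAt ℝ u x) :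
    K.dl i A (fun y => K.io B y (u y)) x =
      (∑ E, (eps E B A : ℂ) • K.a i E (u x)) + K.io B x (K.dl i A u x) := by
  have h := K.dcv_io (EuclideanSpace.single (f9 i, A) 1)
    (if i = 7 then K.sg • EuclideanSpace.single (8, A) 1 else 0) B hu
  rw [dl, h]
  congr 1
  have h2 : ∀ j C, dcv (EuclideanSpace.single (f9 i, A) 1)
    (if i = 7 then K.sg • EuclideanSpace.single (8, A) 1 else 0) (K.Xc j C) x =
      if i = j ∧ A = C then 1 else 0 := fun j C => K.dl_Xc i A j C x
  simp only [h2]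
  rw [Finset.sum_eq_single i]
  · refine Finset.sum_congr rfl fun E _ => ?_
    rw [Finset.sum_eq_single A]
    · rw [if_pos ⟨rfl, rfl⟩, mul_one]
    · intro C _ hC
      rw [if_neg (fun h => hC h.2.symm), mul_zero, zero_smul]
    · intro h; exact absurd (Finset.mem_univ _) h
  · intro j _ hj
    refine Finset.sum_eq_zero fun E _ => Finset.sum_eq_zero fun C _ => ?_
    rw [if_neg (fun h => hj h.1.symm), mul_zero, zero_smul]
  · intro h; exact absurd (Finset.mem_univ _) h

private lemma dpp_io (A B : Fin 3) {u : X3 → F} {x : X3} (hu : DifferentiableAt ℝ u x) :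
    K.dpp A (fun y => K.io B y (u y)) x = K.io B x (K.dpp A u x) := by
  have h := K.dcv_io ((1 / 2 : ℝ) • EuclideanSpace.single (7, A) 1)
    ((-(K.sg / 2)) • EuclideanSpace.single (8, A) 1) B hu
  rw [dpp, h]
  have h2 : ∀ j C, dcv ((1 / 2 : ℝ) • EuclideanSpace.single (7, A) 1)
    ((-(K.sg / 2)) • EuclideanSpace.single (8, A) 1) (K.Xc j C) x = 0 := fun j C =>
      K.dpp_Xc A j C x
  simp only [h2, mul_zero, zero_smul, Finset.sum_const_zero, zero_add]
  rfl

/-! ### algebra of contractions -/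

private lemma io_c (A : Fin 3) (x : X3) (j : Fin 8) (B : Fin 3) (v : F) :
    K.io A x (K.c j B v) + K.c j B (K.io A x v) = (∑ C, (eps B A C : ℂ) * K.Xc j C x) • v := by
  have h : ∀ i E, K.a i E (K.c j B v) + K.c j B (K.a i E v) = if i = j ∧ E = B then v else 0 := by
    intro i E
    have := congrArg (fun T : F →L[ℂ] F => T v) (K.ac i E j B)
    simp only [_root_.add_apply] at this
    have e1 : (K.a i E * K.c j B) v = K.a i E (K.c j B v) := rfl
    have e2 : (K.c j B * K.a i E) v = K.c j B (K.a i E v) := rfl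
    rw [e1, e2] at this
    rw [this]
    split_ifs <;> rfl
  rw [io_apply, io_apply]
  simp only [map_sum, map_smul]
  rw [← Finset.sum_add_distrib]
  have h2 : ∀ i, (∑ E, ∑ C, ((eps E A C : ℂ) * K.Xc i C x) • K.a i E (K.c j B v)) +
      (∑ E, ∑ C, ((eps E A C : ℂ) * K.Xc i C x) • K.c j B (K.a i E v)) =
      ∑ E, ∑ C, ((eps E A C : ℂ) * K.Xc i C x) • (if i = j ∧ E = B then v else 0) := by
    intro i
    rw [← Finset.sum_add_distrib]
    refine Finset.sum_congr rfl fun E _ => ?_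
    rw [← Finset.sum_add_distrib]
    refine Finset.sum_congr rfl fun C _ => ?_
    rw [← smul_add, h]
  simp only [h2]
  rw [Finset.sum_eq_single j]
  · rw [Finset.sum_eq_single B]
    · rw [Finset.sum_smul]
      refine Finset.sum_congr rfl fun C _ => ?_
      rw [if_pos ⟨rfl, rfl⟩]
    · intro E _ hE
      refine Finset.sum_eq_zero fun C _ => ?_
      rw [if_neg (fun h => hE h.2), smul_zero]
    · intro h; exact absurd (Finset.mem_univ _) h
  · intro i _ hi
    refine Finset.sum_eq_zero fun E _ => Finset.sum_eq_zero fun C _ => ?_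
    rw [if_neg (fun h => hi h.1), smul_zero]
  · intro h; exact absurd (Finset.mem_univ _) h

private lemma a_io (i : Fin 8) (E : Fin 3) (A : Fin 3) (x : X3) (v : F) :
    K.io A x (K.a i E v) = - K.a i E (K.io A x v) := by
  have h : ∀ i E j B, K.a i E (K.a j B v) = - K.a j B (K.a i E v) := by
    intro i E j B
    have := congrArg (fun T : F →L[ℂ] F => T v) (K.aa i E j B)
    exact eq_neg_of_add_eq_zero_left this
  rw [io_apply, io_apply]
  simp only [map_sum, map_smul]
  rw [← Finset.sum_neg_distrib]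
  refine Finset.sum_congr rfl fun j _ => ?_
  rw [← Finset.sum_neg_distrib]
  refine Finset.sum_congr rfl fun B _ => ?_
  rw [← Finset.sum_neg_distrib]
  refine Finset.sum_congr rfl fun C _ => ?_
  rw [h j B i E, smul_neg]

private lemma io_io (A B : Fin 3) (x : X3) (v : F) :
    K.io A x (K.io B x v) = - K.io B x (K.io A x v) := by
  rw [K.io_apply B x v, K.io_apply B x (K.io A x v)]
  simp only [map_sum, map_smul]
  rw [← Finset.sum_neg_distrib]
  refine Finset.sum_congr rfl fun j _ => ?_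
  rw [← Finset.sum_neg_distrib]
  refine Finset.sum_congr rfl fun B _ => ?_
  rw [← Finset.sum_neg_distrib]
  refine Finset.sum_congr rfl fun C _ => ?_
  rw [a_io, smul_neg]

private lemma io_sq (A : Fin 3) (x : X3) (v : F) : K.io A x (K.io A x v) = 0 := by
  have h := K.io_io A A x v
  have h2 : (2 : ℂ) • K.io A x (K.io A x v) = 0 := by
    rw [two_smul]; nth_rewrite 1 [h]; exact neg_add_cancel _
  exact (smul_eq_zero.1 h2).resolve_left two_ne_zero


/-! ### `D0` -/

private lemma D0_eq (u : X3 → F) (x : X3) : K.D0 u x = (∑ i : Fin 8, ∑ A, K.c i A (K.dl i A u x)) +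
    K.nu • ∑ A, K.ph A x • K.io A x (u x) := by
  rw [D0, dd_eqI]

private lemma D0_add {u v : X3 → F} {x : X3} (hu : DifferentiableAt ℝ u x) (hv : DifferentiableAt ℝ v x) :
    K.D0 (fun y => u y + v y) x = K.D0 u x + K.D0 v x := by
  have h : ∀ i A, K.dl i A (fun y => u y + v y) x = K.dl i A u x + K.dl i A v x := fun i A =>
    dcv_add _ _ hu hv
  rw [D0_eq, D0_eq, D0_eq]
  simp only [h, map_add, smul_add, Finset.sum_add_distrib]
  abel

private lemma D0_csmul (c : ℂ) {u : X3 → F} {x : X3} (hu : DifferentiableAt ℝ u x) :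
    K.D0 (fun y => c • u y) x = c • K.D0 u x := by
  have h : ∀ i A, K.dl i A (fun y => c • u y) x = c • K.dl i A u x := fun i A =>
    dcv_clm _ _ (c • (1 : F →L[ℂ] F)) hu
  rw [D0_eq, D0_eq]
  simp only [h, map_smul, smul_add, Finset.smul_sum]
  congr 1
  refine Finset.sum_congr rfl fun A _ => ?_
  module

private lemma D0_neg {u : X3 → F} {x : X3} (hu : DifferentiableAt ℝ u x) :
    K.D0 (fun y => - u y) x = - K.D0 u x := by
  have h := K.D0_csmul (-1) hu
  simpa only [neg_smul, one_smul] using h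

private lemma D0_sub {u v : X3 → F} {x : X3} (hu : DifferentiableAt ℝ u x) (hv : DifferentiableAt ℝ v x) :
    K.D0 (fun y => u y - v y) x = K.D0 u x - K.D0 v x := by
  have h := K.D0_add hu hv.fun_neg
  rw [K.D0_neg hv] at h
  simpa only [sub_eq_add_neg] using h

private lemma D0_fsmul {f : X3 → ℂ} {u : X3 → F} {x : X3} (hf : DifferentiableAt ℝ f x)
    (hu : DifferentiableAt ℝ u x) :
    K.D0 (fun y => f y • u y) x = f x • K.D0 u x +
      ∑ i : Fin 8, ∑ A, K.dl i A f x • K.c i A (u x) := by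
  have h : ∀ i A, K.dl i A (fun y => f y • u y) x = K.dl i A f x • u x + f x • K.dl i A u x :=
    fun i A => dcv_smul _ _ hf hu
  rw [D0_eq, D0_eq]
  simp only [h, map_smul, map_add, smul_add, Finset.sum_add_distrib, Finset.smul_sum]
  have e : ∀ A, K.nu • K.ph A x • f x • K.io A x (u x) = f x • K.nu • K.ph A x • K.io A x (u x) := by
    intro A; module
  simp only [e]
  abel

private lemma D0_io (A : Fin 3) {u : X3 → F} {x : X3} (hu : DifferentiableAt ℝ u x) :
    K.D0 (fun y => K.io A y (u y)) x = ((∑ i : Fin 8, ∑ B, ∑ C, ((eps B A C : ℂ) * K.Xc i C x) •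
      K.dl i B u x) + K.spin A (u x)) - K.io A x (K.D0 u x) := by
  rw [D0_eq, D0_eq]
  simp only [K.dl_io _ _ A hu, map_add, map_smul, map_sum]
  have h1 : ∀ i B, K.c i B (K.io A x (K.dl i B u x)) =
      (∑ C, ((eps B A C : ℂ) * K.Xc i C x) • K.dl i B u x) - K.io A x (K.c i B (K.dl i B u x)) := by
    intro i B
    rw [← Finset.sum_smul, ← K.io_c]; abel
  have h2 : ∀ B, K.io B x (K.io A x (u x)) = - K.io A x (K.io B x (u x)) := fun B =>
    K.io_io B A x (u x)
  simp only [h1, h2, smul_neg, Finset.sum_neg_distrib, Finset.sum_add_distrib,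
    Finset.sum_sub_distrib]
  have h3 : K.spin A (u x) = ∑ i : Fin 8, ∑ B, ∑ E, (eps E A B : ℂ) • K.c i B (K.a i E (u x)) := by
    rw [spin]
    simp only [_root_.sum_apply, _root_.smul_apply]
    refine Finset.sum_congr rfl fun i _ => ?_
    rw [Finset.sum_comm]
    rfl
  rw [h3]
  abel

private lemma D0_c (j : Fin 8) (A : Fin 3) {u : X3 → F} {x : X3} (hu : DifferentiableAt ℝ u x) :
    K.D0 (fun y => K.c j A (u y)) x = - K.c j A (K.D0 u x) +
      (K.nu * ∑ B, ∑ C, K.ph B x * ((eps A B C : ℂ) * K.Xc j C x)) • u x := by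
  have h : ∀ i B, K.dl i B (fun y => K.c j A (u y)) x = K.c j A (K.dl i B u x) := fun i B =>
    dcv_clm _ _ (K.c j A) hu
  have hc : ∀ i B v, K.c i B (K.c j A v) = - K.c j A (K.c i B v) := by
    intro i B v
    have := congrArg (fun T : F →L[ℂ] F => T v) (K.cc i B j A)
    exact eq_neg_of_add_eq_zero_left this
  have h1 : ∀ B, K.io B x (K.c j A (u x)) =
      (∑ C, (eps A B C : ℂ) * K.Xc j C x) • u x - K.c j A (K.io B x (u x)) := by
    intro B
    rw [← K.io_c]; abel
  rw [D0_eq, D0_eq]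
  simp only [h, hc, h1, map_add, map_smul, map_sum, Finset.sum_neg_distrib, smul_sub,
    Finset.sum_sub_distrib]
  have h2 : ∑ B, K.ph B x • (∑ C, (eps A B C : ℂ) * K.Xc j C x) • u x =
      (∑ B, ∑ C, K.ph B x * ((eps A B C : ℂ) * K.Xc j C x)) • u x := by
    rw [Finset.sum_smul]
    refine Finset.sum_congr rfl fun B _ => ?_
    rw [smul_smul, Finset.mul_sum]
  rw [h2]
  module

private lemma dpb_apply (A : Fin 3) (v : F) : K.dpb A v = (2 : ℂ) • K.c 7 A v := rfl

private lemma D0_dpb (A : Fin 3) {u : X3 → F} {x : X3} (hu : DifferentiableAt ℝ u x) :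
    K.D0 (fun y => K.dpb A (u y)) x = - K.dpb A (K.D0 u x) +
      (K.nu * ∑ B, ∑ C, (eps A B C : ℂ) * (K.ph B x * K.phb C x)) • u x := by
  have hd : DifferentiableAt ℝ (fun y => K.c 7 A (u y)) x :=
    ((K.c 7 A).restrictScalars ℝ).differentiableAt.comp x hu
  simp only [dpb_apply]
  rw [K.D0_csmul 2 hd, K.D0_c 7 A hu, smul_add, smul_neg, smul_smul]
  congr 2
  rw [Finset.mul_sum, Finset.mul_sum, Finset.mul_sum]
  refine Finset.sum_congr rfl fun B _ => ?_
  rw [Finset.mul_sum, Finset.mul_sum, Finset.mul_sum]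
  refine Finset.sum_congr rfl fun C _ => ?_
  rw [Xc, if_pos rfl]
  ring

private lemma D0_dpp (A : Fin 3) {u : X3 → F} (hu : ContDiff ℝ ∞ u) (x : X3) :
    K.D0 (K.dpp A u) x = K.dpp A (K.D0 u) x - K.nu • K.io A x (u x) := by
  have hud : ∀ x, DifferentiableAt ℝ u x := fun x => (hu.differentiable (by simp)) x
  have hdl : ∀ i B, ContDiff ℝ ∞ (K.dl i B u) := fun i B => dcv_contDiff _ _ hu
  have hio : ∀ B, DifferentiableAt ℝ (fun y => K.io B y (u y)) x := fun B => by
    simp only [io_apply]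
    exact DifferentiableAt.fun_sum fun j _ => DifferentiableAt.fun_sum fun E _ =>
      DifferentiableAt.fun_sum fun C _ => K.diff_io_term B (hud x) j E C
  have h1 : ∀ i B, DifferentiableAt ℝ (fun y => K.c i B (K.dl i B u y)) x := fun i B =>
    ((K.c i B).restrictScalars ℝ).differentiableAt.comp x ((hdl i B).differentiable (by simp) x)
  have e : K.D0 u = fun y => (∑ i : Fin 8, ∑ B, K.c i B (K.dl i B u y)) +
    K.nu • ∑ B, K.ph B y • K.io B y (u y) := by
    funext y; exact K.D0_eq u y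
  have h2 : K.dpp A (fun y => ∑ i : Fin 8, ∑ B, K.c i B (K.dl i B u y)) x =
      ∑ i : Fin 8, ∑ B, K.c i B (K.dl i B (K.dpp A u) x) := by
    rw [dpp, dcv_sum _ _ _ fun i _ => DifferentiableAt.fun_sum fun B _ => h1 i B]
    refine Finset.sum_congr rfl fun i _ => ?_
    rw [dcv_sum _ _ _ fun B _ => h1 i B]
    refine Finset.sum_congr rfl fun B _ => ?_
    rw [dcv_clm _ _ _ ((hdl i B).differentiable (by simp) x)]
    congr 1
    exact dcv_comm _ _ _ _ hu x
  have h3 : ∀ B, K.dpp A (fun y => K.ph B y • K.io B y (u y)) x =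
      (if A = B then (1 : ℂ) else 0) • K.io B x (u x) + K.ph B x • K.io B x (K.dpp A u x) := by
    intro B
    rw [dpp, dcv_smul _ _ (K.diff_ph B x) (hio B)]
    have e1 := K.dpp_ph A B x
    have e2 := K.dpp_io A B (hud x)
    rw [dpp] at e1 e2
    rw [e1, e2]
  have hphio : ∀ B, DifferentiableAt ℝ (fun y => K.ph B y • K.io B y (u y)) x := fun B =>
    (K.diff_ph B x).smul (hio B)
  have h4 : K.dpp A (fun y => K.nu • ∑ B, K.ph B y • K.io B y (u y)) x =
      K.nu • (K.io A x (u x) + ∑ B, K.ph B x • K.io B x (K.dpp A u x)) := by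
    have e1 : K.dpp A (fun y => K.nu • ∑ B, K.ph B y • K.io B y (u y)) x =
        K.nu • K.dpp A (fun y => ∑ B, K.ph B y • K.io B y (u y)) x :=
      dcv_clm (u := fun y => ∑ B, K.ph B y • K.io B y (u y)) _ _ (K.nu • (1 : F →L[ℂ] F))
        (DifferentiableAt.fun_sum fun B _ => hphio B)
    have e2 : K.dpp A (fun y => ∑ B, K.ph B y • K.io B y (u y)) x =
        ∑ B, K.dpp A (fun y => K.ph B y • K.io B y (u y)) x :=
      dcv_sum _ _ _ fun B _ => hphio B
    rw [e1, e2]
    simp only [h3, Finset.sum_add_distrib]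
    congr 2
    rw [Finset.sum_eq_single A]
    · rw [if_pos rfl, one_smul]
    · intro B _ hB
      rw [if_neg (fun h => hB h.symm), zero_smul]
    · intro h; exact absurd (Finset.mem_univ _) h
  have h5 : K.dpp A (K.D0 u) x = K.dpp A (fun y => ∑ i : Fin 8, ∑ B, K.c i B (K.dl i B u y)) x +
      K.dpp A (fun y => K.nu • ∑ B, K.ph B y • K.io B y (u y)) x := by
    rw [e]
    exact dcv_add _ _ (DifferentiableAt.fun_sum fun i _ => DifferentiableAt.fun_sum fun B _ =>
      h1 i B) ((DifferentiableAt.fun_sum fun B _ => hphio B).fun_const_smul _)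
  rw [h5, h2, h4, D0_eq]
  module


/-! ### `L'` and `L` -/

/-- `L'_A = {D0, ι_A}` -/
private noncomputable def Lp (A : Fin 3) (u : X3 → F) (x : X3) : F :=
  (∑ i : Fin 8, ∑ B, ∑ C, ((eps B A C : ℂ) * K.Xc i C x) • K.dl i B u x) + K.spin A (u x)

private lemma spin_apply (A : Fin 3) (v : F) : K.spin A v =
    ∑ i : Fin 8, ∑ B, ∑ C, (eps B A C : ℂ) • K.c i C (K.a i B v) := by
  rw [spin]
  simp only [_root_.sum_apply, _root_.smul_apply]
  rfl

private lemma ac_apply (i : Fin 8) (A : Fin 3) (j : Fin 8) (B : Fin 3) (v : F) :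
    K.a i A (K.c j B v) = (if i = j ∧ A = B then v else 0) - K.c j B (K.a i A v) := by
  have := congrArg (fun T : F →L[ℂ] F => T v) (K.ac i A j B)
  have e1 : (K.a i A * K.c j B + K.c j B * K.a i A) v =
      K.a i A (K.c j B v) + K.c j B (K.a i A v) := rfl
  simp only [e1] at this
  rw [eq_sub_iff_add_eq, this]
  split_ifs <;> rfl

private lemma cc_apply (i : Fin 8) (A : Fin 3) (j : Fin 8) (B : Fin 3) (v : F) :
    K.c i A (K.c j B v) = - K.c j B (K.c i A v) := by
  have := congrArg (fun T : F →L[ℂ] F => T v) (K.cc i A j B)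
  exact eq_neg_of_add_eq_zero_left this

private lemma aa_apply (i : Fin 8) (A : Fin 3) (j : Fin 8) (B : Fin 3) (v : F) :
    K.a i A (K.a j B v) = - K.a j B (K.a i A v) := by
  have := congrArg (fun T : F →L[ℂ] F => T v) (K.aa i A j B)
  exact eq_neg_of_add_eq_zero_left this

private lemma spin_a (A : Fin 3) (j : Fin 8) (D : Fin 3) (v : F) :
    K.spin A (K.a j D v) = K.a j D (K.spin A v) - ∑ E, (eps E A D : ℂ) • K.a j E v := by
  have h : ∀ i B C, K.c i C (K.a i B (K.a j D v)) =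
      K.a j D (K.c i C (K.a i B v)) - (if j = i ∧ D = C then K.a i B v else 0) := by
    intro i B C
    rw [aa_apply, map_neg, ac_apply]
    abel
  rw [spin_apply, spin_apply]
  simp only [h, map_sum, map_smul, smul_sub, Finset.sum_sub_distrib]
  congr 1
  rw [Finset.sum_eq_single j]
  · refine Finset.sum_congr rfl fun E _ => ?_
    rw [Finset.sum_eq_single D]
    · rw [if_pos ⟨rfl, rfl⟩]
    · intro C _ hC
      rw [if_neg (fun h => hC h.2.symm), smul_zero]
    · intro h; exact absurd (Finset.mem_univ _) h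
  · intro i _ hi
    refine Finset.sum_eq_zero fun E _ => Finset.sum_eq_zero fun C _ => ?_
    rw [if_neg (fun h => hi h.1.symm), smul_zero]
  · intro h; exact absurd (Finset.mem_univ _) h

private lemma spin_c (A : Fin 3) (j : Fin 8) (D : Fin 3) (v : F) :
    K.spin A (K.c j D v) = K.c j D (K.spin A v) + ∑ E, (eps D A E : ℂ) • K.c j E v := by
  have h : ∀ i B C, K.c i C (K.a i B (K.c j D v)) =
      K.c j D (K.c i C (K.a i B v)) + (if i = j ∧ B = D then K.c i C v else 0) := by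
    intro i B C
    rw [ac_apply, map_sub, K.cc_apply i C j D, sub_neg_eq_add, add_comm]
    split_ifs
    · rfl
    · rw [map_zero]
  rw [spin_apply, spin_apply]
  simp only [h, map_sum, map_smul, smul_add, Finset.sum_add_distrib]
  congr 1
  rw [Finset.sum_eq_single j]
  · rw [Finset.sum_eq_single D]
    · refine Finset.sum_congr rfl fun C _ => ?_
      rw [if_pos ⟨rfl, rfl⟩]
    · intro B _ hB
      refine Finset.sum_eq_zero fun C _ => ?_
      rw [if_neg (fun h => hB h.2), smul_zero]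
    · intro h; exact absurd (Finset.mem_univ _) h
  · intro i _ hi
    refine Finset.sum_eq_zero fun E _ => Finset.sum_eq_zero fun C _ => ?_
    rw [if_neg (fun h => hi h.1), smul_zero]
  · intro h; exact absurd (Finset.mem_univ _) h

private lemma eps_jac (A B C E : Fin 3) : (∑ B', eps B' A C * eps E B B') - (∑ D, eps D B C * eps E A D) =
    - ∑ G, eps A B G * eps E G C := by
  revert A B C E; decide

private lemma Lp_io (A B : Fin 3) {u : X3 → F} {x : X3} (hu : DifferentiableAt ℝ u x) :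
    K.Lp A (fun y => K.io B y (u y)) x =
      K.io B x (K.Lp A u x) - ∑ G, (eps A B G : ℂ) • K.io G x (u x) := by
  have hs : K.spin A (K.io B x (u x)) = K.io B x (K.spin A (u x)) -
      ∑ j : Fin 8, ∑ E, ∑ C, (∑ D, (eps D B C : ℂ) * (eps E A D : ℂ)) • K.Xc j C x •
        K.a j E (u x) := by
    rw [io_apply, io_apply]
    simp only [map_sum, map_smul, spin_a, smul_sub, Finset.sum_sub_distrib]
    congr 1
    refine Finset.sum_congr rfl fun j _ => ?_
    have e1 : ∀ E C, (∑ D, (eps D B C : ℂ) * (eps E A D : ℂ)) • K.Xc j C x • K.a j E (u x) =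
        ∑ D, ((eps D B C : ℂ) * (eps E A D : ℂ)) • K.Xc j C x • K.a j E (u x) := fun E C =>
      Finset.sum_smul
    simp only [e1, Finset.smul_sum]
    rw [Finset.sum_comm]
    have e2 : ∀ C, ∑ D, ∑ E, ((eps D B C : ℂ) * K.Xc j C x) • (eps E A D : ℂ) • K.a j E (u x) =
        ∑ E, ∑ D, ((eps D B C : ℂ) * (eps E A D : ℂ)) • K.Xc j C x • K.a j E (u x) := by
      intro C
      rw [Finset.sum_comm]
      refine Finset.sum_congr rfl fun E _ => Finset.sum_congr rfl fun D _ => ?_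
      module
    simp only [e2]
    rw [Finset.sum_comm]
  have ho : (∑ i : Fin 8, ∑ E, ∑ C, ((eps E A C : ℂ) * K.Xc i C x) •
      K.dl i E (fun y => K.io B y (u y)) x) =
      (∑ i : Fin 8, ∑ E, ∑ C, (∑ B', (eps B' A C : ℂ) * (eps E B B' : ℂ)) • K.Xc i C x •
        K.a i E (u x)) + K.io B x (∑ i : Fin 8, ∑ E, ∑ C, ((eps E A C : ℂ) * K.Xc i C x) •
          K.dl i E u x) := by
    simp only [K.dl_io _ _ B hu, map_sum, map_smul, smul_add, Finset.sum_add_distrib]
    congr 1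
    refine Finset.sum_congr rfl fun i _ => ?_
    have e1 : ∀ E C, (∑ B', (eps B' A C : ℂ) * (eps E B B' : ℂ)) • K.Xc i C x • K.a i E (u x) =
        ∑ B', ((eps B' A C : ℂ) * (eps E B B' : ℂ)) • K.Xc i C x • K.a i E (u x) := fun E C =>
      Finset.sum_smul
    simp only [e1, Finset.smul_sum]
    rw [Finset.sum_comm]
    have e2 : ∀ C, ∑ D, ∑ E, ((eps D A C : ℂ) * K.Xc i C x) • (eps E B D : ℂ) • K.a i E (u x) =
        ∑ E, ∑ D, ((eps D A C : ℂ) * (eps E B D : ℂ)) • K.Xc i C x • K.a i E (u x) := by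
      intro C
      rw [Finset.sum_comm]
      refine Finset.sum_congr rfl fun E _ => Finset.sum_congr rfl fun D _ => ?_
      module
    simp only [e2]
    rw [Finset.sum_comm]
  rw [Lp, Lp, ho, hs, map_add]
  have hj : (∑ G, (eps A B G : ℂ) • K.io G x (u x)) =
      (∑ j : Fin 8, ∑ E, ∑ C, (∑ D, (eps D B C : ℂ) * (eps E A D : ℂ)) • K.Xc j C x •
        K.a j E (u x)) - ∑ i : Fin 8, ∑ E, ∑ C, (∑ B', (eps B' A C : ℂ) * (eps E B B' : ℂ)) •
          K.Xc i C x • K.a i E (u x) := by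
    have e0 : ∀ G, (eps A B G : ℂ) • K.io G x (u x) = ∑ j : Fin 8, ∑ E, ∑ C,
        ((eps A B G : ℂ) * (eps E G C : ℂ)) • K.Xc j C x • K.a j E (u x) := by
      intro G
      rw [io_apply, Finset.smul_sum]
      refine Finset.sum_congr rfl fun j _ => ?_
      rw [Finset.smul_sum]
      refine Finset.sum_congr rfl fun E _ => ?_
      rw [Finset.smul_sum]
      refine Finset.sum_congr rfl fun C _ => ?_
      module
    simp only [e0]
    rw [Finset.sum_comm, ← Finset.sum_sub_distrib]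
    refine Finset.sum_congr rfl fun j _ => ?_
    rw [Finset.sum_comm, ← Finset.sum_sub_distrib]
    refine Finset.sum_congr rfl fun E _ => ?_
    rw [Finset.sum_comm, ← Finset.sum_sub_distrib]
    refine Finset.sum_congr rfl fun C _ => ?_
    rw [← Finset.sum_smul, ← sub_smul]
    congr 1
    have := congrArg (fun z : ℤ => (z : ℂ)) (eps_jac A B C E)
    push_cast at this
    linear_combination this
  rw [hj]
  abel


private lemma LL_eq (A : Fin 3) (u : X3 → F) (x : X3) :
    K.LL A u x = K.Lp A u x + ∑ B, ∑ C, ((eps B A C : ℂ) * K.ph C x) • K.dpp B u x := by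
  have h : (∑ i : Fin 9, ∑ B, ∑ C, ((eps B A C : ℂ) * (x (i, C) : ℂ)) • pd i B u x) =
      (∑ i : Fin 8, ∑ B, ∑ C, ((eps B A C : ℂ) * K.Xc i C x) • K.dl i B u x) +
        ∑ B, ∑ C, ((eps B A C : ℂ) * K.ph C x) • K.dpp B u x := by
    rw [Fin.sum_univ_castSucc (n := 8), Fin.sum_univ_castSucc (n := 7),
      Fin.sum_univ_castSucc (n := 7), add_assoc, add_assoc]
    refine congrArg₂ (· + ·) ?_ ?_
    · refine Finset.sum_congr rfl fun i _ => Finset.sum_congr rfl fun B _ =>
        Finset.sum_congr rfl fun C _ => ?_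
      rw [← K.dl_e8, ← K.Xc_e8]
    · rw [← Finset.sum_add_distrib, ← Finset.sum_add_distrib]
      refine Finset.sum_congr rfl fun B _ => ?_
      rw [← Finset.sum_add_distrib, ← Finset.sum_add_distrib]
      refine Finset.sum_congr rfl fun C _ => ?_
      have h1 : (Fin.last 7) = (7 : Fin 8) := rfl
      have h2 : (Fin.last 8) = (8 : Fin 9) := rfl
      have h3 : (Fin.castSucc 7 : Fin 9) = 7 := rfl
      rw [h1, h2, h3, dl_7, ← dph_eq, dph, Xc, if_pos rfl, phb, ph]
      have hs := K.sgc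
      have hI := Complex.I_mul_I
      have e : (K.sg : ℂ) * (K.sg : ℂ) * (Complex.I * Complex.I) = -1 := by rw [hs, hI]; ring
      match_scalars
      · linear_combination (0 : ℂ) * e
      · linear_combination ((x (8, C) : ℂ) * (eps B A C : ℂ)) * e
  rw [LL, orb, h, Lp]
  abel

private lemma pd_fsmul {f : X3 → ℂ} {u : X3 → F} {x : X3} (hf : DifferentiableAt ℝ f x)
    (hu : DifferentiableAt ℝ u x) (A : Fin 3) :
    K.LL A (fun y => f y • u y) x = f x • K.LL A u x +
      (∑ i : Fin 9, ∑ B, ∑ C, ((eps B A C : ℂ) * (x (i, C) : ℂ)) *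
        fderiv ℝ f x (EuclideanSpace.single (i, B) 1)) • u x := by
  have h : ∀ i B, pd i B (fun y => f y • u y) x =
      fderiv ℝ f x (EuclideanSpace.single (i, B) 1) • u x + f x • pd i B u x := fun i B =>
    pd_csmul hf hu
  rw [LL, LL, orb, orb]
  simp only [h, smul_add, Finset.sum_add_distrib, map_smul, Finset.smul_sum, Finset.sum_smul,
    smul_smul]
  have e : ∀ (i : Fin 9) (B C : Fin 3), ((eps B A C : ℂ) * (x (i, C) : ℂ) * f x) • pd i B u x =
      (f x * ((eps B A C : ℂ) * (x (i, C) : ℂ))) • pd i B u x := by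
    intro i B C; rw [mul_comm]
  simp only [e]
  abel

private lemma LL_add (A : Fin 3) {u v : X3 → F} {x : X3} (hu : DifferentiableAt ℝ u x)
    (hv : DifferentiableAt ℝ v x) :
    K.LL A (fun y => u y + v y) x = K.LL A u x + K.LL A v x := by
  have h : ∀ i B, pd i B (fun y => u y + v y) x = pd i B u x + pd i B v x := fun i B =>
    pd_add hu hv
  rw [LL, LL, LL, orb, orb, orb]
  simp only [h, smul_add, Finset.sum_add_distrib, map_add]
  abel

private lemma LL_csmul (A : Fin 3) (c : ℂ) {u : X3 → F} {x : X3} (hu : DifferentiableAt ℝ u x) :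
    K.LL A (fun y => c • u y) x = c • K.LL A u x := by
  have h := K.pd_fsmul (f := fun _ => c) (differentiableAt_const c) hu A
  rw [h]
  simp

private lemma LL_sub (A : Fin 3) {u v : X3 → F} {x : X3} (hu : DifferentiableAt ℝ u x)
    (hv : DifferentiableAt ℝ v x) :
    K.LL A (fun y => u y - v y) x = K.LL A u x - K.LL A v x := by
  have h := K.LL_add A hu (v := fun y => (-1 : ℂ) • v y) (hv.fun_const_smul _)
  rw [K.LL_csmul A (-1) hv] at h
  simpa only [neg_smul, one_smul, sub_eq_add_neg] using h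

private lemma LL_c (A : Fin 3) (j : Fin 8) (D : Fin 3) {u : X3 → F} {x : X3}
    (hu : DifferentiableAt ℝ u x) :
    K.LL A (fun y => K.c j D (u y)) x = K.c j D (K.LL A u x) +
      ∑ E, (eps D A E : ℂ) • K.c j E (u x) := by
  have h : ∀ i B, pd i B (fun y => K.c j D (u y)) x = K.c j D (pd i B u x) := fun i B =>
    pd_clm (K.c j D) hu
  rw [LL, LL, orb, orb]
  simp only [h, spin_c, map_add, map_sum, map_smul]
  abel

private lemma LL_dpb (A : Fin 3) (D : Fin 3) {u : X3 → F} {x : X3} (hu : DifferentiableAt ℝ u x) :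
    K.LL A (fun y => K.dpb D (u y)) x = K.dpb D (K.LL A u x) +
      ∑ E, (eps D A E : ℂ) • K.dpb E (u x) := by
  have hd : DifferentiableAt ℝ (fun y => K.c 7 D (u y)) x :=
    ((K.c 7 D).restrictScalars ℝ).differentiableAt.comp x hu
  simp only [dpb_apply]
  rw [K.LL_csmul A 2 hd, K.LL_c A 7 D hu, smul_add, Finset.smul_sum]
  congr 1
  refine Finset.sum_congr rfl fun E _ => ?_
  rw [smul_comm]


/-! ### the exponential -/

private lemma diff_real_coord (p : Fin 9 × Fin 3) (x : X3) : DifferentiableAt ℝ (fun y : X3 => y p) x :=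
  (EuclideanSpace.proj (𝕜 := ℝ) p : X3 →L[ℝ] ℝ).differentiableAt

private lemma fderiv_sq_coord (p : Fin 9 × Fin 3) (x v : X3) :
    fderiv ℝ (fun y : X3 => y p ^ 2) x v = 2 * x p * v p := by
  have h := ((EuclideanSpace.proj (𝕜 := ℝ) p : X3 →L[ℝ] ℝ).hasFDerivAt (x := x)).pow 2
  have h2 : fderiv ℝ (fun y : X3 => y p ^ 2) x = _ := h.fderiv
  rw [h2]
  simp

private lemma diff_perp2 (x : X3) : DifferentiableAt ℝ perp2 x := by
  unfold perp2
  exact ((((diff_real_coord (7, 0) x).fun_pow 2).fun_add ((diff_real_coord (8, 0) x).fun_pow 2)).fun_add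
    ((diff_real_coord (7, 1) x).fun_pow 2)).fun_add ((diff_real_coord (8, 1) x).fun_pow 2)

private lemma fderiv_perp2 (x v : X3) : fderiv ℝ perp2 x v = 2 * (x (7, 0) * v (7, 0) +
    x (8, 0) * v (8, 0) + x (7, 1) * v (7, 1) + x (8, 1) * v (8, 1)) := by
  unfold perp2
  rw [fderiv_fun_add ((((diff_real_coord (7, 0) x).fun_pow 2).fun_add
    ((diff_real_coord (8, 0) x).fun_pow 2)).fun_add ((diff_real_coord (7, 1) x).fun_pow 2))
    ((diff_real_coord (8, 1) x).fun_pow 2), fderiv_fun_add (((diff_real_coord (7, 0) x).fun_pow 2).fun_add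
    ((diff_real_coord (8, 0) x).fun_pow 2)) ((diff_real_coord (7, 1) x).fun_pow 2),
    fderiv_fun_add ((diff_real_coord (7, 0) x).fun_pow 2) ((diff_real_coord (8, 0) x).fun_pow 2)]
  simp only [_root_.add_apply, fderiv_sq_coord]
  ring

private lemma diff_E (t : ℝ) (x : X3) :
    DifferentiableAt ℝ (fun y => ((Real.exp (-t * perp2 y) : ℝ) : ℂ)) x :=
  Complex.ofRealCLM.differentiableAt.comp x ((diff_perp2 x).const_mul (-t)).exp

private lemma fderiv_E (t : ℝ) (x v : X3) :
    fderiv ℝ (fun y => ((Real.exp (-t * perp2 y) : ℝ) : ℂ)) x v =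
      ((Real.exp (-t * perp2 x) : ℝ) : ℂ) * (-(t : ℂ) * ((fderiv ℝ perp2 x v : ℝ) : ℂ)) := by
  have h := (Complex.ofRealCLM.hasFDerivAt (x := Real.exp (-t * perp2 x))).comp x
    ((diff_perp2 x).hasFDerivAt.const_mul (-t)).exp
  have h2 : fderiv ℝ (fun y => ((Real.exp (-t * perp2 y) : ℝ) : ℂ)) x = _ := h.fderiv
  rw [h2]
  simp

private lemma dl_E (i : Fin 8) (A : Fin 3) (t : ℝ) (x : X3) :
    K.dl i A (fun y => ((Real.exp (-t * perp2 y) : ℝ) : ℂ)) x =
      if i = 7 ∧ A ≠ 2 then ((Real.exp (-t * perp2 x) : ℝ) : ℂ) * (-2 * (t : ℂ) * K.ph A x)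
        else 0 := by
  rw [dl, dcv, fderiv_E, fderiv_E, fderiv_perp2, fderiv_perp2]
  by_cases hi : i = 7
  · subst hi
    rw [if_pos rfl]
    have h1 : f9 7 = (7 : Fin 9) := rfl
    rw [h1]
    simp only [PiLp.smul_apply, single_ap, Prod.mk.injEq, smul_eq_mul, ph]
    fin_cases A
    · simp
      ring
    · simp
      ring
    · simp
  · rw [if_neg hi]
    simp [f9_ne7 hi, f9_ne8, hi]

private lemma D0_E (t : ℝ) {u : X3 → F} {x : X3} (hu : DifferentiableAt ℝ u x) :
    K.D0 (fun y => (Real.exp (-t * perp2 y) : ℂ) • u y) x =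
      (Real.exp (-t * perp2 x) : ℂ) • (K.D0 u x - (t : ℂ) • (K.ph 0 x • K.dpb 0 (u x) +
        K.ph 1 x • K.dpb 1 (u x))) := by
  have h := K.D0_fsmul (diff_E t x) hu
  rw [h]
  simp only [dl_E]
  rw [Finset.sum_eq_single 7]
  · rw [Fin.sum_univ_three, if_pos ⟨rfl, by decide⟩, if_pos ⟨rfl, by decide⟩,
      if_neg (by decide), dpb_apply, dpb_apply]
    module
  · intro i _ hi
    refine Finset.sum_eq_zero fun A _ => ?_
    rw [if_neg (fun h => hi h.1), zero_smul]
  · intro h; exact absurd (Finset.mem_univ _) h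

private lemma orb_E (A : Fin 3) (t : ℝ) (x : X3) :
    (∑ i : Fin 9, ∑ B, ∑ C, ((eps B A C : ℂ) * (x (i, C) : ℂ)) *
      fderiv ℝ (fun y => ((Real.exp (-t * perp2 y) : ℝ) : ℂ)) x
        (EuclideanSpace.single (i, B) 1)) =
      ((Real.exp (-t * perp2 x) : ℝ) : ℂ) * (-(t : ℂ) * (2 * ∑ C,
        ((eps 0 A C : ℂ) * ((x (7, 0) : ℂ) * (x (7, C) : ℂ) + (x (8, 0) : ℂ) * (x (8, C) : ℂ)) +
        (eps 1 A C : ℂ) * ((x (7, 1) : ℂ) * (x (7, C) : ℂ) + (x (8, 1) : ℂ) * (x (8, C) : ℂ))))) := by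
  simp only [fderiv_E, fderiv_perp2, single_ap]
  rw [Fin.sum_univ_castSucc (n := 8), Fin.sum_univ_castSucc (n := 7)]
  have h0 : ∀ i : Fin 7, (∑ B, ∑ C, ((eps B A C : ℂ) * (x ((i.castSucc.castSucc : Fin 9), C) : ℂ)) *
      (((Real.exp (-t * perp2 x) : ℝ) : ℂ) * (-(t : ℂ) * (((2 * (x (7, 0) *
        (if ((7 : Fin 9), (0 : Fin 3)) = ((i.castSucc.castSucc : Fin 9), B) then 1 else 0) +
        x (8, 0) * (if ((8 : Fin 9), (0 : Fin 3)) = ((i.castSucc.castSucc : Fin 9), B) then 1 else 0) +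
        x (7, 1) * (if ((7 : Fin 9), (1 : Fin 3)) = ((i.castSucc.castSucc : Fin 9), B) then 1 else 0) +
        x (8, 1) * (if ((8 : Fin 9), (1 : Fin 3)) = ((i.castSucc.castSucc : Fin 9), B) then 1 else 0))
        : ℝ) : ℂ))))) = 0 := by
    intro i
    have h7 : (7 : Fin 9) ≠ i.castSucc.castSucc := by
      intro h
      have := congrArg Fin.val h
      have h2 := i.isLt
      simp at this
      omega
    have h8 := f9_ne8 i.castSucc
    refine Finset.sum_eq_zero fun B _ => Finset.sum_eq_zero fun C _ => ?_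
    simp [h7, h8]
  rw [Finset.sum_congr rfl fun i _ => h0 i, Finset.sum_const_zero, zero_add]
  have h1 : (Fin.last 7).castSucc = (7 : Fin 9) := rfl
  have h2 : (Fin.last 8) = (8 : Fin 9) := rfl
  rw [h1, h2, Fin.sum_univ_three, Fin.sum_univ_three, Fin.sum_univ_three, Fin.sum_univ_three,
    Fin.sum_univ_three, Fin.sum_univ_three, Fin.sum_univ_three, Fin.sum_univ_three,
    Fin.sum_univ_three]
  simp
  ring


/-! ### values of `eps` -/

private lemma ev000 : eps 0 0 0 = 0 := by decide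
private lemma ev001 : eps 0 0 1 = 0 := by decide
private lemma ev002 : eps 0 0 2 = 0 := by decide
private lemma ev010 : eps 0 1 0 = 0 := by decide
private lemma ev011 : eps 0 1 1 = 0 := by decide
private lemma ev012 : eps 0 1 2 = 1 := by decide
private lemma ev020 : eps 0 2 0 = 0 := by decide
private lemma ev021 : eps 0 2 1 = -1 := by decide
private lemma ev022 : eps 0 2 2 = 0 := by decide
private lemma ev100 : eps 1 0 0 = 0 := by decide
private lemma ev101 : eps 1 0 1 = 0 := by decide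
private lemma ev102 : eps 1 0 2 = -1 := by decide
private lemma ev110 : eps 1 1 0 = 0 := by decide
private lemma ev111 : eps 1 1 1 = 0 := by decide
private lemma ev112 : eps 1 1 2 = 0 := by decide
private lemma ev120 : eps 1 2 0 = 1 := by decide
private lemma ev121 : eps 1 2 1 = 0 := by decide
private lemma ev122 : eps 1 2 2 = 0 := by decide
private lemma ev200 : eps 2 0 0 = 0 := by decide
private lemma ev201 : eps 2 0 1 = 1 := by decide
private lemma ev202 : eps 2 0 2 = 0 := by decide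
private lemma ev210 : eps 2 1 0 = -1 := by decide
private lemma ev211 : eps 2 1 1 = 0 := by decide
private lemma ev212 : eps 2 1 2 = 0 := by decide
private lemma nu_ne : K.nu ≠ 0 := by
  rw [nu]
  refine mul_ne_zero Complex.I_ne_zero ?_
  intro h
  have h2 := K.f0_sq
  rw [Complex.ofReal_eq_zero.1 h] at h2
  norm_num at h2

private lemma diff_io (B : Fin 3) {u : X3 → F} {x : X3} (hu : DifferentiableAt ℝ u x) :
    DifferentiableAt ℝ (fun y => K.io B y (u y)) x := by
  simp only [io_apply]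
  exact DifferentiableAt.fun_sum fun j _ => DifferentiableAt.fun_sum fun E _ =>
    DifferentiableAt.fun_sum fun C _ => K.diff_io_term B hu j E C

private lemma diff_dpb (B : Fin 3) {u : X3 → F} {x : X3} (hu : DifferentiableAt ℝ u x) :
    DifferentiableAt ℝ (fun y => K.dpb B (u y)) x :=
  ((K.dpb B).restrictScalars ℝ).differentiableAt.comp x hu

private lemma dpb_dpb (A B : Fin 3) (v : F) : K.dpb A (K.dpb B v) = - K.dpb B (K.dpb A v) := by
  simp only [dpb_apply, map_smul]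
  rw [K.cc_apply 7 A 7 B]
  module

private lemma dpb_sq (A : Fin 3) (v : F) : K.dpb A (K.dpb A v) = 0 := by
  have h := K.dpb_dpb A A v
  have h2 : (2 : ℂ) • K.dpb A (K.dpb A v) = 0 := by
    rw [two_smul]; nth_rewrite 1 [h]; exact neg_add_cancel _
  exact (smul_eq_zero.1 h2).resolve_left two_ne_zero

private lemma D0_io' (A : Fin 3) {u : X3 → F} {x : X3} (hu : DifferentiableAt ℝ u x) :
    K.D0 (fun y => K.io A y (u y)) x = K.Lp A u x - K.io A x (K.D0 u x) := K.D0_io A hu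

section main

variable {a : X3 → F} (h1 : ContDiff ℝ ∞ a)
  (h2 : ∀ x, K.D0 a x = K.nu • (K.ph 0 x • K.io 0 x (a x) + K.ph 1 x • K.io 1 x (a x)))
  (h3 : ∀ x, K.dpp 0 a x = 0) (h4 : ∀ x, K.dpp 1 a x = 0)

include h1 h2

private lemma T1 (x : X3) : K.D0 (fun y => -((1 / K.nu) • K.dpp 2 a y)) x =
    -(K.ph 0 x • K.io 0 x (K.dpp 2 a x) + K.ph 1 x • K.io 1 x (K.dpp 2 a x)) +
      K.io 2 x (a x) := by
  have had : ∀ y, DifferentiableAt ℝ a y := fun y => (h1.differentiable (by simp)) y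
  have hg : ContDiff ℝ ∞ (K.dpp 2 a) := dcv_contDiff _ _ h1
  have hgd : DifferentiableAt ℝ (K.dpp 2 a) x := (hg.differentiable (by simp)) x
  have hp : ∀ A, K.dpp 2 (fun y => K.ph A y • K.io A y (a y)) x =
      (if (2 : Fin 3) = A then (1 : ℂ) else 0) • K.io A x (a x) +
        K.ph A x • K.io A x (K.dpp 2 a x) := by
    intro A
    rw [dpp, dcv_smul _ _ (K.diff_ph A x) (K.diff_io A (had x))]
    have e1 := K.dpp_ph 2 A x
    have e2 := K.dpp_io 2 A (had x)
    rw [dpp] at e1 e2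
    rw [e1, e2]
  have hd : ∀ A, DifferentiableAt ℝ (fun y => K.ph A y • K.io A y (a y)) x := fun A =>
    (K.diff_ph A x).smul (K.diff_io A (had x))
  have e : K.dpp 2 (K.D0 a) x = K.nu • (K.ph 0 x • K.io 0 x (K.dpp 2 a x) +
      K.ph 1 x • K.io 1 x (K.dpp 2 a x)) := by
    have e0 : K.D0 a = fun y => K.nu • (K.ph 0 y • K.io 0 y (a y) + K.ph 1 y • K.io 1 y (a y)) :=
      funext h2
    rw [e0]
    have e1 : K.dpp 2 (fun y => K.nu • (K.ph 0 y • K.io 0 y (a y) + K.ph 1 y • K.io 1 y (a y))) x =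
        K.nu • K.dpp 2 (fun y => K.ph 0 y • K.io 0 y (a y) + K.ph 1 y • K.io 1 y (a y)) x :=
      dcv_clm (u := fun y => K.ph 0 y • K.io 0 y (a y) + K.ph 1 y • K.io 1 y (a y)) _ _
        (K.nu • (1 : F →L[ℂ] F)) ((hd 0).fun_add (hd 1))
    have e2 : K.dpp 2 (fun y => K.ph 0 y • K.io 0 y (a y) + K.ph 1 y • K.io 1 y (a y)) x =
        K.dpp 2 (fun y => K.ph 0 y • K.io 0 y (a y)) x +
        K.dpp 2 (fun y => K.ph 1 y • K.io 1 y (a y)) x := dcv_add _ _ (hd 0) (hd 1)
    rw [e1, e2, hp, hp, if_neg (by decide), if_neg (by decide), zero_smul, zero_smul, zero_add,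
      zero_add]
  rw [K.D0_neg (hgd.fun_const_smul _), K.D0_csmul _ hgd, K.D0_dpp 2 h1 x, e, ← smul_sub, smul_smul,
    one_div, inv_mul_cancel₀ K.nu_ne, one_smul]
  abel

private lemma T2 (x : X3) : K.D0 (fun y => K.io 1 y (K.io 0 y (a y))) x =
    K.Lp 1 (fun y => K.io 0 y (a y)) x - K.Lp 0 (fun y => K.io 1 y (a y)) x -
      K.io 2 x (a x) := by
  have had : ∀ y, DifferentiableAt ℝ a y := fun y => (h1.differentiable (by simp)) y
  rw [K.D0_io 1 (K.diff_io 0 (had x)), K.D0_io 0 (had x), K.Lp_io 0 1 (had x), h2 x,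
    Fin.sum_univ_three, ev010, ev011, ev012]
  simp only [map_sub, map_smul, map_add, io_sq, Int.cast_zero, Int.cast_one, zero_smul, one_smul,
    zero_add, smul_zero]
  have e : K.io 1 x (K.io 0 x (K.io 1 x (a x))) = 0 := by
    rw [K.io_io 0 1, map_neg, io_sq, neg_zero]
  rw [e, Lp, Lp, smul_zero, smul_zero, sub_zero, map_add]
  abel

private lemma T3 (t : ℂ) (x : X3) : K.D0 (fun y => (2 * t / K.nu * K.phb 2 y) • a y) x =
    (2 * t / K.nu) • K.dpb 2 (a x) + (2 * t * K.phb 2 x) • (K.ph 0 x • K.io 0 x (a x) +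
      K.ph 1 x • K.io 1 x (a x)) := by
  have had : ∀ y, DifferentiableAt ℝ a y := fun y => (h1.differentiable (by simp)) y
  have e : (fun y => (2 * t / K.nu * K.phb 2 y) • a y) =
      fun y => (2 * t / K.nu) • (K.phb 2 y • a y) := by
    funext y; rw [smul_smul]
  rw [e, K.D0_csmul _ ((K.diff_phb 2 x).fun_smul (had x)), K.D0_fsmul (K.diff_phb 2 x) (had x), h2 x]
  simp only [dl_phb]
  rw [Finset.sum_eq_single 7]
  · rw [Finset.sum_eq_single 2]
    · rw [if_pos ⟨rfl, rfl⟩, dpb_apply, smul_add, add_comm]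
      congr 1
      rw [smul_smul, smul_smul]
      congr 1
      field_simp [K.nu_ne]
    · intro A _ hA
      rw [if_neg (fun h => hA h.2), zero_smul]
    · intro h; exact absurd (Finset.mem_univ _) h
  · intro i _ hi
    refine Finset.sum_eq_zero fun A _ => ?_
    rw [if_neg (fun h => hi h.1), zero_smul]
  · intro h; exact absurd (Finset.mem_univ _) h

omit h1 h2 in
private lemma W0_eq (x : X3) : (∑ B, ∑ C, (eps 0 B C : ℂ) * (K.ph B x * K.phb C x)) =
    K.ph 1 x * K.phb 2 x - K.ph 2 x * K.phb 1 x := by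
  simp only [Fin.sum_univ_three, ev000, ev001, ev002, ev010, ev011, ev012, ev020, ev021, ev022]
  push_cast
  ring

omit h1 h2 in
private lemma W1_eq (x : X3) : (∑ B, ∑ C, (eps 1 B C : ℂ) * (K.ph B x * K.phb C x)) =
    K.ph 2 x * K.phb 0 x - K.ph 0 x * K.phb 2 x := by
  simp only [Fin.sum_univ_three, ev100, ev101, ev102, ev110, ev111, ev112, ev120, ev121, ev122]
  push_cast
  ring

private lemma T4 (x : X3) : K.D0 (fun y => K.dpb 0 (K.dpb 1 (a y))) x =
    K.nu • ((K.ph 1 x * K.phb 2 x - K.ph 2 x * K.phb 1 x) • K.dpb 1 (a x) -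
      (K.ph 2 x * K.phb 0 x - K.ph 0 x * K.phb 2 x) • K.dpb 0 (a x) +
      K.ph 0 x • K.dpb 0 (K.dpb 1 (K.io 0 x (a x))) +
      K.ph 1 x • K.dpb 0 (K.dpb 1 (K.io 1 x (a x)))) := by
  have had : ∀ y, DifferentiableAt ℝ a y := fun y => (h1.differentiable (by simp)) y
  rw [K.D0_dpb 0 (K.diff_dpb 1 (had x)), K.D0_dpb 1 (had x), K.W0_eq, K.W1_eq, h2 x]
  simp only [map_add, map_neg, map_smul]
  module

private lemma T5 (x : X3) : K.D0 (fun y => K.dpb 0 (K.io 1 y (a y)) - K.dpb 1 (K.io 0 y (a y))) x =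
    K.nu • ((K.ph 1 x * K.phb 2 x - K.ph 2 x * K.phb 1 x) • K.io 1 x (a x) -
      (K.ph 2 x * K.phb 0 x - K.ph 0 x * K.phb 2 x) • K.io 0 x (a x) +
      K.ph 0 x • K.dpb 0 (K.io 1 x (K.io 0 x (a x))) +
      K.ph 1 x • K.dpb 1 (K.io 1 x (K.io 0 x (a x)))) -
    (K.dpb 0 (K.Lp 1 a x) - K.dpb 1 (K.Lp 0 a x)) := by
  have had : ∀ y, DifferentiableAt ℝ a y := fun y => (h1.differentiable (by simp)) y
  have e := K.io_io 0 1 x (a x)
  rw [K.D0_sub (K.diff_dpb 0 (K.diff_io 1 (had x))) (K.diff_dpb 1 (K.diff_io 0 (had x))),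
    K.D0_dpb 0 (K.diff_io 1 (had x)), K.D0_dpb 1 (K.diff_io 0 (had x)), K.D0_io' 1 (had x),
    K.D0_io' 0 (had x), K.W0_eq, K.W1_eq, h2 x]
  simp only [map_add, map_sub, map_neg, map_smul, io_sq, e, smul_zero, map_zero]
  module

omit h1 h2 in
include h3 h4 in
private lemma LL0_eq (x : X3) : K.LL 0 a x = K.Lp 0 a x + K.ph 1 x • K.dpp 2 a x := by
  rw [K.LL_eq]
  simp only [Fin.sum_univ_three, ev000, ev001, ev002, ev100, ev101, ev102, ev200, ev201, ev202,
    h3, h4]
  push_cast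
  module

omit h1 h2 in
include h3 h4 in
private lemma LL1_eq (x : X3) : K.LL 1 a x = K.Lp 1 a x - K.ph 0 x • K.dpp 2 a x := by
  rw [K.LL_eq]
  simp only [Fin.sum_univ_three, ev010, ev011, ev012, ev110, ev111, ev112, ev210, ev211, ev212,
    h3, h4]
  push_cast
  module

omit h2 in
include h3 h4 in
private lemma LL0_io (x : X3) : K.LL 0 (fun y => K.io 1 y (a y)) x =
    K.Lp 0 (fun y => K.io 1 y (a y)) x + K.ph 1 x • K.io 1 x (K.dpp 2 a x) := by
  have had : ∀ y, DifferentiableAt ℝ a y := fun y => (h1.differentiable (by simp)) y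
  rw [K.LL_eq]
  simp only [Fin.sum_univ_three, ev000, ev001, ev002, ev100, ev101, ev102, ev200, ev201, ev202,
    K.dpp_io _ _ (had x), h3, h4]
  push_cast
  simp only [map_zero]
  module

omit h2 in
include h3 h4 in
private lemma LL1_io (x : X3) : K.LL 1 (fun y => K.io 0 y (a y)) x =
    K.Lp 1 (fun y => K.io 0 y (a y)) x - K.ph 0 x • K.io 0 x (K.dpp 2 a x) := by
  have had : ∀ y, DifferentiableAt ℝ a y := fun y => (h1.differentiable (by simp)) y
  rw [K.LL_eq]
  simp only [Fin.sum_univ_three, ev010, ev011, ev012, ev110, ev111, ev112, ev210, ev211, ev212,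
    K.dpp_io _ _ (had x), h3, h4]
  push_cast
  simp only [map_zero]
  module

omit h1 h2 in
private lemma hsum2 (x : X3) (A : Fin 3) : (2 : ℂ) * ((x (7, A) : ℂ) * (x (7, 2) : ℂ) +
    (x (8, A) : ℂ) * (x (8, 2) : ℂ)) = K.ph A x * K.phb 2 x + K.ph 2 x * K.phb A x := by
  have hs := K.sgc
  have hI := Complex.I_mul_I
  have e : (K.sg : ℂ) * (K.sg : ℂ) * (Complex.I * Complex.I) = -1 := by rw [hs, hI]; ring
  rw [ph, ph, phb, phb]
  linear_combination (2 * (x (8, A) : ℂ) * (x (8, 2) : ℂ)) * e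

omit h2 in
include h3 h4 in
/-- the first term on the right hand side -/
private lemma RHS1 (t : ℝ) (x : X3) :
    K.LL 1 (fun y => (Real.exp (-t * perp2 y) : ℂ) • (K.io 0 y (a y) -
      ((t : ℂ) / K.nu) • K.dpb 0 (a y))) x = (Real.exp (-t * perp2 x) : ℂ) •
      ((K.Lp 1 (fun y => K.io 0 y (a y)) x - K.ph 0 x • K.io 0 x (K.dpp 2 a x)) -
        ((t : ℂ) / K.nu) • (K.dpb 0 (K.Lp 1 a x - K.ph 0 x • K.dpp 2 a x) + K.dpb 2 (a x)) -
        ((t : ℂ) * (K.ph 0 x * K.phb 2 x + K.ph 2 x * K.phb 0 x)) •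
          (K.io 0 x (a x) - ((t : ℂ) / K.nu) • K.dpb 0 (a x))) := by
  have had : ∀ y, DifferentiableAt ℝ a y := fun y => (h1.differentiable (by simp)) y
  have hw : DifferentiableAt ℝ (fun y => K.io 0 y (a y) - ((t : ℂ) / K.nu) • K.dpb 0 (a y)) x :=
    (K.diff_io 0 (had x)).fun_sub ((K.diff_dpb 0 (had x)).fun_const_smul _)
  rw [K.pd_fsmul (diff_E t x) hw 1, orb_E 1 t x, K.LL_sub 1 (K.diff_io 0 (had x))
    ((K.diff_dpb 0 (had x)).fun_const_smul _), K.LL_csmul 1 _ (K.diff_dpb 0 (had x)),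
    K.LL_dpb 1 0 (had x), K.LL1_io h1 h3 h4, K.LL1_eq h3 h4]
  simp only [Fin.sum_univ_three, ev010, ev011, ev012, ev110, ev111, ev112]
  have e := K.hsum2 x 0
  push_cast
  rw [← e]
  module

omit h2 in
include h3 h4 in
/-- the second term on the right hand side -/
private lemma RHS2 (t : ℝ) (x : X3) :
    K.LL 0 (fun y => (Real.exp (-t * perp2 y) : ℂ) • (K.io 1 y (a y) -
      ((t : ℂ) / K.nu) • K.dpb 1 (a y))) x = (Real.exp (-t * perp2 x) : ℂ) •
      ((K.Lp 0 (fun y => K.io 1 y (a y)) x + K.ph 1 x • K.io 1 x (K.dpp 2 a x)) -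
        ((t : ℂ) / K.nu) • (K.dpb 1 (K.Lp 0 a x + K.ph 1 x • K.dpp 2 a x) - K.dpb 2 (a x)) +
        ((t : ℂ) * (K.ph 1 x * K.phb 2 x + K.ph 2 x * K.phb 1 x)) •
          (K.io 1 x (a x) - ((t : ℂ) / K.nu) • K.dpb 1 (a x))) := by
  have had : ∀ y, DifferentiableAt ℝ a y := fun y => (h1.differentiable (by simp)) y
  have hw : DifferentiableAt ℝ (fun y => K.io 1 y (a y) - ((t : ℂ) / K.nu) • K.dpb 1 (a y)) x :=
    (K.diff_io 1 (had x)).fun_sub ((K.diff_dpb 1 (had x)).fun_const_smul _)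
  rw [K.pd_fsmul (diff_E t x) hw 0, orb_E 0 t x, K.LL_sub 0 (K.diff_io 1 (had x))
    ((K.diff_dpb 1 (had x)).fun_const_smul _), K.LL_csmul 0 _ (K.diff_dpb 1 (had x)),
    K.LL_dpb 0 1 (had x), K.LL0_io h1 h3 h4, K.LL0_eq h3 h4]
  simp only [Fin.sum_univ_three, ev000, ev001, ev002, ev100, ev101, ev102]
  have e := K.hsum2 x 1
  push_cast
  rw [← e]
  module

end main

theorem D0_KK (h1 : ContDiff ℝ ∞ K.aT)
    (h2 : ∀ x, K.D0 K.aT x = K.nu • (K.ph 0 x • K.io 0 x (K.aT x) + K.ph 1 x • K.io 1 x (K.aT x)))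
    (h3 : ∀ x, K.dph 0 K.aT x = 0) (h4 : ∀ x, K.dph 1 K.aT x = 0) (t : ℝ) (x : X3) :
    K.D0 (K.KK t) x = K.LL 1 (K.uu t 0) x - K.LL 0 (K.uu t 1) x := by
  have h3' : ∀ x, K.dpp 0 K.aT x = 0 := fun x => by rw [← dph_eq]; exact h3 x
  have h4' : ∀ x, K.dpp 1 K.aT x = 0 := fun x => by rw [← dph_eq]; exact h4 x
  have hK : K.KK t = fun y => (Real.exp (-t * perp2 y) : ℂ) •
      (-((1 / K.nu) • K.dpp 2 K.aT y) + K.io 1 y (K.io 0 y (K.aT y))
      - (2 * (t : ℂ) / K.nu * K.phb 2 y) • K.aT y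
      - ((t : ℂ) ^ 2 / K.nu ^ 2) • K.dpb 0 (K.dpb 1 (K.aT y))
      + ((t : ℂ) / K.nu) • (K.dpb 0 (K.io 1 y (K.aT y)) - K.dpb 1 (K.io 0 y (K.aT y)))) := by
    funext y
    rw [KK, KK0, dph_eq]
  have hu0 : K.uu t 0 = fun y => (Real.exp (-t * perp2 y) : ℂ) • (K.io 0 y (K.aT y) -
      ((t : ℂ) / K.nu) • K.dpb 0 (K.aT y)) := rfl
  have hu1 : K.uu t 1 = fun y => (Real.exp (-t * perp2 y) : ℂ) • (K.io 1 y (K.aT y) -
      ((t : ℂ) / K.nu) • K.dpb 1 (K.aT y)) := rfl
  rw [hK, hu0, hu1, K.RHS1 h1 h3' h4' t x, K.RHS2 h1 h3' h4' t x]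
  have t1 := K.T1 h1 h2 x
  have t2 := K.T2 h1 h2 x
  have t3 := K.T3 h1 h2 (t : ℂ) x
  have t4 := K.T4 h1 h2 x
  have t5 := K.T5 h1 h2 x
  generalize K.aT = a at *
  have had : ∀ y, DifferentiableAt ℝ a y := fun y => (h1.differentiable (by simp)) y
  have hg : ContDiff ℝ ∞ (K.dpp 2 a) := dcv_contDiff _ _ h1
  have hgd : DifferentiableAt ℝ (K.dpp 2 a) x := (hg.differentiable (by simp)) x
  have d1 : DifferentiableAt ℝ (fun y => -((1 / K.nu) • K.dpp 2 a y)) x :=
    (hgd.fun_const_smul _).fun_neg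
  have d2 : DifferentiableAt ℝ (fun y => K.io 1 y (K.io 0 y (a y))) x :=
    K.diff_io 1 (K.diff_io 0 (had x))
  have d3 : DifferentiableAt ℝ (fun y => (2 * (t : ℂ) / K.nu * K.phb 2 y) • a y) x :=
    ((K.diff_phb 2 x).const_mul _).fun_smul (had x)
  have d4' : DifferentiableAt ℝ (fun y => K.dpb 0 (K.dpb 1 (a y))) x :=
    K.diff_dpb 0 (K.diff_dpb 1 (had x))
  have d4 : DifferentiableAt ℝ (fun y => ((t : ℂ) ^ 2 / K.nu ^ 2) • K.dpb 0 (K.dpb 1 (a y))) x :=
    d4'.fun_const_smul _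
  have d5' : DifferentiableAt ℝ
      (fun y => K.dpb 0 (K.io 1 y (a y)) - K.dpb 1 (K.io 0 y (a y))) x :=
    (K.diff_dpb 0 (K.diff_io 1 (had x))).fun_sub (K.diff_dpb 1 (K.diff_io 0 (had x)))
  have d5 : DifferentiableAt ℝ (fun y => ((t : ℂ) / K.nu) •
      (K.dpb 0 (K.io 1 y (a y)) - K.dpb 1 (K.io 0 y (a y)))) x := d5'.fun_const_smul _
  rw [K.D0_E t ((((d1.fun_add d2).fun_sub d3).fun_sub d4).fun_add d5),
    K.D0_add (((d1.fun_add d2).fun_sub d3).fun_sub d4) d5,
    K.D0_sub ((d1.fun_add d2).fun_sub d3) d4, K.D0_sub (d1.fun_add d2) d3, K.D0_add d1 d2,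
    K.D0_csmul _ d4', K.D0_csmul _ d5', t1, t2, t3, t4, t5, ← smul_sub]
  congr 1
  have hn := K.nu_ne
  have hq : K.nu * K.nu⁻¹ = 1 := mul_inv_cancel₀ hn
  have z1 := K.dpb_sq 0
  have z2 := K.dpb_sq 1
  have z3 : ∀ v, K.dpb 1 (K.dpb 0 v) = - K.dpb 0 (K.dpb 1 v) := fun v => K.dpb_dpb 1 0 v
  simp only [map_add, map_sub, map_neg, map_smul, z1, z2, z3, smul_zero, div_eq_mul_inv,
    map_zero, neg_zero]
  have c1 : ∀ v : F, ((t : ℂ) * K.nu⁻¹) • K.nu • v = (t : ℂ) • v := by
    intro v; rw [smul_smul, mul_assoc, inv_mul_cancel₀ hn, mul_one]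
  have c2 : ∀ v : F, ((t : ℂ) ^ 2 * (K.nu ^ 2)⁻¹) • K.nu • v = ((t : ℂ) ^ 2 * K.nu⁻¹) • v := by
    intro v
    rw [smul_smul]
    congr 1
    field_simp
  rw [c2, smul_sub _ (K.nu • _), c1]
  generalize K.nu⁻¹ = m
  module

end Fk

end Vale.Agent.P353.Ex
end

section

/-! Task EX-10: `Ψ_1` is weakly closed against the core.

`DD (e^{-h} K_t) = e^{-h} D0 K_t = L_1 (e^{-h} u_0) - L_0 (e^{-h} u_1)`; integrate against the core
function `χ` using `DD_adj`, `LL_adj` and `LL_A χ = 0`. -/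

open MeasureTheory Filter Topology
open scoped ContDiff ComplexConjugate

namespace Vale.Agent.P353.Ex

variable {F : Type*} [NormedAddCommGroup F] [InnerProductSpace ℂ F]

namespace Fk

variable (K : Fk F)

private lemma weak_contDiff_exp {u : X3 → F} (hu : ContDiff ℝ ∞ u) :
    ContDiff ℝ ∞ (fun y => (Real.exp (-K.hh y) : ℂ) • u y) := by
  have h1 : ContDiff ℝ ∞ (fun y => Real.exp (-K.hh y)) := (K.contDiff_hh.neg).exp
  have h2 : ContDiff ℝ ∞ (fun y => ((Real.exp (-K.hh y) : ℝ) : ℂ)) :=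
    Complex.ofRealCLM.contDiff.comp h1
  exact h2.smul hu

private lemma weak_LL_zero (hG : K.Gauss) (A : Fin 3) {u χ : X3 → F} (hu : ContDiff ℝ ∞ u)
    (hχ : K.Core χ) : ∫ x, inner ℂ (K.LL A u x) (χ x) = 0 := by
  rw [K.LL_adj A hu ⟨hχ.1, hχ.2.1⟩]
  simp only [hG χ hχ A, inner_zero_right, integral_zero, neg_zero]

theorem Ps_weak (hG : K.Gauss) (t : ℝ) {χ : X3 → F} (hχ : K.Core χ) :
    ∫ x, inner ℂ (K.Ps t x) (K.flip.DD χ x) = 0 := by
  have hT : Setup.Tst χ := ⟨hχ.1, hχ.2.1⟩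
  have h1 := K.DD_adj (K.contDiff_Ps t) hT
  rw [← neg_eq_zero, ← h1]
  have hdiff : ∀ {u : X3 → F}, ContDiff ℝ ∞ u → ∀ x, DifferentiableAt ℝ u x := fun hu x =>
    (hu.differentiable (by simp)) x
  have h2 : ∀ x, K.DD (K.Ps t) x =
      K.LL 1 (fun y => (Real.exp (-K.hh y) : ℂ) • K.uu t 0 y) x -
        K.LL 0 (fun y => (Real.exp (-K.hh y) : ℂ) • K.uu t 1 y) x := by
    intro x
    rw [K.LL_exp 1 (hdiff (K.contDiff_uu t 0) x), K.LL_exp 0 (hdiff (K.contDiff_uu t 1) x),
      ← smul_sub, ← K.D0_KK K.contDiff_aT K.D0_aT K.dph_aT_0 K.dph_aT_1 t x]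
    exact K.DD_exp (hdiff (K.contDiff_KK t) x)
  simp only [h2, inner_sub_left]
  have hint : ∀ A : Fin 3, ∀ B : Fin 3, Integrable (fun x =>
      inner ℂ (K.LL A (fun y => (Real.exp (-K.hh y) : ℂ) • K.uu t B y) x) (χ x)) := by
    intro A B
    have hc := K.contDiff_LL A (K.weak_contDiff_exp (K.contDiff_uu t B))
    exact hT.inner_int' hc.continuous
  rw [integral_sub (hint 1 0) (hint 0 1),
    K.weak_LL_zero hG 1 (K.weak_contDiff_exp (K.contDiff_uu t 0)) hχ,
    K.weak_LL_zero hG 0 (K.weak_contDiff_exp (K.contDiff_uu t 1)) hχ, sub_zero]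

end Fk

end Vale.Agent.P353.Ex
end

section

/-! # P353, uniqueness for `N = 2`: essential self-adjointness of `1 + ∑ Q_β²` (statement B2)

Proof: mollify the weak solution and use the localisation identity
`∑‖Q_β(χv)‖² = Re⟨χ²v, ∑Q_β²v⟩ + ∑‖(γθ∇χ)_βv‖²`. -/

open MeasureTheory Filter Topology
open scoped ContDiff

namespace Vale.Agent.P353

open EsaMoll

variable {F : Type*} [NormedAddCommGroup F] [InnerProductSpace ℂ F]

lemma pd_mo [CompleteSpace F] {ρ : X3 → ℝ} (hρ : ContDiff ℝ ∞ ρ) (hc : HasCompactSupport ρ)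
    {f : X3 → F} (hf : LocallyIntegrable f (volume : Measure X3)) (i : Fin 9) (A : Fin 3) :
    pd i A (mo ρ f) = mo (pdr i A ρ) f := by
  ext x
  exact fderiv_mo hρ hc hf x _

lemma esa_pdr_smooth {φ : X3 → ℝ} (hφ : ContDiff ℝ ∞ φ) (j : Fin 9) (B : Fin 3) :
    ContDiff ℝ ∞ (pdr j B φ) := by
  unfold pdr
  exact (hφ.fderiv_right (m := ∞) (by simp)).clm_apply contDiff_const

lemma esa_pdr_cs {φ : X3 → ℝ} (hφ : HasCompactSupport φ) (j : Fin 9) (B : Fin 3) :
    HasCompactSupport (pdr j B φ) := hφ.fderiv_apply (𝕜 := ℝ) _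

lemma esa_shift {φ : X3 → ℝ} (hφ : Differentiable ℝ φ) (x : X3) (w : F) (i : Fin 9) (A : Fin 3) :
    pd i A (fun t => ((φ (x - t) : ℝ) : ℂ) • w) =
      fun t => -(((pdr i A φ (x - t) : ℝ) : ℂ) • w) := by
  ext t
  have h1 : HasFDerivAt (fun t : X3 => x - t) (-ContinuousLinearMap.id ℝ X3) t := by
    simpa using (hasFDerivAt_id t).const_sub x
  have h2 : HasFDerivAt (fun t : X3 => φ (x - t)) _ t := (hφ (x - t)).hasFDerivAt.comp t h1
  rw [pd_rsmul h2.differentiableAt (differentiableAt_const w), h2.fderiv]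
  simp [pd, pdr]

namespace Setup

variable (S : Setup F)

lemma esa_gGam_real (i : Fin 9) (α β : Fin 16) : ((S.g i * S.Gam) α β).im = 0 :=
  mul_im_zero (S.g_im i) S.Gam_real α β

lemma esa_MM_symm (β : Fin 16) (x : X3) (v w : F) :
    inner ℂ (S.MM β x v) w = inner ℂ v (S.MM β x w) := by
  simp only [MM, _root_.sum_apply, _root_.smul_apply, sum_inner,
    inner_sum, inner_smul_left, inner_smul_right, S.vec_symm _ (S.esa_gGam_real _),
    Complex.conj_ofReal]

lemma esa_contDiff_MM (β : Fin 16) : ContDiff ℝ ∞ (S.MM β) := by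
  unfold MM
  refine ContDiff.sum fun i _ => ContDiff.sum fun A _ => ?_
  exact (contDiff_ofReal (contDiff_const.mul (contDiff_coord _))).smul contDiff_const

lemma esa_contDiff_Qm (m : ℝ) (β : Fin 16) {u : X3 → F} (hu : ContDiff ℝ ∞ u) :
    ContDiff ℝ ∞ (S.Qm m β u) := by
  unfold Qm
  exact (S.contDiff_Q β hu).add (contDiff_const.smul (contDiff_clm_apply' (S.esa_contDiff_MM β) hu))

lemma esa_Tst_Qm {u : X3 → F} (hu : Tst u) (m : ℝ) (β : Fin 16) : Tst (S.Qm m β u) := by
  have h1 : Tst (fun x => ((m : ℂ) • S.MM β x) (u x)) :=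
    Tst.clm (T := fun x => (m : ℂ) • S.MM β x) ((S.esa_contDiff_MM β).const_smul (m : ℂ)) hu
  exact (hu.Q S β).add h1

theorem esa_Qm_symm (m : ℝ) (β : Fin 16) (u v : X3 → F) (hu : Tst u) (hv : ContDiff ℝ ∞ v) :
    ∫ x, inner ℂ (S.Qm m β u x) (v x) = ∫ x, inner ℂ (u x) (S.Qm m β v x) := by
  have h1 : Tst (fun x => ((m : ℂ) • S.MM β x) (u x)) :=
    Tst.clm (T := fun x => (m : ℂ) • S.MM β x) ((S.esa_contDiff_MM β).const_smul (m : ℂ)) hu
  have h2 : ContDiff ℝ ∞ (fun x => ((m : ℂ) • S.MM β x) (v x)) :=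
    contDiff_clm_apply' (T := fun x => (m : ℂ) • S.MM β x)
      ((S.esa_contDiff_MM β).const_smul (m : ℂ)) hv
  have e1 : ∀ x, inner ℂ (S.Qm m β u x) (v x) = inner ℂ (S.Q β u x) (v x) +
      inner ℂ (((m : ℂ) • S.MM β x) (u x)) (v x) := fun x => by
    rw [Qm, inner_add_left]; rfl
  have e2 : ∀ x, inner ℂ (u x) (S.Qm m β v x) = inner ℂ (u x) (S.Q β v x) +
      inner ℂ (u x) (((m : ℂ) • S.MM β x) (v x)) := fun x => by
    rw [Qm, inner_add_right]; rfl
  simp only [e1, e2]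
  rw [integral_add ((hu.Q S β).inner_int hv.continuous) (h1.inner_int hv.continuous),
    integral_add (hu.inner_int (S.contDiff_Q β hv).continuous) (hu.inner_int h2.continuous),
    Q_symm S β u v hu hv]
  congr 1
  refine integral_congr_ae (Filter.Eventually.of_forall fun x => ?_)
  simp only [_root_.smul_apply, inner_smul_left, inner_smul_right, S.esa_MM_symm,
    Complex.conj_ofReal]

/-- the symbol `i (γθ∇χ)_β` -/
noncomputable def esaD (χ : X3 → ℝ) (β : Fin 16) (x : X3) : F →L[ℂ] F :=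
  Complex.I • ∑ i, ∑ A, ((pdr i A χ x : ℝ) : ℂ) • S.vec (S.g i) A β

lemma esa_Qm_smul (m : ℝ) (β : Fin 16) (φ : X3 → ℝ) (u : X3 → F) (x : X3)
    (hφ : DifferentiableAt ℝ φ x) (hu : DifferentiableAt ℝ u x) :
    S.Qm m β (fun y => ((φ y : ℝ) : ℂ) • u y) x = ((φ x : ℝ) : ℂ) • S.Qm m β u x -
      S.esaD φ β x (u x) := by
  rw [Qm, Q_smul S β φ u x hφ hu, Qm, esaD, map_smul, smul_add, smul_comm (m : ℂ)]
  simp only [_root_.smul_apply, _root_.sum_apply]
  abel

lemma esa_contDiff_D {χ : X3 → ℝ} (hχ : ContDiff ℝ ∞ χ) (β : Fin 16) :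
    ContDiff ℝ ∞ (S.esaD χ β) := by
  unfold esaD
  refine ContDiff.const_smul Complex.I (ContDiff.sum fun i _ => ContDiff.sum fun A _ => ?_)
  exact (contDiff_ofReal (esa_pdr_smooth hχ i A)).smul contDiff_const

/-- the constants `∑ ‖(γ^iθ^A)_β‖` -/
noncomputable def esaC (β : Fin 16) : ℝ := ∑ i, ∑ A, ‖S.vec (S.g i) A β‖

lemma esa_D_norm {χ : X3 → ℝ} {K R : ℝ} (hK : 0 ≤ K) (hR : 0 < R) (hχ : IsCut K R χ) (β : Fin 16)
    (x : X3) : ‖S.esaD χ β x‖ ≤ K / R * S.esaC β := by
  have hp : ∀ i A, |pdr i A χ x| ≤ K / R := by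
    intro i A
    rcases lt_or_ge ‖x‖ R with h | h
    · rw [hχ.2.2.2.2.2.2.2 i A x h, abs_zero]
      positivity
    · rw [le_div_iff₀ hR]
      exact (mul_le_mul_of_nonneg_left h (abs_nonneg _)).trans (hχ.2.2.2.2.2.2.1 i A x)
  unfold esaD esaC
  rw [norm_smul, Complex.norm_I, one_mul]
  refine (norm_sum_le _ _).trans ?_
  rw [Finset.mul_sum]
  refine Finset.sum_le_sum fun i _ => ?_
  refine (norm_sum_le _ _).trans ?_
  rw [Finset.mul_sum]
  refine Finset.sum_le_sum fun A _ => ?_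
  rw [norm_smul, Complex.norm_real, Real.norm_eq_abs]
  exact mul_le_mul_of_nonneg_right (hp i A) (norm_nonneg _)

lemma esa_FG_symm (v w : F) : inner ℂ (S.FG v) w = inner ℂ v (S.FG w) := by
  simp only [FG, _root_.smul_apply, inner_smul_left, inner_smul_right,
    S.tot_adj _ S.Gam_real, S.Gam_transpose, S.tot_neg, _root_.neg_apply, inner_neg_right,
    Complex.conj_I]
  ring

lemma esa_Fx_symm (x : X3) (v w : F) : inner ℂ (S.Fx x v) w = inner ℂ v (S.Fx x w) := by
  have he : ∀ A B C : Fin 3, eps B A C = - eps A B C := by decide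
  have hc : ∀ A B C : Fin 3, (starRingEnd ℂ) ((eps A B C : ℤ) : ℂ) = ((eps A B C : ℤ) : ℂ) := by
    intro A B C; simp
  simp only [Fx, _root_.smul_apply, _root_.sum_apply, inner_smul_left, inner_smul_right,
    sum_inner, inner_sum, S.bil_adj _ (S.g_im _), S.g_symm, map_mul, hc, Complex.conj_ofReal]
  have : (starRingEnd ℂ) (Complex.I / 2) = -(Complex.I / 2) := by
    have h2 : (starRingEnd ℂ) 2 = 2 := by norm_num [Complex.ext_iff]
    rw [map_div₀, h2, Complex.conj_I]; ring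
  rw [this, neg_mul, neg_mul, ← mul_neg]
  congr 1
  rw [← Finset.sum_neg_distrib]
  refine Finset.sum_congr rfl fun q _ => ?_
  rw [Finset.sum_comm, ← Finset.sum_neg_distrib]
  refine Finset.sum_congr rfl fun A _ => ?_
  rw [← Finset.sum_neg_distrib]
  refine Finset.sum_congr rfl fun B _ => ?_
  rw [← Finset.sum_neg_distrib]
  refine Finset.sum_congr rfl fun C _ => ?_
  rw [he A B C]; push_cast; ring

/-- total potential of `1 + ∑ Q_β²` -/
noncomputable def esaW (m : ℝ) (x : X3) : F →L[ℂ] F :=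
  ((1 + 16 * S.Vm m x : ℝ) : ℂ) • (1 : F →L[ℂ] F) + (16 : ℂ) • S.Fx x - ((12 * m : ℝ) : ℂ) • S.FG

lemma esa_W_symm (m : ℝ) (x : X3) (v w : F) :
    inner ℂ (S.esaW m x v) w = inner ℂ v (S.esaW m x w) := by
  have h16 : (starRingEnd ℂ) 16 = 16 := by norm_num [Complex.ext_iff]
  simp only [esaW, _root_.smul_apply, _root_.add_apply, _root_.sub_apply, inner_add_left,
    inner_add_right, inner_sub_left, inner_sub_right, inner_smul_left, inner_smul_right,
    S.esa_Fx_symm, S.esa_FG_symm, Complex.conj_ofReal, h16, one_apply_eq_self]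

lemma esa_contDiff_Vm (m : ℝ) : ContDiff ℝ ∞ (S.Vm m) := by
  have h1 : ContDiff ℝ ∞ det3 := by
    unfold det3
    refine ContDiff.sum fun A _ => ContDiff.sum fun B _ => ContDiff.sum fun C _ => ?_
    exact ((contDiff_const.mul (contDiff_coord _)).mul (contDiff_coord _)).mul (contDiff_coord _)
  have h2 : ContDiff ℝ ∞ (fun x : X3 => ∑ i, ∑ A, (aw i * x (i, A)) ^ 2) :=
    ContDiff.sum fun i _ => ContDiff.sum fun A _ => (contDiff_const.mul (contDiff_coord _)).pow 2
  unfold Vm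
  exact ((contDiff_V S).add (contDiff_const.mul h1)).add (contDiff_const.mul h2)

lemma esa_W_continuous (m : ℝ) : Continuous (S.esaW m) := by
  unfold esaW
  have h1 : Continuous (fun x => ((1 + 16 * S.Vm m x : ℝ) : ℂ)) :=
    Complex.continuous_ofReal.comp (continuous_const.add
      (continuous_const.mul (S.esa_contDiff_Vm m).continuous))
  exact ((h1.smul continuous_const).add ((contDiff_Fx S).continuous.const_smul (16 : ℂ))).sub
    continuous_const

lemma esa_L_eq (h7 : U.A7Stmt S) (m : ℝ) {u : X3 → F} (hu : ContDiff ℝ ∞ u) (x : X3) :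
    u x + ∑ β, S.Qm m β (S.Qm m β u) x =
      S.esaW m x (u x) - (8 : ℂ) • ∑ i, ∑ A, pd i A (pd i A u) x := by
  rw [h7 m u hu x, Hm, esaW]
  simp only [_root_.smul_apply, _root_.add_apply, _root_.sub_apply, one_apply_eq_self,
    smul_sub, smul_add, smul_smul]
  push_cast
  module

lemma esa_conj_eight : (starRingEnd ℂ) (8 : ℂ) = 8 := by norm_num [Complex.ext_iff]

/-- shifted test functions -/
lemma esa_Tst_shift {ρ : X3 → ℝ} (hρ : ContDiff ℝ ∞ ρ) (hc : HasCompactSupport ρ) (x : X3) (w : F) :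
    Tst (fun t => ((ρ (x - t) : ℝ) : ℂ) • w) := by
  refine ⟨(contDiff_ofReal (hρ.comp (contDiff_const.sub contDiff_id))).smul contDiff_const, ?_⟩
  have h1 : HasCompactSupport (fun t => ρ (x - t)) := hc.comp_homeomorph (Homeomorph.subLeft x)
  refine h1.mono ?_
  intro t ht
  simp only [Function.mem_support] at ht ⊢
  intro h0
  exact ht (by rw [h0]; simp)

lemma esa_inner_mo [CompleteSpace F] {ρ : X3 → ℝ} (hρ : Continuous ρ) (hc : HasCompactSupport ρ)
    {f : X3 → F} (hf : LocallyIntegrable f (volume : Measure X3)) (x : X3) (w : F) :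
    inner ℂ w (mo ρ f x) = ∫ t, ((ρ (x - t) : ℝ) : ℂ) * inner ℂ w (f t) := by
  rw [mo, ← integral_inner (mo_int hρ hc hf x)]
  refine integral_congr_ae (Filter.Eventually.of_forall fun t => ?_)
  simp only
  rw [← Complex.coe_smul, inner_smul_right]

/-- mollified weak solutions solve the equation up to a commutator -/
lemma esa_weak [CompleteSpace F] (h7 : U.A7Stmt S) (m : ℝ) {Ψ : X3 → F}
    (hΨ : MemLp Ψ 2 (volume : Measure X3))
    (hw : ∀ ζ, Tst ζ → ∫ x, inner ℂ (ζ x + ∑ β, S.Qm m β (S.Qm m β ζ) x) (Ψ x) = 0)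
    {ρ : X3 → ℝ} (hρ : ContDiff ℝ ∞ ρ) (hc : HasCompactSupport ρ) (x : X3) (w : F) :
    inner ℂ w (mo ρ Ψ x + ∑ β, S.Qm m β (S.Qm m β (mo ρ Ψ)) x) =
      ∫ t, ((ρ (x - t) : ℝ) : ℂ) * inner ℂ w ((S.esaW m x - S.esaW m t) (Ψ t)) := by
  have hL : LocallyIntegrable Ψ (volume : Measure X3) := hΨ.locallyIntegrable (by norm_num)
  have hρ2 : ∀ i A, ContDiff ℝ ∞ (pdr i A (pdr i A ρ)) := fun i A =>
    esa_pdr_smooth (esa_pdr_smooth hρ i A) i A
  have hc2 : ∀ i A, HasCompactSupport (pdr i A (pdr i A ρ)) := fun i A =>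
    esa_pdr_cs (esa_pdr_cs hc i A) i A
  -- integrability
  have hI : ∀ {σ : X3 → ℝ}, ContDiff ℝ ∞ σ → HasCompactSupport σ → ∀ {T : X3 → F →L[ℂ] F},
      Continuous T → Integrable (fun t => ((σ (x - t) : ℝ) : ℂ) * inner ℂ (T t w) (Ψ t)) := by
    intro σ hσ hσc T hT
    have h1 := esa_Tst_shift hσ hσc x w
    have hcB : Continuous (fun p : (F →L[ℂ] F) × F => p.1 p.2) :=
      (isBoundedBilinearMap_apply (𝕜 := ℂ) (E := F) (F := F)).continuous
    have h2 : Continuous (fun t => T t (((σ (x - t) : ℝ) : ℂ) • w)) :=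
      hcB.comp (hT.prodMk h1.1.continuous)
    have h3 : HasCompactSupport (fun t => T t (((σ (x - t) : ℝ) : ℂ) • w)) := by
      refine h1.2.mono ?_
      intro t ht
      simp only [Function.mem_support] at ht ⊢
      intro h0
      exact ht (by rw [h0, map_zero])
    refine (integrable_inner_memLp (h2.memLp_of_hasCompactSupport h3) hΨ).congr
      (Filter.Eventually.of_forall fun t => ?_)
    simp only [map_smul, inner_smul_left, Complex.conj_ofReal]
  have hI1 : ∀ {σ : X3 → ℝ}, ContDiff ℝ ∞ σ → HasCompactSupport σ →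
      Integrable (fun t => ((σ (x - t) : ℝ) : ℂ) * inner ℂ w (Ψ t)) := by
    intro σ hσ hσc
    simpa using hI hσ hσc (T := fun _ => (1 : F →L[ℂ] F)) continuous_const
  -- left side
  have hl : inner ℂ w (mo ρ Ψ x + ∑ β, S.Qm m β (S.Qm m β (mo ρ Ψ)) x) =
      (∫ t, ((ρ (x - t) : ℝ) : ℂ) * inner ℂ (S.esaW m x w) (Ψ t)) -
        8 * ∑ i, ∑ A, ∫ t, ((pdr i A (pdr i A ρ) (x - t) : ℝ) : ℂ) * inner ℂ w (Ψ t) := by
    rw [S.esa_L_eq h7 m (contDiff_mo hρ hc hL) x, inner_sub_right, inner_smul_right,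
      ← S.esa_W_symm, esa_inner_mo hρ.continuous hc hL, inner_sum]
    congr 2
    refine Finset.sum_congr rfl fun i _ => ?_
    rw [inner_sum]
    refine Finset.sum_congr rfl fun A _ => ?_
    rw [pd_mo hρ hc hL, pd_mo (esa_pdr_smooth hρ i A) (esa_pdr_cs hc i A) hL,
      esa_inner_mo (hρ2 i A).continuous (hc2 i A) hL]
  -- weak equation
  have hζ := esa_Tst_shift hρ hc x w
  have hpd : ∀ i A t, pd i A (pd i A (fun t => ((ρ (x - t) : ℝ) : ℂ) • w)) t =
      ((pdr i A (pdr i A ρ) (x - t) : ℝ) : ℂ) • w := by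
    intro i A t
    rw [esa_shift (hρ.differentiable (by simp)), pd_neg,
      esa_shift ((esa_pdr_smooth hρ i A).differentiable (by simp)), neg_neg]
  have hr : (∫ t, ((ρ (x - t) : ℝ) : ℂ) * inner ℂ (S.esaW m t w) (Ψ t)) -
        8 * ∑ i, ∑ A, ∫ t, ((pdr i A (pdr i A ρ) (x - t) : ℝ) : ℂ) * inner ℂ w (Ψ t) = 0 := by
    rw [← hw _ hζ]
    have e : ∀ t, inner ℂ ((fun t => ((ρ (x - t) : ℝ) : ℂ) • w) t +
        ∑ β, S.Qm m β (S.Qm m β (fun t => ((ρ (x - t) : ℝ) : ℂ) • w)) t) (Ψ t) =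
        ((ρ (x - t) : ℝ) : ℂ) * inner ℂ (S.esaW m t w) (Ψ t) -
          8 * ∑ i, ∑ A, ((pdr i A (pdr i A ρ) (x - t) : ℝ) : ℂ) * inner ℂ w (Ψ t) := by
      intro t
      rw [S.esa_L_eq h7 m hζ.1 t]
      simp only [hpd, inner_sub_left, map_smul, inner_smul_left, sum_inner, Complex.conj_ofReal,
        esa_conj_eight]
    simp only [e]
    have hs : ∀ i, Integrable (fun t => ∑ A, ((pdr i A (pdr i A ρ) (x - t) : ℝ) : ℂ) *
        inner ℂ w (Ψ t)) := fun i => integrable_finsetSum _ fun A _ => hI1 (hρ2 i A) (hc2 i A)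
    rw [integral_sub (hI hρ hc (S.esa_W_continuous m))
      ((integrable_finsetSum _ fun i _ => hs i).const_mul 8), integral_const_mul,
      integral_finsetSum _ fun i _ => hs i]
    congr 2
    refine Finset.sum_congr rfl fun i _ => ?_
    rw [integral_finsetSum _ fun A _ => hI1 (hρ2 i A) (hc2 i A)]
  rw [hl]
  have e3 : ∫ t, ((ρ (x - t) : ℝ) : ℂ) * inner ℂ w ((S.esaW m x - S.esaW m t) (Ψ t)) =
      (∫ t, ((ρ (x - t) : ℝ) : ℂ) * inner ℂ (S.esaW m x w) (Ψ t)) -
        ∫ t, ((ρ (x - t) : ℝ) : ℂ) * inner ℂ (S.esaW m t w) (Ψ t) := by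
    rw [← integral_sub (hI hρ hc (T := fun _ => S.esaW m x) continuous_const)
      (hI hρ hc (S.esa_W_continuous m))]
    refine integral_congr_ae (Filter.Eventually.of_forall fun t => ?_)
    simp only [_root_.sub_apply, inner_sub_right, S.esa_W_symm]
    ring
  rw [e3]
  linear_combination hr

lemma esa_bound [CompleteSpace F] (h7 : U.A7Stmt S) (m : ℝ) {Ψ : X3 → F}
    (hΨ : MemLp Ψ 2 (volume : Measure X3))
    (hw : ∀ ζ, Tst ζ → ∫ x, inner ℂ (ζ x + ∑ β, S.Qm m β (S.Qm m β ζ) x) (Ψ x) = 0)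
    {ρ : X3 → ℝ} (hρ : ContDiff ℝ ∞ ρ) (hc : HasCompactSupport ρ) (h0 : ∀ x, 0 ≤ ρ x)
    (x : X3) {ε : ℝ} (hε : ∀ t, ρ (x - t) ≠ 0 → ‖S.esaW m x - S.esaW m t‖ ≤ ε) (w : F) :
    ‖(inner ℂ w (mo ρ Ψ x + ∑ β, S.Qm m β (S.Qm m β (mo ρ Ψ)) x) : ℂ)‖ ≤
      ε * ‖w‖ * mo ρ (fun t => ‖Ψ t‖) x := by
  have hL : LocallyIntegrable Ψ (volume : Measure X3) := hΨ.locallyIntegrable (by norm_num)
  rw [S.esa_weak h7 m hΨ hw hρ hc x w]
  have hL' : LocallyIntegrable (fun t => ‖Ψ t‖) (volume : Measure X3) :=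
    hΨ.norm.locallyIntegrable (by norm_num)
  have hi : Integrable (fun t => ρ (x - t) • ‖Ψ t‖) := mo_int hρ.continuous hc hL' x
  have e : ε * ‖w‖ * mo ρ (fun t => ‖Ψ t‖) x = ∫ t, ε * ‖w‖ * (ρ (x - t) • ‖Ψ t‖) := by
    rw [integral_const_mul]; rfl
  rw [e]
  refine norm_integral_le_of_norm_le (hi.const_mul _) (Filter.Eventually.of_forall fun t => ?_)
  rw [norm_mul, Complex.norm_real, Real.norm_of_nonneg (h0 _), smul_eq_mul]
  by_cases h : ρ (x - t) = 0
  · rw [h]; simp
  · have h1 : ‖(inner ℂ w ((S.esaW m x - S.esaW m t) (Ψ t)) : ℂ)‖ ≤ ‖w‖ * (ε * ‖Ψ t‖) :=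
      (norm_inner_le_norm _ _).trans (mul_le_mul_of_nonneg_left
        (((S.esaW m x - S.esaW m t).le_opNorm _).trans
          (mul_le_mul_of_nonneg_right (hε t h) (norm_nonneg _))) (norm_nonneg _))
    refine (mul_le_mul_of_nonneg_left h1 (h0 _)).trans (le_of_eq ?_)
    ring

/-- localisation inequality -/
lemma esa_ineq (m : ℝ) {χ : X3 → ℝ} (hχ : ContDiff ℝ ∞ χ) (hχc : HasCompactSupport χ) {v : X3 → F}
    (hv : ContDiff ℝ ∞ v) :
    nsq (fun x => ((χ x : ℝ) : ℂ) • v x) ≤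
      (∫ x, inner ℂ (((χ x : ℝ) : ℂ) • ((χ x : ℝ) : ℂ) • v x)
        (v x + ∑ β, S.Qm m β (S.Qm m β v) x)).re + ∑ β, ∫ x, ‖S.esaD χ β x (v x)‖ ^ 2 := by
  set u1 : X3 → F := fun x => ((χ x : ℝ) : ℂ) • v x with hu1
  set u2 : X3 → F := fun x => ((χ x : ℝ) : ℂ) • u1 x with hu2
  have hT1 : Tst u1 := by
    refine ⟨(contDiff_ofReal hχ).smul hv, hχc.mono ?_⟩
    intro x hx
    simp only [Function.mem_support] at hx ⊢
    intro h0
    exact hx (by simp [hu1, h0])
  have hT2 : Tst u2 := hT1.rsmul hχ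
  have hχd : ∀ x, DifferentiableAt ℝ χ x := fun x => hχ.differentiable (by simp) x
  have hvd : ∀ x, DifferentiableAt ℝ v x := fun x => hv.differentiable (by simp) x
  have q1 : ∀ β x, S.Qm m β u1 x = ((χ x : ℝ) : ℂ) • S.Qm m β v x - S.esaD χ β x (v x) :=
    fun β x => S.esa_Qm_smul m β χ v x (hχd x) (hvd x)
  have q2 : ∀ β x, S.Qm m β u2 x = ((χ x : ℝ) : ℂ) • S.Qm m β u1 x -
      ((χ x : ℝ) : ℂ) • S.esaD χ β x (v x) := fun β x => by
    rw [hu2, S.esa_Qm_smul m β χ u1 x (hχd x) (hT1.diff x), hu1]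
    simp only [map_smul]
  have hpt : ∀ β x, ‖S.Qm m β u1 x‖ ^ 2 =
      (inner ℂ (S.Qm m β u2 x) (S.Qm m β v x)).re + ‖S.esaD χ β x (v x)‖ ^ 2 := by
    intro β x
    rw [q2, q1]
    set a := S.Qm m β v x
    set b := S.esaD χ β x (v x)
    have e1 : ‖((χ x : ℝ) : ℂ) • a - b‖ ^ 2 = (χ x) ^ 2 * ‖a‖ ^ 2 -
        2 * (χ x * (inner ℂ b a : ℂ).re) + ‖b‖ ^ 2 := by
      rw [← re_inner_self, inner_sub_left, inner_sub_right, inner_sub_right, inner_smul_left,
        inner_smul_right, inner_smul_left, inner_smul_right, Complex.conj_ofReal]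
      have h1 : (inner ℂ a b : ℂ).re = (inner ℂ b a : ℂ).re := by
        rw [← inner_conj_symm, Complex.conj_re]
      simp only [Complex.sub_re, Complex.re_ofReal_mul, re_inner_self, h1]
      ring
    rw [e1, inner_sub_left, inner_smul_left, inner_smul_left, inner_sub_left, inner_smul_left,
      Complex.conj_ofReal]
    simp only [Complex.sub_re, Complex.re_ofReal_mul, re_inner_self]
    ring
  have hDc : ∀ β, Continuous (fun x => S.esaD χ β x (v x)) := fun β =>
    (contDiff_clm_apply' (S.esa_contDiff_D hχ β) hv).continuous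
  have hDs : ∀ β, HasCompactSupport (fun x => S.esaD χ β x (v x)) := by
    intro β
    refine HasCompactSupport.intro' (K := tsupport χ) hχc (isClosed_tsupport χ) ?_
    intro x hx
    have h0 : ∀ i A, pdr i A χ x = 0 := by
      intro i A
      have : fderiv ℝ χ x = 0 := by
        by_contra hne
        exact hx ((tsupport_fderiv_subset ℝ (f := χ)) (subset_tsupport _ hne))
      simp [pdr, this]
    simp [esaD, h0]
  have hDi : ∀ β, Integrable (fun x => ‖S.esaD χ β x (v x)‖ ^ 2) := fun β =>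
    memLp_norm_sq_int ((hDc β).memLp_of_hasCompactSupport (hDs β))
  have hQi : ∀ β, Integrable (fun x => inner ℂ (S.Qm m β u2 x) (S.Qm m β v x)) := fun β =>
    (S.esa_Tst_Qm hT2 m β).inner_int (S.esa_contDiff_Qm m β hv).continuous
  have hmain : ∀ β, nsq (S.Qm m β u1) = (∫ x, inner ℂ (u2 x) (S.Qm m β (S.Qm m β v) x)).re +
      ∫ x, ‖S.esaD χ β x (v x)‖ ^ 2 := by
    intro β
    rw [← S.esa_Qm_symm m β u2 _ hT2 (S.esa_contDiff_Qm m β hv), nsq]
    simp only [hpt β]
    have hre : Integrable (fun x => (inner ℂ (S.Qm m β u2 x) (S.Qm m β v x)).re) := (hQi β).re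
    rw [integral_add hre (hDi β)]
    congr 1
    exact integral_re (hQi β)
  have hnn : nsq u1 = (∫ x, inner ℂ (u2 x) (v x)).re := by
    have hi : Integrable (fun x => inner ℂ (u2 x) (v x)) := hT2.inner_int hv.continuous
    have := integral_re hi
    rw [nsq]
    refine Eq.trans ?_ this
    refine integral_congr_ae (Filter.Eventually.of_forall fun x => ?_)
    simp only [hu2, hu1, inner_smul_left, Complex.conj_ofReal, norm_smul, Complex.norm_real]
    rw [RCLike.re_eq_complex_re]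
    simp only [Complex.re_ofReal_mul, re_inner_self, mul_pow, Real.norm_eq_abs, sq_abs]
    ring
  have hQQ : ∀ β, Integrable (fun x => inner ℂ (u2 x) (S.Qm m β (S.Qm m β v) x)) := fun β =>
    hT2.inner_int (S.esa_contDiff_Qm m β (S.esa_contDiff_Qm m β hv)).continuous
  have hsum : ∫ x, inner ℂ (u2 x) (v x + ∑ β, S.Qm m β (S.Qm m β v) x) =
      (∫ x, inner ℂ (u2 x) (v x)) + ∑ β, ∫ x, inner ℂ (u2 x) (S.Qm m β (S.Qm m β v) x) := by
    rw [← integral_finsetSum _ fun β _ => hQQ β, ← integral_add (hT2.inner_int hv.continuous)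
      (integrable_finsetSum _ fun β _ => hQQ β)]
    refine integral_congr_ae (Filter.Eventually.of_forall fun x => ?_)
    simp only [inner_add_right, inner_sum]
  have hge : 0 ≤ ∑ β, nsq (S.Qm m β u1) := Finset.sum_nonneg fun β _ => nsq_nonneg _
  simp only [hmain] at hge
  rw [Finset.sum_add_distrib] at hge
  change nsq u1 ≤ (∫ x, inner ℂ (u2 x) (v x + ∑ β, S.Qm m β (S.Qm m β v) x)).re + _
  rw [hsum, Complex.add_re, Complex.re_sum, ← hnn]
  linarith

end Setup

namespace U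

/-- **B2** (only A7 is needed) -/
theorem esa' [FiniteDimensional ℂ F] (S : Setup F) (h7 : A7Stmt S) : ESAStmt S := by
  intro m _ Ψ hΨ hw
  have : CompleteSpace F := FiniteDimensional.complete ℂ F
  obtain ⟨K, hK, hcut⟩ := exists_cut
  have hL : LocallyIntegrable Ψ (volume : Measure X3) := hΨ.locallyIntegrable (by norm_num)
  set N : ℝ := nsq Ψ with hN
  have hN0 : 0 ≤ N := nsq_nonneg _
  set C1 : ℝ := ∑ β, S.esaC β ^ 2 with hC1
  have hC10 : 0 ≤ C1 := Finset.sum_nonneg fun β _ => sq_nonneg _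
  have key : ∀ R : ℝ, 0 < R → ∀ χ, IsCut K R χ →
      nsq (fun x => ((χ x : ℝ) : ℂ) • Ψ x) ≤ (K / R) ^ 2 * C1 * N := by
    intro R hR χ hχ
    refine le_of_forall_pos_le_add fun ε hε => ?_
    set ε' : ℝ := ε / (N + 1) with hε'
    have hε'0 : 0 < ε' := by positivity
    have huc := (isCompact_closedBall (0 : X3) (2 * R + 1)).uniformContinuousOn_of_continuous
      (S.esa_W_continuous m).continuousOn
    obtain ⟨δ, hδ, hδ'⟩ := Metric.uniformContinuousOn_iff.mp huc ε' hε'0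
    have hn : ∀ᶠ n : ℕ in atTop, 2 / ((n : ℝ) + 1) < min δ 1 := by
      have h1 : Tendsto (fun n : ℕ => 2 / ((n : ℝ) + 1)) atTop (𝓝 0) := by
        have := (tendsto_one_div_add_atTop_nhds_zero_nat (𝕜 := ℝ)).const_mul 2
        rw [mul_zero] at this
        refine this.congr fun n => ?_
        ring
      exact h1.eventually (gt_mem_nhds (by positivity))
    refine fatou_le (f := fun n x => ‖((χ x : ℝ) : ℂ) • mo (mol n) Ψ x‖ ^ 2) ?_ ?_ ?_ ?_
    · intro n
      have hT : Setup.Tst (fun x => ((χ x : ℝ) : ℂ) • mo (mol n) Ψ x) := by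
        refine ⟨(Setup.contDiff_ofReal hχ.1).smul (contDiff_mo (mol_smooth n) (mol_cs n) hL),
          hχ.2.1.mono ?_⟩
        intro x hx
        simp only [Function.mem_support] at hx ⊢
        intro h0
        exact hx (by simp [h0])
      exact hT.norm_sq_int
    · intro n x; positivity
    · filter_upwards [hn] with n hn
      set v := mo (mol n) Ψ with hv
      have hvs : ContDiff ℝ ∞ v := contDiff_mo (mol_smooth n) (mol_cs n) hL
      obtain ⟨hvm, hvN⟩ := mo_L2' (mol_smooth n) (mol_cs n) (mol_nonneg n) (mol_integral n) hΨ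
      obtain ⟨hgi, hgN⟩ := mo_L2 (mol_smooth n) (mol_cs n) (mol_nonneg n) (mol_integral n) hΨ.norm
      refine (S.esa_ineq m hχ.1 hχ.2.1 hvs).trans ?_
      have h1 : (∫ x, inner ℂ (((χ x : ℝ) : ℂ) • ((χ x : ℝ) : ℂ) • v x)
          (v x + ∑ β, S.Qm m β (S.Qm m β v) x)).re ≤ ε := by
        refine (Complex.re_le_norm _).trans ?_
        have h2 : ‖∫ x, (inner ℂ (((χ x : ℝ) : ℂ) • ((χ x : ℝ) : ℂ) • v x)
            (v x + ∑ β, S.Qm m β (S.Qm m β v) x) : ℂ)‖ ≤
            ∫ x, ε' * mo (mol n) (fun t => ‖Ψ t‖) x ^ 2 := by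
          refine norm_integral_le_of_norm_le (hgi.const_mul _)
            (Filter.Eventually.of_forall fun x => ?_)
          have hg0 := mo_norm_nonneg (mol_nonneg n) Ψ x
          rcases le_or_gt ‖x‖ (2 * R) with hx | hx
          · have hb := S.esa_bound h7 m hΨ hw (mol_smooth n) (mol_cs n) (mol_nonneg n) x (ε := ε')
              (fun t ht => by
                have h3 : ‖x - t‖ < min δ 1 := by
                  by_contra h4
                  exact ht (mol_zero (hn.le.trans (not_lt.mp h4)))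
                have h5 : dist x t < δ := by
                  rw [dist_eq_norm]; exact h3.trans_le (min_le_left _ _)
                have h6 : ‖t‖ ≤ 2 * R + 1 := by
                  have h7 : ‖x - t‖ < 1 := h3.trans_le (min_le_right _ _)
                  have h8 : ‖t‖ ≤ ‖x‖ + ‖x - t‖ := by
                    have := norm_sub_le x (x - t)
                    simpa using this
                  linarith
                have h9 := hδ' x (by simpa using hx.trans (by linarith)) t (by simpa using h6) h5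
                rw [dist_eq_norm] at h9
                exact h9.le)
              (((χ x : ℝ) : ℂ) • ((χ x : ℝ) : ℂ) • v x)
            refine hb.trans ?_
            have h10 : ‖((χ x : ℝ) : ℂ) • ((χ x : ℝ) : ℂ) • v x‖ ≤
                mo (mol n) (fun t => ‖Ψ t‖) x := by
              rw [norm_smul, norm_smul, Complex.norm_real, Real.norm_of_nonneg (hχ.2.2.1 x)]
              have hc1 := hχ.2.2.1 x
              have hc2 := hχ.2.2.2.1 x
              have hvx : ‖v x‖ ≤ mo (mol n) (fun t => ‖Ψ t‖) x := norm_mo_le (mol_nonneg n) Ψ x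
              have hv0 := norm_nonneg (v x)
              have h11 : χ x * ‖v x‖ ≤ ‖v x‖ := mul_le_of_le_one_left hv0 hc2
              have h12 : χ x * (χ x * ‖v x‖) ≤ χ x * ‖v x‖ :=
                mul_le_of_le_one_left (mul_nonneg hc1 hv0) hc2
              linarith
            calc ε' * ‖((χ x : ℝ) : ℂ) • ((χ x : ℝ) : ℂ) • v x‖ * mo (mol n) (fun t => ‖Ψ t‖) x
                ≤ ε' * mo (mol n) (fun t => ‖Ψ t‖) x * mo (mol n) (fun t => ‖Ψ t‖) x :=
                  mul_le_mul_of_nonneg_right (mul_le_mul_of_nonneg_left h10 hε'0.le) hg0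
              _ = _ := by ring
          · rw [hχ.2.2.2.2.2.1 x hx.le]
            simp only [Complex.ofReal_zero, zero_smul, inner_zero_left, norm_zero]
            positivity
        refine h2.trans ?_
        rw [integral_const_mul]
        refine (mul_le_mul_of_nonneg_left hgN hε'0.le).trans ?_
        have h3 : ∫ x, ‖Ψ x‖ ^ 2 = N := rfl
        rw [h3, hε', div_mul_eq_mul_div, div_le_iff₀ (by positivity)]
        nlinarith
      have h2 : ∑ β, ∫ x, ‖S.esaD χ β x (v x)‖ ^ 2 ≤ (K / R) ^ 2 * C1 * N := by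
        have h3 : ∀ β, ∫ x, ‖S.esaD χ β x (v x)‖ ^ 2 ≤ (K / R * S.esaC β) ^ 2 * N := by
          intro β
          refine (nsq_op_le (fun x => S.esa_D_norm hK hR hχ β x) hvm).trans ?_
          exact mul_le_mul_of_nonneg_left hvN (sq_nonneg _)
        refine (Finset.sum_le_sum fun β _ => h3 β).trans (le_of_eq ?_)
        rw [hC1, Finset.mul_sum, Finset.sum_mul]
        refine Finset.sum_congr rfl fun β _ => ?_
        ring
      linarith
    · filter_upwards [mo_tendsto hL] with x hx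
      exact ((tendsto_const_nhds.smul hx).norm).pow 2
  -- let `R → ∞`
  refine le_antisymm ?_ (nsq_nonneg _)
  refine le_of_forall_pos_le_add fun M hM => ?_
  rw [zero_add]
  choose! χ hχ using hcut
  have hpos : ∀ n : ℕ, (0 : ℝ) < (n : ℝ) + 1 := fun n => by positivity
  refine fatou_le (f := fun n x => ‖((χ ((n : ℝ) + 1) x : ℝ) : ℂ) • Ψ x‖ ^ 2) ?_ ?_ ?_ ?_
  · intro n
    have hc := hχ _ (hpos n)
    have hi := memLp_norm_sq_int hΨ
    refine hi.mono' ?_ (Filter.Eventually.of_forall fun x => ?_)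
    · exact (((Complex.continuous_ofReal.comp hc.1.continuous).aestronglyMeasurable.smul
        hΨ.1).norm).pow 2
    · rw [Real.norm_of_nonneg (sq_nonneg _), norm_smul, Complex.norm_real,
        Real.norm_of_nonneg (hc.2.2.1 x)]
      exact pow_le_pow_left₀ (mul_nonneg (hc.2.2.1 x) (norm_nonneg _))
        (mul_le_of_le_one_left (norm_nonneg _) (hc.2.2.2.1 x)) 2
  · intro n x; positivity
  · have h1 : Tendsto (fun n : ℕ => (K / ((n : ℝ) + 1)) ^ 2 * C1 * N) atTop (𝓝 0) := by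
      have := (tendsto_one_div_add_atTop_nhds_zero_nat (𝕜 := ℝ)).const_mul K
      rw [mul_zero] at this
      have h2 := ((this.pow 2).mul_const C1).mul_const N
      have h3 : (0 : ℝ) ^ 2 * C1 * N = 0 := by ring
      rw [h3] at h2
      refine h2.congr fun n => ?_
      rw [mul_one_div]
    filter_upwards [h1.eventually (gt_mem_nhds hM)] with n hn
    exact (key _ (hpos n) _ (hχ _ (hpos n))).trans hn.le
  · refine Filter.Eventually.of_forall fun x => ?_
    refine tendsto_const_nhds.congr' ?_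
    filter_upwards [Filter.eventually_ge_atTop ⌈‖x‖⌉₊] with n hn
    have hx : ‖x‖ ≤ (n : ℝ) + 1 := by
      have := Nat.ceil_le.mp hn
      linarith
    rw [(hχ _ (hpos n)).2.2.2.2.1 x hx]
    simp

end U

end Vale.Agent.P353
end
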