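import Mathlib
import Vale.Agent.P353.BdU.B3
import Vale.Agent.P353.BdU.B2
import Vale.Agent.P353.BdU.B5
import Vale.Agent.P353.BdU.B9
import Vale.Agent.P353.BdU.B21

set_option linter.all false

section

/-! # P353, uniqueness: coercivity (B0) and a priori bound (C-AP) -/

open MeasureTheory Filter Topology
open scoped ContDiff

namespace Vale.Agent.P353.U

variable {F : Type*} [NormedAddCommGroup F] [InnerProductSpace ℂ F]

namespace Coer

lemma coord_le (x : X3) (p : Fin 9 × Fin 3) : |x p| ≤ ‖x‖ := by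
  have h := PiLp.norm_apply_le x p
  rwa [Real.norm_eq_abs] at h

/-- a bound of the fermionic potential -/
noncomputable def CF (S : Setup F) : ℝ := ‖(Complex.I / 2 * (S.κ : ℂ))‖ *
  ∑ q : Fin 9, ∑ A, ∑ B, ∑ C, ‖(eps A B C : ℂ)‖ * ‖S.bil (S.g q) A B‖

lemma CF_nonneg (S : Setup F) : 0 ≤ CF S := by
  unfold CF
  positivity

lemma norm_Fx_le (S : Setup F) (x : X3) : ‖S.Fx x‖ ≤ CF S * ‖x‖ := by
  unfold Setup.Fx CF
  rw [norm_smul, mul_assoc]
  apply mul_le_mul_of_nonneg_left _ (norm_nonneg _)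
  simp only [Finset.sum_mul]
  refine (norm_sum_le _ _).trans (Finset.sum_le_sum fun q _ => ?_)
  refine (norm_sum_le _ _).trans (Finset.sum_le_sum fun A _ => ?_)
  refine (norm_sum_le _ _).trans (Finset.sum_le_sum fun B _ => ?_)
  refine (norm_sum_le _ _).trans (Finset.sum_le_sum fun C _ => ?_)
  rw [norm_smul, norm_mul]
  have h1 : ‖((x (q, C) : ℝ) : ℂ)‖ ≤ ‖x‖ := by
    rw [Complex.norm_real, Real.norm_eq_abs]
    exact coord_le x _
  calc ‖(eps A B C : ℂ)‖ * ‖((x (q, C) : ℝ) : ℂ)‖ * ‖S.bil (S.g q) A B‖ ≤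
      ‖(eps A B C : ℂ)‖ * ‖x‖ * ‖S.bil (S.g q) A B‖ := by gcongr
    _ = _ := by ring

lemma norm_sq_X3 (x : X3) : ‖x‖ ^ 2 = ∑ i, ∑ A, x (i, A) ^ 2 := by
  rw [EuclideanSpace.norm_sq_eq, Fintype.sum_prod_type]
  simp only [Real.norm_eq_abs, sq_abs]

lemma norm_ro {O : Matrix (Fin 3) (Fin 3) ℝ} (hO : O.transpose * O = 1) (x : X3) :
    ‖ro O x‖ = ‖x‖ := by
  have h : ‖ro O x‖ ^ 2 = ‖x‖ ^ 2 := by
    rw [norm_sq_X3, norm_sq_X3]
    apply Finset.sum_congr rfl
    intro i _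
    have e : ∀ B C, ∑ A, O A B * O A C = if B = C then (1 : ℝ) else 0 := by
      intro B C
      have := congrFun (congrFun hO B) C
      rw [Matrix.mul_apply, Matrix.one_apply] at this
      rw [← this]
      rfl
    calc ∑ A, (ro O x) (i, A) ^ 2 = ∑ A, (∑ B, O A B * x (i, B)) ^ 2 := rfl
      _ = ∑ A, ∑ B, ∑ C, (O A B * O A C) * (x (i, B) * x (i, C)) := by
          apply Finset.sum_congr rfl
          intro A _
          rw [sq, Finset.sum_mul_sum]
          apply Finset.sum_congr rfl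
          intro B _
          apply Finset.sum_congr rfl
          intro C _
          ring
      _ = ∑ B, ∑ C, (∑ A, O A B * O A C) * (x (i, B) * x (i, C)) := by
          rw [Finset.sum_comm]
          apply Finset.sum_congr rfl
          intro B _
          rw [Finset.sum_comm]
          apply Finset.sum_congr rfl
          intro C _
          rw [Finset.sum_mul]
      _ = ∑ B, x (i, B) ^ 2 := by
          apply Finset.sum_congr rfl
          intro B _
          simp only [e, ite_mul, one_mul, zero_mul, Finset.sum_ite_eq, Finset.mem_univ, if_true]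
          ring
  exact (sq_eq_sq₀ (norm_nonneg _) (norm_nonneg _)).1 h

lemma orb_nonempty (S : Setup F) (m : ℝ) : (S.Orb m).Nonempty :=
  ⟨ro 1 (m • S.xi0), 1, by simp, by simp, rfl⟩

lemma infDist_ge (S : Setup F) {m : ℝ} (hm : 0 ≤ m) (x : X3) :
    ‖x‖ - m * ‖S.xi0‖ ≤ Metric.infDist x (S.Orb m) := by
  rw [Metric.le_infDist (orb_nonempty S m)]
  rintro _ ⟨O, hO, _, rfl⟩
  have h1 : ‖ro O (m • S.xi0)‖ = m * ‖S.xi0‖ := by
    rw [norm_ro hO, norm_smul, Real.norm_eq_abs, abs_of_nonneg hm]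
  rw [dist_eq_norm]
  have h2 := norm_sub_norm_le x (ro O (m • S.xi0))
  linarith

lemma dm_ge (S : Setup F) {m : ℝ} (hm : 0 ≤ m) (x : X3) : ‖x‖ - m * ‖S.xi0‖ ≤ S.dm m x := by
  unfold Setup.dm
  apply le_min _ (infDist_ge S hm x)
  have := mul_nonneg hm (norm_nonneg S.xi0)
  linarith

lemma dm_nonneg (S : Setup F) (m : ℝ) (x : X3) : 0 ≤ S.dm m x :=
  le_min (norm_nonneg _) Metric.infDist_nonneg

lemma continuous_dm (S : Setup F) (m : ℝ) : Continuous (S.dm m) := by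
  unfold Setup.dm
  exact continuous_norm.min (Metric.continuous_infDist_pt _)

lemma continuous_Vm (S : Setup F) (m : ℝ) : Continuous (S.Vm m) := by
  unfold Setup.Vm det3
  have h1 := (contDiff_V S).continuous
  fun_prop

/-- lower bound of the energy by an integral of a function of `x`. -/
lemma energy_lower (S : Setup F) (h6 : A6Stmt S) {m : ℝ} (hm : 0 ≤ m) {c1 : ℝ}
    (hV : ∀ x : X3, c1 * m ^ 2 * S.dm m x ^ 2 ≤ S.Vm m x) {u : X3 → F} (hu : Setup.Tst u) :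
    8 * ∑ i, ∑ A, nsq (pd i A u) + ∫ x, (16 * (c1 * m ^ 2 * S.dm m x ^ 2) - 16 * CF S * ‖x‖ -
      12 * m * ‖S.FG‖) * ‖u x‖ ^ 2 ≤ ∑ β, nsq (S.Qm m β u) := by
  have hcF : Setup.Tst (fun x => S.Fx x (u x)) := hu.clm (contDiff_Fx S)
  have hcG : Setup.Tst (fun x => S.FG (u x)) := hu.clm contDiff_const
  have i1 : Integrable (fun x => S.Vm m x * ‖u x‖ ^ 2) := hu.mul_norm_sq_int (continuous_Vm S m)
  have i2 : Integrable (fun x => (inner ℂ (u x) (S.Fx x (u x)) : ℂ).re) :=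
    (hu.inner_int hcF.1.continuous).re
  have i3 : Integrable (fun x => (inner ℂ (u x) (S.FG (u x)) : ℂ).re) :=
    (hu.inner_int hcG.1.continuous).re
  have e2 : (∫ x, inner ℂ (u x) (S.Fx x (u x))).re = ∫ x, (inner ℂ (u x) (S.Fx x (u x))).re :=
    (integral_re (hu.inner_int hcF.1.continuous)).symm
  have e3 : (∫ x, inner ℂ (u x) (S.FG (u x))).re = ∫ x, (inner ℂ (u x) (S.FG (u x))).re :=
    (integral_re (hu.inner_int hcG.1.continuous)).symm
  rw [h6 m u hu, e2, e3]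
  have hcont : Continuous fun x : X3 => 16 * (c1 * m ^ 2 * S.dm m x ^ 2) - 16 * CF S * ‖x‖ -
      12 * m * ‖S.FG‖ := by
    have := continuous_dm S m
    fun_prop
  have i4 : Integrable (fun x => (16 * (c1 * m ^ 2 * S.dm m x ^ 2) - 16 * CF S * ‖x‖ -
      12 * m * ‖S.FG‖) * ‖u x‖ ^ 2) := hu.mul_norm_sq_int hcont
  have e4 : 16 * (∫ x, S.Vm m x * ‖u x‖ ^ 2) + 16 * (∫ x, (inner ℂ (u x) (S.Fx x (u x))).re) -
      12 * m * (∫ x, (inner ℂ (u x) (S.FG (u x))).re) =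
      ∫ x, (16 * (S.Vm m x * ‖u x‖ ^ 2) + 16 * (inner ℂ (u x) (S.Fx x (u x))).re -
        12 * m * (inner ℂ (u x) (S.FG (u x))).re) := by
    have s1 : ∫ x, (16 * (S.Vm m x * ‖u x‖ ^ 2) + 16 * (inner ℂ (u x) (S.Fx x (u x))).re -
        12 * m * (inner ℂ (u x) (S.FG (u x))).re) =
        (∫ x, (16 * (S.Vm m x * ‖u x‖ ^ 2) + 16 * (inner ℂ (u x) (S.Fx x (u x))).re)) -
        ∫ x, 12 * m * (inner ℂ (u x) (S.FG (u x))).re :=
      integral_sub ((i1.const_mul 16).add (i2.const_mul 16)) (i3.const_mul (12 * m))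
    rw [s1, integral_add (i1.const_mul 16) (i2.const_mul 16), integral_const_mul,
      integral_const_mul, integral_const_mul]
  have hmain : ∫ x, (16 * (c1 * m ^ 2 * S.dm m x ^ 2) - 16 * CF S * ‖x‖ -
      12 * m * ‖S.FG‖) * ‖u x‖ ^ 2 ≤
      ∫ x, (16 * (S.Vm m x * ‖u x‖ ^ 2) + 16 * (inner ℂ (u x) (S.Fx x (u x))).re -
        12 * m * (inner ℂ (u x) (S.FG (u x))).re) := by
    refine integral_mono i4 (((i1.const_mul 16).add (i2.const_mul 16)).sub
      (i3.const_mul (12 * m))) fun x => ?_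
    have hu0 : 0 ≤ ‖u x‖ ^ 2 := by positivity
    have a1 : |(inner ℂ (u x) (S.Fx x (u x)) : ℂ).re| ≤ CF S * ‖x‖ * ‖u x‖ ^ 2 := by
      calc |(inner ℂ (u x) (S.Fx x (u x)) : ℂ).re| ≤ ‖inner ℂ (u x) (S.Fx x (u x))‖ :=
            Complex.abs_re_le_norm _
        _ ≤ ‖u x‖ * ‖S.Fx x (u x)‖ := norm_inner_le_norm _ _
        _ ≤ ‖u x‖ * (‖S.Fx x‖ * ‖u x‖) := by
            gcongr
            exact (S.Fx x).le_opNorm _
        _ ≤ ‖u x‖ * ((CF S * ‖x‖) * ‖u x‖) := by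
            gcongr
            exact norm_Fx_le S x
        _ = _ := by ring
    have a2 : |(inner ℂ (u x) (S.FG (u x)) : ℂ).re| ≤ ‖S.FG‖ * ‖u x‖ ^ 2 := by
      calc |(inner ℂ (u x) (S.FG (u x)) : ℂ).re| ≤ ‖inner ℂ (u x) (S.FG (u x))‖ :=
            Complex.abs_re_le_norm _
        _ ≤ ‖u x‖ * ‖S.FG (u x)‖ := norm_inner_le_norm _ _
        _ ≤ ‖u x‖ * (‖S.FG‖ * ‖u x‖) := by
            gcongr
            exact S.FG.le_opNorm _
        _ = _ := by ring
    have a3 := (abs_le.1 a1).1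
    have a4 := mul_le_mul_of_nonneg_left (abs_le.1 a2).2 (mul_nonneg (by norm_num : (0 : ℝ) ≤ 12) hm)
    have a5 := mul_le_mul_of_nonneg_right (hV x) hu0
    nlinarith
  linarith

end Coer

open Coer

/-- **B0** coercivity. -/
theorem coer (S : Setup F) (h6 : A6Stmt S) (hV : VBoundStmt S) : CoerStmt S := by
  obtain ⟨c1, hc1, hV⟩ := hV
  intro a b ha
  set R0 := ‖S.xi0‖
  have hR0 : 0 ≤ R0 := norm_nonneg _
  have hCF := CF_nonneg S
  refine ⟨min 8 (4 * c1 * a ^ 2), 16 * c1 * b ^ 4 * R0 ^ 2 + 16 * CF S ^ 2 / (c1 * a ^ 2) +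
    12 * b * ‖S.FG‖ + 12 * |b| * ‖S.FG‖, by positivity, ?_, ?_⟩
  · have h1 : 0 ≤ b * ‖S.FG‖ + |b| * ‖S.FG‖ := by
      rw [← add_mul]
      have := neg_abs_le b
      exact mul_nonneg (by linarith) (norm_nonneg _)
    have h2 : 0 ≤ 16 * c1 * b ^ 4 * R0 ^ 2 := by positivity
    have h3 : 0 ≤ 16 * CF S ^ 2 / (c1 * a ^ 2) := by positivity
    linarith
  intro m ham hmb u hu
  have hm : 0 < m := ha.trans_le ham
  have hb : 0 < b := hm.trans_le hmb
  have h1 := energy_lower S h6 hm.le (hV m hm) hu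
  set C0 : ℝ := 16 * c1 * b ^ 4 * R0 ^ 2 + 16 * CF S ^ 2 / (c1 * a ^ 2) + 12 * b * ‖S.FG‖ with hC0
  have hpt : ∀ x : X3, 4 * c1 * a ^ 2 * ‖x‖ ^ 2 - C0 ≤
      16 * (c1 * m ^ 2 * S.dm m x ^ 2) - 16 * CF S * ‖x‖ - 12 * m * ‖S.FG‖ := by
    intro x
    have hd := dm_ge S hm.le x
    have hd0 := dm_nonneg S m x
    have hx := norm_nonneg x
    -- `‖x‖² ≤ 2 dm² + 2 m² R0²`
    have k1 : ‖x‖ ^ 2 ≤ 2 * S.dm m x ^ 2 + 2 * (m * R0) ^ 2 := by
      have k2 : ‖x‖ ≤ S.dm m x + m * R0 := by linarith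
      have k3 : ‖x‖ ^ 2 ≤ (S.dm m x + m * R0) ^ 2 := pow_le_pow_left₀ hx k2 2
      nlinarith [sq_nonneg (S.dm m x - m * R0)]
    have k4 : 8 * c1 * m ^ 2 * ‖x‖ ^ 2 - 16 * c1 * m ^ 4 * R0 ^ 2 ≤
        16 * (c1 * m ^ 2 * S.dm m x ^ 2) := by
      have := mul_le_mul_of_nonneg_left k1 (by positivity : 0 ≤ 8 * (c1 * m ^ 2))
      nlinarith
    have k5 : 8 * c1 * a ^ 2 * ‖x‖ ^ 2 ≤ 8 * c1 * m ^ 2 * ‖x‖ ^ 2 := by gcongr
    have k6 : 16 * c1 * m ^ 4 * R0 ^ 2 ≤ 16 * c1 * b ^ 4 * R0 ^ 2 := by gcongr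
    have k7 : 16 * CF S * ‖x‖ ≤ 4 * c1 * a ^ 2 * ‖x‖ ^ 2 + 16 * CF S ^ 2 / (c1 * a ^ 2) := by
      have hca : 0 < c1 * a ^ 2 := by positivity
      have : 0 ≤ (2 * (c1 * a ^ 2) * ‖x‖ - 4 * CF S) ^ 2 / (c1 * a ^ 2) := by positivity
      have e : (2 * (c1 * a ^ 2) * ‖x‖ - 4 * CF S) ^ 2 / (c1 * a ^ 2) =
          4 * c1 * a ^ 2 * ‖x‖ ^ 2 - 16 * CF S * ‖x‖ + 16 * CF S ^ 2 / (c1 * a ^ 2) := by
        field_simp
        ring
      linarith
    have k8 : 12 * m * ‖S.FG‖ ≤ 12 * b * ‖S.FG‖ := by gcongr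
    linarith
  have hcont : Continuous fun x : X3 => 16 * (c1 * m ^ 2 * S.dm m x ^ 2) - 16 * CF S * ‖x‖ -
      12 * m * ‖S.FG‖ := by
    have := continuous_dm S m
    fun_prop
  have hint1 : Integrable (fun x : X3 => (4 * c1 * a ^ 2 * ‖x‖ ^ 2 - C0) * ‖u x‖ ^ 2) :=
    hu.mul_norm_sq_int (by fun_prop)
  have h2 : ∫ x, (4 * c1 * a ^ 2 * ‖x‖ ^ 2 - C0) * ‖u x‖ ^ 2 ≤
      ∫ x, (16 * (c1 * m ^ 2 * S.dm m x ^ 2) - 16 * CF S * ‖x‖ - 12 * m * ‖S.FG‖) * ‖u x‖ ^ 2 :=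
    integral_mono hint1 (hu.mul_norm_sq_int hcont) fun x =>
      mul_le_mul_of_nonneg_right (hpt x) (by positivity)
  have h3 : ∫ x, (4 * c1 * a ^ 2 * ‖x‖ ^ 2 - C0) * ‖u x‖ ^ 2 =
      4 * c1 * a ^ 2 * (∫ x, ‖x‖ ^ 2 * ‖u x‖ ^ 2) - C0 * nsq u := by
    have i1 : Integrable (fun x : X3 => ‖x‖ ^ 2 * ‖u x‖ ^ 2) := hu.mul_norm_sq_int (by fun_prop)
    rw [nsq, ← integral_const_mul, ← integral_const_mul, ← integral_sub (i1.const_mul _)
      (hu.norm_sq_int.const_mul _)]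
    congr 1
    ext x
    ring
  have hX : 0 ≤ ∫ x, ‖x‖ ^ 2 * ‖u x‖ ^ 2 := integral_nonneg fun x => by positivity
  have hP : 0 ≤ ∑ i, ∑ A, nsq (pd i A u) :=
    Finset.sum_nonneg fun i _ => Finset.sum_nonneg fun A _ => nsq_nonneg _
  have hn := nsq_nonneg u
  have h4 := mul_le_mul_of_nonneg_right (min_le_left 8 (4 * c1 * a ^ 2)) hP
  have h5 := mul_le_mul_of_nonneg_right (min_le_right 8 (4 * c1 * a ^ 2)) hX
  have h6 : 0 ≤ 12 * |b| * ‖S.FG‖ * nsq u := by positivity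
  rw [mul_add, add_mul]
  linarith

/-- **C-AP** a priori bound. -/
theorem ap (S : Setup F) (h6 : A6Stmt S) (hV : VBoundStmt S) : APStmt S := by
  obtain ⟨c1, hc1, hV⟩ := hV
  set R0 := ‖S.xi0‖
  have hR0 : 0 ≤ R0 := norm_nonneg _
  have hCF := CF_nonneg S
  set C1 : ℝ := 16 * CF S * R0 + 8 * CF S ^ 2 / c1 + 12 * ‖S.FG‖ with hC1
  have hC1' : 0 ≤ C1 := by positivity
  refine ⟨(1 + C1) / (8 * c1), by positivity, fun m hm1 u hu => ?_⟩
  have hm : 0 < m := lt_of_lt_of_le one_pos hm1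
  have h1 := energy_lower S h6 hm.le (hV m hm) hu
  have hpt : ∀ x : X3, 8 * c1 * m ^ 2 * S.dm m x ^ 2 - C1 * m ≤
      16 * (c1 * m ^ 2 * S.dm m x ^ 2) - 16 * CF S * ‖x‖ - 12 * m * ‖S.FG‖ := by
    intro x
    have hd := dm_ge S hm.le x
    have hd0 := dm_nonneg S m x
    have k1 : 16 * CF S * ‖x‖ ≤ 16 * CF S * S.dm m x + 16 * CF S * R0 * m := by
      have : 16 * CF S * ‖x‖ ≤ 16 * CF S * (S.dm m x + m * R0) := by
        gcongr
        linarith
      linarith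
    have k2 : 16 * CF S * S.dm m x ≤ 8 * c1 * m ^ 2 * S.dm m x ^ 2 + 8 * CF S ^ 2 / c1 * m := by
      have k3 : 0 ≤ 8 * (c1 * m * S.dm m x - CF S / m) ^ 2 / c1 := by positivity
      have e : 8 * (c1 * m * S.dm m x - CF S / m) ^ 2 / c1 =
          8 * c1 * m ^ 2 * S.dm m x ^ 2 - 16 * CF S * S.dm m x + 8 * CF S ^ 2 / c1 * (1 / m ^ 2) := by
        field_simp
        ring
      have k4 : 1 / m ^ 2 ≤ m := by
        rw [div_le_iff₀ (by positivity)]
        nlinarith [mul_pos hm hm, one_le_pow₀ (n := 3) hm1]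
      have k5 : 8 * CF S ^ 2 / c1 * (1 / m ^ 2) ≤ 8 * CF S ^ 2 / c1 * m := by gcongr
      linarith
    nlinarith
  have hcd := continuous_dm S m
  have hcont : Continuous fun x : X3 => 16 * (c1 * m ^ 2 * S.dm m x ^ 2) - 16 * CF S * ‖x‖ -
      12 * m * ‖S.FG‖ := by fun_prop
  have h2 : ∫ x, (8 * c1 * m ^ 2 * S.dm m x ^ 2 - C1 * m) * ‖u x‖ ^ 2 ≤
      ∫ x, (16 * (c1 * m ^ 2 * S.dm m x ^ 2) - 16 * CF S * ‖x‖ - 12 * m * ‖S.FG‖) * ‖u x‖ ^ 2 :=
    integral_mono (hu.mul_norm_sq_int (by fun_prop)) (hu.mul_norm_sq_int hcont) fun x =>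
      mul_le_mul_of_nonneg_right (hpt x) (by positivity)
  have h3 : ∫ x, (8 * c1 * m ^ 2 * S.dm m x ^ 2 - C1 * m) * ‖u x‖ ^ 2 =
      8 * c1 * (m ^ 2 * ∫ x, S.dm m x ^ 2 * ‖u x‖ ^ 2) - C1 * m * nsq u := by
    have i1 : Integrable (fun x : X3 => S.dm m x ^ 2 * ‖u x‖ ^ 2) :=
      hu.mul_norm_sq_int (by fun_prop)
    rw [nsq, ← integral_const_mul, ← integral_const_mul, ← integral_const_mul,
      ← integral_sub ((i1.const_mul _).const_mul _) (hu.norm_sq_int.const_mul _)]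
    congr 1
    ext x
    ring
  have hP : 0 ≤ ∑ i, ∑ A, nsq (pd i A u) :=
    Finset.sum_nonneg fun i _ => Finset.sum_nonneg fun A _ => nsq_nonneg _
  have hQ : 0 ≤ ∑ β, nsq (S.Qm m β u) := Finset.sum_nonneg fun β _ => nsq_nonneg _
  have hn := nsq_nonneg u
  have h4 : 8 * c1 * (m ^ 2 * ∫ x, S.dm m x ^ 2 * ‖u x‖ ^ 2) ≤
      C1 * (m * nsq u) + ∑ β, nsq (S.Qm m β u) := by linarith
  have h5 : C1 * (m * nsq u) + ∑ β, nsq (S.Qm m β u) ≤
      (1 + C1) * (m * nsq u + ∑ β, nsq (S.Qm m β u)) := by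
    have : 0 ≤ m * nsq u := by positivity
    nlinarith
  rw [div_mul_eq_mul_div, le_div_iff₀ (by positivity)]
  linarith

end Vale.Agent.P353.U
end

section

/-! # P353, uniqueness for `N = 2`: the gap (B7) -/

open MeasureTheory Filter Topology
open scoped ContDiff

namespace Vale.Agent.P353.U

variable {F : Type*} [NormedAddCommGroup F] [InnerProductSpace ℂ F]

/-! ### the pairing -/

/-- the `L²` pairing -/
noncomputable def Pr (f g : X3 → F) : ℂ := ∫ x, inner ℂ (f x) (g x)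

lemma Pr_congr_left {f f' g : X3 → F} (h : ∀ x, f x = f' x) : Pr f g = Pr f' g := by
  have : f = f' := funext h
  rw [this]

lemma Pr_add_left {a b g : X3 → F} (ha : MemLp a 2 (volume : Measure X3))
    (hb : MemLp b 2 (volume : Measure X3)) (hg : MemLp g 2 (volume : Measure X3)) :
    Pr (fun x => a x + b x) g = Pr a g + Pr b g := by
  unfold Pr
  simp only [inner_add_left]
  exact integral_add (integrable_inner_memLp ha hg) (integrable_inner_memLp hb hg)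

lemma Pr_sub_left {a b g : X3 → F} (ha : MemLp a 2 (volume : Measure X3))
    (hb : MemLp b 2 (volume : Measure X3)) (hg : MemLp g 2 (volume : Measure X3)) :
    Pr (fun x => a x - b x) g = Pr a g - Pr b g := by
  unfold Pr
  simp only [inner_sub_left]
  exact integral_sub (integrable_inner_memLp ha hg) (integrable_inner_memLp hb hg)

lemma Pr_smul_left (c : ℂ) (a g : X3 → F) :
    Pr (fun x => c • a x) g = (starRingEnd ℂ) c * Pr a g := by
  unfold Pr
  simp only [inner_smul_left]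
  exact integral_const_mul _ _

lemma Pr_smul_right (c : ℂ) (a g : X3 → F) :
    Pr a (fun x => c • g x) = c * Pr a g := by
  unfold Pr
  simp only [inner_smul_right]
  exact integral_const_mul _ _

lemma Pr_sum_left {ι : Type*} (s : Finset ι) {a : ι → X3 → F} {g : X3 → F}
    (ha : ∀ i, MemLp (a i) 2 (volume : Measure X3)) (hg : MemLp g 2 (volume : Measure X3)) :
    Pr (fun x => ∑ i ∈ s, a i x) g = ∑ i ∈ s, Pr (a i) g := by
  unfold Pr
  simp only [sum_inner]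
  exact integral_finsetSum _ fun i _ => integrable_inner_memLp (ha i) hg

lemma Pr_sum_right {ι : Type*} (s : Finset ι) {a : ι → X3 → F} {g : X3 → F}
    (ha : ∀ i, MemLp (a i) 2 (volume : Measure X3)) (hg : MemLp g 2 (volume : Measure X3)) :
    Pr g (fun x => ∑ i ∈ s, a i x) = ∑ i ∈ s, Pr g (a i) := by
  unfold Pr
  simp only [inner_sum]
  exact integral_finsetSum _ fun i _ => integrable_inner_memLp hg (ha i)

lemma Pr_lin_right {ι : Type*} [Fintype ι] (η : ι → ℂ) {a : ι → X3 → F} {g : X3 → F}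
    (ha : ∀ i, MemLp (a i) 2 (volume : Measure X3)) (hg : MemLp g 2 (volume : Measure X3)) :
    Pr g (fun x => ∑ i, η i • a i x) = ∑ i, η i * Pr g (a i) := by
  have h : ∀ i, MemLp (fun x => η i • a i x) 2 (volume : Measure X3) :=
    fun i => (ha i).const_smul (η i)
  rw [Pr_sum_right Finset.univ h hg]
  exact Finset.sum_congr rfl fun i _ => Pr_smul_right _ _ _

lemma Pr_lin_left {ι : Type*} [Fintype ι] (η : ι → ℂ) {a : ι → X3 → F} {g : X3 → F}
    (ha : ∀ i, MemLp (a i) 2 (volume : Measure X3)) (hg : MemLp g 2 (volume : Measure X3)) :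
    Pr (fun x => ∑ i, η i • a i x) g = ∑ i, (starRingEnd ℂ) (η i) * Pr (a i) g := by
  have h : ∀ i, MemLp (fun x => η i • a i x) 2 (volume : Measure X3) :=
    fun i => (ha i).const_smul (η i)
  rw [Pr_sum_left Finset.univ h hg]
  exact Finset.sum_congr rfl fun i _ => Pr_smul_left _ _ _

lemma memLp_lin {ι : Type*} [Fintype ι] (η : ι → ℂ) {a : ι → X3 → F}
    (ha : ∀ i, MemLp (a i) 2 (volume : Measure X3)) :
    MemLp (fun x => ∑ i, η i • a i x) 2 (volume : Measure X3) :=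
  memLp_finsetSum Finset.univ fun i _ => (ha i).const_smul (η i)

lemma Pr_zero_left (g : X3 → F) : Pr (fun _ => 0) g = 0 := by
  simp [Pr]

lemma Pr_self (g : X3 → F) : Pr g g = ((nsq g : ℝ) : ℂ) := by
  unfold Pr nsq
  rw [← integral_complex_ofReal]
  refine integral_congr_ae (Filter.Eventually.of_forall fun x => ?_)
  simp only [inner_self_eq_norm_sq_to_K]
  norm_cast

lemma Pr_eq_zero_of_nsq {f g : X3 → F} (hf : MemLp f 2 (volume : Measure X3))
    (hg : MemLp g 2 (volume : Measure X3)) (h : nsq g = 0) : Pr f g = 0 := by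
  have h1 := cs_inner hf hg
  rw [nsq] at h
  rw [h, Real.sqrt_zero, mul_zero] at h1
  exact norm_le_zero_iff.mp h1

/-! ### closure properties of test functions -/

lemma Tst_smul {u : X3 → F} (c : ℂ) (hu : Setup.Tst u) : Setup.Tst (fun x => c • u x) := by
  refine ⟨contDiff_const.smul hu.1, hu.2.mono ?_⟩
  intro x hx
  simp only [Function.mem_support] at hx ⊢
  intro h0
  exact hx (by rw [h0, smul_zero])

lemma Tst_zero : Setup.Tst (fun _ => 0 : X3 → F) :=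
  ⟨contDiff_const, HasCompactSupport.zero⟩

lemma Tst_sum {ι : Type*} (s : Finset ι) {u : ι → X3 → F} (hu : ∀ i, Setup.Tst (u i)) :
    Setup.Tst (fun x => ∑ i ∈ s, u i x) := by
  classical
  induction s using Finset.induction_on with
  | empty => simpa using Tst_zero
  | insert a s ha ih =>
    have : (fun x => ∑ i ∈ insert a s, u i x) = fun x => u a x + ∑ i ∈ s, u i x := by
      funext x; rw [Finset.sum_insert ha]
    rw [this]
    exact (hu a).add ih

variable (S : Setup F)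

lemma gap_contDiff_MM (β : Fin 16) : ContDiff ℝ ∞ (S.MM β) := by
  unfold Setup.MM
  refine ContDiff.sum fun i _ => ContDiff.sum fun A _ => ?_
  exact (Setup.contDiff_ofReal (contDiff_const.mul (Setup.contDiff_coord _))).smul contDiff_const

lemma contDiff_Qm (m : ℝ) (β : Fin 16) {u : X3 → F} (hu : ContDiff ℝ ∞ u) :
    ContDiff ℝ ∞ (S.Qm m β u) := by
  unfold Setup.Qm
  exact (S.contDiff_Q β hu).add
    (contDiff_const.smul (Setup.contDiff_clm_apply' (gap_contDiff_MM S β) hu))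

lemma Tst_Qm (m : ℝ) (β : Fin 16) {u : X3 → F} (hu : Setup.Tst u) : Setup.Tst (S.Qm m β u) := by
  have h := (hu.Q S β).add (Tst_smul (m : ℂ) (Setup.Tst.clm (gap_contDiff_MM S β) hu))
  exact h

lemma Tst_G (C : Fin 3) {u : X3 → F} (hu : Setup.Tst u) : Setup.Tst (S.G C u) := by
  have h1 : Setup.Tst (fun x => (-Complex.I) • ∑ i, ∑ A, ∑ B,
      ((eps C A B : ℂ) * (x (i, A) : ℂ)) • pd i B u x) := by
    refine Tst_smul _ (Tst_sum _ fun i => Tst_sum _ fun A => Tst_sum _ fun B => ?_)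
    have h2 := Tst_smul (eps C A B : ℂ) (Setup.Tst.rsmul
      (Setup.contDiff_coord (i, A)) (hu.pd i B))
    have h3 : (fun x : X3 => ((eps C A B : ℂ) * (x (i, A) : ℂ)) • pd i B u x) =
        fun x => (eps C A B : ℂ) • (((x (i, A) : ℝ) : ℂ) • pd i B u x) := by
      funext x; rw [mul_smul]
    rw [h3]
    exact h2
  exact h1.add (Setup.Tst.clm (T := fun _ => S.cS C) contDiff_const hu)

lemma Tst_Hm (hA7 : A7Stmt S) (m : ℝ) {u : X3 → F} (hu : Setup.Tst u) :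
    Setup.Tst (S.Hm m u) := by
  have h : S.Hm m u = fun x => (1 / 16 : ℂ) • ∑ β, S.Qm m β (S.Qm m β u) x := by
    funext x
    rw [hA7 m u hu.1 x, smul_smul]
    norm_num
  rw [h]
  exact Tst_smul _ (Tst_sum _ fun β => Tst_Qm S m β (Tst_Qm S m β hu))

/-! ### commutators with the gauge generators -/

lemma eps_aba (C A : Fin 3) : eps C A C = 0 := by
  revert A C; decide

lemma eps_aab (C A : Fin 3) : eps C C A = 0 := by
  revert A C; decide

/-- `G_C (x_j^C u) = x_j^C G_C u` -/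
lemma G_coord (C : Fin 3) (j : Fin 9) {u : X3 → F} (hu : ContDiff ℝ ∞ u) (x : X3) :
    S.G C (fun y => ((y (j, C) : ℝ) : ℂ) • u y) x = ((x (j, C) : ℝ) : ℂ) • S.G C u x := by
  have hd : DifferentiableAt ℝ u x := (hu.differentiable (by simp)) x
  have hc : DifferentiableAt ℝ (fun y : X3 => y (j, C)) x :=
    ((Setup.contDiff_coord (j, C)).differentiable (by simp)) x
  have hL : ∀ (i : Fin 9) (B : Fin 3), fderiv ℝ (fun y : X3 => y (j, C)) x
      (EuclideanSpace.single (i, B) (1 : ℝ)) = if (j, C) = (i, B) then 1 else 0 := by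
    intro i B
    have h1 : (fun y : X3 => y (j, C)) = (EuclideanSpace.proj (𝕜 := ℝ) (j, C) : X3 →L[ℝ] ℝ) := rfl
    rw [h1, ContinuousLinearMap.fderiv]
    by_cases h : (j, C) = (i, B)
    · simp [h]
    · simp [h]
  have hp : ∀ i B, pd i B (fun y => ((y (j, C) : ℝ) : ℂ) • u y) x =
      (((if (j, C) = (i, B) then 1 else 0 : ℝ)) : ℂ) • u x + ((x (j, C) : ℝ) : ℂ) • pd i B u x := by
    intro i B
    rw [pd_rsmul hc hd, hL]
  have hz : ∑ i : Fin 9, ∑ A : Fin 3, ∑ B : Fin 3, ((eps C A B : ℂ) * (x (i, A) : ℂ)) •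
      ((((if (j, C) = (i, B) then 1 else 0 : ℝ)) : ℂ) • u x) = 0 := by
    refine Finset.sum_eq_zero fun i _ => Finset.sum_eq_zero fun A _ =>
      Finset.sum_eq_zero fun B _ => ?_
    by_cases h : (j, C) = (i, B)
    · have hB : B = C := (Prod.mk.inj h).2.symm
      rw [hB, eps_aba]; simp
    · rw [if_neg h]; simp
  simp only [Setup.G, hp, smul_add, Finset.sum_add_distrib, hz, zero_add, map_smul]
  congr 1
  rw [smul_comm]
  congr 1
  simp only [Finset.smul_sum]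
  refine Finset.sum_congr rfl fun i _ => Finset.sum_congr rfl fun A _ =>
    Finset.sum_congr rfl fun B _ => ?_
  rw [smul_comm]

/-- `∑_C G_C θ_α^C = ∑_C θ_α^C G_C` -/
lemma G_th (α : Fin 16) {u : X3 → F} (hu : ContDiff ℝ ∞ u) (x : X3) :
    ∑ C, S.G C (fun y => S.th α C (u y)) x = ∑ C, S.th α C (S.G C u x) := by
  have hd : DifferentiableAt ℝ u x := (hu.differentiable (by simp)) x
  have hp : ∀ C i B, pd i B (fun y => S.th α C (u y)) x = S.th α C (pd i B u x) :=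
    fun C i B => pd_clm _ hd
  have h1 : ∀ C, S.G C (fun y => S.th α C (u y)) x =
      S.th α C (S.G C u x) + (S.cS C (S.th α C (u x)) - S.th α C (S.cS C (u x))) := by
    intro C
    simp only [Setup.G, hp, map_add, map_smul, map_sum]
    abel
  have h2 : ∀ C, S.cS C (S.th α C (u x)) - S.th α C (S.cS C (u x)) = 0 := by
    intro C
    have h3 := S.toCS.vec_comm_sG 1 C α C
    have h4 : ∑ E, (eps C C E : ℂ) • S.toCS.vec 1 E α = 0 := by
      refine Finset.sum_eq_zero fun E _ => ?_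
      rw [eps_aab]; simp
    rw [h4, smul_zero, S.toCS.vec_one, ← Setup.cS_eq] at h3
    have h5 := congrArg (fun T : F →L[ℂ] F => T (u x)) h3
    simp only [_root_.sub_apply, mul_apply_eq_comp, _root_.zero_apply] at h5
    rw [← neg_sub, h5, neg_zero]
  simp only [h1, h2, add_zero]

/-! ### weak forms of the commutation relations -/

lemma Pr_xG {X : X3 → F} (hG : S.wG X) (j : Fin 9) (C : Fin 3) {f : X3 → F}
    (hf : Setup.Tst f) : Pr (fun x => ((x (j, C) : ℝ) : ℂ) • S.G C f x) X = 0 := by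
  rw [Pr_congr_left (fun x => (G_coord S C j hf.1 x).symm)]
  exact hG C _ (Setup.Tst.rsmul (Setup.contDiff_coord _) hf)

lemma Pr_thG {X : X3 → F} (hX : MemLp X 2 (volume : Measure X3)) (hG : S.wG X) (α : Fin 16)
    {f : X3 → F} (hf : Setup.Tst f) : Pr (fun x => ∑ C, S.th α C (S.G C f x)) X = 0 := by
  rw [Pr_congr_left (fun x => (G_th S α hf.1 x).symm)]
  have h1 : ∀ C, Setup.Tst (fun y => S.th α C (f y)) := fun C =>
    Setup.Tst.clm (T := fun _ => S.th α C) contDiff_const hf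
  rw [Pr_sum_left Finset.univ (fun C => (Tst_G S C (h1 C)).memLp) hX]
  exact Finset.sum_eq_zero fun C _ => hG C _ (h1 C)

lemma g2_conj (k l : Fin 9) (α β : Fin 16) :
    (starRingEnd ℂ) (S.g2 k l α β) = S.g2 k l α β :=
  Complex.conj_eq_iff_im.mpr (S.g2_im k l α β)

lemma Gam_conj (α β : Fin 16) : (starRingEnd ℂ) (S.Gam α β) = S.Gam α β :=
  Complex.conj_eq_iff_im.mpr (S.Gam_real α β)

lemma Gg2_conj (k l : Fin 9) (α β : Fin 16) :
    (starRingEnd ℂ) ((S.Gam * S.g2 k l) α β) = (S.Gam * S.g2 k l) α β :=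
  Complex.conj_eq_iff_im.mpr (Setup.mul_im_zero (S.Gam_real) (S.g2_im k l) α β)

/-- **A1** in weak form -/
lemma A1w (hA1 : A1Stmt S) (hA7 : A7Stmt S) (m : ℝ) {X : X3 → F}
    (hX : MemLp X 2 (volume : Measure X3)) (hG : S.wG X) {f : X3 → F} (hf : Setup.Tst f)
    (α β : Fin 16) :
    Pr (S.Qm m α (S.Qm m β f)) X + Pr (S.Qm m β (S.Qm m α f)) X =
      (if α = β then 2 * Pr (S.Hm m f) X else 0) +
      (m : ℂ) * ∑ i, ∑ j, ((rc i j : ℂ) * (S.Gam * S.g2 i j) α β) * Pr (S.J i j f) X := by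
  have ht1 := (Tst_Qm S m α (Tst_Qm S m β hf)).memLp
  have ht2 := (Tst_Qm S m β (Tst_Qm S m α hf)).memLp
  rw [← Pr_add_left ht1 ht2 hX, Pr_congr_left (fun x => hA1 m α β f hf.1 x)]
  have e1 : Setup.Tst (fun x => if α = β then (2 : ℂ) • S.Hm m f x else 0) := by
    by_cases h : α = β
    · simp only [h, if_true]
      exact Tst_smul _ (Tst_Hm S hA7 m hf)
    · simp only [h, if_false]
      exact Tst_zero
  have e2' : ∀ i j, Setup.Tst (fun x => ((rc i j : ℂ) * (S.Gam * S.g2 i j) α β) • S.J i j f x) :=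
    fun i j => Tst_smul _ (hf.J S i j)
  have e2 : Setup.Tst (fun x => (m : ℂ) • (∑ i, ∑ j,
      ((rc i j : ℂ) * (S.Gam * S.g2 i j) α β) • S.J i j f x)) :=
    Tst_smul _ (Tst_sum _ fun i => Tst_sum _ fun j => e2' i j)
  have e3'' : ∀ j C, Setup.Tst (fun x : X3 => ((x (j, C) : ℝ) : ℂ) • S.G C f x) := fun j C =>
    Setup.Tst.rsmul (Setup.contDiff_coord _) (Tst_G S C hf)
  have e3' : ∀ j C, Setup.Tst (fun x : X3 => (S.g j α β * (x (j, C) : ℂ)) • S.G C f x) := by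
    intro j C
    simp only [mul_smul]
    exact Tst_smul _ (e3'' j C)
  have e3 : Setup.Tst (fun x => (2 * S.κ : ℂ) • ∑ j, ∑ C,
      (S.g j α β * (x (j, C) : ℂ)) • S.G C f x) :=
    Tst_smul _ (Tst_sum _ fun j => Tst_sum _ fun C => e3' j C)
  rw [Pr_add_left (e1.add e2).memLp e3.memLp hX, Pr_add_left e1.memLp e2.memLp hX]
  have h3 : Pr (fun x => (2 * S.κ : ℂ) • ∑ j, ∑ C,
      (S.g j α β * (x (j, C) : ℂ)) • S.G C f x) X = 0 := by
    rw [Pr_smul_left, Pr_sum_left Finset.univ (fun j => (Tst_sum _ fun C => e3' j C).memLp) hX]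
    have : ∀ j, Pr (fun x => ∑ C, (S.g j α β * (x (j, C) : ℂ)) • S.G C f x) X = 0 := by
      intro j
      rw [Pr_sum_left Finset.univ (fun C => (e3' j C).memLp) hX]
      refine Finset.sum_eq_zero fun C _ => ?_
      simp only [mul_smul]
      rw [Pr_smul_left, Pr_xG S hG j C hf, mul_zero]
    simp only [this, Finset.sum_const_zero, mul_zero]
  have h2 : Pr (fun x => (m : ℂ) • (∑ i, ∑ j,
      ((rc i j : ℂ) * (S.Gam * S.g2 i j) α β) • S.J i j f x)) X =
      (m : ℂ) * ∑ i, ∑ j, ((rc i j : ℂ) * (S.Gam * S.g2 i j) α β) * Pr (S.J i j f) X := by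
    rw [Pr_smul_left, Complex.conj_ofReal,
      Pr_sum_left Finset.univ (fun i => (Tst_sum _ fun j => e2' i j).memLp) hX]
    congr 1
    refine Finset.sum_congr rfl fun i _ => ?_
    rw [Pr_sum_left Finset.univ (fun j => (e2' i j).memLp) hX]
    refine Finset.sum_congr rfl fun j _ => ?_
    rw [Pr_smul_left, map_mul, Complex.conj_ofReal, Gg2_conj]
  have h1 : Pr (fun x => if α = β then (2 : ℂ) • S.Hm m f x else 0) X =
      if α = β then 2 * Pr (S.Hm m f) X else 0 := by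
    by_cases h : α = β
    · simp only [h, if_true]
      rw [Pr_smul_left, Complex.conj_ofNat]
    · simp only [h, if_false]
      exact Pr_zero_left X
  rw [h1, h2, h3, add_zero]

/-- weak eigenfunctions in terms of `H_m` -/
lemma wE_iff (hA7 : A7Stmt S) (m e : ℝ) {X : X3 → F} :
    S.wE m e X ↔ ∀ f, Setup.Tst f → 16 * Pr (S.Hm m f) X = e * Pr f X := by
  have h : ∀ f, Setup.Tst f → ∫ x, inner ℂ (∑ β, S.Qm m β (S.Qm m β f) x) (X x) =
      16 * Pr (S.Hm m f) X := by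
    intro f hf
    have h1 : ∫ x, inner ℂ (∑ β, S.Qm m β (S.Qm m β f) x) (X x) =
        Pr (fun x => ∑ β, S.Qm m β (S.Qm m β f) x) X := rfl
    rw [h1, Pr_congr_left (fun x => hA7 m f hf.1 x), Pr_smul_left, Complex.conj_ofNat]
  constructor
  · intro hE f hf
    rw [← h f hf]
    exact hE f hf
  · intro hE f hf
    rw [h f hf]
    exact hE f hf

/-- **A4** in weak form: `Q^ξ Ψ` is a weak eigenfunction -/
lemma A4w (hA4 : A4Stmt S) (hA7 : A7Stmt S) {m e : ℝ} {Ψ : X3 → F} {Φ : Fin 16 → X3 → F}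
    (hΨ : MemLp Ψ 2 (volume : Measure X3)) (hG : S.wG Ψ) (hE : S.wE m e Ψ)
    (hΦ : ∀ β, MemLp (Φ β) 2 (volume : Measure X3)) (hQ : ∀ β, S.wQ m β Ψ (Φ β))
    (ξ : Fin 16 → ℂ) (s : ℝ) (hξ : ∀ α, Complex.I * ∑ β, S.Gam α β * ξ β = s * ξ α) :
    S.wE m (e + 8 * s * m) (fun x => ∑ α, ξ α • Φ α x) := by
  rw [wE_iff S hA7] at hE ⊢
  intro f hf
  have hq : ∀ β g, Setup.Tst g → Pr (S.Qm m β g) Ψ = Pr g (Φ β) := fun β g hg => hQ β g hg
  have hR : ∀ g : X3 → F, Setup.Tst g → Pr g (fun x => ∑ α, ξ α • Φ α x) =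
      ∑ α, ξ α * Pr g (Φ α) := by
    intro g hg
    exact Pr_lin_right ξ hΦ hg.memLp
  rw [hR _ (Tst_Hm S hA7 m hf), hR _ hf]
  have key : ∀ α, 16 * Pr (S.Hm m f) (Φ α) = e * Pr f (Φ α) -
      8 * Complex.I * m * ∑ β, S.Gam α β * Pr f (Φ β) := by
    intro α
    rw [← hq α _ (Tst_Hm S hA7 m hf)]
    have hc : ∀ x, S.Qm m α (S.Hm m f) x = S.Hm m (S.Qm m α f) x -
        ((-(Complex.I * m / 2)) • (∑ β, S.Gam α β • S.Qm m β f x)
          - (Complex.I * S.κ) • ∑ C, S.th α C (S.G C f x)) := by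
      intro x
      rw [← hA4 m α f hf.1 x]
      abel
    have t1 := Tst_Hm S hA7 m (Tst_Qm S m α hf)
    have t2' : ∀ β, Setup.Tst (fun x => S.Gam α β • S.Qm m β f x) := fun β =>
      Tst_smul _ (Tst_Qm S m β hf)
    have t2 : Setup.Tst (fun x => (-(Complex.I * m / 2)) • (∑ β, S.Gam α β • S.Qm m β f x)) :=
      Tst_smul _ (Tst_sum _ t2')
    have t3 : Setup.Tst (fun x => (Complex.I * S.κ) • ∑ C, S.th α C (S.G C f x)) :=
      Tst_smul _ (Tst_sum _ fun C => Setup.Tst.clm (T := fun _ => S.th α C) contDiff_const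
        (Tst_G S C hf))
    rw [Pr_congr_left hc, Pr_sub_left t1.memLp (t2.sub t3).memLp hΨ,
      Pr_sub_left t2.memLp t3.memLp hΨ, Pr_smul_left, Pr_smul_left, Pr_thG S hΨ hG α hf,
      Pr_sum_left Finset.univ (fun β => (t2' β).memLp) hΨ]
    have h4 : ∀ β, Pr (fun x => S.Gam α β • S.Qm m β f x) Ψ = S.Gam α β * Pr f (Φ β) := by
      intro β
      rw [Pr_smul_left, Gam_conj, hq β f hf]
    simp only [h4, mul_zero, sub_zero]
    have h5 : (starRingEnd ℂ) (-(Complex.I * m / 2)) = Complex.I * m / 2 := by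
      simp [Complex.conj_ofNat, neg_div]
    have h6 := hE _ (Tst_Qm S m α hf)
    rw [hq α f hf] at h6
    rw [h5]
    linear_combination h6
  have h7 : 16 * ∑ α, ξ α * Pr (S.Hm m f) (Φ α) = ∑ α, ξ α * (16 * Pr (S.Hm m f) (Φ α)) := by
    rw [Finset.mul_sum]
    exact Finset.sum_congr rfl fun α _ => by ring
  rw [h7]
  simp only [key, mul_sub, Finset.sum_sub_distrib]
  have h8 : ∑ α, ξ α * (8 * Complex.I * m * ∑ β, S.Gam α β * Pr f (Φ β)) =
      -(8 * s * m * ∑ α, ξ α * Pr f (Φ α)) := by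
    have h9 : ∑ α, ξ α * (8 * Complex.I * m * ∑ β, S.Gam α β * Pr f (Φ β)) =
        ∑ β, (8 * Complex.I * m * ∑ α, S.Gam α β * ξ α) * Pr f (Φ β) := by
      simp only [Finset.mul_sum, Finset.sum_mul]
      rw [Finset.sum_comm]
      refine Finset.sum_congr rfl fun β _ => Finset.sum_congr rfl fun α _ => ?_
      ring
    rw [h9, Finset.mul_sum, ← Finset.sum_neg_distrib]
    refine Finset.sum_congr rfl fun β _ => ?_
    have h10 : ∑ α, S.Gam α β * ξ α = -∑ α, S.Gam β α * ξ α := by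
      rw [← Finset.sum_neg_distrib]
      refine Finset.sum_congr rfl fun α _ => ?_
      have h11 : S.Gam α β = -S.Gam β α := by
        have := congrFun (congrFun S.Gam_transpose β) α
        rw [Matrix.transpose_apply, Matrix.neg_apply] at this
        exact this
      rw [h11]; ring
    rw [h10]
    linear_combination (-8 * m * Pr f (Φ β)) * hξ β
  rw [h8]
  have h12 : ∑ α, ξ α * ((e : ℂ) * Pr f (Φ α)) = e * ∑ α, ξ α * Pr f (Φ α) := by
    rw [Finset.mul_sum]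
    exact Finset.sum_congr rfl fun α _ => by ring
  rw [h12]
  push_cast
  ring

/-- **A2** in weak form -/
lemma A2w (hA2 : A2Stmt S) {m : ℝ} {Ψ : X3 → F} {Φ : Fin 16 → X3 → F}
    (hΨ : MemLp Ψ 2 (volume : Measure X3)) (hJ : S.wJ Ψ)
    (hΦ : ∀ β, MemLp (Φ β) 2 (volume : Measure X3)) (hQ : ∀ β, S.wQ m β Ψ (Φ β))
    (η : Fin 16 → ℂ) {k l : Fin 9} (hkl : Same k l) {f : X3 → F} (hf : Setup.Tst f) :
    Pr (S.J k l f) (fun x => ∑ α, η α • Φ α x) =
      (-Complex.I / 2) * ∑ α, (∑ β, S.g2 k l α β * η β) * Pr f (Φ α) := by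
  have hq : ∀ β g, Setup.Tst g → Pr (S.Qm m β g) Ψ = Pr g (Φ β) := fun β g hg => hQ β g hg
  rw [Pr_lin_right η hΦ (hf.J S k l).memLp]
  have key : ∀ α, η α * Pr (S.J k l f) (Φ α) =
      η α * ((Complex.I / 2) * ∑ β, S.g2 k l α β * Pr f (Φ β)) := by
    intro α
    rw [← hq α _ (hf.J S k l)]
    congr 1
    have hc : ∀ x, S.Qm m α (S.J k l f) x = S.J k l (S.Qm m α f) x -
        (Complex.I / 2) • ∑ β, S.g2 k l α β • S.Qm m β f x := by
      intro x
      rw [← hA2 m k l hkl α f hf.1 x]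
      abel
    have t1 := (Tst_Qm S m α hf).J S k l
    have t2' : ∀ β, Setup.Tst (fun x => S.g2 k l α β • S.Qm m β f x) := fun β =>
      Tst_smul _ (Tst_Qm S m β hf)
    have t2 : Setup.Tst (fun x => (Complex.I / 2) • (∑ β, S.g2 k l α β • S.Qm m β f x)) :=
      Tst_smul _ (Tst_sum _ t2')
    rw [Pr_congr_left hc, Pr_sub_left t1.memLp t2.memLp hΨ, Pr_smul_left,
      Pr_sum_left Finset.univ (fun β => (t2' β).memLp) hΨ]
    have h0 : Pr (S.J k l (S.Qm m α f)) Ψ = 0 := hJ k l hkl _ (Tst_Qm S m α hf)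
    have h4 : ∀ β, Pr (fun x => S.g2 k l α β • S.Qm m β f x) Ψ =
        S.g2 k l α β * Pr f (Φ β) := by
      intro β
      rw [Pr_smul_left, g2_conj, hq β f hf]
    have h5 : (starRingEnd ℂ) (Complex.I / 2) = -(Complex.I / 2) := by
      simp [Complex.conj_ofNat, neg_div]
    simp only [h0, h4, h5]
    ring
  rw [Finset.sum_congr rfl fun α _ => key α]
  have h9 : ∑ α, η α * ((Complex.I / 2) * ∑ β, S.g2 k l α β * Pr f (Φ β)) =
      ∑ β, ((Complex.I / 2) * ∑ α, S.g2 k l α β * η α) * Pr f (Φ β) := by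
    simp only [Finset.mul_sum, Finset.sum_mul]
    rw [Finset.sum_comm]
    refine Finset.sum_congr rfl fun β _ => Finset.sum_congr rfl fun α _ => ?_
    ring
  rw [h9, Finset.mul_sum]
  refine Finset.sum_congr rfl fun β _ => ?_
  have h10 : ∑ α, S.g2 k l α β * η α = -∑ α, S.g2 k l β α * η α := by
    rw [← Finset.sum_neg_distrib]
    refine Finset.sum_congr rfl fun α _ => ?_
    have h11 : S.g2 k l α β = -S.g2 k l β α := by
      have := congrFun (congrFun (S.g2_transpose k l) β) α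
      rw [Matrix.transpose_apply, Matrix.neg_apply] at this
      exact this
    rw [h11]; ring
  rw [h10]
  ring

/-- gauge invariance of `Q^η Ψ` -/
lemma A3w (hA3 : A3Stmt S) {m : ℝ} {Ψ : X3 → F} {Φ : Fin 16 → X3 → F}
    (hG : S.wG Ψ) (hΦ : ∀ β, MemLp (Φ β) 2 (volume : Measure X3))
    (hQ : ∀ β, S.wQ m β Ψ (Φ β)) (η : Fin 16 → ℂ) : S.wG (fun x => ∑ α, η α • Φ α x) := by
  intro C f hf
  have h1 : Pr (S.G C f) (fun x => ∑ α, η α • Φ α x) = 0 := by
    rw [Pr_lin_right η hΦ (Tst_G S C hf).memLp]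
    refine Finset.sum_eq_zero fun α _ => ?_
    have h2 : Pr (S.G C f) (Φ α) = 0 := by
      have h3 : Pr (S.Qm m α (S.G C f)) Ψ = Pr (S.G C f) (Φ α) := hQ α _ (Tst_G S C hf)
      rw [← h3, Pr_congr_left (fun x => (hA3 m C α f hf.1 x).symm)]
      exact hG C _ (Tst_Qm S m α hf)
    rw [h2, mul_zero]
  exact h1

lemma rc_J_zero {Ψ : X3 → F} (hJ : S.wJ Ψ) (i j : Fin 9) (α β : Fin 16) {f : X3 → F}
    (hf : Setup.Tst f) :
    ((rc i j : ℂ) * (S.Gam * S.g2 i j) α β) * Pr (S.J i j f) Ψ = 0 := by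
  by_cases hij : i = j
  · subst hij
    have : S.g2 i i = 0 := by simp [CS.g2]
    rw [this]; simp
  · by_cases hs : Same i j
    · have h1 : Pr (S.J i j f) Ψ = 0 := hJ i j hs f hf
      rw [h1, mul_zero]
    · have h2 : rc i j = 0 := by
        unfold rc
        unfold Same at hs
        rw [if_neg, if_neg]
        · rintro ⟨h3, h4⟩
          exact hs ⟨hij, ⟨fun h => by omega, fun h => by omega⟩⟩
        · rintro ⟨h3, h4⟩
          exact hs ⟨hij, ⟨fun h => h4, fun h => h3⟩⟩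
      rw [h2]; simp

lemma rc_J_eq (hA2 : A2Stmt S) {m : ℝ} {Ψ : X3 → F} {Φ : Fin 16 → X3 → F}
    (hΨ : MemLp Ψ 2 (volume : Measure X3)) (hJ : S.wJ Ψ)
    (hΦ : ∀ β, MemLp (Φ β) 2 (volume : Measure X3)) (hQ : ∀ β, S.wQ m β Ψ (Φ β))
    (η : Fin 16 → ℂ) (i j : Fin 9) (α β : Fin 16) {f : X3 → F} (hf : Setup.Tst f) :
    ((rc i j : ℂ) * (S.Gam * S.g2 i j) α β) * Pr (S.J i j f) (fun x => ∑ α, η α • Φ α x) =
    ((rc i j : ℂ) * (S.Gam * S.g2 i j) α β) *
      ((-Complex.I / 2) * ∑ α, (∑ β, S.g2 i j α β * η β) * Pr f (Φ α)) := by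
  by_cases hij : i = j
  · subst hij
    have : S.g2 i i = 0 := by simp [CS.g2]
    rw [this]; simp
  · by_cases hs : Same i j
    · rw [A2w S hA2 hΨ hJ hΦ hQ η hs hf]
    · have h2 : rc i j = 0 := by
        unfold rc
        unfold Same at hs
        rw [if_neg, if_neg]
        · rintro ⟨h3, h4⟩
          exact hs ⟨hij, ⟨fun h => by omega, fun h => by omega⟩⟩
        · rintro ⟨h3, h4⟩
          exact hs ⟨hij, ⟨fun h => h4, fun h => h3⟩⟩
      rw [h2]; simp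

lemma anti_sum (T : Fin 16 → Fin 16 → ℂ) (a : Fin 16 → ℂ) :
    (∑ α, (starRingEnd ℂ) (a α) * ∑ β, a β * T β α) +
      (∑ α, a α * ∑ β, (starRingEnd ℂ) (a β) * T β α) =
    ∑ α, ∑ β, ((starRingEnd ℂ) (a α) * a β) * (T α β + T β α) := by
  have h1 : (∑ α, a α * ∑ β, (starRingEnd ℂ) (a β) * T β α) =
      ∑ α, ∑ β, ((starRingEnd ℂ) (a α) * a β) * T α β := by
    simp only [Finset.mul_sum]
    rw [Finset.sum_comm]
    refine Finset.sum_congr rfl fun α _ => Finset.sum_congr rfl fun β _ => ?_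
    ring
  rw [h1, ← Finset.sum_add_distrib]
  refine Finset.sum_congr rfl fun α _ => ?_
  rw [Finset.mul_sum, ← Finset.sum_add_distrib]
  refine Finset.sum_congr rfl fun β _ => ?_
  ring

lemma conj_mul_sum (a : Fin 16 → ℂ) :
    ∑ β, (starRingEnd ℂ) (a β) * a β = ((∑ β, ‖a β‖ ^ 2 : ℝ) : ℂ) := by
  push_cast
  refine Finset.sum_congr rfl fun β _ => ?_
  rw [mul_comm, Complex.mul_conj, Complex.normSq_eq_norm_sq]
  push_cast
  ring

lemma sum_norm_pos {a : Fin 16 → ℂ} (ha : a ≠ 0) : 0 < ∑ β, ‖a β‖ ^ 2 := by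
  obtain ⟨β, hβ⟩ := Function.ne_iff.mp ha
  refine Finset.sum_pos' (fun _ _ => by positivity) ⟨β, Finset.mem_univ _, ?_⟩
  have : 0 < ‖a β‖ := norm_pos_iff.mpr hβ
  positivity

lemma L2t_const {g : X3 → F} (hg : MemLp g 2 (volume : Measure X3)) :
    L2t (fun _ : ℕ => g) g :=
  ⟨fun _ => hg, hg, by simp [nsq]⟩

lemma alg1 (m c : ℂ) (ζ : Fin 16 → ℂ) (R : Fin 9 → Fin 9 → ℂ)
    (M : Fin 9 → Fin 9 → Fin 16 → Fin 16 → ℂ) (N : Fin 9 → Fin 9 → Fin 16 → ℂ)
    (P : Fin 16 → ℂ) :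
    ∑ α, ∑ β, ((starRingEnd ℂ) (ζ α) * ζ β) *
      (m * ∑ i, ∑ j, (R i j * M i j α β) * (c * ∑ δ, N i j δ * P δ)) =
    m * ∑ δ, (∑ k, ∑ l, R k l * (∑ β, ∑ γ, (starRingEnd ℂ) (ζ β) * M k l β γ * ζ γ) *
      c * N k l δ) * P δ := by
  have h1 : ∀ α β, ((starRingEnd ℂ) (ζ α) * ζ β) *
      (m * ∑ i, ∑ j, (R i j * M i j α β) * (c * ∑ δ, N i j δ * P δ)) =
      ∑ i, ∑ j, ((starRingEnd ℂ) (ζ α) * M i j α β * ζ β) *
        (m * R i j * (c * ∑ δ, N i j δ * P δ)) := by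
    intro α β
    rw [Finset.mul_sum, Finset.mul_sum]
    refine Finset.sum_congr rfl fun i _ => ?_
    rw [Finset.mul_sum, Finset.mul_sum]
    refine Finset.sum_congr rfl fun j _ => ?_
    ring
  simp only [h1]
  have h2 : ∀ (w : Fin 16 → Fin 16 → Fin 9 → Fin 9 → ℂ),
      ∑ α, ∑ β, ∑ i, ∑ j, w α β i j = ∑ i, ∑ j, ∑ α, ∑ β, w α β i j := by
    intro w
    calc ∑ α, ∑ β, ∑ i, ∑ j, w α β i j = ∑ α, ∑ i, ∑ β, ∑ j, w α β i j :=
          Finset.sum_congr rfl fun α _ => Finset.sum_comm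
      _ = ∑ i, ∑ α, ∑ β, ∑ j, w α β i j := Finset.sum_comm
      _ = ∑ i, ∑ α, ∑ j, ∑ β, w α β i j :=
          Finset.sum_congr rfl fun i _ => Finset.sum_congr rfl fun α _ => Finset.sum_comm
      _ = ∑ i, ∑ j, ∑ α, ∑ β, w α β i j :=
          Finset.sum_congr rfl fun i _ => Finset.sum_comm
  rw [h2]
  have h3 : ∀ i j, ∑ α, ∑ β, ((starRingEnd ℂ) (ζ α) * M i j α β * ζ β) *
        (m * R i j * (c * ∑ δ, N i j δ * P δ)) =
      ∑ δ, m * ((R i j * (∑ β, ∑ γ, (starRingEnd ℂ) (ζ β) * M i j β γ * ζ γ) *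
        c * N i j δ) * P δ) := by
    intro i j
    simp only [← Finset.sum_mul]
    generalize (∑ β, ∑ γ, (starRingEnd ℂ) (ζ β) * M i j β γ * ζ γ) = K
    rw [Finset.mul_sum, Finset.mul_sum, Finset.mul_sum]
    refine Finset.sum_congr rfl fun δ _ => ?_
    ring
  simp only [h3]
  rw [Finset.mul_sum]
  calc ∑ i, ∑ j, ∑ δ, m * ((R i j * (∑ β, ∑ γ, (starRingEnd ℂ) (ζ β) * M i j β γ * ζ γ) *
        c * N i j δ) * P δ) = ∑ i, ∑ δ, ∑ j, m * ((R i j *
          (∑ β, ∑ γ, (starRingEnd ℂ) (ζ β) * M i j β γ * ζ γ) * c * N i j δ) * P δ) :=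
        Finset.sum_congr rfl fun i _ => Finset.sum_comm
    _ = ∑ δ, ∑ i, ∑ j, m * ((R i j *
          (∑ β, ∑ γ, (starRingEnd ℂ) (ζ β) * M i j β γ * ζ γ) * c * N i j δ) * P δ) :=
        Finset.sum_comm
    _ = _ := by
        refine Finset.sum_congr rfl fun δ _ => ?_
        rw [Finset.sum_mul, Finset.mul_sum]
        refine Finset.sum_congr rfl fun i _ => ?_
        rw [Finset.sum_mul, Finset.mul_sum]

/-- **B7**, without the superfluous hypotheses -/
theorem gap_core (hA1 : A1Stmt S) (hA2 : A2Stmt S) (hA3 : A3Stmt S) (hA4 : A4Stmt S)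
    (hA5 : A5Stmt S) (hA7 : A7Stmt S) (h6 : WEStmt S) : GapStmt S := by
  intro m e hm he he8 Ψ hΨ hG hJ hE
  obtain ⟨ζ, η, hζ0, hη0, hζ, hη, -, hsum⟩ := hA5
  obtain ⟨Φ, hStr, hQ, -⟩ := h6 m e hm Ψ hΨ hE
  have hΦ : ∀ β, MemLp (Φ β) 2 (volume : Measure X3) := by
    obtain ⟨u, _, _, h⟩ := hStr
    exact fun β => (h β).mem'
  -- `X = Q^η Ψ`
  have hXm : MemLp (fun x => ∑ α, η α • Φ α x) 2 (volume : Measure X3) := memLp_lin η hΦ
  have hXG := A3w S hA3 hG hΦ hQ η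
  have hXE := A4w S hA4 hA7 hΨ hG hE hΦ hQ η 1 (by intro α; rw [hη α]; simp)
  obtain ⟨Ξ, hStrX, hQX, -⟩ := h6 m _ hm _ hXm hXE
  have hΞ : ∀ β, MemLp (Ξ β) 2 (volume : Measure X3) := by
    obtain ⟨u, _, _, h⟩ := hStrX
    exact fun β => (h β).mem'
  have hXL : ∀ g : X3 → F, MemLp g 2 (volume : Measure X3) →
      Pr g (fun x => ∑ α, η α • Φ α x) = ∑ α, η α * Pr g (Φ α) := fun g hg =>
    Pr_lin_right η hΦ hg
  -- the norms
  have hnζ := sum_norm_pos hζ0
  have hnη := sum_norm_pos hη0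
  have hcζ := conj_mul_sum ζ
  have hcη := conj_mul_sum η
  set nζ : ℝ := ∑ β, ‖ζ β‖ ^ 2 with hnζ_def
  set nη : ℝ := ∑ β, ‖η β‖ ^ 2 with hnη_def
  have hY1m : MemLp (fun x => ∑ β, ζ β • Ξ β x) 2 (volume : Measure X3) := memLp_lin ζ hΞ
  have hY2m : MemLp (fun x => ∑ β, (starRingEnd ℂ) (ζ β) • Ξ β x) 2 (volume : Measure X3) :=
    memLp_lin _ hΞ
  -- the key identity on test functions
  have key : ∀ f, Setup.Tst f →
      (∑ α, (starRingEnd ℂ) (ζ α) * Pr (S.Qm m α f) (fun x => ∑ β, ζ β • Ξ β x)) +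
      (∑ α, ζ α * Pr (S.Qm m α f) (fun x => ∑ β, (starRingEnd ℂ) (ζ β) • Ξ β x)) =
      ((nζ * (e / 8 - 4 * m) : ℝ) : ℂ) * Pr f (fun x => ∑ α, η α • Φ α x) := by
    intro f hf
    have e1 : ∀ α, Pr (S.Qm m α f) (fun x => ∑ β, ζ β • Ξ β x) =
        ∑ β, ζ β * Pr (S.Qm m β (S.Qm m α f)) (fun x => ∑ α, η α • Φ α x) := by
      intro α
      rw [Pr_lin_right ζ hΞ (Tst_Qm S m α hf).memLp]
      refine Finset.sum_congr rfl fun β _ => ?_
      have : Pr (S.Qm m β (S.Qm m α f)) (fun x => ∑ α, η α • Φ α x) =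
        Pr (S.Qm m α f) (Ξ β) := hQX β _ (Tst_Qm S m α hf)
      rw [this]
    have e2 : ∀ α, Pr (S.Qm m α f) (fun x => ∑ β, (starRingEnd ℂ) (ζ β) • Ξ β x) =
        ∑ β, (starRingEnd ℂ) (ζ β) *
          Pr (S.Qm m β (S.Qm m α f)) (fun x => ∑ α, η α • Φ α x) := by
      intro α
      rw [Pr_lin_right (fun β => (starRingEnd ℂ) (ζ β)) hΞ (Tst_Qm S m α hf).memLp]
      refine Finset.sum_congr rfl fun β _ => ?_
      have : Pr (S.Qm m β (S.Qm m α f)) (fun x => ∑ α, η α • Φ α x) =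
        Pr (S.Qm m α f) (Ξ β) := hQX β _ (Tst_Qm S m α hf)
      rw [this]
    simp only [e1, e2]
    rw [anti_sum (fun β α => Pr (S.Qm m β (S.Qm m α f)) (fun x => ∑ α, η α • Φ α x)) ζ]
    simp only [A1w S hA1 hA7 m hXm hXG hf, rc_J_eq S hA2 hΨ hJ hΦ hQ η _ _ _ _ hf]
    simp only [mul_add, Finset.sum_add_distrib]
    have f1 : ∑ α, ∑ β, ((starRingEnd ℂ) (ζ α) * ζ β) *
        (if α = β then 2 * Pr (S.Hm m f) (fun x => ∑ α, η α • Φ α x) else 0) =
        nζ * (e + 8 * m) / 8 * Pr f (fun x => ∑ α, η α • Φ α x) := by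
      have g1 : ∀ α, ∑ β, ((starRingEnd ℂ) (ζ α) * ζ β) *
          (if α = β then 2 * Pr (S.Hm m f) (fun x => ∑ α, η α • Φ α x) else 0) =
          ((starRingEnd ℂ) (ζ α) * ζ α) *
            (2 * Pr (S.Hm m f) (fun x => ∑ α, η α • Φ α x)) := by
        intro α
        rw [Finset.sum_eq_single α]
        · rw [if_pos rfl]
        · intro β _ hβ
          rw [if_neg (Ne.symm hβ), mul_zero]
        · intro h; exact absurd (Finset.mem_univ _) h
      simp only [g1]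
      rw [← Finset.sum_mul, hcζ]
      have g2 := (wE_iff S hA7 m _).mp hXE f hf
      push_cast at g2
      linear_combination (nζ : ℂ) / 8 * g2
    have f2 : ∑ α, ∑ β, ((starRingEnd ℂ) (ζ α) * ζ β) *
        ((m : ℂ) * ∑ i, ∑ j, ((rc i j : ℂ) * (S.Gam * S.g2 i j) α β) *
          ((-Complex.I / 2) * ∑ α, (∑ β, S.g2 i j α β * η β) * Pr f (Φ α))) =
        -5 * m * nζ * Pr f (fun x => ∑ α, η α • Φ α x) := by
      have g1 := alg1 (m : ℂ) (-Complex.I / 2) ζ (fun i j => (rc i j : ℂ))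
        (fun i j α β => (S.Gam * S.g2 i j) α β) (fun i j α => ∑ β, S.g2 i j α β * η β)
        (fun α => Pr f (Φ α))
      rw [g1]
      simp only [hsum, hcζ]
      rw [hXL f hf.memLp, Finset.mul_sum, Finset.mul_sum]
      refine Finset.sum_congr rfl fun α _ => ?_
      ring
    rw [f1, f2]
    push_cast
    ring
  -- the limit
  have hlim : (nsq (fun x => ∑ β, ζ β • Ξ β x) +
      nsq (fun x => ∑ β, (starRingEnd ℂ) (ζ β) • Ξ β x) : ℝ) =
      nζ * (e / 8 - 4 * m) * nsq (fun x => ∑ α, η α • Φ α x) := by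
    obtain ⟨u, hu, huX, huQ⟩ := hStrX
    have l1 : Tendsto (fun n =>
        (∑ α, (starRingEnd ℂ) (ζ α) * Pr (S.Qm m α (u n)) (fun x => ∑ β, ζ β • Ξ β x)) +
        (∑ α, ζ α * Pr (S.Qm m α (u n)) (fun x => ∑ β, (starRingEnd ℂ) (ζ β) • Ξ β x))) atTop
        (𝓝 ((∑ α, (starRingEnd ℂ) (ζ α) * Pr (Ξ α) (fun x => ∑ β, ζ β • Ξ β x)) +
        (∑ α, ζ α * Pr (Ξ α) (fun x => ∑ β, (starRingEnd ℂ) (ζ β) • Ξ β x)))) := by
      refine Tendsto.add (tendsto_finsetSum _ fun α _ => ?_) (tendsto_finsetSum _ fun α _ => ?_)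
      · exact ((huQ α).lim_inner (L2t_const hY1m)).const_mul _
      · exact ((huQ α).lim_inner (L2t_const hY2m)).const_mul _
    have l2 : Tendsto (fun n => ((nζ * (e / 8 - 4 * m) : ℝ) : ℂ) *
        Pr (u n) (fun x => ∑ α, η α • Φ α x)) atTop
        (𝓝 (((nζ * (e / 8 - 4 * m) : ℝ) : ℂ) *
        Pr (fun x => ∑ α, η α • Φ α x) (fun x => ∑ α, η α • Φ α x))) :=
      (huX.lim_inner (L2t_const hXm)).const_mul _
    have l3 := tendsto_nhds_unique (l1.congr fun n => key (u n) (hu n)) l2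
    have l4 := Pr_lin_left ζ hΞ hY1m
    have l5 := Pr_lin_left (fun β => (starRingEnd ℂ) (ζ β)) hΞ hY2m
    simp only [Complex.conj_conj] at l5
    rw [← l4, ← l5, Pr_self, Pr_self, Pr_self] at l3
    exact_mod_cast l3
  have hX0 : nsq (fun x => ∑ α, η α • Φ α x) = 0 := by
    have h1 := nsq_nonneg (fun x => ∑ β, ζ β • Ξ β x)
    have h2 := nsq_nonneg (fun x => ∑ β, (starRingEnd ℂ) (ζ β) • Ξ β x)
    have h3 := nsq_nonneg (fun x => ∑ α, η α • Φ α x)
    have h4 : 0 < nζ * (4 * m - e / 8) := by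
      refine mul_pos hnζ ?_
      linarith
    nlinarith
  -- the other component
  have hY0 : nsq (fun x => ∑ α, (starRingEnd ℂ) (η α) • Φ α x) = 0 := by
    have hYE := A4w S hA4 hA7 hΨ hG hE hΦ hQ (fun α => (starRingEnd ℂ) (η α)) (-1) (by
      intro α
      have h1 := congrArg (starRingEnd ℂ) (hη α)
      rw [map_mul, Complex.conj_I, map_sum] at h1
      simp only [map_mul, Gam_conj] at h1
      push_cast
      linear_combination -h1)
    obtain ⟨Ξ', -, -, hn⟩ := h6 m _ hm _ (memLp_lin _ hΦ) hYE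
    have h1 : 0 ≤ ∑ β, nsq (Ξ' β) := Finset.sum_nonneg fun β _ => nsq_nonneg _
    have h2 := nsq_nonneg (fun x => ∑ α, (starRingEnd ℂ) (η α) • Φ α x)
    rw [hn] at h1
    nlinarith
  -- conclusion
  have hfin : ∀ f, Setup.Tst f → Pr f Ψ = 0 := by
    intro f hf
    have e1 : ∀ α, Pr (S.Qm m α f) (fun x => ∑ β, η β • Φ β x) =
        ∑ β, η β * Pr (S.Qm m β (S.Qm m α f)) Ψ := by
      intro α
      rw [Pr_lin_right η hΦ (Tst_Qm S m α hf).memLp]
      refine Finset.sum_congr rfl fun β _ => ?_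
      have : Pr (S.Qm m β (S.Qm m α f)) Ψ = Pr (S.Qm m α f) (Φ β) :=
        hQ β _ (Tst_Qm S m α hf)
      rw [this]
    have e2 : ∀ α, Pr (S.Qm m α f) (fun x => ∑ β, (starRingEnd ℂ) (η β) • Φ β x) =
        ∑ β, (starRingEnd ℂ) (η β) * Pr (S.Qm m β (S.Qm m α f)) Ψ := by
      intro α
      rw [Pr_lin_right (fun β => (starRingEnd ℂ) (η β)) hΦ (Tst_Qm S m α hf).memLp]
      refine Finset.sum_congr rfl fun β _ => ?_
      have : Pr (S.Qm m β (S.Qm m α f)) Ψ = Pr (S.Qm m α f) (Φ β) :=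
        hQ β _ (Tst_Qm S m α hf)
      rw [this]
    have e3 := anti_sum (fun β α => Pr (S.Qm m β (S.Qm m α f)) Ψ) η
    simp only [← e1, ← e2] at e3
    have e4 : ∀ α, Pr (S.Qm m α f) (fun x => ∑ β, η β • Φ β x) = 0 := fun α =>
      Pr_eq_zero_of_nsq (Tst_Qm S m α hf).memLp hXm hX0
    have e5 : ∀ α, Pr (S.Qm m α f) (fun x => ∑ β, (starRingEnd ℂ) (η β) • Φ β x) = 0 :=
      fun α => Pr_eq_zero_of_nsq (Tst_Qm S m α hf).memLp (memLp_lin _ hΦ) hY0
    simp only [e4, e5, A1w S hA1 hA7 m hΨ hG hf, rc_J_zero S hJ _ _ _ _ hf, mul_zero,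
      Finset.sum_const_zero, add_zero] at e3
    have g1 : ∀ α, ∑ β, ((starRingEnd ℂ) (η α) * η β) *
        (if α = β then 2 * Pr (S.Hm m f) Ψ else 0) =
        ((starRingEnd ℂ) (η α) * η α) * (2 * Pr (S.Hm m f) Ψ) := by
      intro α
      rw [Finset.sum_eq_single α]
      · rw [if_pos rfl]
      · intro β _ hβ
        rw [if_neg (Ne.symm hβ), mul_zero]
      · intro h; exact absurd (Finset.mem_univ _) h
    simp only [g1] at e3
    rw [← Finset.sum_mul, hcη] at e3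
    have g2 := (wE_iff S hA7 m _).mp hE f hf
    have g3 : ((nη : ℝ) : ℂ) * ((e : ℝ) : ℂ) * Pr f Ψ = 0 := by
      linear_combination (-(nη : ℂ)) * g2 - 8 * e3
    rcases mul_eq_zero.mp g3 with h | h
    · exfalso
      rcases mul_eq_zero.mp h with h | h
      · exact hnη.ne' (by exact_mod_cast h)
      · exact he.ne' (by exact_mod_cast h)
    · exact h
  obtain ⟨u, hu, huΨ, -⟩ := hStr
  have l1 : Tendsto (fun n => Pr (u n) Ψ) atTop (𝓝 (Pr Ψ Ψ)) :=
    huΨ.lim_inner (L2t_const hΨ)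
  have l2 : Pr Ψ Ψ = 0 := by
    refine tendsto_nhds_unique l1 ?_
    simp only [hfin _ (hu _)]
    exact tendsto_const_nhds
  rw [Pr_self] at l2
  exact_mod_cast l2

end Vale.Agent.P353.U
end

section

/-! # P353, uniqueness for `N = 2`: uniqueness of the vacuum at a cone point (D-uniq)

The conditions `VT`, `VN` say that `v` is killed by `θ(a)` for `a` in the span `𝒜` of the vectors
`tv A α = |y| P_A ⊗ e_α - i R_A ⊗ Y_α` (`P = 1 - n nᵀ`, `R = n ×`, `Y = y̸`) and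
`uv α = n ⊗ (1 - iΓ)_α`.  `𝒜` is isotropic and `𝒜 + 𝒜̄` is everything, so C-Vac applies. -/

open scoped Matrix

namespace Vale.Agent.P353.U

variable {F : Type*} [NormedAddCommGroup F] [InnerProductSpace ℂ F]

namespace VUn

/-- `P = 1 - n nᵀ` -/
noncomputable def P (n : Fin 3 → ℝ) (A D : Fin 3) : ℂ := (if A = D then 1 else 0) - (n A : ℂ) * (n D : ℂ)

/-- `R = n ×` -/
noncomputable def R (n : Fin 3 → ℝ) (A D : Fin 3) : ℂ := ∑ B, (eps A B D : ℂ) * (n B : ℂ)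

/-- `Y = y̸` -/
noncomputable def Y (S : Setup F) (y : Fin 9 → ℝ) : Matrix (Fin 16) (Fin 16) ℂ :=
  ∑ i, (y i : ℂ) • S.g i

/-- annihilators of the transverse vacuum -/
noncomputable def tv (S : Setup F) (n : Fin 3 → ℝ) (y : Fin 9 → ℝ) (A : Fin 3) (α : Fin 16) :
    Fin 16 × Fin 3 → ℂ := fun p =>
  (ry y : ℂ) * P n A p.2 * (if α = p.1 then 1 else 0) - Complex.I * R n A p.2 * Y S y α p.1

/-- annihilators of the vacuum along `n` -/
noncomputable def uv (S : Setup F) (n : Fin 3 → ℝ) (α : Fin 16) : Fin 16 × Fin 3 → ℂ := fun p =>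
  (n p.2 : ℂ) * ((if α = p.1 then 1 else 0) - Complex.I * S.Gam α p.1)

lemma hnC {n : Fin 3 → ℝ} (hn : ∑ A, n A ^ 2 = 1) :
    (n 0 : ℂ) ^ 2 + (n 1 : ℂ) ^ 2 + (n 2 : ℂ) ^ 2 = 1 := by
  have h := congrArg (fun t : ℝ => (t : ℂ)) hn
  simp only [Fin.sum_univ_three] at h
  push_cast at h
  exact h

lemma PP {n : Fin 3 → ℝ} (hn : ∑ A, n A ^ 2 = 1) (A B : Fin 3) :
    ∑ D, P n A D * P n B D = P n A B := by
  have h := hnC hn
  have e : ∑ D, P n A D * P n B D = P n A B + (n A : ℂ) * (n B : ℂ) *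
      (((n 0 : ℂ) ^ 2 + (n 1 : ℂ) ^ 2 + (n 2 : ℂ) ^ 2) - 1) := by
    fin_cases A <;> fin_cases B <;> simp [P, Fin.sum_univ_three] <;> ring
  rw [e, h, sub_self, mul_zero, add_zero]

lemma RR {n : Fin 3 → ℝ} (hn : ∑ A, n A ^ 2 = 1) (A B : Fin 3) :
    ∑ D, R n A D * R n B D = P n A B := by
  have h := hnC hn
  have e : ∑ D, R n A D * R n B D = P n A B + (if A = B then 1 else 0) *
      (((n 0 : ℂ) ^ 2 + (n 1 : ℂ) ^ 2 + (n 2 : ℂ) ^ 2) - 1) := by
    fin_cases A <;> fin_cases B <;> simp [P, R, eps, Fin.sum_univ_three] <;> ring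
  rw [e, h, sub_self, mul_zero, add_zero]

lemma PR (n : Fin 3 → ℝ) (A B : Fin 3) :
    ∑ D, P n A D * R n B D = R n B A := by
  fin_cases A <;> fin_cases B <;> simp [P, R, eps, Fin.sum_univ_three] <;> ring

lemma R_swap (n : Fin 3 → ℝ) (A B : Fin 3) : R n A B = - R n B A := by
  fin_cases A <;> fin_cases B <;> simp [R, eps, Fin.sum_univ_three] <;> ring

lemma Pn {n : Fin 3 → ℝ} (hn : ∑ A, n A ^ 2 = 1) (A : Fin 3) :
    ∑ D, P n A D * (n D : ℂ) = 0 := by
  have h := hnC hn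
  have e : ∑ D, P n A D * (n D : ℂ) = - (n A : ℂ) *
      (((n 0 : ℂ) ^ 2 + (n 1 : ℂ) ^ 2 + (n 2 : ℂ) ^ 2) - 1) := by
    fin_cases A <;> simp [P, Fin.sum_univ_three] <;> ring
  rw [e, h, sub_self, mul_zero]

lemma Rn (n : Fin 3 → ℝ) (A : Fin 3) : ∑ D, R n A D * (n D : ℂ) = 0 := by
  fin_cases A <;> simp [R, eps, Fin.sum_univ_three] <;> ring

section

variable (S : Setup F)

lemma Y_mul (y : Fin 9 → ℝ) : Y S y * Y S y = ((ry y : ℂ) ^ 2) • (1 : Matrix (Fin 16) (Fin 16) ℂ) := by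
  have h1 : Y S y * Y S y = ∑ i, ∑ j, ((y i : ℂ) * (y j : ℂ)) • (S.g i * S.g j) := by
    unfold Y
    rw [Finset.sum_mul_sum]
    refine Finset.sum_congr rfl fun i _ => Finset.sum_congr rfl fun j _ => ?_
    rw [smul_mul_smul_comm]
  have h2 : Y S y * Y S y = ∑ i, ∑ j, ((y i : ℂ) * (y j : ℂ)) • (S.g j * S.g i) := by
    rw [h1, Finset.sum_comm]
    refine Finset.sum_congr rfl fun i _ => Finset.sum_congr rfl fun j _ => ?_
    rw [mul_comm (y j : ℂ)]
  have h3 : Y S y * Y S y + Y S y * Y S y =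
      ∑ i, ((y i : ℂ) ^ 2) • ((2 : ℂ) • (1 : Matrix (Fin 16) (Fin 16) ℂ)) := by
    conv_lhs =>
      congr
      · rw [h1]
      · rw [h2]
    rw [← Finset.sum_add_distrib]
    refine Finset.sum_congr rfl fun i _ => ?_
    rw [← Finset.sum_add_distrib]
    simp only [← smul_add, S.g_anti]
    rw [Finset.sum_eq_single i (fun j _ hj => by rw [if_neg (Ne.symm hj), smul_zero])
      (fun h => absurd (Finset.mem_univ i) h), if_pos rfl, sq]
    congr 1
    rw [two_smul, one_add_one_eq_two]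
  have h4 : ((ry y : ℂ)) ^ 2 = ∑ i, (y i : ℂ) ^ 2 := by
    have h5 : ry y ^ 2 = ∑ i, y i ^ 2 := Real.sq_sqrt (Finset.sum_nonneg fun i _ => sq_nonneg _)
    have h6 := congrArg (fun t : ℝ => (t : ℂ)) h5
    push_cast at h6
    exact h6
  rw [h4, Finset.sum_smul]
  have h7 : (2 : ℂ) • (Y S y * Y S y) =
      (2 : ℂ) • ∑ i, ((y i : ℂ) ^ 2) • (1 : Matrix (Fin 16) (Fin 16) ℂ) := by
    rw [two_smul, h3, Finset.smul_sum]
    refine Finset.sum_congr rfl fun i _ => ?_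
    rw [smul_comm]
  have h8 := congrArg (fun M => (1 / 2 : ℂ) • M) h7
  simp only [smul_smul] at h8
  norm_num at h8
  exact h8

lemma Y_symm (y : Fin 9 → ℝ) (α β : Fin 16) : Y S y α β = Y S y β α := by
  unfold Y
  rw [Matrix.sum_apply, Matrix.sum_apply]
  refine Finset.sum_congr rfl fun i _ => ?_
  rw [Matrix.smul_apply, Matrix.smul_apply]
  have h := congrFun (congrFun (S.g_symm i) α) β
  rw [Matrix.transpose_apply] at h
  rw [h]

lemma YY (y : Fin 9 → ℝ) (α β : Fin 16) :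
    ∑ γ, Y S y α γ * Y S y β γ = (ry y : ℂ) ^ 2 * (if α = β then 1 else 0) := by
  have h := congrFun (congrFun (Y_mul S y) α) β
  rw [Matrix.mul_apply, Matrix.smul_apply, Matrix.one_apply, smul_eq_mul] at h
  rw [← h]
  refine Finset.sum_congr rfl fun γ _ => ?_
  rw [Y_symm S y β γ]

lemma conj_of_im {z : ℂ} (h : z.im = 0) : (starRingEnd ℂ) z = z := Complex.conj_eq_iff_im.2 h

lemma Y_conj (y : Fin 9 → ℝ) (α β : Fin 16) : (starRingEnd ℂ) (Y S y α β) = Y S y α β := by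
  unfold Y
  rw [Matrix.sum_apply, map_sum]
  refine Finset.sum_congr rfl fun i _ => ?_
  rw [Matrix.smul_apply, smul_eq_mul, map_mul, Complex.conj_ofReal, conj_of_im (S.g_real i α β)]

lemma P_conj (n : Fin 3 → ℝ) (A B : Fin 3) : (starRingEnd ℂ) (P n A B) = P n A B := by
  unfold P
  rw [map_sub, map_mul, Complex.conj_ofReal, Complex.conj_ofReal]
  split_ifs <;> simp

lemma R_conj (n : Fin 3 → ℝ) (A B : Fin 3) : (starRingEnd ℂ) (R n A B) = R n A B := by
  unfold R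
  rw [map_sum]
  refine Finset.sum_congr rfl fun C _ => ?_
  rw [map_mul, Complex.conj_ofReal]
  congr 1
  exact Complex.conj_ofReal _ |> fun h => by
    have e : ((eps A C B : ℤ) : ℂ) = (((eps A C B : ℤ) : ℝ) : ℂ) := by push_cast; rfl
    rw [e]
    exact h

lemma GG (α β : Fin 16) : ∑ γ, S.Gam α γ * S.Gam β γ = if α = β then 1 else 0 := by
  have h1 : S.Gam * S.Gamᵀ = 1 := by rw [S.Gam_transpose, mul_neg, S.Gam_sq, neg_neg]
  have h := congrFun (congrFun h1 α) β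
  rw [Matrix.mul_apply, Matrix.one_apply] at h
  rw [← h]
  rfl

lemma G_swap (α β : Fin 16) : S.Gam α β = - S.Gam β α := by
  have h := congrFun (congrFun S.Gam_transpose β) α
  rw [Matrix.transpose_apply, Matrix.neg_apply] at h
  exact h

/-- `∑ tv tv = 0` -/
lemma tv_tv {n : Fin 3 → ℝ} (hn : ∑ A, n A ^ 2 = 1) (y : Fin 9 → ℝ) (A B : Fin 3) (α β : Fin 16) :
    ∑ p, tv S n y A α p * tv S n y B β p = 0 := by
  have e : ∀ γ : Fin 16, ∀ D : Fin 3, tv S n y A α (γ, D) * tv S n y B β (γ, D) =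
      ((ry y : ℂ) ^ 2 * (P n A D * P n B D)) * ((if α = γ then 1 else 0) * (if β = γ then 1 else 0))
      - (Complex.I * (ry y : ℂ) * (P n A D * R n B D)) * ((if α = γ then 1 else 0) * Y S y β γ)
      - (Complex.I * (ry y : ℂ) * (P n B D * R n A D)) * ((if β = γ then 1 else 0) * Y S y α γ)
      - (R n A D * R n B D) * (Y S y α γ * Y S y β γ) := by
    intro γ D
    unfold tv
    linear_combination (R n A D * R n B D * (Y S y α γ * Y S y β γ)) * Complex.I_sq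
  rw [Fintype.sum_prod_type]
  simp only [e, Finset.sum_sub_distrib]
  simp only [← Finset.sum_mul, ← Finset.mul_sum]
  rw [PP hn, PR, PR, RR hn, YY]
  have d1 : ∑ γ : Fin 16, (if α = γ then (1 : ℂ) else 0) * (if β = γ then 1 else 0) =
      if α = β then 1 else 0 := by
    simp
  have d2 : ∑ γ : Fin 16, (if α = γ then (1 : ℂ) else 0) * Y S y β γ = Y S y β α := by simp
  have d3 : ∑ γ : Fin 16, (if β = γ then (1 : ℂ) else 0) * Y S y α γ = Y S y α β := by simp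
  rw [d1, d2, d3, Y_symm S y α β, R_swap n A B]
  ring

end

section

variable (S : Setup F)

lemma tv_uv {n : Fin 3 → ℝ} (hn : ∑ A, n A ^ 2 = 1) (y : Fin 9 → ℝ) (A : Fin 3) (α β : Fin 16) :
    ∑ p, tv S n y A α p * uv S n β p = 0 := by
  have e : ∀ γ : Fin 16, ∀ D : Fin 3, tv S n y A α (γ, D) * uv S n β (γ, D) =
      (P n A D * (n D : ℂ)) * ((ry y : ℂ) * (if α = γ then 1 else 0) *
        ((if β = γ then 1 else 0) - Complex.I * S.Gam β γ)) -
      (R n A D * (n D : ℂ)) * (Complex.I * Y S y α γ *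
        ((if β = γ then 1 else 0) - Complex.I * S.Gam β γ)) := by
    intro γ D
    unfold tv uv
    ring
  rw [Fintype.sum_prod_type]
  refine Finset.sum_eq_zero fun γ _ => ?_
  simp only [e, Finset.sum_sub_distrib, ← Finset.sum_mul]
  rw [Pn hn, Rn, zero_mul, zero_mul, sub_zero]

lemma uv_uv {n : Fin 3 → ℝ} (hn : ∑ A, n A ^ 2 = 1) (α β : Fin 16) :
    ∑ p, uv S n α p * uv S n β p = 0 := by
  have e : ∀ γ : Fin 16, ∀ D : Fin 3, uv S n α (γ, D) * uv S n β (γ, D) =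
      (n D : ℂ) ^ 2 * ((if α = γ then 1 else 0) * (if β = γ then 1 else 0)
        - Complex.I * ((if α = γ then 1 else 0) * S.Gam β γ)
        - Complex.I * ((if β = γ then 1 else 0) * S.Gam α γ)
        - S.Gam α γ * S.Gam β γ) := by
    intro γ D
    unfold uv
    linear_combination ((n D : ℂ) ^ 2 * (S.Gam α γ * S.Gam β γ)) * Complex.I_sq
  rw [Fintype.sum_prod_type]
  simp only [e, ← Finset.sum_mul, ← Finset.mul_sum]
  have hn' : ∑ D, (n D : ℂ) ^ 2 = 1 := by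
    rw [Fin.sum_univ_three]; exact hnC hn
  rw [hn', one_mul]
  simp only [Finset.sum_sub_distrib, ← Finset.mul_sum]
  have d1 : ∑ γ : Fin 16, (if α = γ then (1 : ℂ) else 0) * (if β = γ then 1 else 0) =
      if α = β then 1 else 0 := by
    simp
  have d2 : ∑ γ : Fin 16, (if α = γ then (1 : ℂ) else 0) * S.Gam β γ = S.Gam β α := by simp
  have d3 : ∑ γ : Fin 16, (if β = γ then (1 : ℂ) else 0) * S.Gam α γ = S.Gam α β := by simp
  rw [d1, d2, d3, GG, G_swap S α β]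
  ring

lemma VacT_tv (n : Fin 3 → ℝ) (y : Fin 9 → ℝ) (A : Fin 3) (α : Fin 16) (v : F) :
    VacT S (tv S n y A α) v =
      ((ry y : ℝ) : ℂ) • (S.th α A v - ((n A : ℝ) : ℂ) • S.thn n α v) -
      Complex.I • ∑ B, ∑ C, ∑ i, ((eps A B C : ℂ) * (n B : ℂ) * (y i : ℂ)) • S.vec (S.g i) C α v := by
  have h1 : VacT S (tv S n y A α) v = ∑ D, ∑ γ, (((ry y : ℂ) * P n A D * (if α = γ then 1 else 0)) •
      S.th γ D v) - ∑ D, ∑ γ, ((Complex.I * R n A D * Y S y α γ) • S.th γ D v) := by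
    unfold VacT tv
    rw [Fintype.sum_prod_type, Finset.sum_comm, ← Finset.sum_sub_distrib]
    refine Finset.sum_congr rfl fun D _ => ?_
    rw [← Finset.sum_sub_distrib]
    refine Finset.sum_congr rfl fun γ _ => ?_
    rw [sub_smul]
  rw [h1]
  congr 1
  · have h2 : ∀ D : Fin 3, ∑ γ, (((ry y : ℂ) * P n A D * (if α = γ then 1 else 0)) •
        S.th γ D v) = (ry y : ℂ) • (P n A D • S.th α D v) := by
      intro D
      rw [Finset.sum_eq_single α (fun γ _ hγ => by rw [if_neg (Ne.symm hγ), mul_zero, zero_smul])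
        (fun h => absurd (Finset.mem_univ α) h), if_pos rfl, mul_one, mul_smul]
    rw [Finset.sum_congr rfl fun D _ => h2 D, ← Finset.smul_sum]
    congr 1
    unfold P Setup.thn
    simp only [sub_smul, Finset.sum_sub_distrib, ContinuousLinearMap.sum_apply,
      ContinuousLinearMap.smul_apply, Finset.smul_sum, mul_smul]
    congr 1
    rw [Finset.sum_eq_single A (fun γ _ hγ => by rw [if_neg (Ne.symm hγ), zero_smul])
        (fun h => absurd (Finset.mem_univ A) h), if_pos rfl, one_smul]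
  · rw [Finset.sum_comm (s := Finset.univ (α := Fin 3)) (t := Finset.univ (α := Fin 3))
      (f := fun B C => ∑ i, ((eps A B C : ℂ) * (n B : ℂ) * (y i : ℂ)) • S.vec (S.g i) C α v),
      Finset.smul_sum]
    refine Finset.sum_congr rfl fun D _ => ?_
    have h3 : ∀ B : Fin 3, ∑ i, ((eps A B D : ℂ) * (n B : ℂ) * (y i : ℂ)) •
        S.vec (S.g i) D α v = ((eps A B D : ℂ) * (n B : ℂ)) • S.vec (Y S y) D α v := by
      intro B
      unfold Y
      rw [S.vec_sum, ContinuousLinearMap.sum_apply, Finset.smul_sum]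
      refine Finset.sum_congr rfl fun i _ => ?_
      rw [S.vec_smul, ContinuousLinearMap.smul_apply, mul_smul]
    rw [Finset.sum_congr rfl fun B _ => h3 B, ← Finset.sum_smul]
    have h4 : S.vec (Y S y) D α v = ∑ γ, Y S y α γ • S.th γ D v := by
      unfold CS.vec
      rw [ContinuousLinearMap.sum_apply]
      rfl
    rw [h4, Finset.smul_sum, Finset.smul_sum]
    refine Finset.sum_congr rfl fun γ _ => ?_
    rw [smul_smul, smul_smul]
    congr 1

lemma VacT_uv (n : Fin 3 → ℝ) (α : Fin 16) (v : F) :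
    VacT S (uv S n α) v = S.thn n α v - Complex.I • ∑ A, ((n A : ℝ) : ℂ) • S.vec S.Gam A α v := by
  unfold VacT uv
  rw [Fintype.sum_prod_type, Finset.sum_comm]
  unfold Setup.thn
  rw [ContinuousLinearMap.sum_apply, Finset.smul_sum, ← Finset.sum_sub_distrib]
  refine Finset.sum_congr rfl fun D _ => ?_
  rw [ContinuousLinearMap.smul_apply]
  have h4 : S.vec S.Gam D α v = ∑ γ, S.Gam α γ • S.th γ D v := by
    unfold CS.vec
    rw [ContinuousLinearMap.sum_apply]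
    rfl
  rw [h4]
  simp only [mul_smul, sub_smul, Finset.smul_sum, Finset.sum_sub_distrib, smul_sub]
  congr 1
  · rw [Finset.sum_eq_single α (fun γ _ hγ => by rw [if_neg (Ne.symm hγ), zero_smul, smul_zero])
        (fun h => absurd (Finset.mem_univ α) h), if_pos rfl, one_smul]
  · refine Finset.sum_congr rfl fun γ _ => ?_
    rw [smul_smul, smul_smul, smul_smul, smul_smul]
    congr 1
    ring

/-- the family of annihilators -/
noncomputable def fam (n : Fin 3 → ℝ) (y : Fin 9 → ℝ) : (Fin 3 × Fin 16) ⊕ Fin 16 →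
    (Fin 16 × Fin 3 → ℂ)
  | Sum.inl q => tv S n y q.1 q.2
  | Sum.inr α => uv S n α

lemma fam_iso {n : Fin 3 → ℝ} (hn : ∑ A, n A ^ 2 = 1) (y : Fin 9 → ℝ) (j k) :
    ∑ p, fam S n y j p * fam S n y k p = 0 := by
  rcases j with ⟨A, α⟩ | α <;> rcases k with ⟨B, β⟩ | β
  · exact tv_tv S hn y A B α β
  · exact tv_uv S hn y A α β
  · have h := tv_uv S hn y B β α
    rw [← h]
    exact Finset.sum_congr rfl fun p _ => mul_comm _ _
  · exact uv_uv S hn α β

lemma span_iso {n : Fin 3 → ℝ} (hn : ∑ A, n A ^ 2 = 1) (y : Fin 9 → ℝ) :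
    ∀ a ∈ Submodule.span ℂ (Set.range (fam S n y)), ∀ b ∈ Submodule.span ℂ (Set.range (fam S n y)),
      ∑ p, a p * b p = 0 := by
  intro a ha b hb
  refine Submodule.span_induction (p := fun a _ => ∑ p, a p * b p = 0) ?_ ?_ ?_ ?_ ha
  · rintro _ ⟨j, rfl⟩
    refine Submodule.span_induction (p := fun b _ => ∑ p, fam S n y j p * b p = 0) ?_ ?_ ?_ ?_ hb
    · rintro _ ⟨k, rfl⟩
      exact fam_iso S hn y j k
    · simp
    · intro b c _ _ h1 h2
      simp only [Pi.add_apply, mul_add, Finset.sum_add_distrib]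
      rw [h1, h2, add_zero]
    · intro c b _ h1
      simp only [Pi.smul_apply, smul_eq_mul]
      have e : ∀ p, fam S n y j p * (c * b p) = c * (fam S n y j p * b p) := fun p => by ring
      simp only [e, ← Finset.mul_sum]
      rw [h1, mul_zero]
  · simp
  · intro a c _ _ h1 h2
    simp only [Pi.add_apply, add_mul, Finset.sum_add_distrib]
    rw [h1, h2, add_zero]
  · intro c a _ h1
    simp only [Pi.smul_apply, smul_eq_mul, mul_assoc, ← Finset.mul_sum]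
    rw [h1, mul_zero]

lemma span_kill {n : Fin 3 → ℝ} {y : Fin 9 → ℝ} {v : F} (hT : S.VT n y v) (hN : S.VN n v) :
    ∀ a ∈ Submodule.span ℂ (Set.range (fam S n y)), VacT S a v = 0 := by
  intro a ha
  refine Submodule.span_induction (p := fun a _ => VacT S a v = 0) ?_ (VacT_zero_left S v)
    (fun a b _ _ ha hb => ?_) (fun c a _ ha => ?_) ha
  · rintro _ ⟨j, rfl⟩
    rcases j with ⟨A, α⟩ | α
    · change VacT S (tv S n y A α) v = 0
      rw [VacT_tv, hT A α, sub_self]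
    · change VacT S (uv S n α) v = 0
      rw [VacT_uv, hN α, sub_self]
  · rw [VacT_add_left, ha, hb, add_zero]
  · rw [VacT_smul_left, ha, smul_zero]

lemma span_max {n : Fin 3 → ℝ} {y : Fin 9 → ℝ} (hy : 0 < ry y)
    (z : Fin 16 × Fin 3 → ℂ) : ∃ a ∈ Submodule.span ℂ (Set.range (fam S n y)),
      ∃ b ∈ Submodule.span ℂ (Set.range (fam S n y)), z = a + fun p => (starRingEnd ℂ) (b p) := by
  have hr : (ry y : ℂ) ≠ 0 := by exact_mod_cast hy.ne'
  have hmem : ∀ (c : Fin 3 → Fin 16 → ℂ) (d : Fin 16 → ℂ),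
      (∑ A, ∑ α, c A α • tv S n y A α) + ∑ α, d α • uv S n α ∈
        Submodule.span ℂ (Set.range (fam S n y)) := by
    intro c d
    refine Submodule.add_mem _ (Submodule.sum_mem _ fun A _ => Submodule.sum_mem _ fun α _ =>
      Submodule.smul_mem _ _ (Submodule.subset_span ⟨Sum.inl (A, α), rfl⟩))
      (Submodule.sum_mem _ fun α _ => Submodule.smul_mem _ _
        (Submodule.subset_span ⟨Sum.inr α, rfl⟩))
  refine ⟨_, hmem (fun A α => z (α, A) / (2 * ry y)) (fun α => (∑ A, z (α, A) * (n A : ℂ)) / 2),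
    _, hmem (fun A α => (starRingEnd ℂ) (z (α, A) / (2 * ry y)))
      (fun α => (starRingEnd ℂ) ((∑ A, z (α, A) * (n A : ℂ)) / 2)), ?_⟩
  funext p
  obtain ⟨γ, D⟩ := p
  have ctv : ∀ A α, (starRingEnd ℂ) (tv S n y A α (γ, D)) =
      (ry y : ℂ) * P n A D * (if α = γ then 1 else 0) + Complex.I * R n A D * Y S y α γ := by
    intro A α
    unfold tv
    rw [map_sub, map_mul, map_mul, map_mul, map_mul, P_conj, R_conj, Y_conj, Complex.conj_I,
      Complex.conj_ofReal]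
    have : (starRingEnd ℂ) (if α = γ then 1 else 0) = if α = γ then 1 else 0 := by
      split_ifs <;> simp
    simp only [this]
    ring
  have cuv : ∀ α, (starRingEnd ℂ) (uv S n α (γ, D)) =
      (n D : ℂ) * ((if α = γ then 1 else 0) + Complex.I * S.Gam α γ) := by
    intro α
    unfold uv
    rw [map_mul, map_sub, map_mul, Complex.conj_I, Complex.conj_ofReal,
      conj_of_im (S.Gam_real α γ)]
    have : (starRingEnd ℂ) (if α = γ then 1 else 0) = if α = γ then 1 else 0 := by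
      split_ifs <;> simp
    simp only [this]
    ring
  simp only [Pi.add_apply, Finset.sum_apply, Pi.smul_apply, smul_eq_mul, map_add, map_sum, map_mul,
    Complex.conj_conj, ctv, cuv]
  have e1 : (∑ A, ∑ α, z (α, A) / (2 * (ry y : ℂ)) * tv S n y A α (γ, D)) +
      (∑ A, ∑ α, z (α, A) / (2 * (ry y : ℂ)) *
        ((ry y : ℂ) * P n A D * (if α = γ then 1 else 0) + Complex.I * R n A D * Y S y α γ)) =
      z (γ, D) - (n D : ℂ) * ∑ A, z (γ, A) * (n A : ℂ) := by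
    rw [← Finset.sum_add_distrib]
    have e2 : ∀ A, ((∑ α, z (α, A) / (2 * (ry y : ℂ)) * tv S n y A α (γ, D)) +
        ∑ α, z (α, A) / (2 * (ry y : ℂ)) *
          ((ry y : ℂ) * P n A D * (if α = γ then 1 else 0) + Complex.I * R n A D * Y S y α γ)) =
        z (γ, A) * P n A D := by
      intro A
      rw [← Finset.sum_add_distrib]
      have e3 : ∀ α, z (α, A) / (2 * (ry y : ℂ)) * tv S n y A α (γ, D) +
          z (α, A) / (2 * (ry y : ℂ)) *
          ((ry y : ℂ) * P n A D * (if α = γ then 1 else 0) + Complex.I * R n A D * Y S y α γ) =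
          if α = γ then z (α, A) * P n A D else 0 := by
        intro α
        unfold tv
        split_ifs with h <;> field_simp <;> ring
      rw [Finset.sum_congr rfl fun α _ => e3 α, Finset.sum_ite_eq' Finset.univ γ,
        if_pos (Finset.mem_univ γ)]
    rw [Finset.sum_congr rfl fun A _ => e2 A]
    unfold P
    simp only [mul_sub, Finset.sum_sub_distrib, mul_ite, mul_one, mul_zero]
    rw [Finset.sum_ite_eq' Finset.univ D, if_pos (Finset.mem_univ D), Finset.mul_sum]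
    congr 1
    exact Finset.sum_congr rfl fun A _ => by ring
  have e4 : (∑ α, (∑ A, z (α, A) * (n A : ℂ)) / 2 * uv S n α (γ, D)) +
      (∑ α, (∑ A, z (α, A) * (n A : ℂ)) / 2 *
        ((n D : ℂ) * ((if α = γ then 1 else 0) + Complex.I * S.Gam α γ))) =
      (n D : ℂ) * ∑ A, z (γ, A) * (n A : ℂ) := by
    rw [← Finset.sum_add_distrib]
    have e3 : ∀ α, (∑ A, z (α, A) * (n A : ℂ)) / 2 * uv S n α (γ, D) +
        (∑ A, z (α, A) * (n A : ℂ)) / 2 *
        ((n D : ℂ) * ((if α = γ then 1 else 0) + Complex.I * S.Gam α γ)) =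
        if α = γ then (n D : ℂ) * ∑ A, z (α, A) * (n A : ℂ) else 0 := by
      intro α
      unfold uv
      split_ifs with h <;> ring
    rw [Finset.sum_congr rfl fun α _ => e3 α, Finset.sum_ite_eq' Finset.univ γ,
      if_pos (Finset.mem_univ γ)]
  linear_combination -e1 - e4

end

end VUn

/-- **D-uniq** -/
theorem vUniq (S : Setup F) (hi : S.Irr) (hv : VacStmt S) (h1 : Om1Stmt S) : VUniqStmt S := by
  intro Ω hΩ hΩa n y hn hy v hT hN
  obtain ⟨hT', hN', hin⟩ := h1 Ω hΩa n y hn hy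
  -- `y ≠ 0`
  have hry : 0 < ry y := by
    rcases (Real.sqrt_nonneg (∑ i, y i ^ 2)).lt_or_eq with h | h
    · exact h
    · exfalso
      have h0 : ∑ i, y i ^ 2 = 0 := by
        have h2 := Real.sq_sqrt (Finset.sum_nonneg fun i (_ : i ∈ Finset.univ) => sq_nonneg (y i))
        rw [← h2, ← h]
        norm_num
      have h2 : ∀ i, y i = 0 := by
        intro i
        have h3 := (Finset.sum_eq_zero_iff_of_nonneg fun i _ => sq_nonneg (y i)).1 h0 i
          (Finset.mem_univ i)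
        exact pow_eq_zero_iff (two_ne_zero) |>.1 h3
      have h3 : rho6sq (cone n y) = 0 := by
        unfold rho6sq cone
        refine Finset.sum_eq_zero fun i _ => Finset.sum_eq_zero fun A _ => ?_
        split_ifs
        · simp [h2 i]
        · rfl
      rw [h3] at hy
      exact lt_irrefl _ hy
  have hom : S.om Ω (cone n y) ≠ 0 := by
    intro h
    rw [h, inner_zero_right] at hin
    have h2 : ((rho6sq (cone n y) / ry y ^ 2) ^ 2 / 16 : ℝ) ≠ 0 := by positivity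
    have h3 : (‖Ω‖ ^ 2 : ℝ) ≠ 0 := by
      have := norm_ne_zero_iff.2 hΩ
      positivity
    have h4 := mul_ne_zero (Complex.ofReal_ne_zero.2 h2) (Complex.ofReal_ne_zero.2 h3)
    exact h4 hin.symm
  obtain ⟨Ω₀, _, _, hu⟩ := hv hi ⟨Ω, hΩ⟩ (Submodule.span ℂ (Set.range (VUn.fam S n y)))
    (VUn.span_iso S hn y) (VUn.span_max S hry)
  obtain ⟨c, hc⟩ := hu v (VUn.span_kill S hT hN)
  obtain ⟨d, hd⟩ := hu _ (VUn.span_kill S hT' hN')
  have hd0 : d ≠ 0 := by
    intro h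
    rw [h, zero_smul] at hd
    exact hom hd
  refine ⟨c / d, ?_⟩
  rw [hd, smul_smul, div_mul_cancel₀ _ hd0]
  exact hc

end Vale.Agent.P353.U
end

section

/-! # P353, uniqueness for `N = 2`: smoothness, homogeneity and covariance of `om`, `vv` (D-sm) -/

open MeasureTheory Filter Topology
open scoped ContDiff

namespace Vale.Agent.P353

variable {F : Type*} [NormedAddCommGroup F] [InnerProductSpace ℂ F]

/-- derivative of a quadratic polynomial along a line -/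
lemma Dl.of_line {G : Type*} [NormedAddCommGroup G] [NormedSpace ℂ G] {f : X3 → G} {x v : X3}
    {a b : G} (h : ∀ t : ℝ, f (x + t • v) = f x + (t : ℂ) • a + ((t : ℂ) ^ 2) • b) :
    Dl f x v a := by
  have h4 : HasDerivAt (fun t : ℝ => f x + (t : ℂ) • a + ((t : ℂ) ^ 2) • b) a 0 := by
    have h5 : HasDerivAt (fun t : ℝ => (t : ℂ)) 1 (0 : ℝ) := by
      simpa using (hasDerivAt_id (0 : ℝ)).ofReal_comp
    have h6 : HasDerivAt (fun t : ℝ => (t : ℂ) ^ 2) 0 (0 : ℝ) := by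
      simpa using h5.fun_pow 2
    simpa using ((h5.smul_const a).const_add (f x)).fun_add (h6.smul_const b)
  unfold Dl
  rw [show (fun t : ℝ => f (x + t • v)) = _ from funext h]
  exact h4

lemma Dl.subop {f g : X3 → F →L[ℂ] F} {x v : X3} {a b : F →L[ℂ] F} (hf : Dl f x v a)
    (hg : Dl g x v b) : Dl (fun y => f y - g y) x v (a - b) := HasDerivAt.fun_sub hf hg

lemma Dl.smulop {c : X3 → ℂ} {f : X3 → F →L[ℂ] F} {x v : X3} {a : F →L[ℂ] F} (hc : Dl c x v 0)
    (hf : Dl f x v a) : Dl (fun y => c y • f y) x v (c x • a) := Dl.csmul hc hf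

lemma Dl.subvec {f g : X3 → F} {x v : X3} {a b : F} (hf : Dl f x v a)
    (hg : Dl g x v b) : Dl (fun y => f y - g y) x v (a - b) := HasDerivAt.fun_sub hf hg

lemma Dl.smulvec {c : X3 → ℂ} {f : X3 → F} {x v : X3} {a : F} (hc : Dl c x v 0)
    (hf : Dl f x v a) : Dl (fun y => c y • f y) x v (c x • a) := Dl.csmul hc hf


lemma Dl.of_line_op {f : X3 → F →L[ℂ] F} {x v : X3} {a b : F →L[ℂ] F}
    (h : ∀ t : ℝ, f (x + t • v) = f x + (t : ℂ) • a + ((t : ℂ) ^ 2) • b) :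
    Dl f x v a := Dl.of_line h

lemma Dl.of_lin_op {f : X3 → F →L[ℂ] F} (ha : ∀ x y, f (x + y) = f x + f y)
    (hs : ∀ (t : ℝ) x, f (t • x) = (t : ℂ) • f x) (x v : X3) : Dl f x v (f v) := by
  refine Dl.of_line_op (b := 0) fun t => ?_
  rw [ha, hs, smul_zero, add_zero]

lemma Dl.of_bilin_op {f : X3 → X3 → F →L[ℂ] F} (ha : ∀ x y z, f (x + y) z = f x z + f y z)
    (hb : ∀ x y z, f x (y + z) = f x y + f x z)
    (hs : ∀ (t : ℝ) x y, f (t • x) y = (t : ℂ) • f x y)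
    (hs' : ∀ (t : ℝ) x y, f x (t • y) = (t : ℂ) • f x y) (x v : X3) :
    Dl (fun y => f y y) x v (f v x + f x v) := by
  refine Dl.of_line_op (b := f v v) fun t => ?_
  rw [ha, hb, hb, hs, hs, hs', hs', smul_smul, smul_add, sq]
  abel

lemma sm_abs_comm (T P Q P' Q' : F →L[ℂ] F) (c1 c2 c3 : ℂ)
    (h1 : T * P - P * T = Complex.I • P') (h2 : T * Q - Q * T = Complex.I • Q') :
    T * (c1 • (c2 • P - c3 • Q)) - (c1 • (c2 • P - c3 • Q)) * T =
      Complex.I • (c1 • (c2 • P' - c3 • Q')) := by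
  refine sm_lin_smul _ _ _ _ ?_
  have h1 := sm_lin_smul T _ _ c2 h1
  have h2 := sm_lin_smul T _ _ c3 h2
  rw [smul_sub, ← h1, ← h2, mul_sub, sub_mul]
  abel

lemma sm_abs_om [CompleteSpace F] {Z : X3 → F →L[ℂ] F} {c : X3 → ℂ} {x v : X3}
    {Z' T : F →L[ℂ] F} {Ω : F} (hZ : Dl Z x v Z') (hc : Dl c x v 0)
    (hcomm : ∀ y, Commute (Z y) (Z x)) (hK : T * Z x - Z x * T = Complex.I • Z')
    (hKc : Commute Z' (Z x)) (hΩ : T Ω = 0)
    (hd : DifferentiableAt ℝ (fun y => c y • (NormedSpace.exp (Z y)) Ω) x) :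
    (-Complex.I) • fderiv ℝ (fun y => c y • (NormedSpace.exp (Z y)) Ω) x v +
      T (c x • (NormedSpace.exp (Z x)) Ω) = 0 := by
  have hE := Dl.exp hZ hcomm
  have hEΩ := Dl.clm hE (Dl.const Ω x v)
  rw [map_zero, add_zero] at hEΩ
  have hom : Dl (fun y => c y • (NormedSpace.exp (Z y)) Ω) x v
      (c x • ((Z' * NormedSpace.exp (Z x)) Ω)) := Dl.smulvec hc hEΩ
  rw [(Dl.of_diff v hd).unique hom]
  have hc := sm_exp_comm hK (hKc.smul_left Complex.I)
  have hc2 := congrArg (fun X : F →L[ℂ] F => X Ω) hc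
  simp only [mul_apply_eq_comp, _root_.add_apply, _root_.smul_apply, hΩ, map_zero, zero_add,
    smul_mul_assoc] at hc2
  rw [map_smul, hc2, mul_apply_eq_comp]
  module

lemma sm_abs_vv {w : X3 → F} {z : X3 → F →L[ℂ] F} {c : X3 → ℂ} {x v : X3}
    {z' T : F →L[ℂ] F} {D : F} (hw : Dl w x v D) (hz : Dl z x v z') (hc : Dl c x v 0)
    (hT : (-Complex.I) • D + T (w x) = 0) (hK : T * z x - z x * T = Complex.I • z')
    (hd : DifferentiableAt ℝ (fun y => w y - c y • z y (w y)) x) :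
    (-Complex.I) • fderiv ℝ (fun y => w y - c y • z y (w y)) x v +
      T (w x - c x • z x (w x)) = 0 := by
  have hv : Dl (fun y => w y - c y • z y (w y)) x v (D - c x • (z' (w x) + z x D)) :=
    Dl.subvec hw (Dl.smulvec hc (Dl.clm hz hw))
  rw [(Dl.of_diff v hd).unique hv]
  have hFX := congrArg (fun X : F →L[ℂ] F => X (w x)) hK
  simp only [mul_apply_eq_comp, _root_.sub_apply, _root_.smul_apply] at hFX
  have hT : T (w x) = Complex.I • D := by
    rw [neg_smul, neg_add_eq_zero] at hT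
    exact hT.symm
  rw [hT, map_smul] at hFX
  rw [map_sub, map_smul, hT]
  have e : T (z x (w x)) = Complex.I • z' (w x) + Complex.I • z x D := sub_eq_iff_eq_add.1 hFX
  rw [e]
  module

namespace Setup

variable (S : Setup F)

lemma Dl_zP1 (x v : X3) : Dl S.zP1 x v (S.zP1 v) := Dl.of_lin_op S.zP1_add S.zP1_smul x v

lemma Dl_zP2 (x v : X3) : Dl (fun y => S.zP2 y y) x v (S.zP2 v x + S.zP2 x v) :=
  Dl.of_bilin_op S.zP2_add_left S.zP2_add_right S.zP2_smul_left S.zP2_smul_right x v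

lemma Fx_add_op (x y : X3) : S.Fx (x + y) = S.Fx x + S.Fx y := by
  rw [Fx_sum, Fx_sum, Fx_sum, ← smul_add, ← Finset.sum_add_distrib]
  refine congrArg _ (Finset.sum_congr rfl fun q _ => ?_)
  unfold Fxa
  simp only [← Finset.sum_add_distrib]
  refine Finset.sum_congr rfl fun A _ => Finset.sum_congr rfl fun B _ =>
    Finset.sum_congr rfl fun C _ => ?_
  rw [← add_smul]
  refine congrArg (· • _) ?_
  rw [PiLp.add_apply]
  push_cast
  ring

/-- the derivative of `Z` along an infinitesimal symmetry -/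
noncomputable def Zd (x v : X3) : F →L[ℂ] F := ((‖x‖ ^ 2 / (2 * rho6sq x) : ℝ) : ℂ) •
    ((Complex.I * ((1 / ‖x‖ : ℝ) : ℂ)) • S.zP1 v -
      ((1 / ‖x‖ ^ 2 : ℝ) : ℂ) • (S.zP2 v x + S.zP2 x v))

lemma sm_abs_mem (P Q : F →L[ℂ] F) (c1 c2 c3 : ℂ) (hP : P ∈ S.bspan) (hQ : Q ∈ S.bspan) :
    c1 • (c2 • P - c3 • Q) ∈ S.bspan :=
  Submodule.smul_mem _ _ (Submodule.sub_mem _ (Submodule.smul_mem _ _ hP)
    (Submodule.smul_mem _ _ hQ))

lemma ZZ_mem (x : X3) : S.ZZ x ∈ S.bspan := by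
  rw [S.ZZ_eq]
  exact S.sm_abs_mem _ _ _ _ _ (S.zP1_mem x) (S.zP2_mem x x)

lemma Zd_mem (x v : X3) : S.Zd x v ∈ S.bspan := by
  unfold Zd
  exact S.sm_abs_mem _ _ _ _ _ (S.zP1_mem v) (Submodule.add_mem _ (S.zP2_mem v x)
    (S.zP2_mem x v))

variable {S}

lemma SmC.comm_ZZ {L : X3 →L[ℝ] X3} {T : F →L[ℂ] F} (h : S.SmC L T) (x : X3) :
    T * S.ZZ x - S.ZZ x * T = Complex.I • S.Zd x (L x) := by
  rw [S.ZZ_eq]
  unfold Zd
  exact sm_abs_comm _ _ _ _ _ _ _ _ (h.P1 x) (h.P2 x)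

lemma SmC.dl_norm {L : X3 →L[ℝ] X3} {T : F →L[ℂ] F} (h : S.SmC L T) {x : X3}
    (hx : 0 < rho6sq x) : Dl (fun y : X3 => ‖y‖) x (L x) 0 := Dl.norm (sm_ne_zero hx) (h.inn x)

lemma SmC.dl_ZZ {L : X3 →L[ℝ] X3} {T : F →L[ℂ] F} (h : S.SmC L T) {x : X3}
    (hx : 0 < rho6sq x) : Dl S.ZZ x (L x) (S.Zd x (L x)) := by
  have h0 : ‖x‖ ≠ 0 := norm_ne_zero_iff.2 (sm_ne_zero hx)
  have hn := h.dl_norm hx
  have hr : Dl rho6sq x (L x) 0 := Dl.rho (h.rho x)
  have c1 : Dl (fun y : X3 => ((‖y‖ ^ 2 / (2 * rho6sq y) : ℝ) : ℂ)) x (L x) 0 :=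
    Dl.ofReal (Dl.div_zero (hn.pow_zero' 2) ((Dl.const 2 x _).mul_zero' hr) (by positivity))
  have c2 : Dl (fun y : X3 => Complex.I * ((1 / ‖y‖ : ℝ) : ℂ)) x (L x) 0 := by
    have e := HasDerivAt.const_mul Complex.I (Dl.ofReal (Dl.div_zero (Dl.const 1 x _) hn h0))
    rw [mul_zero] at e
    exact e
  have c3 : Dl (fun y : X3 => ((1 / ‖y‖ ^ 2 : ℝ) : ℂ)) x (L x) 0 :=
    Dl.ofReal (Dl.div_zero (Dl.const 1 x _) (hn.pow_zero' 2) (pow_ne_zero 2 h0))
  rw [show S.ZZ = _ from funext S.ZZ_eq]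
  exact Dl.smulop c1 (Dl.subop (Dl.smulop c2 (S.Dl_zP1 x _)) (Dl.smulop c3 (S.Dl_zP2 x _)))

theorem SmC.om_cov [CompleteSpace F] {L : X3 →L[ℝ] X3} {T : F →L[ℂ] F} (h : S.SmC L T) {Ω : F}
    (hΩ : T Ω = 0) {x : X3} (hx : 0 < rho6sq x) :
    (-Complex.I) • fderiv ℝ (S.om Ω) x (L x) + T (S.om Ω x) = 0 := by
  have h0 : ‖x‖ ≠ 0 := norm_ne_zero_iff.2 (sm_ne_zero hx)
  have hn := h.dl_norm hx
  have hr : Dl rho6sq x (L x) 0 := Dl.rho (h.rho x)
  have c0 : Dl (fun y : X3 => (((rho6sq y / ‖y‖ ^ 2) ^ 2 / 16 : ℝ) : ℂ)) x (L x) 0 :=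
    Dl.ofReal (Dl.div_zero ((Dl.div_zero hr (hn.pow_zero' 2) (pow_ne_zero 2 h0)).pow_zero' 2)
      (Dl.const 16 x _) (by norm_num))
  exact sm_abs_om (h.dl_ZZ hx) c0 (fun y => S.bspan_comm (S.ZZ_mem y) (S.ZZ_mem x))
    (h.comm_ZZ x) (S.bspan_comm (S.Zd_mem x (L x)) (S.ZZ_mem x)) hΩ
    ((S.om_contDiffAt Ω hx).differentiableAt (by simp))

theorem SmC.vv_cov [CompleteSpace F] {L : X3 →L[ℝ] X3} {T : F →L[ℂ] F} (h : S.SmC L T) {Ω : F}
    (hΩ : T Ω = 0) {x : X3} (hx : 0 < rho6sq x) :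
    (-Complex.I) • fderiv ℝ (S.vv Ω) x (L x) + T (S.vv Ω x) = 0 := by
  have hn := h.dl_norm hx
  have hxh : Dl P353.xh x (L x) (L (P353.xh x)) := by
    have h1 := Dl.of_xh (w := L (WithLp.toLp 2 fun p => ∑ B, Gr x p.2 B * x (p.1, B))) hx
      (h.inn x) (h.xh x)
    have e : P353.xh x = (1 / ‖x‖ ^ 2) •
        (WithLp.toLp 2 fun p => ∑ B, Gr x p.2 B * x (p.1, B)) := by
      ext p
      rw [PiLp.smul_apply, smul_eq_mul]
      unfold P353.xh
      simp only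
      ring
    rw [e, map_smul]
    exact h1
  have hw : Dl (fun y => S.om Ω (P353.xh y)) x (L x)
      (fderiv ℝ (S.om Ω) (P353.xh x) (L (P353.xh x))) :=
    Dl.comp ((S.om_contDiffAt Ω (sm_rho6_xh hx)).differentiableAt (by simp)) hxh
  have hz : Dl (fun y => y - P353.xh y) x (L x) (L (x - P353.xh x)) := by
    have h1 : Dl (fun y : X3 => y) x (L x) (L x) := sm_line x (L x)
    rw [map_sub]
    exact h1.sub hxh
  have hF : Dl (fun y => S.Fx (y - P353.xh y)) x (L x) (S.Fx (L (x - P353.xh x))) := by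
    have hd : DifferentiableAt ℝ S.Fx (x - P353.xh x) :=
      (contDiff_Fx S).differentiable (by simp) _
    have h1 := Dl.comp (f := S.Fx) (g := fun y => y - P353.xh y) hd hz
    have h2 : Dl S.Fx (x - P353.xh x) (L (x - P353.xh x)) (S.Fx (L (x - P353.xh x))) :=
      Dl.of_lin_op S.Fx_add_op S.Fx_smul_op _ _
    rw [(Dl.of_diff (L (x - P353.xh x)) hd).unique h2] at h1
    exact h1
  have hc : Dl (fun y : X3 => ((1 / (2 * S.κ * ‖y‖) : ℝ) : ℂ)) x (L x) 0 := by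
    have hk := S.κ_pos
    have h0 : ‖x‖ ≠ 0 := norm_ne_zero_iff.2 (sm_ne_zero hx)
    exact Dl.ofReal (Dl.div_zero (Dl.const 1 x _) ((Dl.const (2 * S.κ) x _).mul_zero' hn)
      (by positivity))
  exact sm_abs_vv hw hF hc (h.om_cov hΩ (sm_rho6_xh hx)) (h.FX (x - P353.xh x))
    ((S.vv_contDiffAt Ω hx).differentiableAt (by simp))

end Setup

namespace U

open Setup

/-- **D-sm** -/
theorem sm [FiniteDimensional ℂ F] (S : Setup F) : SmStmt S := by
  have : CompleteSpace F := FiniteDimensional.complete ℂ F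
  intro Ω hΩ
  refine ⟨fun x hx => (S.om_contDiffAt Ω hx).contDiffWithinAt,
    fun x hx => (S.vv_contDiffAt Ω hx).contDiffWithinAt, fun x hx => sm_rho6_xh hx,
    fun x t ht => ⟨S.om_smul Ω ht x, S.vv_smul Ω ht x⟩, fun n y hn h => sm_xh_cone hn y h,
    fun x hx => ⟨fun C => ?_, fun k l hkl => ?_⟩⟩
  · have h := S.smC_gauge C
    have h0 : S.cS C Ω = 0 := by rw [S.cS_vac hΩ C]
    rw [G_eq, G_eq]
    exact ⟨h.om_cov h0 hx, h.vv_cov h0 hx⟩
  · have h := S.smC_rot hkl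
    have h0 : S.Skl k l Ω = 0 := S.Skl_vac hΩ hkl
    rw [S.J_eq, S.J_eq]
    exact ⟨h.om_cov h0 hx, h.vv_cov h0 hx⟩

end U
end Vale.Agent.P353
end
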