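import Mathlib
import Vale.Agent.P353.BdU.B4
import Vale.Agent.P353.BdU.B2

set_option linter.all false

section

/-! # P353, uniqueness: the Fierz identity behind the BMN deformation (`FBmnStmt`)

With `E_{αβγδ} = ∑_i γ^i_{αβ}γ^i_{γδ}` the identity `F10` gives
`N_{αβγδ} = ∑_{kl} γ^{kl}_{αβ}γ^{kl}_{γδ} = 6(δ_{αγ}δ_{βδ} - δ_{βγ}δ_{αδ}) + 2(E_{γαβδ} - E_{γβαδ})`,
and the rest follows from `a_i γ^iΓ = (3/2) γ^iΓ + (1/2) Γγ^i`,
`rc_{ij} Γγ^{ij} = 3·[i,j ∈ I3] Γγ^{ij} - (1/2)(Γγ^{ij} + γ^{ij}Γ)` and `γ^{ij} = ε_{ijk} Γγ^k` on `I3`. -/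

open MeasureTheory Filter Topology
open scoped ContDiff Matrix

namespace Vale.Agent.P353.U

variable {F : Type*} [NormedAddCommGroup F] [InnerProductSpace ℂ F]

namespace FBmnAux

variable (S : Setup F)

/-- `∑_i γ^i_{αβ}γ^i_{γδ}` -/
noncomputable def E (α β γ δ : Fin 16) : ℂ := ∑ i, S.g i α β * S.g i γ δ

/-- Kronecker delta -/
noncomputable def kd (α β : Fin 16) : ℂ := (1 : Matrix (Fin 16) (Fin 16) ℂ) α β

lemma kd_eq (α β : Fin 16) : kd α β = if α = β then 1 else 0 := Matrix.one_apply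

lemma kd_symm (α β : Fin 16) : kd α β = kd β α := by
  rw [kd_eq, kd_eq]
  simp only [eq_comm]

lemma sum_kd_mul (α : Fin 16) (f : Fin 16 → ℂ) : ∑ ε, kd α ε * f ε = f α := by
  simp only [kd_eq, ite_mul, one_mul, zero_mul, Finset.sum_ite_eq, Finset.mem_univ, if_true]

lemma gs (i : Fin 9) (α β : Fin 16) : S.g i α β = S.g i β α := by
  have h := congrFun (congrFun (S.g_symm i) β) α
  rwa [Matrix.transpose_apply] at h

lemma Gs (α β : Fin 16) : S.Gam α β = -S.Gam β α := by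
  have h := congrFun (congrFun S.Gam_transpose β) α
  rwa [Matrix.transpose_apply, Matrix.neg_apply] at h

lemma g2s (k l : Fin 9) (α β : Fin 16) : S.g2 k l α β = -S.g2 k l β α := by
  have h := congrFun (congrFun (S.g2_transpose k l) β) α
  rwa [Matrix.transpose_apply, Matrix.neg_apply] at h

lemma E1 (α β γ δ : Fin 16) : E S α β γ δ = E S β α γ δ := by
  simp only [E, gs S _ α β]

lemma E2 (α β γ δ : Fin 16) : E S α β γ δ = E S α β δ γ := by
  simp only [E, gs S _ γ δ]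

lemma E3 (α β γ δ : Fin 16) : E S α β γ δ = E S γ δ α β := by
  simp only [E, mul_comm]

lemma E_F10 (h : F10Stmt S) (α β γ δ : Fin 16) :
    E S α β γ δ + E S β γ α δ + E S γ α β δ =
      kd α β * kd γ δ + kd β γ * kd α δ + kd γ α * kd β δ := by
  have h1 := h α β γ δ
  have e : ∀ a b c d : Fin 16, kd a b * kd c d = if a = b ∧ c = d then 1 else 0 := by
    intro a b c d
    rw [kd_eq, kd_eq]
    split_ifs <;> simp_all
  rw [e, e, e, ← h1]
  simp only [E, Finset.sum_add_distrib]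

lemma N1 (α β γ δ : Fin 16) : S.NN α β γ δ = -S.NN β α γ δ := by
  simp only [CS.NN, g2s S _ _ α β, neg_mul, Finset.sum_neg_distrib]

lemma N2 (α β γ δ : Fin 16) : S.NN α β γ δ = -S.NN α β δ γ := by
  simp only [CS.NN, g2s S _ _ γ δ, mul_neg, Finset.sum_neg_distrib]

lemma N3 (α β γ δ : Fin 16) : S.NN α β γ δ = S.NN γ δ α β := by
  simp only [CS.NN, mul_comm]

lemma P_eq (α β γ δ : Fin 16) :
    ∑ k, ∑ l, (S.g k * S.g l) α β * (S.g k * S.g l) γ δ = S.NN α β γ δ + 9 * (kd α β * kd γ δ) := by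
  have h : ∀ k l, (S.g k * S.g l) α β * (S.g k * S.g l) γ δ =
      S.g2 k l α β * S.g2 k l γ δ + if k = l then kd α β * kd γ δ else 0 := by
    intro k l
    by_cases hkl : k = l
    · subst hkl
      have h0 : S.g2 k k = 0 := by
        rw [CS.g2, sub_self, smul_zero]
      rw [if_pos rfl, h0, S.g_sq' k]
      simp only [Matrix.zero_apply, mul_zero, zero_add]
      rfl
    · rw [if_neg hkl, add_zero]
      have h0 : S.g2 k l = S.g k * S.g l := by
        rw [S.g2_eq, if_neg hkl, zero_smul, sub_zero]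
      rw [h0]
  simp only [h, Finset.sum_add_distrib, Finset.sum_ite_eq, Finset.mem_univ, if_true,
    Finset.sum_const, Finset.card_univ, Fintype.card_fin, CS.NN]
  norm_num

lemma sandE (M : Matrix (Fin 16) (Fin 16) ℂ) (β δ : Fin 16) :
    ∑ l, ∑ ε, ∑ ζ, M ε ζ * (S.g l ε β * S.g l ζ δ) = S.sand M β δ := by
  rw [CS.sand, Matrix.sum_apply]
  refine Finset.sum_congr rfl fun l _ => ?_
  rw [Matrix.mul_apply, Finset.sum_comm]
  refine Finset.sum_congr rfl fun ζ _ => ?_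
  rw [Matrix.mul_apply, Finset.sum_mul]
  refine Finset.sum_congr rfl fun ε _ => ?_
  rw [gs S l ε β]
  ring

lemma P_sum (α β γ δ : Fin 16) :
    ∑ k, ∑ l, (S.g k * S.g l) α β * (S.g k * S.g l) γ δ =
      ∑ l, ∑ ε, ∑ ζ, E S α ε γ ζ * (S.g l ε β * S.g l ζ δ) := by
  rw [Finset.sum_comm]
  refine Finset.sum_congr rfl fun l _ => ?_
  have h : ∀ k, (S.g k * S.g l) α β * (S.g k * S.g l) γ δ =
      ∑ ε, ∑ ζ, (S.g k α ε * S.g k γ ζ) * (S.g l ε β * S.g l ζ δ) := by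
    intro k
    rw [Matrix.mul_apply, Matrix.mul_apply, Finset.sum_mul_sum]
    refine Finset.sum_congr rfl fun ε _ => Finset.sum_congr rfl fun ζ _ => ?_
    ring
  simp only [h]
  rw [Finset.sum_comm]
  refine Finset.sum_congr rfl fun ε _ => ?_
  rw [Finset.sum_comm]
  refine Finset.sum_congr rfl fun ζ _ => ?_
  rw [E, Finset.sum_mul]

lemma P_quad (h : F10Stmt S) (α β γ δ : Fin 16) :
    ∑ k, ∑ l, (S.g k * S.g l) α β * (S.g k * S.g l) γ δ +
      ∑ k, ∑ l, (S.g k * S.g l) γ β * (S.g k * S.g l) α δ =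
    E S α β γ δ + E S γ β α δ + 9 * (kd γ α * kd β δ) + 7 * E S γ α β δ := by
  rw [P_sum, P_sum, ← Finset.sum_add_distrib]
  simp only [← Finset.sum_add_distrib, ← add_mul]
  have hM : ∀ ε ζ, E S α ε γ ζ + E S γ ε α ζ =
      kd α ε * kd γ ζ + kd γ ε * kd α ζ + (kd γ α * kd ε ζ - ∑ k, S.g k γ α * S.g k ε ζ) := by
    intro ε ζ
    have h1 := E_F10 S h α ε γ ζ
    have h2 := E1 S ε γ α ζ
    have h3 := kd_symm ε γ
    have h4 : ∑ k, S.g k γ α * S.g k ε ζ = E S γ α ε ζ := rfl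
    rw [h4]
    rw [h2, h3] at h1
    linear_combination h1
  conv_lhs => simp only [hM, add_mul, Finset.sum_add_distrib]
  have e1 : ∑ l, ∑ ε, ∑ ζ, kd α ε * kd γ ζ * (S.g l ε β * S.g l ζ δ) = E S α β γ δ := by
    rw [E]
    refine Finset.sum_congr rfl fun l _ => ?_
    have : ∀ ε, ∑ ζ, kd α ε * kd γ ζ * (S.g l ε β * S.g l ζ δ) =
        kd α ε * (S.g l ε β * S.g l γ δ) := by
      intro ε
      rw [← sum_kd_mul γ (fun ζ => S.g l ζ δ), Finset.mul_sum, Finset.mul_sum]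
      exact Finset.sum_congr rfl fun ζ _ => by ring
    simp only [this]
    exact sum_kd_mul α (fun ε => S.g l ε β * S.g l γ δ)
  have e2 : ∑ l, ∑ ε, ∑ ζ, kd γ ε * kd α ζ * (S.g l ε β * S.g l ζ δ) = E S γ β α δ := by
    rw [E]
    refine Finset.sum_congr rfl fun l _ => ?_
    have : ∀ ε, ∑ ζ, kd γ ε * kd α ζ * (S.g l ε β * S.g l ζ δ) =
        kd γ ε * (S.g l ε β * S.g l α δ) := by
      intro ε
      rw [← sum_kd_mul α (fun ζ => S.g l ζ δ), Finset.mul_sum, Finset.mul_sum]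
      exact Finset.sum_congr rfl fun ζ _ => by ring
    simp only [this]
    exact sum_kd_mul γ (fun ε => S.g l ε β * S.g l α δ)
  have e3 := sandE S (kd γ α • (1 : Matrix (Fin 16) (Fin 16) ℂ) -
    ∑ k, S.g k γ α • S.g k) β δ
  have e4 : ∀ ε ζ, (kd γ α • (1 : Matrix (Fin 16) (Fin 16) ℂ) - ∑ k, S.g k γ α • S.g k) ε ζ =
      kd γ α * kd ε ζ - ∑ k, S.g k γ α * S.g k ε ζ := by
    intro ε ζ
    rw [Matrix.sub_apply, Matrix.smul_apply, Matrix.sum_apply]
    rfl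
  simp only [e4] at e3
  have e5 : S.sand (kd γ α • (1 : Matrix (Fin 16) (Fin 16) ℂ) - ∑ k, S.g k γ α • S.g k) =
      (9 * kd γ α) • (1 : Matrix (Fin 16) (Fin 16) ℂ) + (7 : ℂ) • ∑ k, S.g k γ α • S.g k := by
    have hs : S.sand (∑ k, S.g k γ α • S.g k) = ∑ k, S.g k γ α • S.sand (S.g k) := by
      simp only [CS.sand, Finset.mul_sum, Finset.sum_mul, Finset.smul_sum]
      rw [Finset.sum_comm]
      refine Finset.sum_congr rfl fun k _ => Finset.sum_congr rfl fun l _ => ?_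
      rw [Matrix.mul_smul, Matrix.smul_mul]
    rw [S.sand_sub, S.sand_smul, S.sand_one, hs]
    simp only [S.sand_g, Finset.smul_sum, smul_smul]
    rw [sub_eq_add_neg, ← Finset.sum_neg_distrib]
    congr 1
    · rw [mul_comm]
    · refine Finset.sum_congr rfl fun k _ => ?_
      rw [← neg_smul]
      congr 1
      ring
  rw [e1, e2, e3, e5, Matrix.add_apply, Matrix.smul_apply, Matrix.smul_apply, Matrix.sum_apply]
  have e6 : ∑ c, (S.g c γ α • S.g c) β δ = E S γ α β δ := rfl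
  have e7 : (1 : Matrix (Fin 16) (Fin 16) ℂ) β δ = kd β δ := rfl
  rw [e6, e7, smul_eq_mul, smul_eq_mul]
  ring

lemma NS (h : F10Stmt S) (α β γ δ : Fin 16) : S.NN α β γ δ + S.NN γ β α δ =
    E S α β γ δ + E S γ β α δ + 7 * E S γ α β δ +
      9 * (kd γ α * kd β δ - kd α β * kd γ δ - kd γ β * kd α δ) := by
  have h1 := P_quad S h α β γ δ
  rw [P_eq, P_eq] at h1
  linear_combination h1

/-- the Fierz identity for `N` -/
lemma Nform (h : F10Stmt S) (α β γ δ : Fin 16) : S.NN α β γ δ =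
    6 * (kd α γ * kd β δ - kd β γ * kd α δ) + 2 * (E S α γ β δ - E S β γ α δ) := by
  have h1 := NS S h α β γ δ
  have h2 := NS S h β α γ δ
  have h3 := S.fierz S.g_real α β γ δ
  have n1 := N3 S γ β α δ
  have n2 := N2 S α δ γ β
  have n3 := N1 S γ α β δ
  have n4 := N2 S α γ β δ
  have n5 := N1 S β α γ δ
  have e1 := E1 S γ α β δ
  have e2 := E1 S γ β α δ
  have e3 := E1 S α β γ δ
  have k1 := kd_symm γ α
  have k2 := kd_symm γ β
  have k3 := kd_symm α β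
  rw [n1, n2, k1, k2, e1, e2] at h1
  rw [n3, n4, n5, k1, k2, e1, e2, ← k3, ← e3] at h2
  linear_combination (1 / 3 : ℂ) * h1 - (1 / 3 : ℂ) * h2 + (1 / 3 : ℂ) * h3

/-! ### the weights -/

lemma aw_Gam (i : Fin 9) : (aw i : ℂ) • (S.g i * S.Gam) =
    (3 / 2 : ℂ) • (S.g i * S.Gam) + (1 / 2 : ℂ) • (S.Gam * S.g i) := by
  unfold aw
  by_cases hi : i.val < 3
  · rw [if_pos hi, S.g_Gam_comm hi]
    push_cast
    module
  · rw [if_neg hi, S.g_Gam_anti (by omega)]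
    push_cast
    module

lemma a_sum (α β γ δ : Fin 16) :
    ∑ i, (aw i : ℂ) * (S.g i α γ * (S.g i * S.Gam) β δ) =
      ∑ ε, ((3 / 2) * (E S α γ β ε * S.Gam ε δ) + (1 / 2) * (S.Gam β ε * E S α γ ε δ)) := by
  have h : ∀ i, (aw i : ℂ) * (S.g i α γ * (S.g i * S.Gam) β δ) =
      ∑ ε, S.g i α γ * ((3 / 2) * (S.g i β ε * S.Gam ε δ) + (1 / 2) * (S.Gam β ε * S.g i ε δ)) := by
    intro i
    have h1 := congrFun (congrFun (aw_Gam S i) β) δ
    rw [Matrix.add_apply, Matrix.smul_apply, Matrix.smul_apply, Matrix.smul_apply,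
      smul_eq_mul, smul_eq_mul, smul_eq_mul] at h1
    have h2 : (S.g i * S.Gam) β δ = ∑ ε, S.g i β ε * S.Gam ε δ := Matrix.mul_apply
    have h3 : (S.Gam * S.g i) β δ = ∑ ε, S.Gam β ε * S.g i ε δ := Matrix.mul_apply
    calc (aw i : ℂ) * (S.g i α γ * (S.g i * S.Gam) β δ) =
        S.g i α γ * ((aw i : ℂ) * (S.g i * S.Gam) β δ) := by ring
      _ = _ := by
        rw [h1, h2, h3, Finset.mul_sum, Finset.mul_sum, ← Finset.sum_add_distrib, Finset.mul_sum]
  simp only [h]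
  rw [Finset.sum_comm]
  refine Finset.sum_congr rfl fun ε _ => ?_
  simp only [E, Finset.sum_mul, Finset.mul_sum, ← Finset.sum_add_distrib]
  exact Finset.sum_congr rfl fun i _ => by ring

/-- indicator of `I3` -/
noncomputable def i3 (i : Fin 9) : ℂ := if i.val < 3 then 1 else 0

lemma g2_self (i : Fin 9) : S.g2 i i = 0 := by rw [CS.g2, sub_self, smul_zero]

lemma g2_ne {i j : Fin 9} (h : i ≠ j) : S.g2 i j = S.g i * S.g j := by
  rw [S.g2_eq, if_neg h, zero_smul, sub_zero]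

lemma g2_mixed {i j : Fin 9} (hi : i.val < 3) (hj : 3 ≤ j.val) :
    S.g2 i j * S.Gam = -(S.Gam * S.g2 i j) := by
  rw [g2_ne S (by rintro rfl; omega), mul_assoc, S.g_Gam_anti hj, mul_neg, ← mul_assoc,
    S.g_Gam_comm hi, mul_assoc]

lemma rc_Gam (i j : Fin 9) : (rc i j : ℂ) • (S.Gam * S.g2 i j) =
    (3 * (i3 i * i3 j)) • (S.Gam * S.g2 i j) - (1 / 2 : ℂ) • (S.Gam * S.g2 i j + S.g2 i j * S.Gam) := by
  by_cases hij : i = j
  · subst hij
    rw [g2_self, mul_zero, zero_mul]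
    simp only [smul_zero, add_zero, sub_zero]
  unfold rc i3
  by_cases hi : i.val < 3
  · by_cases hj : j.val < 3
    · rw [if_pos ⟨hi, hj⟩, if_pos hi, if_pos hj, S.Gam_comm_g2 ⟨hij, by simp only [hi, hj]⟩]
      push_cast
      module
    · rw [if_neg (fun h => hj h.2), if_neg (fun h => absurd h.1 (by omega)), if_pos hi, if_neg hj,
        g2_mixed S hi (by omega)]
      push_cast
      module
  · by_cases hj : j.val < 3
    · have : S.g2 i j * S.Gam = -(S.Gam * S.g2 i j) := by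
        rw [S.g2_antisymm i j, neg_mul, g2_mixed S hj (by omega), mul_neg]
      rw [if_neg (fun h => hi h.1), if_neg (fun h => absurd h.2 (by omega)), if_neg hi, if_pos hj,
        this]
      push_cast
      module
    · rw [if_neg (fun h => hi h.1), if_pos ⟨by omega, by omega⟩, if_neg hi, if_neg hj,
        S.Gam_comm_g2 ⟨hij, by simp only [hi, hj]⟩]
      push_cast
      module

lemma sum_i3 (f : Fin 9 → ℂ) : ∑ i, i3 i * f i = f 0 + f 1 + f 2 := by
  simp only [Fin.sum_univ_succ, i3]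
  simp [Fin.val_succ]
  exact (add_assoc _ _ _).symm

lemma g2_01 : S.g2 0 1 = S.Gam * S.g 2 := by
  rw [g2_ne S (by decide), Setup.Gam, mul_assoc, S.g_sq' 2, mul_one]

lemma g2_12 : S.g2 1 2 = S.Gam * S.g 0 := by
  rw [g2_ne S (by decide), ← S.g_Gam_comm (i := 0) (by decide), Setup.Gam, ← mul_assoc, ← mul_assoc,
    S.g_sq' 0, one_mul]

lemma g2_20 : S.g2 2 0 = S.Gam * S.g 1 := by
  have h01 : S.g 0 * S.g 1 = -(S.g 1 * S.g 0) := S.g_ac (by decide)
  have h02 : S.g 0 * S.g 2 = -(S.g 2 * S.g 0) := S.g_ac (by decide)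
  rw [g2_ne S (by decide), ← S.g_Gam_comm (i := 1) (by decide), Setup.Gam, h01, neg_mul, mul_neg,
    mul_assoc (S.g 1), ← mul_assoc (S.g 1), S.g_sq' 1, one_mul, h02, neg_neg]

lemma i3_Gam (k : Fin 9) : i3 k • (S.Gam * S.g k) =
    (1 / 2 : ℂ) • (S.Gam * S.g k + S.g k * S.Gam) := by
  unfold i3
  by_cases hi : k.val < 3
  · rw [if_pos hi, S.g_Gam_comm hi]
    module
  · rw [if_neg hi, S.g_Gam_anti (by omega)]
    module

lemma Gam_Gam_g (k : Fin 9) : S.Gam * (S.Gam * S.g k) = -S.g k := by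
  rw [← mul_assoc, S.Gam_sq, neg_mul, one_mul]

lemma c_sum (α β γ δ : Fin 16) :
    ∑ i, ∑ j, (i3 i * i3 j) * ((S.Gam * S.g2 i j) α β * S.g2 i j γ δ) =
      -∑ k, S.g k α β * (S.Gam * S.g k + S.g k * S.Gam) γ δ := by
  have h1 : ∀ k, S.g k α β * (S.Gam * S.g k + S.g k * S.Gam) γ δ =
      i3 k * (2 * (S.g k α β * (S.Gam * S.g k) γ δ)) := by
    intro k
    have h := congrFun (congrFun (i3_Gam S k) γ) δ
    rw [Matrix.smul_apply, Matrix.smul_apply, smul_eq_mul, smul_eq_mul] at h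
    linear_combination (-2 * S.g k α β) * h
  have h2 : ∀ i, ∑ j, (i3 i * i3 j) * ((S.Gam * S.g2 i j) α β * S.g2 i j γ δ) =
      i3 i * ∑ j, i3 j * ((S.Gam * S.g2 i j) α β * S.g2 i j γ δ) := by
    intro i
    rw [Finset.mul_sum]
    exact Finset.sum_congr rfl fun j _ => by ring
  simp only [h1, h2]
  rw [sum_i3, sum_i3, sum_i3, sum_i3, sum_i3]
  have a1 : S.g2 1 0 = -S.g2 0 1 := S.g2_antisymm 1 0
  have a2 : S.g2 2 1 = -S.g2 1 2 := S.g2_antisymm 2 1
  have a3 : S.g2 0 2 = -S.g2 2 0 := S.g2_antisymm 0 2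
  rw [a1, a2, a3, g2_self, g2_self, g2_self, g2_01, g2_12, g2_20]
  simp only [mul_neg, Gam_Gam_g, Matrix.neg_apply, neg_neg, mul_zero, Matrix.zero_apply]
  ring

lemma b_sum (α β γ δ : Fin 16) :
    ∑ i, ∑ j, ((rc i j : ℂ) * (S.Gam * S.g2 i j) α β) * S.g2 i j γ δ =
      ∑ ε, (-3 * (E S α β ε δ * S.Gam γ ε + E S α β γ ε * S.Gam ε δ) -
        (1 / 2) * (S.Gam α ε * S.NN ε β γ δ + S.NN α ε γ δ * S.Gam ε β)) := by
  have h1 : ∀ i j, ((rc i j : ℂ) * (S.Gam * S.g2 i j) α β) * S.g2 i j γ δ =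
      3 * ((i3 i * i3 j) * ((S.Gam * S.g2 i j) α β * S.g2 i j γ δ)) -
        ∑ ε, (1 / 2) * (S.Gam α ε * (S.g2 i j ε β * S.g2 i j γ δ) +
          (S.g2 i j α ε * S.g2 i j γ δ) * S.Gam ε β) := by
    intro i j
    have h := congrFun (congrFun (rc_Gam S i j) α) β
    rw [Matrix.sub_apply, Matrix.smul_apply, Matrix.smul_apply, Matrix.smul_apply,
      Matrix.add_apply, smul_eq_mul, smul_eq_mul, smul_eq_mul] at h
    have h2 : (S.Gam * S.g2 i j) α β = ∑ ε, S.Gam α ε * S.g2 i j ε β := Matrix.mul_apply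
    have h3 : (S.g2 i j * S.Gam) α β = ∑ ε, S.g2 i j α ε * S.Gam ε β := Matrix.mul_apply
    have h4 : ∑ ε, (1 / 2) * (S.Gam α ε * (S.g2 i j ε β * S.g2 i j γ δ) +
          (S.g2 i j α ε * S.g2 i j γ δ) * S.Gam ε β) =
          (1 / 2) * ((S.Gam * S.g2 i j) α β + (S.g2 i j * S.Gam) α β) * S.g2 i j γ δ := by
      rw [h2, h3, ← Finset.sum_add_distrib, Finset.mul_sum, Finset.sum_mul]
      exact Finset.sum_congr rfl fun ε _ => by ring
    rw [h, h4]
    ring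
  simp only [h1, Finset.sum_sub_distrib, ← Finset.mul_sum, c_sum]
  have h5 : ∑ k, S.g k α β * (S.Gam * S.g k + S.g k * S.Gam) γ δ =
      ∑ ε, (E S α β ε δ * S.Gam γ ε + E S α β γ ε * S.Gam ε δ) := by
    have : ∀ k, S.g k α β * (S.Gam * S.g k + S.g k * S.Gam) γ δ =
        ∑ ε, (S.g k α β * S.g k ε δ * S.Gam γ ε + S.g k α β * S.g k γ ε * S.Gam ε δ) := by
      intro k
      rw [Matrix.add_apply, Matrix.mul_apply, Matrix.mul_apply, ← Finset.sum_add_distrib,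
        Finset.mul_sum]
      exact Finset.sum_congr rfl fun ε _ => by ring
    simp only [this]
    rw [Finset.sum_comm]
    refine Finset.sum_congr rfl fun ε _ => ?_
    simp only [E, Finset.sum_mul, Finset.sum_add_distrib]
  have h6 : ∑ i, ∑ j, ∑ ε, (S.Gam α ε * (S.g2 i j ε β * S.g2 i j γ δ) +
          (S.g2 i j α ε * S.g2 i j γ δ) * S.Gam ε β) =
      ∑ ε, (S.Gam α ε * S.NN ε β γ δ + S.NN α ε γ δ * S.Gam ε β) := by
    have s1 : ∀ (f : Fin 9 → Fin 9 → Fin 16 → ℂ),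
        ∑ k, ∑ l, ∑ β, f k l β = ∑ β, ∑ k, ∑ l, f k l β := by
      intro f
      have : ∀ k, ∑ l, ∑ β, f k l β = ∑ β, ∑ l, f k l β := fun k => Finset.sum_comm
      simp only [this]
      rw [Finset.sum_comm]
    rw [s1]
    refine Finset.sum_congr rfl fun ε _ => ?_
    simp only [CS.NN, Finset.sum_mul, Finset.mul_sum, Finset.sum_add_distrib]
  rw [h5, h6]
  ring

/-- the c-number identity -/
lemma cnum (h : F10Stmt S) (α β γ δ : Fin 16) :
    ∑ i, (aw i : ℂ) * (S.g i α γ * (S.g i * S.Gam) β δ + S.g i β γ * (S.g i * S.Gam) α δ) -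
      ∑ i, (aw i : ℂ) * (S.g i α δ * (S.g i * S.Gam) β γ + S.g i β δ * (S.g i * S.Gam) α γ) =
    (1 / 2) * (∑ i, ∑ j, ((rc i j : ℂ) * (S.Gam * S.g2 i j) α β) * S.g2 i j γ δ) +
      3 * kd α β * S.Gam γ δ := by
  simp only [mul_add, Finset.sum_add_distrib]
  rw [a_sum, a_sum, a_sum, a_sum, b_sum]
  have hd : 3 * kd α β * S.Gam γ δ =
      ∑ ε, ((3 / 2) * ((kd α β * kd γ ε + kd β γ * kd α ε + kd γ α * kd β ε) * S.Gam ε δ -
        (kd α β * kd δ ε + kd β δ * kd α ε + kd δ α * kd β ε) * S.Gam ε γ) +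
        (3 / 2) * (S.Gam α ε * (kd γ ε * kd β δ - kd β γ * kd δ ε) -
          (kd α γ * kd δ ε - kd γ ε * kd α δ) * S.Gam β ε)) := by
    have e1 := sum_kd_mul γ (fun ε => S.Gam ε δ)
    have e2 := sum_kd_mul α (fun ε => S.Gam ε δ)
    have e3 := sum_kd_mul β (fun ε => S.Gam ε δ)
    have e4 := sum_kd_mul δ (fun ε => S.Gam ε γ)
    have e5 := sum_kd_mul α (fun ε => S.Gam ε γ)
    have e6 := sum_kd_mul β (fun ε => S.Gam ε γ)
    have e7 := sum_kd_mul γ (fun ε => S.Gam α ε)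
    have e8 := sum_kd_mul δ (fun ε => S.Gam α ε)
    have e9 := sum_kd_mul δ (fun ε => S.Gam β ε)
    have e10 := sum_kd_mul γ (fun ε => S.Gam β ε)
    have hs : ∑ ε, ((3 / 2) * ((kd α β * kd γ ε + kd β γ * kd α ε + kd γ α * kd β ε) * S.Gam ε δ -
        (kd α β * kd δ ε + kd β δ * kd α ε + kd δ α * kd β ε) * S.Gam ε γ) +
        (3 / 2) * (S.Gam α ε * (kd γ ε * kd β δ - kd β γ * kd δ ε) -
          (kd α γ * kd δ ε - kd γ ε * kd α δ) * S.Gam β ε)) =
        (3 / 2) * (kd α β * (∑ ε, kd γ ε * S.Gam ε δ) + kd β γ * (∑ ε, kd α ε * S.Gam ε δ) +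
          kd γ α * (∑ ε, kd β ε * S.Gam ε δ) - kd α β * (∑ ε, kd δ ε * S.Gam ε γ) -
          kd β δ * (∑ ε, kd α ε * S.Gam ε γ) - kd δ α * (∑ ε, kd β ε * S.Gam ε γ)) +
        (3 / 2) * (kd β δ * (∑ ε, kd γ ε * S.Gam α ε) - kd β γ * (∑ ε, kd δ ε * S.Gam α ε) -
          kd α γ * (∑ ε, kd δ ε * S.Gam β ε) + kd α δ * (∑ ε, kd γ ε * S.Gam β ε)) := by
      simp only [Finset.mul_sum, ← Finset.sum_add_distrib, ← Finset.sum_sub_distrib]
      exact Finset.sum_congr rfl fun ε _ => by ring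
    rw [hs, e1, e2, e3, e4, e5, e6, e7, e8, e9, e10, kd_symm γ α, kd_symm δ α, Gs S δ γ]
    ring
  rw [hd]
  simp only [Finset.mul_sum, ← Finset.sum_add_distrib, ← Finset.sum_sub_distrib]
  refine Finset.sum_congr rfl fun ε _ => ?_
  have f1 := E_F10 S h α β γ ε
  have f2 := E_F10 S h α β δ ε
  have n1 := Nform S h ε β γ δ
  have n2 := Nform S h α ε γ δ
  have g1 := Gs S γ ε
  have g2 := Gs S ε β
  have q1 := E1 S γ α β ε
  have q2 := E1 S δ α β ε
  have q3 := E2 S α β ε δ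
  have q4 := E3 S β γ ε δ
  have q5 := E3 S β δ ε γ
  have q6 := E3 S ε γ α δ
  have k1 := kd_symm ε γ
  have k2 := kd_symm ε δ
  rw [n1, n2, g1, g2, q3, q4, q5, q6, k1, k2]
  rw [q1] at f1
  rw [q2] at f2
  linear_combination (3 / 2 * S.Gam ε δ) * f1 - (3 / 2 * S.Gam ε γ) * f2

/-! ### the operator identity -/

lemma vec_vec (N M : Matrix (Fin 16) (Fin 16) ℂ) (A : Fin 3) (α β : Fin 16) :
    S.vec N A α * S.vec M A β = S.bil (Matrix.of fun γ δ => N α γ * M β δ) A A := by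
  rw [CS.bil, CS.vec, Finset.sum_mul]
  refine Finset.sum_congr rfl fun γ _ => ?_
  rw [CS.vec, CS.vec, Finset.mul_sum, Finset.mul_sum]
  refine Finset.sum_congr rfl fun δ _ => ?_
  rw [smul_mul_smul_comm, Matrix.of_apply, mul_smul_comm]

/-- the coefficient matrix -/
noncomputable def Lm (α β : Fin 16) : Matrix (Fin 16) (Fin 16) ℂ :=
  ∑ i, (aw i : ℂ) • ((Matrix.of fun γ δ => S.g i α γ * (S.g i * S.Gam) β δ) +
    Matrix.of fun γ δ => S.g i β γ * (S.g i * S.Gam) α δ)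

lemma Lm_apply (α β γ δ : Fin 16) : Lm S α β γ δ =
    ∑ i, (aw i : ℂ) * (S.g i α γ * (S.g i * S.Gam) β δ + S.g i β γ * (S.g i * S.Gam) α δ) := by
  rw [Lm, Matrix.sum_apply]
  rfl

lemma tot_Lm (α β : Fin 16) : ∑ i, ∑ A, (aw i : ℂ) •
      (S.vec (S.g i) A α * S.vec (S.g i * S.Gam) A β +
        S.vec (S.g i) A β * S.vec (S.g i * S.Gam) A α) = S.tot (Lm S α β) := by
  rw [Lm, S.tot_sum]
  refine Finset.sum_congr rfl fun i _ => ?_
  rw [S.tot_smul, S.tot_add, ← Finset.smul_sum, Finset.sum_add_distrib]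
  simp only [vec_vec]
  rfl

lemma gGg (i : Fin 9) : ∃ c : ℂ, S.g i * (S.g i * S.Gam)ᵀ = c • S.Gam := by
  have h1 : (S.g i * S.Gam)ᵀ = -(S.Gam * S.g i) := by
    rw [Matrix.transpose_mul, S.Gam_transpose, S.g_symm, neg_mul]
  by_cases hi : i.val < 3
  · refine ⟨-1, ?_⟩
    rw [h1, ← S.g_Gam_comm hi, mul_neg, ← mul_assoc, S.g_sq' i, one_mul, neg_one_smul]
  · refine ⟨1, ?_⟩
    have h2 : S.Gam * S.g i = -(S.g i * S.Gam) := by rw [S.g_Gam_anti (by omega), neg_neg]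
    rw [h1, h2, neg_neg, ← mul_assoc, S.g_sq' i, one_mul, one_smul]

lemma trace_Lm (α β : Fin 16) : (Lm S α β).trace = 0 := by
  rw [Matrix.trace]
  simp only [Matrix.diag_apply, Lm_apply]
  rw [Finset.sum_comm]
  refine Finset.sum_eq_zero fun i _ => ?_
  rw [← Finset.mul_sum, Finset.sum_add_distrib]
  have h1 : ∀ a b : Fin 16, ∑ γ, S.g i a γ * (S.g i * S.Gam) b γ =
      (S.g i * (S.g i * S.Gam)ᵀ) a b := by
    intro a b
    rw [Matrix.mul_apply]
    rfl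
  obtain ⟨c, hc⟩ := gGg S i
  rw [h1, h1, hc, Matrix.smul_apply, Matrix.smul_apply, Gs S α β, smul_eq_mul, smul_eq_mul]
  ring

lemma Lm_sub (h : F10Stmt S) (α β : Fin 16) : Lm S α β - (Lm S α β)ᵀ =
    (1 / 2 : ℂ) • (∑ i, ∑ j, ((rc i j : ℂ) * (S.Gam * S.g2 i j) α β) • S.g2 i j) +
      (3 * kd α β) • S.Gam := by
  ext γ δ
  rw [Matrix.sub_apply, Matrix.transpose_apply, Lm_apply, Lm_apply, cnum S h α β γ δ,
    Matrix.add_apply, Matrix.smul_apply, Matrix.smul_apply, Matrix.sum_apply, smul_eq_mul,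
    smul_eq_mul]
  congr 2

lemma tot_transpose (N : Matrix (Fin 16) (Fin 16) ℂ) (hN : N.trace = 0) :
    S.tot N = -S.tot Nᵀ := by
  rw [CS.tot, CS.tot, ← Finset.sum_neg_distrib]
  refine Finset.sum_congr rfl fun A _ => ?_
  rw [S.bil_swap, if_pos rfl, hN, zero_smul, zero_sub]

end FBmnAux

open FBmnAux in
/-- **A-FBMN** from **A-F10** -/
theorem fbmn (S : Setup F) (h : F10Stmt S) : FBmnStmt S := by
  intro α β
  rw [tot_Lm]
  have h1 := tot_transpose S (Lm S α β) (trace_Lm S α β)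
  have h2 : S.tot (Lm S α β) + S.tot (Lm S α β) = S.tot (Lm S α β - (Lm S α β)ᵀ) := by
    rw [S.tot_sub]
    nth_rewrite 2 [h1]
    rw [sub_eq_add_neg]
  rw [Lm_sub S h, S.tot_add, S.tot_smul, S.tot_smul, S.tot_sum] at h2
  have h3 : S.tot (Lm S α β) = (1 / 4 : ℂ) • (∑ i, S.tot (∑ j, ((rc i j : ℂ) *
      (S.Gam * S.g2 i j) α β) • S.g2 i j)) + (3 / 2 * kd α β) • S.tot S.Gam := by
    have : S.tot (Lm S α β) = (1 / 2 : ℂ) • (S.tot (Lm S α β) + S.tot (Lm S α β)) := by module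
    rw [this, h2]
    module
  rw [h3]
  have h4 : ∀ i, S.tot (∑ j, ((rc i j : ℂ) * (S.Gam * S.g2 i j) α β) • S.g2 i j) =
      ∑ j, ((rc i j : ℂ) * (S.Gam * S.g2 i j) α β) • S.tot (S.g2 i j) := by
    intro i
    rw [S.tot_sum]
    exact Finset.sum_congr rfl fun j _ => S.tot_smul _ _
  simp only [h4]
  have h5 : (if α = β then (3 / 2 : ℂ) • S.FG else 0) =
      (3 / 2 * kd α β) • (Complex.I • S.tot S.Gam) := by
    rw [kd_eq]
    split_ifs
    · rw [mul_one]; rfl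
    · rw [mul_zero, zero_smul]
  rw [h5, smul_add, sub_eq_add_neg]
  congr 1
  · rw [smul_smul, Finset.smul_sum]
    refine Finset.sum_congr rfl fun i _ => ?_
    rw [Finset.smul_sum]
    refine Finset.sum_congr rfl fun j _ => ?_
    rw [Setup.Skl, smul_smul, smul_smul]
    congr 1
    ring
  · module

end Vale.Agent.P353.U
end
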