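import Mathlib
import Vale.Agent.P353.BdU.B26
import Vale.Agent.P353.BdU.B4
import Vale.Agent.P353.BdU.B18
import Vale.Agent.P353.BdU.B32
import Vale.Agent.P353.BdU.B28
import Vale.Agent.P353.BdU.B20
import Vale.Agent.P353.BdU.B19
import Vale.Agent.P353.BdZ.B14
import Vale.Agent.P353.BdU.B30
import Vale.Agent.P353.BdU.B14
import Vale.Agent.P353.BdU.B15
import Vale.Agent.P353.BdU.B13
import Vale.Agent.P353.BdU.B8
import Vale.Agent.P353.BdU.B6
import Vale.Agent.P353.BdU.B17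
import Vale.Agent.P353.BdU.B33
import Vale.Agent.P353.BdU.B16
import Vale.Agent.P353.BdU.B24
import Vale.Agent.P353.BdU.B11
import Vale.Agent.P353.BdU.B2
import Vale.Agent.P353.BdU.B9
import Vale.Agent.P353.BdU.B10
import Vale.Agent.P353.BdU.B31
import Vale.Agent.P353.BdU.B22
import Vale.Agent.P353.BdU.B12
import Vale.Agent.P353.BdU.B25
import Vale.Agent.P353.BdU.B29
import Vale.Agent.P353.BdU.B27
import Vale.Agent.P353.BdZ.B17

set_option linter.all false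

section

/-! Task EX-27: final assembly. -/

open MeasureTheory Filter Topology
open scoped ContDiff ComplexConjugate

namespace Vale.Agent.P353.Ex

variable {F : Type*} [NormedAddCommGroup F] [InnerProductSpace ℂ F]

theorem fin_pr_apply (x : X3) (i : Fin 9) (A : Fin 3) :
    pr x (i, A) = if (i = 7 ∨ i = 8) ∧ A ≠ 2 then 0 else x (i, A) := rfl

theorem fin_pr_two (x : X3) (i : Fin 9) : pr x (i, 2) = x (i, 2) := by
  rw [fin_pr_apply, if_neg (fun h => h.2 rfl)]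

theorem fin_pr_e9 (x : X3) (i : Fin 7) (A : Fin 3) : pr x (e9 i, A) = x (e9 i, A) := by
  rw [fin_pr_apply, if_neg]
  rintro ⟨h | h, -⟩ <;> revert h <;> fin_cases i <;> decide

theorem fin_continuous_pr : Continuous pr := by
  refine (PiLp.continuous_toLp 2 _).comp (continuous_pi fun p => ?_)
  split_ifs with h
  · exact continuous_const
  · exact (continuous_apply p).comp (PiLp.continuous_ofLp 2 _)

theorem fin_r3_pr (x : X3) : Fk.r3 (pr x) = Fk.r3 x := by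
  simp only [Fk.r3, fin_pr_two]

theorem fin_ze_pr (x : X3) : Fk.ze (pr x) = Fk.ze x := by
  simp only [Fk.ze, fin_r3_pr]

theorem fin_B0_pr (x : X3) : Fk.B0 (pr x) = Fk.B0 x := by
  simp only [Fk.B0, Fk.x3sq, Fk.wsq, Fk.gg, fin_r3_pr, fin_pr_e9]

theorem fin_r3_nonneg (x : X3) : 0 ≤ Fk.r3 x := by
  unfold Fk.r3; positivity

theorem fin_ze_nonneg (x : X3) : 0 ≤ Fk.ze x := Real.sqrt_nonneg _

theorem fin_ze_sq (x : X3) : Fk.ze x ^ 2 = Fk.r3 x := Real.sq_sqrt (fin_r3_nonneg x)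

theorem fin_B0_pos (x : X3) : 0 < Fk.B0 x := Real.exp_pos _

theorem fin_B0_le (x : X3) : Fk.B0 x ≤ 1 := by
  unfold Fk.B0
  rw [Real.exp_le_one_iff]
  have h1 : 0 ≤ Fk.x3sq x := by unfold Fk.x3sq; positivity
  have h2 : 0 ≤ Fk.wsq x := by unfold Fk.wsq; positivity
  have h3 : 0 ≤ Fk.gg x := by unfold Fk.gg; positivity
  have h4 := fin_r3_nonneg x
  have h5 : 0 ≤ Fk.gg x * Fk.r3 x * Fk.wsq x := by positivity
  have h6 : 0 ≤ Fk.wsq x ^ 2 / 16 := by positivity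
  linarith

theorem fin_continuous_coord (p : Fin 9 × Fin 3) : Continuous fun x : X3 => x p :=
  (continuous_apply p).comp (PiLp.continuous_ofLp 2 _)

theorem fin_continuous_r3 : Continuous Fk.r3 := by
  unfold Fk.r3
  exact ((fin_continuous_coord _).pow 2).add ((fin_continuous_coord _).pow 2)

theorem fin_continuous_perp2 : Continuous Fk.perp2 := by
  unfold Fk.perp2
  exact ((((fin_continuous_coord _).pow 2).add ((fin_continuous_coord _).pow 2)).add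
    ((fin_continuous_coord _).pow 2)).add ((fin_continuous_coord _).pow 2)

namespace Fk

variable (K : Fk F)

theorem fin_flip_hh (x : X3) : K.flip.hh x = - K.hh x := by
  simp only [hh, flip, neg_mul, Finset.sum_neg_distrib, mul_neg]

theorem fin_phb_pr (x : X3) : K.phb 2 (pr x) = K.phb 2 x := by
  simp only [phb, fin_pr_two]

theorem fin_norm_phb_two (x : X3) : ‖K.phb 2 x‖ = ze x := by
  unfold phb ze r3
  have h : K.sg * K.sg = 1 := K.sg_sq
  rw [Complex.norm_eq_sqrt_sq_add_sq]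
  congr 1
  simp only [Complex.sub_re, Complex.sub_im, Complex.ofReal_re, Complex.ofReal_im, Complex.mul_re,
    Complex.mul_im, Complex.I_re, Complex.I_im]
  ring_nf
  have h2 : K.sg ^ 2 = 1 := by rw [sq]; exact h
  rw [h2]; ring

theorem fin_norm_dpb_le (A : Fin 3) (v : F) : ‖K.dpb A v‖ ≤ 2 * ‖v‖ := by
  unfold dpb
  rw [smul_apply, norm_smul]
  have h := K.norm_c_le 7 A v
  have h2 : ‖(2 : ℂ)‖ = 2 := by norm_num
  rw [h2]
  linarith

theorem fin_nu_ne : K.nu ≠ 0 := by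
  unfold nu
  have h := K.f0_sq
  have h0 : K.f0 ≠ 0 := by
    rintro h1; rw [h1] at h; norm_num at h
  exact mul_ne_zero Complex.I_ne_zero (Complex.ofReal_ne_zero.mpr h0)

theorem fin_f0_ne : K.f0 ≠ 0 := by
  have h := K.f0_sq
  rintro h1; rw [h1] at h; norm_num at h

theorem fin_nu_sq : K.nu ^ 2 = -2 := by
  unfold nu
  have h := K.f0_sq
  rw [mul_pow, Complex.I_sq, ← Complex.ofReal_pow, sq, h]
  norm_num

theorem fin_inner_xi (y : X3) :
    inner ℂ (K.flip.xi y) ((Real.exp (-K.hh y) : ℂ) • K.aT y) =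
      (1 / 2 : ℂ) * inner ℂ (K.flip.dpb 0 (K.flip.dpb 1 (K.flip.aT y))) (K.aT y) := by
  unfold xi
  have hnu : K.flip.nu = K.nu := rfl
  rw [fin_flip_hh, neg_neg, hnu, fin_nu_sq, inner_smul_left, inner_smul_right, inner_neg_left,
    inner_smul_left]
  have h1 : (conj (Real.exp (K.hh y) : ℂ)) = (Real.exp (K.hh y) : ℂ) := Complex.conj_ofReal _
  have h2 : conj (1 / (-2) : ℂ) = -(1 / 2) := by
    simp [map_ofNat]
  rw [h1, h2]
  have h3 : (Real.exp (K.hh y) : ℂ) * (Real.exp (-K.hh y) : ℂ) = 1 := by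
    rw [← Complex.ofReal_mul, ← Real.exp_add, add_neg_cancel, Real.exp_zero, Complex.ofReal_one]
  linear_combination (1 / 2 * inner ℂ (K.flip.dpb 0 (K.flip.dpb 1 (K.flip.aT y))) (K.aT y) : ℂ) * h3

theorem fin_norm_Gp_le : ∃ C : ℝ, 0 ≤ C ∧ ∀ x, ‖K.Gp x‖ ≤
    C * (ze x * r3 x * (1 + ze x) ^ 2 * B0 x) := by
  obtain ⟨C1, hC1, h1⟩ := K.exists_bounds
  obtain ⟨C2, hC2, h2⟩ := K.flip.exists_bounds
  refine ⟨4 * (C1 * C2), by positivity, fun x => ?_⟩
  have a1 := (h1 x).1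
  have a2 := (h2 x).1
  rw [fin_flip_hh, neg_neg] at a2
  have e1 : 0 < Real.exp (-K.hh x) := Real.exp_pos _
  have e2 : 0 < Real.exp (K.hh x) := Real.exp_pos _
  have e3 : Real.exp (K.hh x) * Real.exp (-K.hh x) = 1 := by
    rw [← Real.exp_add, add_neg_cancel, Real.exp_zero]
  have hz := fin_ze_nonneg x
  have hb := fin_B0_pos x
  have hb1 := fin_B0_le x
  have b1 : ‖K.flip.dpb 0 (K.flip.dpb 1 (K.flip.aT x))‖ ≤ 4 * ‖K.flip.aT x‖ := by
    have t1 := K.flip.fin_norm_dpb_le 0 (K.flip.dpb 1 (K.flip.aT x))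
    have t2 := K.flip.fin_norm_dpb_le 1 (K.flip.aT x)
    linarith
  have b2 : ‖K.Gp x‖ ≤ ze x * (4 * ‖K.flip.aT x‖ * ‖K.aT x‖) := by
    unfold Gp
    rw [norm_mul, fin_norm_phb_two]
    refine mul_le_mul_of_nonneg_left ?_ hz
    exact (norm_inner_le_norm _ _).trans (mul_le_mul_of_nonneg_right b1 (norm_nonneg _))
  have b3 : ‖K.flip.aT x‖ * ‖K.aT x‖ =
      (Real.exp (K.hh x) * ‖K.flip.aT x‖) * (Real.exp (-K.hh x) * ‖K.aT x‖) := by
    linear_combination (-(‖K.flip.aT x‖ * ‖K.aT x‖)) * e3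
  have b4 : ‖K.flip.aT x‖ * ‖K.aT x‖ ≤
      (C2 * ze x * (1 + ze x) * B0 x) * (C1 * ze x * (1 + ze x) * B0 x) := by
    rw [b3]
    exact mul_le_mul a2 a1 (by positivity) (by positivity)
  have b5 : (C2 * ze x * (1 + ze x) * B0 x) * (C1 * ze x * (1 + ze x) * B0 x) =
      C1 * C2 * (ze x ^ 2 * (1 + ze x) ^ 2) * (B0 x * B0 x) := by ring
  have b6 : C1 * C2 * (ze x ^ 2 * (1 + ze x) ^ 2) * (B0 x * B0 x) ≤
      C1 * C2 * (ze x ^ 2 * (1 + ze x) ^ 2) * (B0 x * 1) := by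
    refine mul_le_mul_of_nonneg_left ?_ (by positivity)
    exact mul_le_mul_of_nonneg_left hb1 hb.le
  calc ‖K.Gp x‖ ≤ ze x * (4 * ‖K.flip.aT x‖ * ‖K.aT x‖) := b2
    _ = ze x * 4 * (‖K.flip.aT x‖ * ‖K.aT x‖) := by ring
    _ ≤ ze x * 4 * (C1 * C2 * (ze x ^ 2 * (1 + ze x) ^ 2) * (B0 x * 1)) :=
        mul_le_mul_of_nonneg_left (b4.trans (b5.le.trans b6)) (by positivity)
    _ = 4 * (C1 * C2) * (ze x * r3 x * (1 + ze x) ^ 2 * B0 x) := by
        rw [← fin_ze_sq x]; ring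

theorem fin_Wp_zero {x : X3} (h : r3 x = 0) : K.Wp x = 0 := by
  unfold Wp; rw [h]; ring

theorem fin_Wp_le (hp : K.PairNe) : ∃ C : ℝ, 0 ≤ C ∧ ∀ x, K.Wp x / r3 x ≤
    C * ((1 + ze x) ^ 4 * B0 x) := by
  obtain ⟨C, hC, h⟩ := K.fin_norm_Gp_le
  obtain ⟨σ, hσ, hG⟩ := K.pos
  have hpc : 0 < ‖K.pairc‖ := norm_pos_iff.mpr hp
  have hf : 0 < |K.f0| := abs_pos.mpr K.fin_f0_ne
  have hσ' : |σ| = 1 := by
    have h1 : |σ| ^ 2 = 1 := by rw [sq_abs, hσ]
    have h2 : 0 ≤ |σ| := abs_nonneg σ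
    nlinarith
  set D : ℝ := 32768 * |K.f0| * ‖K.pairc‖ with hD
  have hD0 : 0 < D := by positivity
  refine ⟨C / D, by positivity, fun x => ?_⟩
  have hW := K.Wp_nonneg x
  have e1 : ‖K.Gp x‖ = D * K.Wp x := by
    rw [hG x, norm_mul, Complex.norm_real, Real.norm_eq_abs, abs_mul, abs_mul, abs_mul, hσ',
      abs_of_nonneg hW, abs_of_pos (by norm_num : (0 : ℝ) < 32768), hD]
    ring
  have e2 : D * K.Wp x ≤ C * (ze x * r3 x * (1 + ze x) ^ 2 * B0 x) := e1 ▸ h x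
  have hz := fin_ze_nonneg x
  have hb := fin_B0_pos x
  have hr := fin_r3_nonneg x
  rcases hr.eq_or_lt with h0 | h0
  · rw [← h0, div_zero]; positivity
  · rw [div_le_iff₀ h0]
    have e3 : K.Wp x ≤ C / D * (ze x * r3 x * (1 + ze x) ^ 2 * B0 x) := by
      rw [div_mul_eq_mul_div, le_div_iff₀ hD0]
      linarith
    refine e3.trans ?_
    have e4 : ze x * (1 + ze x) ^ 2 ≤ (1 + ze x) ^ 4 := by
      nlinarith [sq_nonneg (ze x), mul_nonneg hz hz, mul_nonneg hz (sq_nonneg (ze x)),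
        mul_nonneg (mul_nonneg hz hz) (sq_nonneg (ze x))]
    have e5 : C / D * (ze x * r3 x * (1 + ze x) ^ 2 * B0 x) =
        C / D * (r3 x * B0 x) * (ze x * (1 + ze x) ^ 2) := by ring
    have e6 : C / D * ((1 + ze x) ^ 4 * B0 x) * r3 x =
        C / D * (r3 x * B0 x) * (1 + ze x) ^ 4 := by ring
    rw [e5, e6]
    exact mul_le_mul_of_nonneg_left e4 (by positivity)

theorem fin_J_pos (hp : K.PairNe) :
    0 < ∫ x : X3, Real.exp (-perp2 x) * (K.Wp (pr x) / r3 x) := by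
  obtain ⟨C, hC, h⟩ := K.fin_Wp_le hp
  have hmeas : Measurable fun x : X3 => Real.exp (-perp2 x) * (K.Wp (pr x) / r3 x) := by
    refine Measurable.mul ?_ (Measurable.div ?_ ?_)
    · exact (Real.continuous_exp.comp fin_continuous_perp2.neg).measurable
    · exact (K.continuous_Wp.comp fin_continuous_pr).measurable
    · exact fin_continuous_r3.measurable
  have hnn : ∀ x : X3, 0 ≤ Real.exp (-perp2 x) * (K.Wp (pr x) / r3 x) := fun x =>
    mul_nonneg (Real.exp_pos _).le (div_nonneg (K.Wp_nonneg _) (fin_r3_nonneg x))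
  have hint : Integrable fun x : X3 => Real.exp (-perp2 x) * (K.Wp (pr x) / r3 x) := by
    refine ((integrable_J one_pos).const_mul C).mono' hmeas.aestronglyMeasurable
      (Eventually.of_forall fun x => ?_)
    rw [Real.norm_of_nonneg (hnn x)]
    have h1 := h (pr x)
    rw [fin_r3_pr, fin_ze_pr, fin_B0_pr] at h1
    have h2 := mul_le_mul_of_nonneg_left h1 (Real.exp_pos (-perp2 x)).le
    have h3 : -1 * perp2 x = -perp2 x := by ring
    rw [h3]
    refine h2.trans (le_of_eq ?_)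
    ring
  rw [integral_pos_iff_support_of_nonneg hnn hint]
  have hopen : IsOpen {x : X3 | 0 < K.Wp (pr x)} :=
    isOpen_lt continuous_const (K.continuous_Wp.comp fin_continuous_pr)
  have hne : {x : X3 | 0 < K.Wp (pr x)}.Nonempty := by
    obtain ⟨x, hx, hx2⟩ := K.exists_Wp_pos
    exact ⟨x, by rw [Set.mem_ofPred_eq, ← hx]; exact hx2⟩
  refine (hopen.measure_pos volume hne).trans_le (measure_mono fun x hx => ?_)
  rw [Set.mem_ofPred_eq] at hx
  have h0 : r3 x ≠ 0 := fun h0 => by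
    rw [← fin_r3_pr] at h0
    rw [K.fin_Wp_zero h0] at hx
    exact lt_irrefl _ hx
  have h1 : 0 < r3 x := lt_of_le_of_ne (fin_r3_nonneg x) (Ne.symm h0)
  exact (mul_pos (Real.exp_pos _) (div_pos hx h1)).ne'

theorem fin_lim2_ne (hp : K.PairNe) :
    (∫ x, (Real.exp (-perp2 x) : ℂ) * (-((Real.pi ^ 2 : ℝ) : ℂ) / K.nu) *
        (K.phb 2 x / (r3 x : ℂ)) *
        inner ℂ (K.flip.xi (pr x)) ((Real.exp (-K.hh (pr x)) : ℂ) • K.aT (pr x))) ≠ 0 := by
  obtain ⟨σ, hσ, hG⟩ := K.pos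
  have hσ0 : σ ≠ 0 := by rintro rfl; norm_num at hσ
  have hJ := K.fin_J_pos hp
  have hpc : K.pairc ≠ 0 := hp
  have hpi : ((Real.pi ^ 2 : ℝ) : ℂ) ≠ 0 := Complex.ofReal_ne_zero.mpr (by positivity)
  have e : ∀ x : X3, (Real.exp (-perp2 x) : ℂ) * (-((Real.pi ^ 2 : ℝ) : ℂ) / K.nu) *
        (K.phb 2 x / (r3 x : ℂ)) *
        inner ℂ (K.flip.xi (pr x)) ((Real.exp (-K.hh (pr x)) : ℂ) • K.aT (pr x)) =
      ((-((Real.pi ^ 2 : ℝ) : ℂ) / K.nu) * (1 / 2) * ((σ * 32768 * K.f0 : ℝ) : ℂ) * K.pairc) *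
        ((Real.exp (-perp2 x) * (K.Wp (pr x) / r3 x) : ℝ) : ℂ) := by
    intro x
    have h1 := hG (pr x)
    unfold Gp at h1
    rw [fin_inner_xi, ← K.fin_phb_pr x]
    have h2 : (Real.exp (-perp2 x) : ℂ) * (-((Real.pi ^ 2 : ℝ) : ℂ) / K.nu) *
        (K.phb 2 (pr x) / (r3 x : ℂ)) * ((1 / 2 : ℂ) *
          inner ℂ (K.flip.dpb 0 (K.flip.dpb 1 (K.flip.aT (pr x)))) (K.aT (pr x))) =
        (Real.exp (-perp2 x) : ℂ) * (-((Real.pi ^ 2 : ℝ) : ℂ) / K.nu) * (1 / 2) * (1 / (r3 x : ℂ)) *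
        (K.phb 2 (pr x) *
          inner ℂ (K.flip.dpb 0 (K.flip.dpb 1 (K.flip.aT (pr x)))) (K.aT (pr x))) := by
      ring
    rw [h2, h1]
    push_cast
    ring
  simp_rw [e]
  rw [integral_const_mul, integral_complex_ofReal]
  refine mul_ne_zero (mul_ne_zero (mul_ne_zero (mul_ne_zero (div_ne_zero (neg_ne_zero.mpr hpi)
    K.fin_nu_ne) (by norm_num)) (Complex.ofReal_ne_zero.mpr ?_)) hpc)
    (Complex.ofReal_ne_zero.mpr hJ.ne')
  exact mul_ne_zero (mul_ne_zero hσ0 (by norm_num)) K.fin_f0_ne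

end Fk

namespace Fk

variable (K : Fk F) [FiniteDimensional ℂ F]

omit [FiniteDimensional ℂ F] in
theorem flip_flip : K.flip.flip = K := by
  cases K
  simp [flip]

theorem exists_pair_ne (hp : K.PairNe) : ∃ t t' : ℝ, 0 < t ∧ 0 < t' ∧
    ∫ x, inner ℂ (K.Av (K.flip.Ps t) x) (K.Av (K.Ps t') x) ≠ 0 := by
  have h2 := K.lim2
  have h2' := (h2.eventually_ne (K.fin_lim2_ne hp)).and (eventually_gt_atTop (0 : ℝ))
  obtain ⟨t', ht', ht'0⟩ := h2'.exists
  have h1 := K.flip.lim1 (Φ := K.Av (K.Ps t')) (K.Av_continuous (K.Ps_adm ht'0))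
    (K.Av_bound (K.Ps_adm ht'0))
  have h1' := (h1.eventually_ne ht').and (eventually_gt_atTop (0 : ℝ))
  obtain ⟨t, ht, ht0⟩ := h1'.exists
  refine ⟨t, t', ht0, ht'0, ?_⟩
  rw [K.Av_Av (K.flip.Ps_adm ht0) (K.Ps_adm ht'0)]
  exact mul_ne_zero (Complex.ofReal_ne_zero.mpr c0_pos.ne') ht

omit [FiniteDimensional ℂ F] in
theorem fin_flip_gauss (hG : K.Gauss) : K.flip.Gauss := by
  intro u hu A x
  rw [K.flip_LL]
  exact hG u hu A x

theorem fin_Av_orth (hG : K.Gauss) {t : ℝ} (ht : 0 < t) (χ : X3 → F) (hχ : K.Core χ) :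
    ∫ x, inner ℂ (K.Av (K.Ps t) x) (K.flip.DD χ x) = 0 := by
  have hχ' : K.flip.Core χ := hχ
  have h1 : K.flip.Core (K.flip.DD χ) := K.flip.core_DD hχ'
  rw [K.Av_pair (K.Ps_adm ht) h1.1.continuous h1.2.1 h1.2.2, K.Ps_weak hG t hχ, mul_zero]

theorem exists_weak (hG : K.Gauss) (hp : K.PairNe) :
    ∃ Ψ : Lp F 2 (volume : Measure X3), K.WeakZM Ψ ∧ Ψ ≠ 0 := by
  obtain ⟨t, t', ht, ht', h⟩ := K.exists_pair_ne hp
  refine K.exists_weakZM hG (Ψ₀ := K.Av (K.Ps t')) (Ξ := K.Av (K.flip.Ps t))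
    (K.Av_memLp (K.Ps_adm ht')) (K.Av_memLp (K.flip.Ps_adm ht))
    (K.Av_act (K.Ps_adm ht')) (fun χ hχ => K.fin_Av_orth hG ht' χ hχ) (fun χ hχ => ?_) h
  have h1 := K.flip.fin_Av_orth (K.fin_flip_gauss hG) ht χ hχ
  rw [K.flip_flip] at h1
  exact h1

end Fk

theorem exists_zero_mode (M : Model 2 3 F) :
    ∃ Ψ : Lp F 2 (volume : Measure X3), M.IsZeroEnergyState Ψ ∧ Ψ ≠ 0 := by
  have hfd : FiniteDimensional ℂ F := M.finiteDimensional
  obtain ⟨M', hT, hM'⟩ := exists_pauli M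
  refine hM' ?_
  obtain ⟨s⟩ := exists_spin M'.γ M'.γ_symm M'.γ_anticomm
  obtain ⟨K, L⟩ := exists_link M' hT s
  obtain ⟨Ψ, hΨ, hne⟩ := K.exists_weak L.gauss L.pair
  obtain ⟨u, hu, h1, h2, h3⟩ := K.exists_approx hΨ
  exact ⟨Ψ, L.zes_of_approx hu h1 h2 h3, hne⟩

end Vale.Agent.P353.Ex
end

section

open MeasureTheory Filter Topology
open scoped ContDiff

namespace Vale.Agent.P353.BFSS

variable {F : Type*} [NormedAddCommGroup F] [InnerProductSpace ℂ F]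

/-- existence of a nonzero zero-energy state for `SU(2)` -/
theorem exists_state (M : Model 2 3 F) :
    ∃ Ψ : Conf 3 → F, M.IsZeroEnergyState Ψ ∧ ¬ (∀ᵐ x ∂leb 3, Ψ x = 0) := by
  obtain ⟨Ψ, h1, h2⟩ := Vale.Agent.P353.Ex.exists_zero_mode M.toOld
  refine ⟨Ψ, ?_, ?_⟩
  · refine (M.zes_iff _ (Lp.memLp _)).mpr ?_
    rw [Lp.toLp_coeFn]
    exact h1
  · intro h3
    refine h2 ?_
    rw [Lp.eq_zero_iff_ae_eq_zero]
    exact h3

end Vale.Agent.P353.BFSS
end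

section

/-! # P353, uniqueness for `N = 2`: instantiation of all statements -/

open MeasureTheory Filter Topology
open scoped ContDiff

universe u

namespace Vale.Agent.P353.U.All

variable {F : Type u} [NormedAddCommGroup F] [InnerProductSpace ℂ F]

section A

variable (S : Setup F)

theorem A1 : A1Stmt S := a1 S (S.a1a (f10 S)) (a1b S (fbmn S (f10 S)))
theorem A7 : A7Stmt S := a7 S (A1 S)
theorem A8 : A8Stmt S := a8 S
theorem A6 : A6Stmt S := a6 S (A7 S)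
theorem A2' : A2Stmt S := a2 S
theorem A3' : A3Stmt S := a3 S
theorem A4 : A4Stmt S := a4 S (A1 S) (A2' S) (A3' S) (A7 S)
theorem A5 : A5Stmt S := a5 S
theorem Coer : CoerStmt S := coer S (A6 S) (vBound S)
theorem Ap : APStmt S := ap S (A6 S) (vBound S)

end A

section B

variable [FiniteDimensional ℂ F] (S : Setup F)

theorem thmB_all : ThmBStmt S := by
  have : CompleteSpace F := FiniteDimensional.complete ℂ F
  have h1 : ResStmt S := res S
  have h2 : ESAStmt S := esa' S (A7 S)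
  have h6 : WEStmt S := we S h1 h2
  have h8 : InvLemStmt S := invLem S
  have h3 : RCompStmt S := rComp S (gr lr) (Coer S)
  have h4 : RInvStmt S := rInv (Coer S) h2 (A2' S) (A3' S)
  have h7 : GapStmt S := gap_core S (A1 S) (A2' S) (A3' S) (A4 S) (A5 S) (A7 S) h6
  have h9 : LowDimStmt S := lowDim S h1 h3 h4 eig h6 h7
  exact thmB S h9 (dimLow S (Coer S) h6 h8) (Coer S)

theorem thmC_all : ThmCStmt S := by
  have : CompleteSpace F := FiniteDimensional.complete ℂ F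
  exact thmC S (Ap S) (grp S) (pack S) (lim (A8 S) lr) (crit S) (l0 S (en0 S) (n0 (vac S)))
    (l1 S (en1 S) (n1 S (vac S)))

theorem thmD_all (hi : S.Irr) (hs : SmStmt S) : ThmDStmt S := by
  have h1 : Om1Stmt S := om1 S
  have hu : VUniqStmt S := vUniq S hi (vac S) h1
  have h2 : Om2Stmt S := om2 S hs h1 hu
  have hE : EstStmt S := est (dec S) hs h1 (omNorm hs h1 h2) (v3 S hs h2) (m12 S) (m3 S (f10 S))
  exact thmD (n0 (vac S)) (zmStmt S) (invMom S) (out S hs hE (int S))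

theorem uniq_all (hs : SmStmt S) : UniqStmt S := fun hi =>
  uniq_of (thmB_all S) (thmC_all S) (thmD_all S hi hs) hi

end B

end Vale.Agent.P353.U.All
end

section

/-! # P353, `N = 2`: existence, uniqueness and decay, from `SmStmt` -/

open MeasureTheory Filter Topology

namespace Vale.Agent.P353.BFSS

variable {F : Type*} [NormedAddCommGroup F] [InnerProductSpace ℂ F]

/-- `dim ker H_2 = 1` and the decay of the threshold state -/
theorem threshold_of (M : Model 2 3 F) (hs : U.SmStmt M.toOld.toSetup) :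
    ∃ Φ : Conf 3 → F, M.IsZeroEnergyState Φ ∧ ¬ (∀ᵐ x ∂leb 3, Φ x = 0) ∧
      (∀ Ψ, M.IsZeroEnergyState Ψ → ∃ c : ℂ, ∀ᵐ x ∂leb 3, Ψ x = c • Φ x) ∧
      (∀ s : ℝ, 0 ≤ s → s < 9 → Integrable (fun x => ‖x‖ ^ s * ‖Φ x‖ ^ 2) (leb 3)) := by
  have hF : FiniteDimensional ℂ F := M.toOld.finiteDimensional
  obtain ⟨Φ, h1, h2, h3⟩ := one_state M (U.All.uniq_all M.toOld.toSetup hs) (exists_state M)
  exact ⟨Φ, h1, h2, h3, fun s hs0 hs9 => (main M).2 Φ h1 s hs0 hs9⟩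

end Vale.Agent.P353.BFSS
end

section

/-!
The combined theorem: the exact dimension `n` of the space of zero-energy states of the `SU(N)` BFSS
model is at most `p(N)`, and it is `1` for `N = 2`.
-/

namespace Vale.Agent.P353Main

open MeasureTheory Vale.Agent.P353.BFSS

/-- A finite family spanning, almost everywhere, all functions with property `P` can be thinned out
to a linearly independent one. -/
theorem exists_basis_ae {n : ℕ} {α F : Type*} [MeasurableSpace α] (μ : Measure α) [AddCommGroup F]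
    [Module ℂ F] (P : (α → F) → Prop) (Φ : Fin n → α → F) (hP : ∀ i, P (Φ i))
    (hspan : ∀ Ψ, P Ψ → ∃ c : Fin n → ℂ, ∀ᵐ x ∂μ, Ψ x = ∑ i, c i • Φ i x) :
    ∃ m : ℕ, m ≤ n ∧ ∃ Φ' : Fin m → α → F, (∀ i, P (Φ' i)) ∧
      (∀ c : Fin m → ℂ, (∀ᵐ x ∂μ, ∑ i, c i • Φ' i x = 0) → c = 0) ∧
      (∀ Ψ, P Ψ → ∃ c : Fin m → ℂ, ∀ᵐ x ∂μ, Ψ x = ∑ i, c i • Φ' i x) := by
  classical
  have hex : ∃ m : ℕ, ∃ Φ' : Fin m → α → F, (∀ i, P (Φ' i)) ∧
      ∀ Ψ, P Ψ → ∃ c : Fin m → ℂ, ∀ᵐ x ∂μ, Ψ x = ∑ i, c i • Φ' i x := ⟨n, Φ, hP, hspan⟩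
  obtain ⟨m, hmn, hm, hmin⟩ : ∃ m : ℕ, m ≤ n ∧ (∃ Φ' : Fin m → α → F, (∀ i, P (Φ' i)) ∧
      ∀ Ψ, P Ψ → ∃ c : Fin m → ℂ, ∀ᵐ x ∂μ, Ψ x = ∑ i, c i • Φ' i x) ∧
      ∀ k < m, ¬ ∃ Φ' : Fin k → α → F, (∀ i, P (Φ' i)) ∧
        ∀ Ψ, P Ψ → ∃ c : Fin k → ℂ, ∀ᵐ x ∂μ, Ψ x = ∑ i, c i • Φ' i x :=
    ⟨Nat.find hex, Nat.find_min' hex ⟨Φ, hP, hspan⟩, Nat.find_spec hex,
      fun k hk => Nat.find_min hex hk⟩
  obtain ⟨Φ', hP', hs'⟩ := hm
  refine ⟨m, hmn, Φ', hP', ?_, hs'⟩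
  intro c hc
  by_contra hne
  obtain ⟨i0, hi0⟩ : ∃ i, c i ≠ 0 := by
    by_contra h
    push Not at h
    exact hne (funext h)
  cases m with
  | zero => exact i0.elim0
  | succ m =>
    refine hmin m (Nat.lt_succ_self m) ⟨fun j => Φ' (i0.succAbove j), fun j => hP' _, ?_⟩
    intro Ψ hΨ
    obtain ⟨e, he⟩ := hs' Ψ hΨ
    refine ⟨fun j => e (i0.succAbove j) - e i0 * (c i0)⁻¹ * c (i0.succAbove j), ?_⟩
    filter_upwards [hc, he] with x hx1 hx2
    rw [Fin.sum_univ_succAbove _ i0] at hx1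
    rw [hx2, Fin.sum_univ_succAbove _ i0]
    have h1 : Φ' i0 x = -((c i0)⁻¹ • ∑ j, c (i0.succAbove j) • Φ' (i0.succAbove j) x) := by
      have h2 : c i0 • Φ' i0 x = -∑ j, c (i0.succAbove j) • Φ' (i0.succAbove j) x :=
        eq_neg_of_add_eq_zero_left hx1
      rw [← smul_neg, ← h2, smul_smul, inv_mul_cancel₀ hi0, one_smul]
    rw [h1]
    simp only [sub_smul, Finset.sum_sub_distrib, smul_neg, Finset.smul_sum, smul_smul, mul_assoc]
    abel

/-- The combined theorem. -/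
theorem main {N d : ℕ} {F : Type*} [NormedAddCommGroup F]
    [InnerProductSpace ℂ F] (M : Model N d F) :
    ∃ (n : ℕ) (Φ : Fin n → Conf d → F), n ≤ Fintype.card (Nat.Partition N) ∧
      (N = 2 → n = 1 ∧ ∀ i (s : ℝ), 0 ≤ s → s < 9 →
        Integrable (fun x => ‖x‖ ^ s * ‖Φ i x‖ ^ 2) (leb d)) ∧
      (∀ i, M.IsZeroEnergyState (Φ i)) ∧
      (∀ c : Fin n → ℂ, (∀ᵐ x ∂leb d, ∑ i, c i • Φ i x = 0) → c = 0) ∧
      ∀ Ψ, M.IsZeroEnergyState Ψ →
        ∃ c : Fin n → ℂ, ∀ᵐ x ∂leb d, Ψ x = ∑ i, c i • Φ i x := by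
  by_cases hN : N = 2
  · subst hN
    have hd : d = 3 := by
      have := M.dim_eq
      omega
    subst hd
    have hF : FiniteDimensional ℂ F := M.toOld.finiteDimensional
    obtain ⟨Φ, h1, h2, h3, h4⟩ := threshold_of M (Vale.Agent.P353.U.sm M.toOld.toSetup)
    refine ⟨1, fun _ => Φ, Fintype.card_pos, fun _ => ⟨rfl, fun _ s hs hs9 => h4 s hs hs9⟩,
      fun _ => h1, ?_, ?_⟩
    · intro c hc
      have hc0 : c 0 = 0 := by
        by_contra h
        apply h2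
        filter_upwards [hc] with x hx
        simpa [h] using hx
      funext i
      rw [Subsingleton.elim i 0, hc0]
      rfl
    · intro Ψ hΨ
      obtain ⟨c, hc⟩ := h3 Ψ hΨ
      refine ⟨fun _ => c, ?_⟩
      filter_upwards [hc] with x hx
      simpa using hx
  · obtain ⟨n, Φ, hn, hΦ, hs⟩ := Vale.Agent.P353.Z.U.All.bound_model M
    obtain ⟨m, hm, Φ', h1, h2, h3⟩ := exists_basis_ae (leb d) M.IsZeroEnergyState Φ hΦ hs
    exact ⟨m, Φ', hm.trans hn, fun h => absurd h hN, h1, h2, h3⟩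

end Vale.Agent.P353Main
end
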